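import Vale.Agent.P239.Sphere

/-! Local homology at convex sets in charts. -/

namespace Vale.Agent.P239

open Filter Topology Set

section aux

variable {R : Type} [Ring R] {X Y : Type} [TopologicalSpace X] [TopologicalSpace Y] {k : ℕ}

theorem chart_push_sphZ {f : C(X, Y)} (hf : Function.Injective f) {z : Sch R X k}
    (h : push R f k z ∈ sphZ R Y k) : z ∈ sphZ R X k := by
  cases k with
  | zero => exact (aug_push f z).symm.trans h
  | succ k =>
    have h' : bd0 R Y k (push R f (k + 1) z) = 0 := h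
    rw [bd0_push, ← map_zero (push R f k)] at h'
    exact push_injective hf h'

theorem chart_prism {f g : C(Y, X)} (H : f.Homotopy g) {S : Set Y} {V : Set X}
    (hV : ∀ t, ∀ y ∈ S, H (t, y) ∈ V) {c : Sch R Y k} (hc : c ∈ On R S k) (hz : c ∈ sphZ R Y k) :
    push R g k c - push R f k c ∈ sphB R V k := by
  obtain ⟨c, rfl⟩ := mem_On_iff_incl.1 hc
  have hz' := chart_push_sphZ (f := incl S) Subtype.val_injective hz
  let f0 : C(S, V) := ⟨fun x => ⟨H (0, x), hV _ _ x.2⟩, by fun_prop⟩
  let f1 : C(S, V) := ⟨fun x => ⟨H (1, x), hV _ _ x.2⟩, by fun_prop⟩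
  let K : f0.Homotopy f1 :=
    ⟨⟨fun p => ⟨H (p.1, p.2), hV _ _ p.2.2⟩, by fun_prop⟩, fun _ => rfl, fun _ => rfl⟩
  obtain ⟨h, h1, h2⟩ := exists_prism (R := R) K
  have h3 : bd0 R V k (h k c) = push R f1 k c - push R f0 k c := by
    cases k with
    | zero => exact h1 c
    | succ k =>
      have := h2 k c
      rwa [show bd0 R S k c = 0 from hz', map_zero, add_zero] at this
  have e0 : (incl V).comp f0 = f.comp (incl S) := ContinuousMap.ext fun x => H.apply_zero _
  have e1 : (incl V).comp f1 = g.comp (incl S) := ContinuousMap.ext fun x => H.apply_one _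
  refine ⟨_, mem_On_iff_incl.2 ⟨h k c, rfl⟩, ?_⟩
  rw [bd0_push, h3, map_sub, push_push, push_push, push_push, push_push, e0, e1]

theorem chart_push_mem {f : C(X, Y)} {V : Set Y} (h : ∀ x, f x ∈ V) (z : Sch R X k) :
    push R f k z ∈ On R V k :=
  On_mono (range_subset_iff.2 h) (singG_push_range f z)

theorem chart_radial {D : Set E4} (hD : IsCompact D) {x : E4} :
    ∃ (g : C(({x}ᶜ : Set E4), E4)) (H : (incl ({x}ᶜ : Set E4)).Homotopy g), (∀ y, g y ∈ Dᶜ) ∧
      ∀ C : Set E4, Convex ℝ C → x ∈ C → ∀ t y, H (t, y) ∈ C → (y : E4) ∈ C := by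
  obtain ⟨ρ, hρ, hD⟩ := hD.isBounded.subset_ball_lt 0 x
  have hn : ∀ y : ({x}ᶜ : Set E4), 0 < ‖(y : E4) - x‖ := fun y => norm_sub_pos_iff.2 y.2
  let F : C(unitInterval × ({x}ᶜ : Set E4), E4) :=
    ⟨fun p => x + (1 + (p.1 : ℝ) * (ρ / ‖(p.2 : E4) - x‖)) • ((p.2 : E4) - x), by
      refine continuous_const.add (Continuous.smul (continuous_const.add
        (Continuous.mul (by fun_prop) (continuous_const.div (by fun_prop) fun p => (hn _).ne')))
        (by fun_prop))⟩
  refine ⟨⟨fun y => F (1, y), by fun_prop⟩, ⟨F, fun y => ?_, fun _ => rfl⟩, fun y hy => ?_,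
    fun C hC hx t y hy => ?_⟩
  · simp [F, incl]
  · have h1 := hD hy
    have h2 := hn y
    simp only [F, ContinuousMap.coe_mk, Metric.mem_ball, dist_eq_norm, add_sub_cancel_left,
      norm_smul, Icc.coe_one, one_mul] at h1
    rw [Real.norm_of_nonneg (by positivity), add_mul, div_mul_cancel₀ _ h2.ne'] at h1
    linarith
  · have h2 := hn y
    have ht := t.2.1
    have hy' : x + (1 + (t : ℝ) * (ρ / ‖(y : E4) - x‖)) • ((y : E4) - x) ∈ C := hy
    generalize hs : (t : ℝ) * (ρ / ‖(y : E4) - x‖) = s at hy'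
    have hs0 : 0 ≤ s := by rw [← hs]; positivity
    have := hC.add_smul_sub_mem hx hy' (t := (1 + s)⁻¹)
      ⟨by positivity, inv_le_one_of_one_le₀ (by linarith)⟩
    rwa [add_sub_cancel_left, smul_smul, inv_mul_cancel₀ (by positivity), one_smul,
      add_sub_cancel] at this

theorem chart_nul {D : Set E4} (hD : IsCompact D) (hc : Convex ℝ D) {x : E4} (hx : x ∈ D)
    {z : Sch R E4 (k + 1)} (hz : RelG D z) (h : NulG {x} z) : NulG D z := by
  obtain ⟨g, H, h1, h2⟩ := chart_radial hD (x := x)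
  obtain ⟨w, h3, h4⟩ := sph_nul.1 h
  obtain ⟨w, rfl⟩ := mem_On_iff_incl.1 h3
  rw [bd0_push] at h4
  rw [RelG, ← h4, push_mem_On_iff Subtype.val_injective] at hz
  have h5 := chart_prism H (S := incl _ ⁻¹' Dᶜ) (V := Dᶜ)
    (fun t y hy hy' => hy (h2 D hc hx t y hy')) hz (bd0_mem_sphZ w)
  have h6 : push R g k (bd0 R _ k w) ∈ sphB R Dᶜ k := ⟨_, chart_push_mem h1 w, bd0_push _ _⟩
  have h7 := sub_mem h6 h5
  rw [sub_sub_cancel, h4] at h7
  exact sph_nul.2 h7

theorem chart_rel {D : Set E4} (hD : IsCompact D) {x : E4}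
    {z : Sch R E4 (k + 1)} (hz : RelG {x} z) : ∃ c ∈ On R {x}ᶜ (k + 1), RelG D (z + c) := by
  obtain ⟨g, H, h1, h2⟩ := chart_radial hD (x := x)
  obtain ⟨w, h3⟩ := mem_On_iff_incl.1 hz
  obtain ⟨c, h4, h5⟩ := chart_prism H (S := univ) (V := {x}ᶜ) (c := w)
    (fun t y _ hy' => y.2 (h2 {x} (convex_singleton x) rfl t y hy')) (by rw [On_univ]; trivial)
    (chart_push_sphZ (f := incl _) Subtype.val_injective (h3 ▸ bd0_mem_sphZ z))
  refine ⟨c, h4, ?_⟩
  rw [RelG, map_add, h5, h3, add_sub_cancel]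
  exact chart_push_mem h1 w

theorem locG_point (x : E4) : LocG ({x} : Set E4) := by
  simpa using locG_zero.homeo (Homeomorph.addRight x)

theorem chart_two {U V : Set X} (hU : IsOpen U) (hV : IsOpen V) {a b : Sch R X k}
    (ha : a ∈ On R U k) (hb : b ∈ On R V k) (h : a + b ∈ sphB R (U ∪ V) k) :
    ∃ y ∈ On R U (k + 1), a - bd0 R X k y ∈ On R (U ∩ V) k := by
  obtain ⟨y, h1, h2⟩ := h
  obtain ⟨y1, h3, y2, h4, h5⟩ := sph_small hU hV h1 (h2 ▸ Submodule.add_mem_sup ha hb)
  have h6 := sph_bd_sub h5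
  refine ⟨y1, h3, sph_inter (sub_mem ha (bd0_mem_On h3)) (sub_mem hb (bd0_mem_On h4)) ?_⟩
  rw [← add_sub_add_comm, ← map_add, ← h6, h2, sub_self]

theorem relG_push_iff {f : C(X, Y)} (hf : Function.Injective f) {B : Set X}
    {z : Sch R X (k + 1)} : RelG (f '' B) (push R f (k + 1) z) ↔ RelG B z := by
  rw [RelG, RelG, bd0_push, push_mem_On_iff hf, preimage_compl, hf.preimage_image]

theorem nulG_push_iff [T2Space Y] {f : C(X, Y)} (hf : IsOpenEmbedding f) {B : Set X}
    (hB : IsCompact B) {z : Sch R X k} : NulG (f '' B) (push R f k z) ↔ NulG B z := by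
  have e : f ⁻¹' (f '' B)ᶜ = Bᶜ := by rw [preimage_compl, hf.injective.preimage_image]
  constructor
  · rintro ⟨y, hy⟩
    obtain ⟨y', h1, h2⟩ := chart_two hf.isOpen_range
      (hB.image f.continuous).isClosed.isOpen_compl (singG_push_range f z) (neg_mem hy)
      ⟨y, by
        rw [eq_univ_of_subset (union_subset_union_left _ (image_subset_range f B))
          (union_compl_self _), On_univ]
        trivial, by abel⟩
    obtain ⟨y', rfl⟩ := exists_push hf.isEmbedding h1
    refine ⟨y', ?_⟩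
    rw [← e, ← push_mem_On_iff hf.injective, map_sub, ← bd0_push]
    exact On_mono inter_subset_right h2
  · rintro ⟨y, hy⟩
    refine ⟨push R f (k + 1) y, ?_⟩
    rwa [bd0_push, ← map_sub, push_mem_On_iff hf.injective, e]

theorem exists_push_nulG [T2Space Y] {f : C(X, Y)} (hf : IsOpenEmbedding f) {B : Set X}
    (hB : IsCompact B) {z : Sch R Y (k + 1)} (hz : RelG (f '' B) z) :
    ∃ z', RelG B z' ∧ NulG (f '' B) (z - push R f (k + 1) z') := by
  obtain ⟨a, ha, b, hb, y, -, hy⟩ := sph_small hf.isOpen_range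
    (hB.image f.continuous).isClosed.isOpen_compl (z := z) (by
      rw [eq_univ_of_subset (union_subset_union_left _ (image_subset_range f B))
        (union_compl_self _), On_univ]
      trivial) (Submodule.mem_sup_right hz)
  obtain ⟨z', rfl⟩ := exists_push hf.isEmbedding ha
  have h : NulG (f '' B) (z - push R f (k + 1) z') := ⟨y, by
    rw [hy, ← sub_sub, sub_sub_cancel]
    exact hb⟩
  refine ⟨z', (relG_push_iff hf.injective).1 ?_, h⟩
  have := hz.sub h.rel
  rwa [sub_sub_cancel] at this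

end aux

theorem locG_convex {D : Set E4} (hD : IsCompact D) (hc : Convex ℝ D) (hne : D.Nonempty) :
    LocG D := by
  obtain ⟨x, hx⟩ := hne
  have hs := singleton_subset_iff.2 hx
  refine ⟨fun R _ q hq z hz => chart_nul hD hc hx hz ((locG_point x).van R q hq z (hz.mono hs)), ?_⟩
  obtain ⟨μ, hμ⟩ := (locG_point x).top
  obtain ⟨c, h1, h2⟩ := chart_rel hD hμ.rel
  refine ⟨μ + c, h2, fun R _ z hz => ?_, fun R _ y hy a ha => ?_⟩
  · obtain ⟨a, ha⟩ := hμ.ex R z (hz.mono hs)
    refine ⟨a, chart_nul hD hc hx (hz.sub (h2.tens a)) ?_⟩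
    rw [map_add, ← sub_sub]
    exact ha.sub (nulG_of_On (tens_mem_On a h1))
  · have h3 := ((chart_nul hD hc hy (h2.tens a) ha).mono hs).sub (nulG_of_On (tens_mem_On a h1))
    rw [map_add, add_sub_cancel_right] at h3
    exact hμ.inj R x rfl a h3

/-- Excision. -/
theorem locG_image_iff {X Y : Type} [TopologicalSpace X] [TopologicalSpace Y] [T2Space Y]
    {f : C(X, Y)} (hf : IsOpenEmbedding f) {A : Set X} (hA : IsCompact A) :
    LocG (f '' A) ↔ LocG A := by
  constructor
  · intro h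
    refine ⟨fun R _ q hq z hz => (nulG_push_iff hf hA).1
      (h.van R q hq _ ((relG_push_iff hf.injective).2 hz)), ?_⟩
    obtain ⟨μ, hμ⟩ := h.top
    obtain ⟨μ', h1, h2⟩ := exists_push_nulG hf hA hμ.rel
    refine ⟨μ', h1, fun R _ z hz => ?_, fun R _ x hx a ha => ?_⟩
    · obtain ⟨a, ha⟩ := hμ.ex R _ ((relG_push_iff hf.injective).2 hz)
      have := ha.add (h2.tens a)
      rw [map_sub, sub_add_sub_cancel, ← push_tens, ← map_sub, nulG_push_iff hf hA] at this
      exact ⟨a, this⟩
    · rw [← nulG_push_iff hf isCompact_singleton, image_singleton, push_tens] at ha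
      have := ((h2.tens a).mono (singleton_subset_iff.2 (mem_image_of_mem f hx))).add ha
      rw [map_sub, sub_add_cancel] at this
      exact hμ.inj R _ (mem_image_of_mem f hx) a this
  · intro h
    refine ⟨fun R _ q hq z hz => ?_, ?_⟩
    · obtain ⟨z', h1, h2⟩ := exists_push_nulG hf hA hz
      have := h2.add ((nulG_push_iff hf hA).2 (h.van R q hq z' h1))
      rwa [sub_add_cancel] at this
    · obtain ⟨μ, hμ⟩ := h.top
      refine ⟨push ℤ f 4 μ, (relG_push_iff hf.injective).2 hμ.rel, fun R _ z hz => ?_, ?_⟩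
      · obtain ⟨z', h1, h2⟩ := exists_push_nulG hf hA hz
        obtain ⟨a, ha⟩ := hμ.ex R z' h1
        have := h2.add ((nulG_push_iff hf hA).2 ha)
        rw [map_sub, sub_add_sub_cancel, push_tens] at this
        exact ⟨a, this⟩
      · rintro R _ _ ⟨x, hx, rfl⟩ a ha
        rw [← push_tens, ← image_singleton, nulG_push_iff hf isCompact_singleton] at ha
        exact hμ.inj R x hx a ha

theorem locG_chart {X : Type} [TopologicalSpace X] [T2Space X] (e : OpenPartialHomeomorph X E4)
    {D : Set E4} (hD : IsCompact D) (hc : Convex ℝ D) (hne : D.Nonempty) (ht : D ⊆ e.target) :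
    LocG (e.symm '' D) := by
  have hA : IsCompact ((↑) ⁻¹' D : Set e.target) :=
    IsInducing.subtypeVal.isCompact_preimage' hD (by rwa [Subtype.range_coe])
  have h1 : incl e.target '' ((↑) ⁻¹' D : Set e.target) = D := by
    exact image_preimage_eq_of_subset (ht.trans Subtype.range_coe.ge)
  have h2 := (locG_image_iff (f := incl e.target) e.open_target.isOpenEmbedding_subtypeVal hA).1
    (h1.symm ▸ locG_convex hD hc hne)
  have h3 := (locG_image_iff (f := ⟨_, e.symm.isOpenEmbedding_restrict.continuous⟩)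
    e.symm.isOpenEmbedding_restrict hA).2 h2
  have h4 : e.symm '' D = e.symm '' (incl e.target '' ((↑) ⁻¹' D : Set e.target)) := by rw [h1]
  rw [h4, image_image]
  exact h3

theorem loc_chart {X : Type} [TopologicalSpace X] [T2Space X] (e : OpenPartialHomeomorph X E4)
    {D : Set E4} (hD : IsCompact D) (hc : Convex ℝ D) (hne : D.Nonempty) (ht : D ⊆ e.target) :
    Loc (e.symm '' D) := (locG_chart e hD hc hne ht).loc

end Vale.Agent.P239
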