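import Vale.Agent.P239.Chart

/-! Top local homology of compact subsets of a four-manifold (Hatcher 3.27). -/

namespace Vale.Agent.P239

open Filter Topology Set

variable {X : Type} [TopologicalSpace X] [T2Space X]

section aux

variable {R : Type} [Ring R]

omit [T2Space X] in
theorem fund_core {A B : Set X} (hA : IsClosed A) (hB : IsClosed B) {k : ℕ} {y : Sch R X (k + 1)}
    (h : NulG (A ∩ B) y) (hb : bd0 R X k y ∈ On R Aᶜ k ⊔ On R Bᶜ k) :
    ∃ v1 ∈ On R Aᶜ (k + 1), ∃ v2 ∈ On R Bᶜ (k + 1), ∃ u, y = v1 + v2 + bd0 R X (k + 1) u := by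
  obtain ⟨u, hu⟩ := h
  rw [compl_inter] at hu
  obtain ⟨v1, h1, v2, h2, u', -, h3⟩ := sph_small hA.isOpen_compl hB.isOpen_compl hu
    (by rwa [map_sub, bd0_bd0, sub_zero])
  refine ⟨v1, h1, v2, h2, u + u', ?_⟩
  rw [map_add, h3]
  abel

omit [T2Space X] in
theorem fund_loc {D : Set X} (h : LocG D) {q : ℕ} {z : Sch R X (q + 1)} (hz : RelG D z) {x : X}
    (hx : x ∈ D) (h0 : NulG {x} z) : NulG D z := by
  by_cases hq : q = 3
  · subst hq
    exact (h.nul_iff hz hx).1 h0
  · exact h.van R q hq z hz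

omit [T2Space X] in
theorem fund_ball (e : OpenPartialHomeomorph X E4) {x : X} (hx : x ∈ e.source) {W : Set X}
    (hW : W ∈ 𝓝 x) : ∃ D : Set E4, IsCompact D ∧ Convex ℝ D ∧ D.Nonempty ∧ D ⊆ e.target ∧
      e.symm '' D ⊆ W ∧ e.symm '' D ∈ 𝓝 x := by
  have h1 : e.symm ⁻¹' W ∈ 𝓝 (e x) :=
    e.continuousAt_symm (e.map_source hx) (by rwa [e.left_inv hx])
  obtain ⟨r, hr, h2⟩ := Metric.nhds_basis_closedBall.mem_iff.1
    (inter_mem h1 (e.open_target.mem_nhds (e.map_source hx)))
  refine ⟨_, isCompact_closedBall _ _, convex_closedBall _ _,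
    Metric.nonempty_closedBall.2 hr.le, h2.trans inter_subset_right,
    image_subset_iff.2 (h2.trans inter_subset_left), ?_⟩
  have := e.symm.image_mem_nhds (e.map_source hx) (Metric.closedBall_mem_nhds (e x) hr)
  rwa [e.left_inv hx] at this

theorem fund_point (hX : ∀ x : X, ∃ e : OpenPartialHomeomorph X E4, x ∈ e.source) (x : X) :
    LocG ({x} : Set X) := by
  obtain ⟨e, hx⟩ := hX x
  have := locG_chart e isCompact_singleton (convex_singleton (e x)) (singleton_nonempty _)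
    (singleton_subset_iff.2 (e.map_source hx))
  rwa [image_singleton, e.left_inv hx] at this

/-- Classes that vanish at all points of `A` vanish. -/
def FundGood (R : Type) [Ring R] (A : Set X) : Prop :=
  ∀ q, 3 ≤ q → ∀ z : Sch R X (q + 1), RelG A z → (∀ x ∈ A, NulG {x} z) → NulG A z

theorem fundGood_union (hX : ∀ x : X, ∃ e : OpenPartialHomeomorph X E4, x ∈ e.source)
    {A B : Set X} (hA : IsClosed A) (hB : IsClosed B) (h1 : FundGood R A) (h2 : FundGood R B)
    (h3 : FundGood R (A ∩ B)) : FundGood R (A ∪ B) := by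
  intro q hq z hz h0
  obtain ⟨y1, k1⟩ := h1 q hq z (hz.mono subset_union_left) fun x hx => h0 x (Or.inl hx)
  obtain ⟨y2, k2⟩ := h2 q hq z (hz.mono subset_union_right) fun x hx => h0 x (Or.inr hx)
  have e : bd0 R X (q + 1) (y1 - y2) = -(z - bd0 R X (q + 1) y1) + (z - bd0 R X (q + 1) y2) := by
    rw [map_sub]
    abel
  have k3 : RelG (A ∩ B) (y1 - y2) := by
    rw [RelG, e]
    exact add_mem (neg_mem (On_mono (compl_subset_compl.2 inter_subset_left) k1))
      (On_mono (compl_subset_compl.2 inter_subset_right) k2)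
  obtain ⟨v1, k4, v2, k5, u, k6⟩ := fund_core hA hB (h3 (q + 1) (by omega) _ k3 fun x hx =>
    (fund_point hX x).van R (q + 1) (by omega) _ (k3.mono (singleton_subset_iff.2 hx)))
    (e ▸ Submodule.add_mem_sup (neg_mem k1) k2)
  refine ⟨y1 - v1, ?_⟩
  rw [compl_union, On_inter]
  constructor
  · rw [map_sub, ← sub_add]
    exact add_mem k1 (bd0_mem_On k4)
  · have : y1 - v1 = y2 + v2 + bd0 R X (q + 2) u := by
      rw [eq_add_of_sub_eq k6]
      abel
    rw [this, map_add, bd0_bd0, add_zero, map_add, ← sub_sub]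
    exact sub_mem k2 (bd0_mem_On k5)

omit [T2Space X] in
theorem fund_finite {G C : Set X → Prop} (h0 : G ∅)
    (hu : ∀ A B, IsClosed A → IsClosed B → G A → G B → G (A ∩ B) → G (A ∪ B))
    (hc : ∀ A, C A → IsClosed A) (hi : ∀ A B, C A → C B → C (A ∩ B)) (hg : ∀ A, C A → G A)
    {ι : Type} (T : Finset ι) : ∀ K : ι → Set X, (∀ i ∈ T, C (K i)) → G (⋃ i ∈ T, K i) := by
  classical
  induction T using Finset.induction with
  | empty => intro K _; simpa using h0
  | insert a T ha ih =>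
    intro K hK
    have h1 := hK a (Finset.mem_insert_self a T)
    have h2 : ∀ i ∈ T, C (K i) := fun i hi => hK i (Finset.mem_insert_of_mem hi)
    rw [Finset.set_biUnion_insert]
    refine hu _ _ (hc _ h1) (isClosed_biUnion_finset fun i hi => hc _ (h2 i hi)) (hg _ h1)
      (ih K h2) ?_
    rw [inter_iUnion₂]
    exact ih _ fun i hi' => hi _ _ h1 (h2 i hi')

omit [T2Space X] in
theorem fundGood_empty : FundGood R (∅ : Set X) := fun _ _ _ _ _ =>
  nulG_of_On (by rw [compl_empty, On_univ]; trivial)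

theorem fundGood_chart (hX : ∀ x : X, ∃ e : OpenPartialHomeomorph X E4, x ∈ e.source)
    (e : OpenPartialHomeomorph X E4) {A : Set X} (hA : IsCompact A) (he : A ⊆ e.source) :
    FundGood R A := by
  intro q hq z hz h0
  obtain ⟨K, k1, k2, k3⟩ := exists_compact hz
  choose! D d1 d2 d3 d4 d5 d6 using fun x (hx : x ∈ A) => fund_ball e (he hx)
    (k2.isClosed.isOpen_compl.mem_nhds fun h => k1 h hx)
  obtain ⟨T, t1, t2⟩ := hA.elim_nhds_subcover (fun x => e.symm '' D x) d6
  have hG := fund_finite (G := FundGood R)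
    (C := fun B => ∃ D : Set E4, IsCompact D ∧ Convex ℝ D ∧ D ⊆ e.target ∧ B = e.symm '' D)
    fundGood_empty (fun _ _ => fundGood_union hX) ?_ ?_ ?_ T (fun x => e.symm '' D x)
    fun x hx => ⟨D x, d1 x (t1 x hx), d2 x (t1 x hx), d4 x (t1 x hx), rfl⟩
  · have hr : RelG (⋃ x ∈ T, e.symm '' D x) z :=
      On_mono (subset_compl_comm.1 (iUnion₂_subset fun x hx => d5 x (t1 x hx))) k3
    refine (hG q hq z hr fun y hy => ?_).mono t2
    obtain ⟨x, hx, hy⟩ := mem_iUnion₂.1 hy
    have hx' := t1 x hx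
    refine (fund_loc (locG_chart e (d1 x hx') (d2 x hx') (d3 x hx') (d4 x hx')) (hr.mono ?_)
      (mem_of_mem_nhds (d6 x hx')) (h0 x hx')).mono (singleton_subset_iff.2 hy)
    exact subset_iUnion₂ (s := fun x (_ : x ∈ T) => e.symm '' D x) x hx
  · rintro _ ⟨D, h1, -, h3, rfl⟩
    exact (h1.image_of_continuousOn (e.continuousOn_symm.mono h3)).isClosed
  · rintro _ _ ⟨D, h1, h2, h3, rfl⟩ ⟨D', h1', h2', h3', rfl⟩
    exact ⟨D ∩ D', h1.inter h1', h2.inter h2', inter_subset_left.trans h3,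
      (e.symm.injOn.image_inter h3 h3').symm⟩
  · rintro _ ⟨D, h1, h2, h3, rfl⟩
    rcases D.eq_empty_or_nonempty with rfl | hne
    · rw [image_empty]
      exact fundGood_empty
    · intro q _ z hz h0
      obtain ⟨x, hx⟩ := hne.image e.symm
      exact fund_loc (locG_chart e h1 h2 hne h3) hz hx (h0 x hx)

theorem fundGood (hX : ∀ x : X, ∃ e : OpenPartialHomeomorph X E4, x ∈ e.source)
    {A : Set X} (hA : IsCompact A) : FundGood R A := by
  choose e he using hX
  obtain ⟨T, -, t2⟩ := hA.elim_nhds_subcover (fun x => (e x).source)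
    fun x _ => (e x).open_source.mem_nhds (he x)
  obtain ⟨K, k1, k2, rfl⟩ := hA.finite_compact_cover T _ (fun x _ => (e x).open_source) t2
  refine fund_finite (G := FundGood R)
    (C := fun B => IsCompact B ∧ ∃ e : OpenPartialHomeomorph X E4, B ⊆ e.source)
    fundGood_empty (fun _ _ => fundGood_union fun x => ⟨e x, he x⟩) (fun _ h => h.1.isClosed) ?_
    ?_ T K fun x _ => ⟨k1 x, e x, k2 x⟩
  · rintro A B ⟨h1, e, h2⟩ ⟨h3, -⟩
    exact ⟨h1.inter h3, e, inter_subset_left.trans h2⟩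
  · rintro A ⟨h1, e', h2⟩
    exact fundGood_chart (fun x => ⟨e x, he x⟩) e' h1 h2

end aux

theorem good_hi {R : Type} [Ring R]
    (hX : ∀ x : X, ∃ e : OpenPartialHomeomorph X E4, x ∈ e.source) {A : Set X}
    (hA : IsCompact A) {q : ℕ} (hq : 4 ≤ q) {z : Sch R X (q + 1)} (hz : RelG A z) :
    NulG A z := by
  exact fundGood hX hA q (by omega) z hz fun x hx =>
    (fund_point hX x).van R q (by omega) z (hz.mono (singleton_subset_iff.2 hx))

theorem good_inj {R : Type} [Ring R]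
    (hX : ∀ x : X, ∃ e : OpenPartialHomeomorph X E4, x ∈ e.source) {A : Set X}
    (hA : IsCompact A) {z : Sch R X 4} (hz : RelG A z) (h : ∀ x ∈ A, NulG {x} z) :
    NulG A z := by
  exact fundGood hX hA 3 le_rfl z hz h

theorem exists_fund
    (hX : ∀ x : X, ∃ e : OpenPartialHomeomorph X E4, x ∈ e.source) {A : Set X}
    (hA : IsCompact A) : ∃ μ : Sch F2 X 4, Rel A μ ∧ ∀ x ∈ A, ¬ Nul {x} μ := by
  suffices h : ∃ A', A ⊆ A' ∧ IsCompact A' ∧
      ∃ μ : Sch F2 X 4, RelG A' μ ∧ ∀ x ∈ A', ¬ NulG {x} μ by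
    obtain ⟨A', h1, -, μ, h2, h3⟩ := h
    exact ⟨μ, h2.mono h1, fun x hx => h3 x (h1 hx)⟩
  refine hA.induction_on (p := fun A => ∃ A', A ⊆ A' ∧ IsCompact A' ∧
    ∃ μ : Sch F2 X 4, RelG A' μ ∧ ∀ x ∈ A', ¬ NulG {x} μ) ?_ ?_ ?_ ?_
  · exact ⟨∅, Subset.rfl, isCompact_empty, 0, by rw [RelG, map_zero]; exact zero_mem _,
      fun _ h => h.elim⟩
  · rintro s t h ⟨A', h1, h2⟩
    exact ⟨A', h.trans h1, h2⟩
  · rintro s t ⟨A, h1, h2, μ, h3, h4⟩ ⟨B, k1, k2, ν, k3, k4⟩
    have r1 := h3.mono (inter_subset_left (t := B))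
    have r2 := k3.mono (inter_subset_right (s := A))
    obtain ⟨v1, l1, v2, l2, u, l3⟩ := fund_core h2.isClosed k2.isClosed
      (good_inj hX (h2.inter k2) (r1.add r2) fun x hx =>
        ((fund_point hX x).loc.nul_add (r1.mono (singleton_subset_iff.2 hx))
          (r2.mono (singleton_subset_iff.2 hx)) rfl).2 (iff_of_false (h4 x hx.1) (k4 x hx.2)))
      (by rw [map_add]; exact Submodule.add_mem_sup h3 k3)
    have e : μ - v1 = v2 + bd0 F2 X 4 u - ν := by
      rw [eq_sub_of_add_eq l3]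
      abel
    refine ⟨A ∪ B, union_subset_union h1 k1, h2.union k2, μ - v1, ?_, ?_⟩
    · rw [RelG, compl_union, On_inter]
      constructor
      · rw [map_sub]
        exact sub_mem h3 (bd0_mem_On l1)
      · rw [e, map_sub, map_add, bd0_bd0, add_zero]
        exact sub_mem (bd0_mem_On l2) k3
    · rintro x (hx | hx) h
      · have := h.add ((nulG_of_On l1).mono (singleton_subset_iff.2 hx))
        rw [sub_add_cancel] at this
        exact h4 x hx this
      · have := (((nulG_of_On l2).mono (singleton_subset_iff.2 hx)).add (nulG_bd0 _ u)).sub h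
        rw [e, sub_sub_cancel] at this
        exact k4 x hx this
  · intro x _
    obtain ⟨e, he⟩ := hX x
    obtain ⟨D, d1, d2, d3, d4, -, d6⟩ := fund_ball e he univ_mem
    obtain ⟨μ, h1, h2, -⟩ := (loc_chart e d1 d2 d3 d4).top
    exact ⟨_, mem_nhdsWithin_of_mem_nhds d6, _, Subset.rfl,
      d1.image_of_continuousOn (e.continuousOn_symm.mono d4), μ, h1, h2⟩

end Vale.Agent.P239
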