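import Vale.Agent.P239.Res
import Vale.Agent.P239.Chart
import Vale.Agent.P239.Fund
import Vale.Agent.P173.Cech

/-! Orientation of the universal cover and local degrees. -/

namespace Vale.Agent.P239

open Filter Topology Set
open scoped Pointwise

variable {Γ N : Type} [Group Γ] [Ring N] {ι : Γ → N} {X : Type} [MetricSpace X]
  [MulAction Γ X] [ContinuousConstSMul Γ X]

/-- Locally constant cocycles on the universal cover are trivial. -/
theorem Geo.coc_trivial (h : Geo Γ X) {H J : Type} [Group H] (K : P173.Coc X H J) :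
    ∃ β : J → X → H, (∀ i, ∀ x ∈ K.U i, ∀ᶠ y in 𝓝 x, β i y = β i x) ∧
      ∀ i j x, x ∈ K.U i → x ∈ K.U j → β j x = β i x * K.c i j x := by
  obtain ⟨T, _, p, κ, hc⟩ := K.exists_cov
  have := h.contr
  choose e he using h.chart
  let _ : ChartedSpace E4 X := ⟨range e, e, he, fun x => mem_range_self x⟩
  have : LocallyPathConnectedSpace X := ChartedSpace.locallyPathConnectedSpace E4 X
  obtain ⟨x⟩ : Nonempty X := inferInstance
  obtain ⟨i, hi⟩ := K.cov x
  obtain ⟨y, hy, -⟩ := hc.ex i x 1 hi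
  obtain ⟨s, ⟨-, hs⟩, -⟩ := hc.cov.existsUnique_continuousMap_lifts (ContinuousMap.id X) x y hy
  have hs' : ∀ x, p (s x) = x := congrFun hs
  refine ⟨fun i x => κ i (s x), fun i x hx => ?_, fun i j x hi hj => ?_⟩
  · exact (s.continuous.tendsto x).eventually (hc.lc i (s x) (by rwa [hs']))
  · have := hc.tr i j (s x) (by rwa [hs']) (by rwa [hs'])
    rwa [hs'] at this

section sign

variable {Y : Type} [TopologicalSpace Y] {x : Y} {μ ν : Sch ℤ Y 4}

theorem orient_sign (hμ : RelG {x} μ)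
    (hi : ∀ (R : Type) [Ring R] (a : R), NulG {x} (tens a μ) → a = 0) (hν : IsGen {x} ν) :
    ∃ c : ℤˣ, NulG {x} (μ - (c : ℤ) • ν) := by
  obtain ⟨k, hk⟩ := hν.ex ℤ μ hμ
  rw [tens_int] at hk
  have h1 := hk.tens (1 : ZMod k.natAbs)
  rw [map_sub, tens_zsmul, zsmul_one, (ZMod.intCast_zmod_eq_zero_iff_dvd k _).2 (by simp),
    tens_zero, sub_zero] at h1
  have h2 : ((1 : ℕ) : ZMod k.natAbs) = 0 := by simpa using hi _ _ h1
  rw [ZMod.natCast_eq_zero_iff, Nat.dvd_one] at h2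
  obtain ⟨c, rfl⟩ := Int.isUnit_iff_natAbs_eq.2 h2
  exact ⟨c, hk⟩

theorem orient_symm {c : ℤˣ} (h : NulG {x} (μ - (c : ℤ) • ν)) : NulG {x} (ν - (c : ℤ) • μ) := by
  have := (h.smul (c : ℤ)).neg
  rwa [smul_sub, smul_smul, ← Units.val_mul, Int.units_mul_self, Units.val_one, one_smul,
    neg_sub] at this

theorem IsGen.of_nul (hν : IsGen {x} ν) {c : ℤˣ} (h : NulG {x} (μ - (c : ℤ) • ν)) :
    IsGen {x} μ := by
  refine ⟨?_, fun R _ z hz => ?_, ?_⟩
  · have := h.rel.add (hν.rel.smul (c : ℤ))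
    rwa [sub_add_cancel] at this
  · obtain ⟨a, ha⟩ := hν.ex R z hz
    have := ha.add ((orient_symm h).tens a)
    rw [map_sub, sub_add_sub_cancel, tens_zsmul] at this
    exact ⟨_, this⟩
  · rintro R _ _ rfl a ha
    have := ha.sub (h.tens a)
    rw [map_sub, sub_sub_cancel, tens_zsmul] at this
    have h2 : (c : ℤ) • (c : ℤ) • a = 0 := by rw [hν.inj R _ rfl _ this, smul_zero]
    rwa [smul_smul, ← Units.val_mul, Int.units_mul_self, Units.val_one, one_smul] at h2

theorem IsGen.point {D : Set Y} (h : IsGen D μ) (hx : x ∈ D) (hl : LocG ({x} : Set Y)) :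
    IsGen {x} μ := by
  obtain ⟨ν, hν⟩ := hl.top
  obtain ⟨c, hc⟩ := orient_sign (h.rel.mono (singleton_subset_iff.2 hx))
    (fun R _ a ha => h.inj R x hx a ha) hν
  exact hν.of_nul hc

/-- The sign comparing two local generators. -/
noncomputable def orSgn (x : Y) (μ ν : Sch ℤ Y 4) : ℤˣ :=
  Classical.epsilon fun c : ℤˣ => NulG {x} (μ - (c : ℤ) • ν)

theorem orSgn_spec (hμ : IsGen {x} μ) (hν : IsGen {x} ν) :
    NulG {x} (μ - (orSgn x μ ν : ℤ) • ν) :=
  Classical.epsilon_spec (orient_sign hμ.rel (fun R _ => hμ.inj R x rfl) hν)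

theorem orSgn_eq (hν : IsGen {x} ν) {c : ℤˣ} (h : NulG {x} (μ - (c : ℤ) • ν)) :
    orSgn x μ ν = c := by
  have := h.sub (orSgn_spec (hν.of_nul h) hν)
  rw [sub_sub_sub_cancel_left, ← sub_smul, ← tens_int] at this
  exact Units.ext (sub_eq_zero.1 (hν.inj ℤ x rfl _ this))

theorem NulG.eventually [T2Space Y] {R : Type} [Ring R] {n : ℕ} {z : Sch R Y n}
    (h : NulG {x} z) : ∀ᶠ y in 𝓝 x, NulG {y} z := by
  obtain ⟨U, hU, h⟩ := h.exists_nhds
  filter_upwards [hU] with y hy using h.mono (singleton_subset_iff.2 hy)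

theorem orient_trans {ρ : Sch ℤ Y 4} {c d : ℤ} (h : NulG {x} (μ - c • ν))
    (h' : NulG {x} (ν - d • ρ)) : NulG {x} (μ - (c * d) • ρ) := by
  have := h.add (h'.smul c)
  rwa [smul_sub, sub_add_sub_cancel, smul_smul] at this

end sign

theorem Geo.exists_orient (h : Geo Γ X) : ∃ μ : X → Sch ℤ X 4, (∀ x, IsGen {x} (μ x)) ∧
    ∀ x, ∀ᶠ y in 𝓝 x, NulG {y} (μ x - μ y) := by
  have h1 : ∀ a : X, ∃ U, IsOpen U ∧ a ∈ U ∧ ∃ ν : Sch ℤ X 4, ∀ x ∈ U, IsGen {x} ν := fun a => by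
    obtain ⟨e, he⟩ := h.chart a
    obtain ⟨D, d1, d2, d3, d4, -, d6⟩ := fund_ball e he univ_mem
    obtain ⟨ν, hν⟩ := (locG_chart e d1 d2 d3 d4).top
    exact ⟨_, isOpen_interior, mem_interior_iff_mem_nhds.2 d6, ν, fun x hx =>
      hν.point (interior_subset hx) (fund_point h.chart x)⟩
  choose U u1 u2 ν u3 using h1
  have c1 : ∀ i j x, x ∈ U i → x ∈ U j →
      ∀ᶠ y in 𝓝 x, orSgn y (ν i) (ν j) = orSgn x (ν i) (ν j) := fun i j x hi hj => by
    filter_upwards [(orSgn_spec (u3 i x hi) (u3 j x hj)).eventually, (u1 j).mem_nhds hj]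
      with y h1 h2 using orSgn_eq (u3 j y h2) h1
  have c2 : ∀ i j k x, x ∈ U i → x ∈ U j → x ∈ U k →
      orSgn x (ν i) (ν j) * orSgn x (ν j) (ν k) = orSgn x (ν i) (ν k) := by
    intro i j k x hi hj hk
    have := orient_trans (orSgn_spec (u3 i x hi) (u3 j x hj)) (orSgn_spec (u3 j x hj) (u3 k x hk))
    rw [← Units.val_mul] at this
    exact (orSgn_eq (u3 k x hk) this).symm
  obtain ⟨β, b1, b2⟩ : ∃ β : X → X → ℤˣ, (∀ i, ∀ x ∈ U i, ∀ᶠ y in 𝓝 x, β i y = β i x) ∧
      ∀ i j x, x ∈ U i → x ∈ U j → β j x = β i x * orSgn x (ν i) (ν j) :=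
    h.coc_trivial ⟨U, u1, fun x => ⟨x, u2 x⟩, fun i j x => orSgn x (ν i) (ν j), c1, c2⟩
  refine ⟨fun x => (β x x : ℤ) • ν x, fun x => (u3 x x (u2 x)).of_nul (c := β x x) ?_,
    fun x => ?_⟩
  · rw [sub_self]
    exact nulG_of_On (zero_mem _)
  · filter_upwards [b1 x x (u2 x), (u1 x).mem_nhds (u2 x)] with y h1 h2
    have := (orSgn_spec (u3 x y h2) (u3 y y (u2 y))).smul (β x y : ℤ)
    rw [smul_sub, smul_smul, ← Units.val_mul, ← b2 x y y h2 (u2 y)] at this
    rwa [← h1]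

theorem act_tens (g : Γ) {n : ℕ} (a : N) (y : Sch ℤ X n) : act ι g n (tens a y) =
    tens (a * ι g⁻¹) (push ℤ ((Homeomorph.smul g : X ≃ₜ X) : C(X, X)) n y) := by
  induction y using Finsupp.induction_linear with
  | zero => simp only [map_zero]
  | add f g hf hg => simp only [map_add, hf, hg]
  | single σ k =>
    rw [tens_single, act_single, push_single, tens_single, smul_mul_assoc]
    rfl

theorem Geo.exists_deg (h : Geo Γ X) (ι : Γ → N) :
    ∃ (deg : X → Sch N X 4 → N) (w : Γ →* ℤˣ), IsDeg ι deg w := by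
  obtain ⟨μ, m1, m2⟩ := h.exists_orient
  have := h.contr
  obtain ⟨x0⟩ : Nonempty X := inferInstance
  have lc : ∀ {x : X} {ν : Sch ℤ X 4} {c : ℤ}, NulG {x} (ν - c • μ x) →
      ∀ᶠ y in 𝓝 x, NulG {y} (ν - c • μ y) := fun {x ν c} h1 => by
    filter_upwards [h1.eventually, m2 x] with y h2 h3
    simpa using orient_trans (d := 1) h2 (by rwa [one_smul])
  let P : Γ → Sch ℤ X 4 →ₗ[ℤ] Sch ℤ X 4 := fun g => push ℤ ((Homeomorph.smul g : X ≃ₜ X) : C(X, X)) 4
  have hP : ∀ (g : Γ) {x : X} {ν : Sch ℤ X 4}, NulG {x} ν → NulG {g • x} (P g ν) :=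
    fun g x ν h1 => by simpa using h1.push (Homeomorph.smul g)
  have hP' : ∀ (g : Γ) (x : X), IsGen {g • x} (P g (μ x)) :=
    fun g x => by simpa using (m1 x).homeo (Homeomorph.smul g)
  let W : Γ → X → ℤˣ := fun g x => orSgn (g • x) (P g (μ x)) (μ (g • x))
  have w1 : ∀ g x, NulG {g • x} (P g (μ x) - (W g x : ℤ) • μ (g • x)) := fun g x =>
    orSgn_spec (hP' g x) (m1 _)
  have w2 : ∀ g x, W g x = W g x0 := fun g x => by
    refine P173.cech_const isPreconnected_univ (fun t _ => ?_) trivial trivial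
    filter_upwards [((continuous_const_smul g).tendsto t).eventually (lc (w1 g t)), m2 t]
      with y h1 h2
    refine orSgn_eq (m1 _) ?_
    have := h1.sub (hP g h2)
    rwa [map_sub, sub_sub_sub_cancel_left] at this
  have w3 : ∀ g k, W (g * k) x0 = W g x0 * W k x0 := fun g k => by
    refine orSgn_eq (m1 _) ?_
    have h1 := hP g (w1 k x0)
    rw [map_sub, map_smul] at h1
    have h2 := orient_trans h1 (w1 g (k • x0))
    have e : P g (P k (μ x0)) = P (g * k) (μ x0) := by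
      rw [push_push]
      congr 2
      exact ContinuousMap.ext fun x => (mul_smul g k x).symm
    rwa [e, w2 g (k • x0), ← mul_smul, mul_comm, ← Units.val_mul] at h2
  let deg : X → Sch N X 4 → N := fun x z =>
    Classical.epsilon fun a : N => NulG {x} (z - tens a (μ x))
  have d1 : ∀ x z, RelG {x} z → NulG {x} (z - tens (deg x z) (μ x)) := fun x z hz =>
    Classical.epsilon_spec ((m1 x).ex N z hz)
  have d2 : ∀ x z a, NulG {x} (z - tens a (μ x)) → deg x z = a := fun x z a h1 => by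
    have h2 : NulG {x} (z - tens (deg x z) (μ x)) :=
      Classical.epsilon_spec (p := fun a : N => NulG {x} (z - tens a (μ x))) ⟨a, h1⟩
    have := h1.sub h2
    rw [sub_sub_sub_cancel_left, ← tens_sub] at this
    exact sub_eq_zero.1 ((m1 x).inj N x rfl _ this)
  refine ⟨deg, MonoidHom.mk' (fun g => W g x0) w3, fun x z z' h1 h2 => d2 _ _ _ ?_,
    fun x c z h1 => d2 _ _ _ ?_, fun x z h1 => ⟨fun h2 => ?_, fun h2 => d2 _ _ _ ?_⟩,
    fun x z h1 => ?_, fun e D k1 k2 k3 k4 => ?_, fun g x z h1 => d2 _ _ _ ?_⟩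
  · rw [tens_add, add_sub_add_comm]
    exact (d1 x z h1).add (d1 x z' h2)
  · rw [← smul_tens, ← smul_sub]
    exact (d1 x z h1).smul c
  · have := d1 x z h1
    rwa [h2, tens_zero, sub_zero] at this
  · rwa [tens_zero, sub_zero]
  · filter_upwards [(d1 x z h1).eventually, m2 x] with y h2 h3
    have := h2.add (h3.tens (deg x z))
    rw [map_sub, sub_add_sub_cancel] at this
    exact d2 _ _ _ this
  · obtain ⟨ν, hν⟩ := (locG_chart e k1 k2 k3 k4).top
    obtain ⟨x1, hx1⟩ := k3.image e.symm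
    have s1 : ∀ x ∈ e.symm '' D, NulG {x} (ν - (orSgn x ν (μ x) : ℤ) • μ x) := fun x hx =>
      orSgn_spec (hν.point hx (fund_point h.chart x)) (m1 x)
    refine ⟨tens 1 ((orSgn x1 ν (μ x1) : ℤ) • ν), (hν.rel.smul _).tens 1,
      fun x hx => d2 _ _ _ ?_⟩
    have s2 : orSgn x1 ν (μ x1) = orSgn x ν (μ x) :=
      P173.cech_const (f := fun x => orSgn x ν (μ x))
        (k2.isPreconnected.image _ (e.continuousOn_symm.mono k4))
        (fun t ht => (lc (s1 t ht)).mono fun y hy => orSgn_eq (m1 y) hy) hx1 hx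
    have := ((orient_symm (s1 x hx)).neg).tens (1 : N)
    rwa [neg_sub, map_sub, ← s2] at this
  · have h2 := (d1 x z h1).act (ι := ι) g
    rw [smul_set_singleton, map_sub, act_tens] at h2
    have h3 := h2.add ((w1 g x).tens (deg x z * ι g⁻¹))
    rw [map_sub, sub_add_sub_cancel, tens_zsmul, w2, ← mul_smul_comm] at h3
    exact h3

end Vale.Agent.P239
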