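import Vale.Agent.P239.MVq
import Vale.Agent.P239.Orient

/-! Poincare duality in degrees at least three. -/

namespace Vale.Agent.P239

open Filter Topology Set
open scoped Pointwise

variable {Γ N : Type} [Group Γ] [Ring N] {ι : Γ → N} {X : Type} [MetricSpace X]
  [MulAction Γ X] [ContinuousConstSMul Γ X]

theorem Geo.infinite (h : Geo Γ X) : Infinite Γ := by
  by_contra hf
  rw [not_infinite_iff_finite] at hf
  obtain ⟨K, hK, hc⟩ := h.coc
  have := h.contr
  have hX : IsCompact (univ : Set X) := by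
    have : (univ : Set X) = ⋃ g : Γ, g • K := (eq_univ_of_forall fun x => by
      obtain ⟨g, hg⟩ := hc x
      exact mem_iUnion.2 ⟨g⁻¹, g • x, hg, inv_smul_smul g x⟩).symm
    rw [this]
    exact isCompact_iUnion fun g => hK.smul g
  obtain ⟨μ, h1, h2⟩ := exists_fund h.chart hX
  rw [Rel, compl_univ, On_empty, Submodule.mem_bot] at h1
  obtain ⟨y, rfl⟩ := acyclic μ h1
  obtain ⟨x⟩ : Nonempty X := inferInstance
  exact h2 x trivial (nul_bd0 _ y)

theorem dual_bd {K A : Set X} (hc : ∀ x : X, ∃ g : Γ, g • x ∈ K) (hA : K ⊆ A) {n : ℕ}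
    {z : Chn ι X n} (h : NulQ ι A z) : ∃ y, bdry ι X n y = z := by
  obtain ⟨y, hy⟩ := h
  have : sat Γ A = univ := eq_univ_of_forall fun x => (hc x).imp fun _ hg => hA hg
  rw [this, compl_univ, OnQ_empty, Submodule.mem_bot, sub_eq_zero] at hy
  exact ⟨y, hy.symm⟩

theorem Geo.dual_hi (h : Geo Γ X) (h1 : ι 1 = 1) (hmul : ∀ g k, ι (g * k) = ι g * ι k) {q : ℕ}
    (hq : 4 ≤ q) (z : Chn ι X (q + 1)) (hz : bdry ι X q z = 0) :
    ∃ y, bdry ι X (q + 1) y = z := by
  obtain ⟨K, hK, hc⟩ := h.coc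
  obtain ⟨res, hr⟩ := h.exists_res h1 hmul
  exact dual_bd hc subset_rfl (h.hiQ hr hK hq (by rw [RelQ, hz]; exact zero_mem _))

variable {res : Set X → ∀ n, Chn ι X n →ₗ[N] Sch N X n} {deg : X → Sch N X 4 → N}
  {w : Γ →* ℤˣ}

theorem IsDeg.sub (hd : IsDeg ι deg w) {x : X} {a b : Sch N X 4} (ha : RelG {x} a)
    (hb : RelG {x} b) : deg x (a - b) = deg x a - deg x b := by
  rw [eq_sub_iff_add_eq, ← hd.add x _ _ (ha.sub hb) hb, sub_add_cancel]

theorem IsDeg.congr (hd : IsDeg ι deg w) {x : X} {a b : Sch N X 4} (ha : RelG {x} a)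
    (h : NulG {x} (a - b)) : deg x a = deg x b := by
  have hb : RelG {x} b := by simpa using ha.sub h.rel
  rw [← sub_eq_zero, ← hd.sub ha hb]
  exact (hd.nul x _ h.rel).2 h

theorem IsRes.rel (hr : IsRes ι res) {K : Set X} (hK : IsCompact K) {n : ℕ}
    {z : Chn ι X (n + 1)} (hz : bdry ι X n z = 0) : RelG K (res K (n + 1) z) := by
  simpa [hz, RelG] using hr.bd K hK n z

theorem IsRes.pt (hr : IsRes ι res) (g : Γ) (x : X) {n : ℕ} (z : Chn ι X n) :
    res {g • x} n z = act ι g n (res {x} n z) := by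
  rw [← smul_set_singleton, hr.eqv _ isCompact_singleton]

theorem Geo.dual4 (h : Geo Γ X) (h1 : ι 1 = 1) (hmul : ∀ g k, ι (g * k) = ι g * ι k)
    (z : Chn ι X 4) (hz : bdry ι X 3 z = 0) : ∃ (w : Γ →* ℤˣ) (b : N),
      (∀ g, b * ((w g : ℤ) • ι g⁻¹) = b) ∧ (b = 0 → ∃ y, bdry ι X 4 y = z) := by
  obtain ⟨K, hK, hc⟩ := h.coc
  obtain ⟨res, hr⟩ := h.exists_res h1 hmul
  obtain ⟨deg, w, hd⟩ := h.exists_deg ι
  have := h.contr
  obtain ⟨x0⟩ : Nonempty X := inferInstance
  have hcon : ∀ x, deg x (res {x} 4 z) = deg x0 (res {x0} 4 z) := fun x =>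
    P173.cech_const (f := fun x => deg x (res {x} 4 z)) isPreconnected_univ (fun x _ => by
      have h2 : ∀ y ∈ Metric.closedBall x 1,
          deg y (res (Metric.closedBall x 1) 4 z) = deg y (res {y} 4 z) := fun y hy =>
        hd.congr ((hr.rel (h.cpt x) hz).mono (singleton_subset_iff.2 hy)) (nulG_of_On
          (hr.mono _ _ (h.cpt x) (singleton_subset_iff.2 hy) isCompact_singleton _ z))
      have hx := Metric.mem_closedBall_self (x := x) zero_le_one
      filter_upwards [hd.lc x _ ((hr.rel (h.cpt x) hz).mono (singleton_subset_iff.2 hx)),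
        Metric.closedBall_mem_nhds x one_pos] with y h3 h4
      rw [← h2 y h4, h3, h2 x hx]) trivial trivial
  refine ⟨w, deg x0 (res {x0} 4 z), fun g => ?_, fun h0 => dual_bd hc subset_rfl
    (h.injQ hr hK (by rw [RelQ, hz]; exact zero_mem _) fun x _ => ?_)⟩
  · rw [← hd.eqv g x0 _ (hr.rel isCompact_singleton hz), ← hr.pt, hcon]
  · exact (hd.nul x _ (hr.rel isCompact_singleton hz)).1 ((hcon x).trans h0)

theorem act_act (hmul : ∀ g k, ι (g * k) = ι g * ι k) (g k : Γ) {n : ℕ} (y : Sch N X n) :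
    act ι g n (act ι k n y) = act ι (g * k) n y := by
  induction y using Finsupp.induction_linear with
  | zero => simp
  | add a b ha hb => simp only [map_add, ha, hb]
  | single σ a => rw [act_single, act_single, act_single, mul_smul, mul_inv_rev, hmul, mul_assoc]

theorem Geo.dual_nhds (h : Geo Γ X) (f : X) : ∃ (e : OpenPartialHomeomorph X E4) (D : Set E4)
    (V A : Set X), (∀ g : Γ, g ≠ 1 → ∀ y ∈ e.source, g • y ∉ e.source) ∧ IsCompact D ∧
      Convex ℝ D ∧ D.Nonempty ∧ D ⊆ e.target ∧ e.symm '' D ⊆ e.source ∧ IsOpen V ∧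
      IsPreconnected V ∧ V ⊆ e.symm '' D ∧ IsCompact A ∧ A ⊆ V ∧ A ∈ 𝓝 f := by
  choose ch hch using h.chart
  letI : ChartedSpace E4 X := ⟨univ, ch, hch, fun _ => trivial⟩
  have := ChartedSpace.locallyConnectedSpace E4 X
  obtain ⟨e, he, hg⟩ := h.exists_chart f
  obtain ⟨D, d1, d2, d3, d4, d5, d6⟩ := fund_ball e he (e.open_source.mem_nhds he)
  obtain ⟨V, v1, v2, v3, v4⟩ := locallyConnectedSpace_iff_subsets_isOpen_isConnected.1 this f _ d6
  obtain ⟨D', a1, -, -, a4, a5, a6⟩ := fund_ball e he (v2.mem_nhds v3)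
  exact ⟨e, D, V, _, hg, d1, d2, d3, d4, d5, v2, v4.isPreconnected, v1,
    a1.image_of_continuousOn (e.continuousOn_symm.mono a4), a5, a6⟩

theorem Geo.dual3 (h : Geo Γ X) (h1 : ι 1 = 1) (hmul : ∀ g k, ι (g * k) = ι g * ι k)
    (z : Chn ι X 3) (hz : bdry ι X 2 z = 0) : ∃ (w : Γ →* ℤˣ) (κ : Γ → N),
      (∀ g k, κ (g * k) = κ g + κ k * ((w g : ℤ) • ι g⁻¹)) ∧
      ∀ x b : N, (∀ g, x * κ g = b * ((w g : ℤ) • ι g⁻¹ - 1)) →
        ∃ y, bdry ι X 3 y = x • z := by
  obtain ⟨K, hK, hc⟩ := h.coc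
  obtain ⟨res, hr⟩ := h.exists_res h1 hmul
  obtain ⟨deg, w, hd⟩ := h.exists_deg ι
  have := h.contr
  obtain ⟨x0⟩ : Nonempty X := inferInstance
  choose e D V A he d1 d2 d3 d4 d5 v1 v2 v3 a1 a2 a3 using h.dual_nhds
  have d6 : ∀ f, IsCompact ((e f).symm '' D f) := fun f =>
    (d1 f).image_of_continuousOn ((e f).continuousOn_symm.mono (d4 f))
  have v4 : ∀ f, f ∈ V f := fun f => a2 f (mem_of_mem_nhds (a3 f))
  choose y hy using fun f => (locG_chart (e f) (d1 f) (d2 f) (d3 f) (d4 f)).van N 2 (by omega) _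
    (hr.rel (d6 f) hz)
  choose μ m1 m2 using fun f => hd.gen (e f) (D f) (d1 f) (d2 f) (d3 f) (d4 f)
  have hy' : ∀ f, ∀ C ⊆ (e f).symm '' D f, IsCompact C →
      res C 3 z - bd0 N X 3 (y f) ∈ On N Cᶜ 3 := fun f C hC hC' => by
    have := sub_mem (On_mono (compl_subset_compl.2 hC) (hy f)) (hr.mono _ _ (d6 f) hC hC' 3 z)
    rwa [sub_sub_sub_cancel_left] at this
  have hya : ∀ (a : Γ × X), ∀ x ∈ a.1 • V a.2,
      res {x} 3 z - bd0 N X 3 (act ι a.1 4 (y a.2)) ∈ On N {x}ᶜ 3 := by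
    rintro ⟨g, f⟩ _ ⟨v, hv, rfl⟩
    have := act_mem_On (ι := ι) g (hy' f {v} (singleton_subset_iff.2 (v3 f hv)) isCompact_singleton)
    rwa [map_sub, ← hr.pt, ← bd0_act, smul_set_compl, smul_set_singleton] at this
  have hrel : ∀ (a a' : Γ × X) x, x ∈ a.1 • V a.2 → x ∈ a'.1 • V a'.2 →
      RelG {x} (act ι a.1 4 (y a.2) - act ι a'.1 4 (y a'.2)) := fun a a' x hx hx' => by
    have := sub_mem (hya a' x hx') (hya a x hx)
    rwa [sub_sub_sub_cancel_left, ← map_sub] at this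
  obtain ⟨β, b1, b2⟩ := h.coc_trivial (H := Multiplicative N) (J := Γ × X)
    { U := fun a => a.1 • V a.2
      op := fun a => (v1 a.2).smul a.1
      cov := fun x => ⟨(1, x), by simpa using v4 x⟩
      c := fun a a' x => Multiplicative.ofAdd
        (deg x (act ι a.1 4 (y a.2) - act ι a'.1 4 (y a'.2)))
      lc := fun a a' x hx hx' => (hd.lc x _ (hrel a a' x hx hx')).mono fun _ h => congrArg _ h
      co := fun a a' a'' x hx hx' hx'' => by
        rw [← ofAdd_add, ← hd.add x _ _ (hrel a a' x hx hx') (hrel a' a'' x hx' hx''),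
          sub_add_sub_cancel] }
  let B : Γ × X → N := fun a => (β a (a.1 • a.2)).toAdd
  have hB : ∀ (a a' : Γ × X) x, x ∈ a.1 • V a.2 → x ∈ a'.1 • V a'.2 →
      deg x (act ι a.1 4 (y a.2) - act ι a'.1 4 (y a'.2)) = B a' - B a := fun a a' x hx hx' => by
    have hcst : ∀ (a : Γ × X), ∀ x ∈ a.1 • V a.2, β a x = β a (a.1 • a.2) := fun a x hx =>
      P173.cech_const ((v2 a.2).image _ (continuous_const_smul a.1).continuousOn) (b1 a) hx
        (smul_mem_smul_set (v4 a.2))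
    have := congrArg Multiplicative.toAdd (b2 a a' x hx hx')
    rw [hcst a x hx, hcst a' x hx', toAdd_mul, toAdd_ofAdd] at this
    exact eq_sub_of_add_eq' this.symm
  set i : Γ → N := fun g => (w g : ℤ) • ι g⁻¹ with hi
  have hBg : ∀ (g : Γ) (a a' : Γ × X) x, x ∈ a.1 • V a.2 → x ∈ a'.1 • V a'.2 →
      B (g * a.1, a.2) - B a * i g = B (g * a'.1, a'.2) - B a' * i g := fun g a a' x hx hx' => by
    have h2 := hB (g * a.1, a.2) (g * a'.1, a'.2) (g • x)
      (by rw [mul_smul]; exact smul_mem_smul_set hx) (by rw [mul_smul]; exact smul_mem_smul_set hx')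
    rw [← act_act hmul, ← act_act hmul, ← map_sub, hd.eqv g x _ (hrel a a' x hx hx'),
      hB a a' x hx hx', sub_mul] at h2
    rw [sub_eq_sub_iff_sub_eq_sub, ← neg_sub, ← h2, neg_sub]
  have hκ : ∀ (g : Γ) (a : Γ × X),
      B (g * a.1, a.2) - B a * i g = B (g * 1, x0) - B (1, x0) * i g := fun g a => by
    rw [hBg g a (1, a.1 • a.2) _ (smul_mem_smul_set (v4 a.2)) (by simpa using v4 _)]
    exact P173.cech_const (f := fun x => B (g * 1, x) - B (1, x) * i g) isPreconnected_univ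
      (fun x _ => mem_of_superset ((v1 x).mem_nhds (v4 x)) fun x' hx' =>
        hBg g (1, x') (1, x) x' (by simpa using v4 x') (by simpa using hx')) trivial trivial
  refine ⟨w, fun g => B (g * 1, x0) - B (1, x0) * i g, fun g k => ?_, fun c b hcb => ?_⟩
  · have h2 : i (g * k) = i k * i g := by
      simp only [hi, map_mul, mul_inv_rev, hmul, Units.val_mul, smul_mul_smul_comm, mul_comm]
    have h3 := hκ g (k * 1, x0)
    show B (g * k * 1, x0) - B (1, x0) * i (g * k) =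
      B (g * 1, x0) - B (1, x0) * i g + (B (k * 1, x0) - B (1, x0) * i k) * i g
    rw [← h3, h2, sub_mul, mul_assoc, mul_assoc]
    abel
  have hB' : ∀ (g : Γ) (f : X), c * B (g, f) + b = (c * B (1, f) + b) * i g := fun g f => by
    have h2 : c * (B (g * 1, x0) - B (1, x0) * i g) = b * (i g - 1) := hcb g
    rw [← hκ g (1, f), mul_one, mul_sub, mul_sub, mul_one, sub_eq_iff_eq_add] at h2
    rw [h2, add_mul, mul_assoc]
    abel
  let y' : X → Sch N X 4 := fun f => c • y f + (c * B (1, f) + b) • μ f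
  have hnul : ∀ (a a' : Γ × X) x, x ∈ a.1 • V a.2 → x ∈ a'.1 • V a'.2 →
      NulG {x} (act ι a.1 4 (y' a.2) - act ι a'.1 4 (y' a'.2)) := fun a a' x hx hx' => by
    have hm : ∀ (a : Γ × X), x ∈ a.1 • V a.2 →
        RelG {x} ((c * B (1, a.2) + b) • act ι a.1 4 (μ a.2)) ∧
          deg x ((c * B (1, a.2) + b) • act ι a.1 4 (μ a.2)) = c * B a + b := by
      rintro ⟨g, f⟩ ⟨v, hv, rfl⟩
      have h2 := (m1 f).mono (singleton_subset_iff.2 (v3 f hv))
      have h3 := h2.act (ι := ι) g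
      rw [smul_set_singleton] at h3
      refine ⟨h3.smul _, ?_⟩
      rw [hd.smul _ _ _ h3, hd.eqv g v _ h2, m2 f v (v3 f hv), one_mul]
      exact (hB' g f).symm
    have e1 : act ι a.1 4 (y' a.2) - act ι a'.1 4 (y' a'.2) =
        c • (act ι a.1 4 (y a.2) - act ι a'.1 4 (y a'.2)) +
          ((c * B (1, a.2) + b) • act ι a.1 4 (μ a.2) -
            (c * B (1, a'.2) + b) • act ι a'.1 4 (μ a'.2)) := by
      simp only [y', map_add, map_smul, smul_sub]
      abel
    have r1 := (hrel a a' x hx hx').smul c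
    have r2 := (hm a hx).1.sub (hm a' hx').1
    rw [e1, ← hd.nul x _ (r1.add r2), hd.add x _ _ r1 r2, hd.smul x _ _ (hrel a a' x hx hx'),
      hd.sub (hm a hx).1 (hm a' hx').1, (hm a hx).2, (hm a' hx').2, hB a a' x hx hx', mul_sub]
    abel
  choose Y y1 y2 using fun f => h.lift_fill hr (a1 f) (e f).open_source
    ((a2 f).trans ((v3 f).trans (d5 f))) (he f) (c • z) (y' f) (by
      have := sub_mem (Submodule.smul_mem _ c (hy' f _ ((a2 f).trans (v3 f)) (a1 f)))
        (((m1 f).mono ((a2 f).trans (v3 f))).smul (c * B (1, f) + b))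
      convert this using 1
      simp only [y', map_add, map_smul, smul_sub]
      abel)
  have hY : ∀ f, ∀ x ∈ sat Γ (A f), ∃ g : Γ, x ∈ g • V f ∧
      NulG {x} (res {x} 4 (Y f) - act ι g 4 (y' f)) := fun f x ⟨g, hg⟩ => by
    have hs := singleton_subset_iff.2 hg
    have := (((y2 f).mono hs).sub
      (nulG_of_On (hr.mono _ _ (a1 f) hs isCompact_singleton 4 (Y f)))).act (ι := ι) g⁻¹
    rw [sub_sub_sub_cancel_left, map_sub, ← hr.pt, smul_set_singleton, inv_smul_smul] at this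
    exact ⟨g⁻¹, ⟨_, a2 f hg, inv_smul_smul g x⟩, this⟩
  obtain ⟨T, -, hT⟩ := hK.elim_nhds_subcover A fun x _ => a3 x
  refine dual_bd hc hT (h.glue hr T a1 (c • z) Y (fun f _ => y1 f) fun f _ f' _ x hx => ?_)
  obtain ⟨g, g1, g2⟩ := hY f x hx.1
  obtain ⟨g', g1', g2'⟩ := hY f' x hx.2
  convert (g2.sub g2').add (hnul (g, f) (g', f') x g1 g1') using 1
  rw [map_sub]
  abel

end Vale.Agent.P239
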