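import Vale.Agent.P239.Main
import Vale.Agent.P239.Dual

/-! All L2-Betti numbers outside the middle dimension vanish. -/

namespace Vale.Agent.P239

theorem extDim_hml_zero {Γ X N : Type} [Group Γ] [TopologicalSpace X] [MulAction Γ X]
    [ContinuousConstSMul Γ X] [Ring N] (ι : Γ → N) {tr : N → ℝ} (h0 : tr 0 = 0) (n : ℕ)
    (h : ∀ z : Chn ι X (n + 1), bdry ι X n z = 0 → ∃ y, bdry ι X (n + 1) y = z) :
    extDim tr (Hml ι X (n + 1)) = 0 :=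
  extDim_eq_zero h0 fun c a ha => by
    obtain ⟨z, hz, hc⟩ := hml_smul_eq_zero ι n c
    exact ⟨1, by rwa [one_mul], hc 1 (by rw [one_smul]; exact h z hz)⟩

theorem Geo.extDim_zero {Γ X N : Type} [Group Γ] [MetricSpace X] [MulAction Γ X]
    [ContinuousConstSMul Γ X] [ContractibleSpace X] [Ring N] (h : Geo Γ X) (ι : Γ → N)
    {tr : N → ℝ} (h0 : tr 0 = 0) (h1 : ι 1 = 1) (hmul : ∀ g k, ι (g * k) = ι g * ι k)
    (k0 : ∀ b a : N, a ≠ 0 → ∃ x : N, x * a ≠ 0 ∧ ∃ (n : ℕ) (y : Fin n → N) (g : Fin n → Γ),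
      x * b = ∑ j, y j * (ι (g j) - 1))
    (k3 : ∀ (w : Γ →* ℤˣ) (κ : Γ → N),
      (∀ g k, κ (g * k) = κ g + κ k * ((w g : ℤ) • ι g⁻¹)) → ∀ a : N, a ≠ 0 →
      ∃ x b : N, x * a ≠ 0 ∧ ∀ g, x * κ g = b * ((w g : ℤ) • ι g⁻¹ - 1))
    (k4 : ∀ (w : Γ →* ℤˣ) (b : N), (∀ g, b * ((w g : ℤ) • ι g⁻¹) = b) → b = 0)
    (n : ℕ) (hn1 : n ≠ 1) (hn : n ≠ 2) : extDim tr (Hml ι X n) = 0 := by
  match n, hn1, hn with
  | 0, _, _ => exact extDim_eq_zero h0 (hml0_tors ι k0)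
  | 1, hn, _ => exact absurd rfl hn
  | 2, _, hn => exact absurd rfl hn
  | 3, _, _ =>
    refine extDim_eq_zero h0 fun c a ha => ?_
    obtain ⟨z, hz, hc⟩ := hml_smul_eq_zero ι 2 c
    obtain ⟨w, κ, h2, h3⟩ := h.dual3 h1 hmul z hz
    obtain ⟨x, b, h4, h5⟩ := k3 w κ h2 a ha
    exact ⟨x, h4, hc x (h3 x b h5)⟩
  | 4, _, _ =>
    refine extDim_hml_zero ι h0 3 fun z hz => ?_
    obtain ⟨w, b, h2, h3⟩ := h.dual4 h1 hmul z hz
    exact h3 (k4 w b h2)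
  | q + 5, _, _ => exact extDim_hml_zero ι h0 (q + 4) (h.dual_hi h1 hmul (by omega))

theorem singer {M X Γ : Type} [TopologicalSpace M] [T2Space M] [CompactSpace M]
    [ChartedSpace (EuclideanSpace ℝ (Fin 4)) M] [tX : TopologicalSpace X] [Group Γ] [MulAction Γ X]
    [ContinuousConstSMul Γ X] {p : X → M} (hp : IsQuotientCoveringMap p Γ) [ContractibleSpace X]
    {n : ℕ} (hn : n ≠ 2) : l2Betti Γ X n = 0 := by
  by_cases hn1 : n = 1
  · exact hn1 ▸ b1_eq_zero hp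
  obtain ⟨m, rfl, h⟩ := exists_geo hp
  obtain ⟨S⟩ := h.exists_gen
  have := h.infinite
  have := S.countable
  exact h.extDim_zero lam vnTr_zero lam_one lam_mul key0
    (key3 S fun _ hu hh => (h.hyp S).const hu hh) key4 n hn1 hn

end Vale.Agent.P239
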