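import Vale.Agent.P239.Word

/-! Papasoglu type three colouring of groups of subcubic growth. -/

namespace Vale.Agent.P239

open Filter Topology Set
open scoped Pointwise

namespace Gen

variable {G : Type} [Group G] {Γ : Gen G}

theorem col3_stay {A : Set G} {R r : ℕ} {x a b : G}
    (hA : ∀ y ∈ A, r < Γ.d x y → r + R < Γ.d x y) (h : Γ.Ch R A a b) (ha : Γ.d x a ≤ r) :
    Γ.d x b ≤ r :=
  h.ind (p := fun y => Γ.d x y ≤ r) ha fun u v _ _ hv hd hp => by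
    by_contra hc
    have := hA v hv (not_le.1 hc)
    have := Γ.d_tri x u v
    omega

theorem col3_min {V : Set G} (hV : V.Finite) (R n : ℕ) : ∃ Z ⊆ V,
    (∀ a b, Γ.Ch R (V \ Z) a b → Γ.d a b ≤ 2 * n) ∧ ∀ x r, r ≤ n →
      (Z ∩ Γ.ball x r).ncard ≤ (V ∩ {y | r < Γ.d x y ∧ Γ.d x y ≤ r + R}).ncard := by
  obtain ⟨Z, h3⟩ := exists_minimalFor_of_wellFoundedLT
    (fun Z : Set G => Z ⊆ V ∧ ∀ a b, Γ.Ch R (V \ Z) a b → Γ.d a b ≤ 2 * n) Set.ncard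
    ⟨V, Subset.rfl, fun a b h => h.ind (p := fun y => Γ.d a y ≤ 2 * n) (by simp)
      fun _ _ _ ha => absurd ha.1 ha.2⟩
  obtain ⟨h1, h2⟩ := h3.1
  refine ⟨Z, h1, h2, fun x r hr => ?_⟩
  have h4 := h3.le (j := (Z \ Γ.ball x r) ∪ (V ∩ {y | r < Γ.d x y ∧ Γ.d x y ≤ r + R}))
    ⟨union_subset (fun _ h => h1 h.1) inter_subset_left, fun a b hab => ?_⟩
  · have h5 := ncard_union_le (Z \ Γ.ball x r) (V ∩ {y | r < Γ.d x y ∧ Γ.d x y ≤ r + R})
    have h6 := ncard_inter_add_ncard_sdiff_eq_ncard Z (Γ.ball x r) (hV.subset h1)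
    omega
  have hA : ∀ y ∈ V \ ((Z \ Γ.ball x r) ∪ (V ∩ {y | r < Γ.d x y ∧ Γ.d x y ≤ r + R})),
      r < Γ.d x y → r + R < Γ.d x y := fun y hy h => not_le.1 fun h' => hy.2 (Or.inr ⟨hy.1, h, h'⟩)
  rcases le_or_gt (Γ.d x a) r with ha | ha
  · have := col3_stay hA hab ha
    have := Γ.d_tri a x b
    rw [Γ.d_comm a x] at this
    omega
  · refine h2 a b (hab.ind (p := fun y => r < Γ.d x y ∧ Γ.Ch R (V \ Z) a y)
      ⟨ha, Ch.refl _ _ _⟩ fun u v _ hu hv hd hp => ?_).2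
    have h5 := hA u hu hp.1
    have h6 := Γ.d_tri x v u
    rw [Γ.d_comm v u] at h6
    have h7 : r < Γ.d x v := by omega
    exact ⟨h7, hp.2.tail ⟨hu.1, fun h => hu.2 (Or.inl ⟨h, not_le.2 hp.1⟩)⟩
      ⟨hv.1, fun h => hv.2 (Or.inl ⟨h, not_le.2 h7⟩)⟩ hd⟩

theorem col3_pig (V : Set G) (x : G) (R r m q : ℕ)
    (h : ∀ j < q, m ≤ (V ∩ {y | r + j * R < Γ.d x y ∧ Γ.d x y ≤ r + j * R + R}).ncard) :
    q * m ≤ (V ∩ Γ.ball x (r + q * R)).ncard := by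
  induction q with
  | zero => simp
  | succ q ih =>
    have h1 := ih fun j hj => h j (by omega)
    have h2 := h q (by omega)
    have h3 : (V ∩ Γ.ball x (r + (q + 1) * R)).Finite := (Γ.ball_finite _ _).inter_of_right _
    have h4 := ncard_inter_add_ncard_sdiff_eq_ncard _ (Γ.ball x (r + q * R)) h3
    have h5 := ncard_le_ncard (s := V ∩ Γ.ball x (r + q * R))
      (t := V ∩ Γ.ball x (r + (q + 1) * R) ∩ Γ.ball x (r + q * R))
      (fun y hy => ⟨⟨hy.1, Γ.ball_mono x (by nlinarith) hy.2⟩, hy.2⟩) (h3.inter_of_left _)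
    have h6 := ncard_le_ncard
      (s := V ∩ {y | r + q * R < Γ.d x y ∧ Γ.d x y ≤ r + q * R + R})
      (t := (V ∩ Γ.ball x (r + (q + 1) * R)) \ Γ.ball x (r + q * R))
      (fun y hy => ⟨⟨hy.1, hy.2.2.trans_eq (by ring)⟩, not_le.2 hy.2.1⟩) (h3.subset fun _ h => h.1)
    nlinarith

theorem col3_sep {V : Set G} (hV : V.Finite) (R n : ℕ) : ∃ Z ⊆ V,
    (∀ a b, Γ.Ch R (V \ Z) a b → Γ.d a b ≤ 2 * n) ∧ ∀ x r q, r + q * R ≤ n →
      q * (Z ∩ Γ.ball x r).ncard ≤ (V ∩ Γ.ball x (r + q * R)).ncard := by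
  obtain ⟨Z, h1, h2, h3⟩ := col3_min (Γ := Γ) hV R n
  refine ⟨Z, h1, h2, fun x r q hq => col3_pig V x R r _ q fun j hj => le_trans ?_
    (h3 x _ (le_trans (by nlinarith) hq))⟩
  exact ncard_le_ncard (inter_subset_inter_right _ (Γ.ball_mono x (by omega)))
    ((Γ.ball_finite _ _).inter_of_right _)

theorem col3_q (h : ¬ Γ.Cubic) (R : ℕ) : ∃ q, (Γ.ball 1 (3 * q * R)).ncard < q ^ 3 := by
  by_contra hc
  push Not at hc
  refine h ⟨1 / (6 * (R + 1) : ℕ) ^ 3, by positivity, fun n => ?_⟩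
  rw [one_div, inv_mul_le_iff₀ (by positivity)]
  norm_cast
  have h1 : 0 < (Γ.ball 1 n).ncard := (ncard_pos (Γ.ball_finite 1 n)).2 ⟨1, Γ.mem_ball_self 1 n⟩
  rcases le_or_gt n (6 * (R + 1)) with h2 | h2
  · exact (Nat.pow_le_pow_left h2 3).trans (Nat.le_mul_of_pos_right _ h1)
  obtain ⟨q, hq⟩ : ∃ q, q = n / (3 * (R + 1)) := ⟨_, rfl⟩
  have h3 : 3 * (R + 1) * q ≤ n := hq ▸ Nat.mul_div_le n _
  have h4 : n < 3 * (R + 1) * (q + 1) := hq ▸ Nat.lt_mul_div_succ n (by omega)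
  have h5 : 1 ≤ q := by
    by_contra h6
    rw [show q = 0 by omega] at h4
    omega
  have h6 := (hc q).trans (ncard_le_ncard (Γ.ball_mono 1 (show 3 * q * R ≤ n by nlinarith))
    (Γ.ball_finite 1 n))
  calc n ^ 3 ≤ (6 * (R + 1) * q) ^ 3 := Nat.pow_le_pow_left (by nlinarith) 3
    _ ≤ _ := by rw [mul_pow (6 * (R + 1))]; exact Nat.mul_le_mul_left _ h6

theorem col3_fin {R q : ℕ} (hq : (Γ.ball 1 (3 * q * R)).ncard < q ^ 3) {V : Set G}
    (hV : V.Finite) : ∃ col : G → Fin 3, ∀ i x y, Γ.Ch R (V ∩ col ⁻¹' {i}) x y →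
      Γ.d x y ≤ 2 * (3 * q * R) := by
  classical
  obtain ⟨Z, a1, a2, a3⟩ := col3_sep (Γ := Γ) hV R (3 * q * R)
  obtain ⟨Y, b1, b2, b3⟩ := col3_sep (Γ := Γ) (hV.subset a1) R (3 * q * R)
  refine ⟨fun x => if x ∈ Y then 2 else if x ∈ Z then 1 else 0, fun i x y hxy => ?_⟩
  fin_cases i
  · refine a2 x y (hxy.mono le_rfl fun z hz => ⟨hz.1, fun h => ?_⟩)
    have := hz.2
    by_cases h' : z ∈ Y <;> simp [h, h'] at this
  · refine b2 x y (hxy.mono le_rfl fun z hz => ?_)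
    have := hz.2
    by_cases h : z ∈ Z <;> by_cases h' : z ∈ Y <;> simp_all
  have c1 := a3 x (q * R + q * R) q (by nlinarith)
  have c2 := b3 x (q * R) q (by nlinarith)
  have c3 : (V ∩ Γ.ball x (q * R + q * R + q * R)).ncard ≤ (Γ.ball 1 (3 * q * R)).ncard := by
    rw [← Γ.ncard_ball x]
    exact ncard_le_ncard (fun z hz => Γ.ball_mono x (by nlinarith) hz.2) (Γ.ball_finite _ _)
  have c4 : (Y ∩ Γ.ball x (0 + q * R)).ncard < q * 1 := by
    rw [zero_add, mul_one]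
    by_contra hc
    have c5 := Nat.mul_le_mul_left q ((Nat.mul_le_mul_left q (not_lt.1 hc)).trans c2)
    nlinarith
  obtain ⟨j, hj, c5⟩ : ∃ j < q,
      (Y ∩ {y | 0 + j * R < Γ.d x y ∧ Γ.d x y ≤ 0 + j * R + R}).ncard < 1 := by
    by_contra hc
    push Not at hc
    exact c4.not_ge (col3_pig Y x R 0 1 q hc)
  rw [Nat.lt_one_iff, ncard_eq_zero (((hV.subset a1).subset b1).inter_of_left _), zero_add] at c5
  have c6 := col3_stay (x := x) (r := j * R) (fun z hz h => not_le.1 fun h' => ?_) hxy (by simp)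
  · nlinarith
  · refine eq_empty_iff_forall_notMem.1 c5 z ⟨?_, h, h'⟩
    have := hz.2
    by_cases h : z ∈ Z <;> by_cases h' : z ∈ Y <;> simp_all

theorem exists_col3 (h : ¬ Γ.Cubic) (R : ℕ) : ∃ (D : ℕ) (col : G → Fin 3),
    ∀ i x y, col x = i → Γ.Ch R (col ⁻¹' {i}) x y → Γ.d x y ≤ D := by
  obtain ⟨q, hq⟩ := col3_q h R
  choose c hc using fun m => col3_fin hq (Γ.ball_finite 1 m)
  have h1 : ∀ x, ∃ i, ∀ᶠ m in (hyperfilter ℕ : Filter ℕ), c m x = i := fun x =>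
    Ultrafilter.eventually_exists_iff.1 (Eventually.of_forall fun m => ⟨_, rfl⟩)
  choose col hcol using h1
  refine ⟨2 * (3 * q * R), col, fun i x y _ hxy => ?_⟩
  obtain ⟨F, h2, h3, h4⟩ := hxy.exists_finite
  obtain ⟨n, hn⟩ := (Γ.finite_iff_ball 1).1 h3
  obtain ⟨m, h5, h6⟩ := (((eventually_all_finite h3).2 fun z _ => hcol z).and
    (Nat.hyperfilter_le_atTop (eventually_ge_atTop n))).exists
  exact hc m i x y (h4.mono le_rfl fun z hz =>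
    ⟨Γ.ball_mono 1 h6 (hn hz), (h5 z hz).trans (h2 hz)⟩)

end Gen

end Vale.Agent.P239
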