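import Vale.Agent.P239.Pot1

/-! Cubic growth, isoperimetric inequality, level halving, capacity. -/

namespace Vale.Agent.P239

open Filter Topology Set
open scoped Pointwise

namespace Gen

variable {G : Type} [Group G] {Γ : Gen G}

theorem iso_path {A : Set G} (hA : A.Finite) (n : ℕ) (g : G) (hg : Γ.d 1 g ≤ n) :
    {x | x ∈ A ∧ x * g ∉ A}.ncard ≤ n * Γ.eb A := by
  induction n generalizing g with
  | zero =>
    rw [← Γ.d_eq_zero.1 (Nat.le_zero.1 hg)]
    simp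
  | succ n ih =>
    rcases Nat.lt_or_ge (Γ.d 1 g) (n + 1) with h | h
    · exact (ih g (by omega)).trans (by nlinarith)
    obtain ⟨s, hs, e⟩ := Γ.d_succ (le_antisymm hg h)
    rw [one_mul, d_eq_d_one] at e
    have h1 := ih _ e.le
    have h2 : {x | x ∈ A ∧ x * s ∉ A}.ncard ≤ Γ.eb A :=
      ncard_le_ncard_of_injOn (fun x => (x, x * s)) (fun x hx => ⟨hx.1, hx.2, Γ.d_step x hs⟩)
        (fun x _ y _ e => congrArg Prod.fst e) ((hA.prod (Γ.nb_finite 1 hA)).subset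
          fun p hp => ⟨hp.1, p.1, hp.1, by rw [d_comm]; exact hp.2.2⟩)
    have h3 : {x | x * s ∈ A ∧ x * g ∉ A}.ncard ≤ {x | x ∈ A ∧ x * (s⁻¹ * g) ∉ A}.ncard :=
      ncard_le_ncard_of_injOn (fun x => x * s) (fun x hx => ⟨hx.1, by simpa [mul_assoc] using hx.2⟩)
        (mul_left_injective s).injOn (hA.subset fun _ h => h.1)
    have h4 := (ncard_le_ncard (s := {x | x ∈ A ∧ x * g ∉ A})
      (t := {x | x ∈ A ∧ x * s ∉ A} ∪ {x | x * s ∈ A ∧ x * g ∉ A})
      (fun x hx => (em (x * s ∈ A)).elim (fun h => Or.inr ⟨h, hx.2⟩) fun h => Or.inl ⟨hx.1, h⟩)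
      ((hA.subset fun _ h => h.1).union ((hA.preimage (mul_left_injective s).injOn).subset
        fun _ h => h.1))).trans (ncard_union_le _ _)
    nlinarith

theorem iso_avg {A : Set G} (hA : A.Finite) {n : ℕ} (h : 2 * A.ncard ≤ (Γ.ball 1 n).ncard) :
    A.ncard ≤ 2 * n * Γ.eb A := by
  classical
  lift A to Finset G using hA
  obtain ⟨B, hB⟩ := (Γ.ball_finite 1 n).exists_finset_coe
  rw [← hB] at h
  simp only [ncard_coe_finset] at h ⊢
  have h1 : ∑ g ∈ B, (A.filter fun x => x * g ∉ A).card ≤ B.card * (n * Γ.eb A) :=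
    Finset.sum_le_card_nsmul _ _ _ fun g hg => by
      have := iso_path (Γ := Γ) A.finite_toSet n g (hB.subset hg)
      rwa [← ncard_coe_finset, Finset.coe_filter]
  have h2 : A.card * B.card ≤ ∑ x ∈ A, ((B.filter fun g => x * g ∉ A).card + A.card) :=
    Finset.card_nsmul_le_sum _ _ _ fun x _ => by
      rw [← Finset.card_filter_add_card_filter_not (s := B) (p := fun g => x * g ∉ A)]
      exact Nat.add_le_add_left (Finset.card_le_card_of_injOn (fun g => x * g)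
        (fun g hg => by simpa using (Finset.mem_filter.1 hg).2) (mul_right_injective x).injOn) _
  rw [Finset.sum_add_distrib, Finset.sum_const, smul_eq_mul] at h2
  simp only [Finset.card_filter] at h1 h2
  rw [Finset.sum_comm] at h1
  have h3 : 0 < B.card := Finset.card_pos.2 ⟨1, hB.superset (Γ.mem_ball_self 1 n)⟩
  refine Nat.le_of_mul_le_mul_left ?_ h3
  nlinarith [Nat.mul_le_mul_left A.card h]

/-- Coulhon and Saloff-Coste. -/
theorem Cubic.iso (h : Γ.Cubic) : Γ.Iso := by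
  obtain ⟨ε, hε, h⟩ := h
  obtain ⟨K, hK⟩ : ∃ K, K = 8 / ε + 4 := ⟨_, rfl⟩
  have hK1 : 1 ≤ K := by
    have : 0 < 8 / ε := by positivity
    linarith
  refine ⟨1 / (2 * K), by positivity, fun k A hA hk => ?_⟩
  have hex : ∃ n, 2 * A.ncard ≤ (Γ.ball 1 n).ncard := by
    obtain ⟨n, hn⟩ := exists_nat_ge (2 * A.ncard / ε)
    refine ⟨n, Nat.cast_le (α := ℝ).1 (le_trans ?_ (h n))⟩
    rw [div_le_iff₀' hε] at hn
    push_cast
    exact hn.trans (mul_le_mul_of_nonneg_left (by exact_mod_cast Nat.le_self_pow (by omega) n) hε.le)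
  have h1 := iso_avg hA (Nat.find_spec hex)
  have h2 : 1 ≤ A.ncard := (Nat.one_le_pow _ _ (by omega)).trans hk
  obtain ⟨m, hm⟩ : ∃ m, Nat.find hex = m + 1 := Nat.exists_eq_succ_of_ne_zero fun e => by
    rw [e] at h1
    omega
  have h3 : ((Γ.ball 1 m).ncard : ℝ) ≤ 2 * A.ncard := by
    exact_mod_cast (not_le.1 (Nat.find_min hex (show m < _ by omega))).le
  rw [hm] at h1
  have h4 : (A.ncard : ℝ) ≤ 2 * (m + 1) * Γ.eb A := by exact_mod_cast h1
  have h5 : (1 : ℝ) ≤ A.ncard := by exact_mod_cast h2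
  have h6 : (64 : ℝ) ^ k ≤ A.ncard := by exact_mod_cast hk
  generalize (A.ncard : ℝ) = N at *
  have h0 : (0 : ℝ) ≤ Γ.eb A := Nat.cast_nonneg _
  generalize (Γ.eb A : ℝ) = e at *
  have h7 : (m : ℝ) ^ 3 ≤ 2 / ε * N := by
    rw [div_mul_eq_mul_div, le_div_iff₀' hε]
    exact (h m).trans h3
  have h8 : ((m : ℝ) + 1) ^ 3 ≤ K * N := by
    have : (0 : ℝ) ≤ (m + 1) * (m - 1) ^ 2 := by positivity
    rw [hK, show 8 / ε = 4 * (2 / ε) by ring]
    nlinarith
  have h9 : N * N ^ 2 ≤ N * (8 * K * e ^ 3) :=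
    calc N * N ^ 2 = N ^ 3 := by ring
      _ ≤ (2 * (m + 1) * e) ^ 3 := pow_le_pow_left₀ (by linarith) h4 3
      _ = 8 * (m + 1) ^ 3 * e ^ 3 := by ring
      _ ≤ 8 * (K * N) * e ^ 3 := by gcongr
      _ = _ := by ring
  refine le_of_pow_le_pow_left₀ three_ne_zero h0 ?_
  calc (1 / (2 * K) * 16 ^ k) ^ 3 = (1 / (2 * K)) ^ 3 * ((64 : ℝ) ^ k) ^ 2 := by
        rw [mul_pow, ← pow_mul, ← pow_mul, mul_comm k, mul_comm k, pow_mul, pow_mul]
        norm_num
    _ ≤ (1 / (2 * K)) ^ 3 * (8 * K * e ^ 3) := mul_le_mul_of_nonneg_left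
        ((pow_le_pow_left₀ (by positivity) h6 2).trans (le_of_mul_le_mul_left h9 (by linarith)))
        (by positivity)
    _ = e ^ 3 / K ^ 2 := by field_simp; ring
    _ ≤ _ := div_le_self (by positivity) (one_le_pow₀ hK1)

/-- Edges starting in `Y` that cross the level `t` downwards. -/
def down (Γ : Gen G) (f : G → ℝ) (Y : Set G) (t : ℝ) : Set (G × G) :=
  {p | p.1 ∈ Y ∧ t < f p.1 ∧ f p.2 ≤ t ∧ Γ.d p.1 p.2 ≤ 1}

open MeasureTheory in
theorem iso_coarea {f : G → ℝ} (hf : Γ.Dir f) {Y : Set G} {t L l : ℝ}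
    (hY : (Y ∩ {x | t < f x}).Finite) (hL : 0 ≤ L) (hl : 0 ≤ l)
    (h : ∀ u ∈ Ioo t (t + l), L ≤ (Γ.down f Y u).ncard) :
    (L * l) ^ 2 ≤ (Y ∩ {x | t < f x}).ncard * (Γ.S.card * Γ.En f) := by
  classical
  obtain ⟨A, hA⟩ := hY.exists_finset_coe
  rw [← hA, ncard_coe_finset]
  have h1 : ENNReal.ofReal (L * l) ≤
      ENNReal.ofReal (∑ p ∈ A ×ˢ Γ.S, |f p.1 - f (p.1 * p.2)|) :=
    calc ENNReal.ofReal (L * l) = ∫⁻ _ in Ioo t (t + l), ENNReal.ofReal L := by
          simp [ENNReal.ofReal_mul hL]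
      _ ≤ ∫⁻ u in Ioo t (t + l), ∑ p ∈ A ×ˢ Γ.S, (Ico (f (p.1 * p.2)) (f p.1)).indicator 1 u := by
          refine setLIntegral_mono' measurableSet_Ioo fun u hu => ?_
          refine (ENNReal.ofReal_le_ofReal (h u hu)).trans ?_
          simp only [indicator_apply, Pi.one_apply, ENNReal.ofReal_natCast, Finset.sum_boole,
            Nat.cast_le]
          rw [← ncard_coe_finset]
          refine le_trans (ncard_le_ncard ?_ ((Finset.finite_toSet _).image _))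
            (ncard_image_le (f := fun p : G × G => (p.1, p.1 * p.2)) (Finset.finite_toSet _))
          rintro ⟨x, y⟩ ⟨a1, a2, a3, a4⟩
          obtain ⟨s, hs, rfl⟩ := (Γ.d_le_one (x := x) (y := y)).1 a4
          exact ⟨(x, s), Finset.mem_coe.2 (Finset.mem_filter.2 ⟨Finset.mem_product.2
            ⟨hA.superset ⟨a1, hu.1.trans a2⟩, hs⟩, a3, a2⟩), rfl⟩
      _ ≤ ∫⁻ u, ∑ p ∈ A ×ˢ Γ.S, (Ico (f (p.1 * p.2)) (f p.1)).indicator 1 u :=
          setLIntegral_le_lintegral _ _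
      _ ≤ _ := by
          rw [lintegral_finsetSum _ fun p _ => measurable_one.indicator measurableSet_Ico,
            ENNReal.ofReal_sum_of_nonneg fun p _ => abs_nonneg _]
          refine Finset.sum_le_sum fun p _ => ?_
          rw [lintegral_indicator_one measurableSet_Ico, Real.volume_Ico]
          exact ENNReal.ofReal_le_ofReal (le_abs_self _)
  rw [ENNReal.ofReal_le_ofReal_iff (by positivity)] at h1
  refine (pow_le_pow_left₀ (by positivity) h1 2).trans (sq_sum_le_card_mul_sum_sq.trans ?_)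
  rw [Finset.card_product, Nat.cast_mul, mul_assoc, Finset.sum_product]
  simp only [sq_abs]
  gcongr
  exact hf.sum_le_tsum A fun x _ => Γ.gr_nonneg f x

/-- Level halving. -/
theorem Iso.level_halving (h : Γ.Iso) (E : ℝ) {η : ℝ} (hη : 0 < η) (b : ℕ) :
    ∃ m : ℕ, ∀ (f : G → ℝ) (Y : Set G) (r : ℝ), Γ.Dir f → Γ.En f ≤ E →
      (Y ∩ {x | r < f x}).Finite →
      (∀ t ∈ Ioo r (r + η), Γ.eb (Y ∩ {x | t < f x}) ≤ 2 * (Γ.down f Y t).ncard + b) →
      (Y ∩ {x | r + η ≤ f x}).ncard ≤ m := by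
  obtain ⟨c, hc, h⟩ := h
  obtain ⟨Q, hQ⟩ : ∃ Q, Q = Γ.S.card * |E| + 1 := ⟨_, rfl⟩
  have hQ1 : 1 ≤ Q := hQ ▸ le_add_of_nonneg_left (by positivity)
  obtain ⟨C, hC⟩ : ∃ C, C = 64 * Q / c := ⟨_, rfl⟩
  have hC0 : 0 < C := hC ▸ by positivity
  obtain ⟨a, ha⟩ := pow_unbounded_of_one_lt (max (2 * b / c) (2 * C / η)) (one_lt_two (α := ℝ))
  rw [max_lt_iff, div_lt_iff₀ hc, div_lt_iff₀ hη] at ha
  refine ⟨64 ^ a, fun f Y r hf hE hfin hb => ?_⟩
  have hsub : ∀ {t t'}, t ≤ t' → Y ∩ {x | t' < f x} ⊆ Y ∩ {x | t < f x} := fun h x hx =>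
    ⟨hx.1, h.trans_lt hx.2⟩
  have key : ∀ k, a ≤ k → ∀ t, r ≤ t → t + C / 2 ^ k ≤ r + η →
      (Y ∩ {x | t < f x}).ncard ≤ 64 ^ (k + 1) →
      ∃ u ∈ Ioo t (t + C / 2 ^ k), (Y ∩ {x | u < f x}).ncard ≤ 64 ^ k := by
    intro k hk t h1 h2 h3
    by_contra hcon
    push Not at hcon
    have h4 : (2 : ℝ) ^ a ≤ 16 ^ k := (pow_le_pow_right₀ one_le_two hk).trans
      (pow_le_pow_left₀ zero_le_two (by norm_num) k)
    have h5 := iso_coarea hf (hfin.subset (hsub h1)) (L := c * 16 ^ k / 4) (l := C / 2 ^ k)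
      (by positivity) (by positivity) fun u hu => by
        have a1 := h k _ (hfin.subset (hsub (h1.trans hu.1.le))) (hcon u hu).le
        have a2 : (Γ.eb (Y ∩ {x | u < f x}) : ℝ) ≤ 2 * (Γ.down f Y u).ncard + b := by
          exact_mod_cast hb u ⟨h1.trans_lt hu.1, hu.2.trans_le h2⟩
        nlinarith [mul_le_mul_of_nonneg_right h4 hc.le, ha.1]
    have h6 : c * 16 ^ k / 4 * (C / 2 ^ k) = 2 * (8 ^ (k + 1) * Q) := by
      rw [hC, show (16 : ℝ) = 8 * 2 by norm_num, mul_pow]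
      field_simp
      ring
    have h7 : ((Y ∩ {x | t < f x}).ncard : ℝ) ≤ (8 ^ (k + 1)) ^ 2 := by
      rw [← pow_mul, mul_comm, pow_mul]
      exact_mod_cast h3
    have h8 : Γ.S.card * Γ.En f ≤ Q ^ 2 := by
      have := mul_le_mul_of_nonneg_left (hE.trans (le_abs_self E)) Γ.card_pos'.le
      nlinarith
    have h9 := mul_le_mul h7 h8 (mul_nonneg Γ.card_pos'.le (Γ.En_nonneg f)) (by positivity)
    rw [h6] at h5
    have : 0 < ((8 : ℝ) ^ (k + 1) * Q) ^ 2 := by positivity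
    nlinarith
  have ind : ∀ k, a ≤ k → ∀ t, r ≤ t → t + (2 * C / 2 ^ a - 2 * C / 2 ^ k) ≤ r + η →
      (Y ∩ {x | t < f x}).ncard ≤ 64 ^ k → ∃ u, t ≤ u ∧ u ≤ t + (2 * C / 2 ^ a - 2 * C / 2 ^ k) ∧
        (Y ∩ {x | u < f x}).ncard ≤ 64 ^ a := by
    intro k hk
    induction k, hk using Nat.le_induction with
    | base => exact fun t _ _ h3 => ⟨t, le_rfl, by simp, h3⟩
    | succ k hk ih =>
      intro t h1 h2 h3
      have e1 : 2 * C / 2 ^ (k + 1) = C / 2 ^ k := by rw [pow_succ]; field_simp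
      have e2 : 2 * C / 2 ^ k = 2 * (C / 2 ^ k) := by ring
      have e3 : 2 * C / 2 ^ k ≤ 2 * C / 2 ^ a := by gcongr; norm_num
      rw [e1] at h2 ⊢
      obtain ⟨u, hu, h4⟩ := key k hk t h1 (by linarith) h3
      obtain ⟨v, a1, a2, a3⟩ := ih u (h1.trans hu.1.le) (by linarith [hu.2]) h4
      exact ⟨v, hu.1.le.trans a1, by linarith [hu.2], a3⟩
  have h1 : 2 * C / 2 ^ a < η := by rw [div_lt_iff₀' (by positivity)]; exact ha.2
  obtain ⟨N, hN⟩ : ∃ N, N = (Y ∩ {x | r < f x}).ncard := ⟨_, rfl⟩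
  have h2 : 0 < 2 * C / 2 ^ (a + N) := by positivity
  obtain ⟨u, a1, a2, a3⟩ := ind (a + N) (by omega) r le_rfl (by linarith) (hN ▸
    (Nat.lt_pow_self (by omega)).le.trans (Nat.pow_le_pow_right (by omega) (by omega)))
  refine le_trans (ncard_le_ncard (fun x hx => ?_) (hfin.subset (hsub a1))) a3
  exact ⟨hx.1, show u < f x by linarith [show _ ≤ f x from hx.2]⟩

theorem Iso.cap (h : Γ.Iso) : Γ.Cap := by
  have : Infinite G := not_finite_iff_infinite.1 fun _ => by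
    obtain ⟨c, hc, h⟩ := h
    have := h 0 univ (toFinite _) ((ncard_pos (toFinite _)).2 univ_nonempty)
    simp [eb] at this
    linarith
  obtain ⟨m, hm⟩ := h.level_halving 1 one_pos 0
  obtain ⟨F, -, h1, h2⟩ := (infinite_univ (α := G)).exists_subset_ncard_eq (m + 1)
  obtain ⟨n, hn⟩ := (Γ.finite_iff_ball 1).1 h1
  have h3 := ncard_le_ncard hn (Γ.ball_finite 1 n)
  have key : ∀ f : G → ℝ, (Function.support f).Finite → Γ.En f ≤ 1 → ∀ x, f x ≤ n + 1 := by
    intro f hf hE x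
    have hd := Γ.dir_of_finite hf
    have a1 := hm f univ 0 hd hE (hf.subset fun y hy => ne_of_gt hy.2) fun t _ => by
      have : Γ.eb (univ ∩ {x | t < f x}) = (Γ.down f univ t).ncard := by simp [eb, down]
      omega
    obtain ⟨y, a2, a3⟩ : ∃ y ∈ Γ.ball x n, f y < 1 := by
      by_contra hc
      push Not at hc
      have := ncard_le_ncard (s := Γ.ball x n) (t := univ ∩ {x | 0 + 1 ≤ f x})
        (fun y hy => ⟨trivial, by simpa using hc y hy⟩)
        (hf.subset fun y hy => ne_of_gt (lt_of_lt_of_le (by norm_num) hy.2))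
      rw [ncard_ball] at this
      omega
    have a4 : ∀ (k : ℕ) x, Γ.d x y = k → f x ≤ f y + k := fun k => by
      induction k with
      | zero => exact fun x e => by simp [Γ.d_eq_zero.1 e]
      | succ k ih =>
        intro x e
        obtain ⟨s, hs, e'⟩ := Γ.d_succ e
        have b1 : (f x - f (x * s)) ^ 2 ≤ 1 := ((Finset.single_le_sum
          (f := fun s => (f x - f (x * s)) ^ 2) (fun _ _ => sq_nonneg _) hs).trans
          (hd.le_tsum x fun y _ => Γ.gr_nonneg f y)).trans hE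
        push_cast
        nlinarith [ih _ e']
    have a5 : (Γ.d x y : ℝ) ≤ n := by exact_mod_cast a2
    linarith [a4 _ x rfl]
  have hEn : ∀ (c : ℝ) (f : G → ℝ), Γ.En (fun x => c * f x) = c ^ 2 * Γ.En f := fun c f => by
    simp only [En, gr, ← tsum_mul_left, Finset.mul_sum, ← mul_sub, mul_pow]
  refine ⟨(n + 1) ^ 2, fun f hf x => le_of_forall_pos_le_add fun ε hε => ?_⟩
  have h4 : 0 < Γ.En f + ε / (n + 1) ^ 2 := add_pos_of_nonneg_of_pos (Γ.En_nonneg f) (by positivity)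
  obtain ⟨t, ht, h5⟩ : ∃ t : ℝ, 0 < t ∧ t ^ 2 = Γ.En f + ε / (n + 1) ^ 2 :=
    ⟨_, Real.sqrt_pos.2 h4, Real.sq_sqrt h4.le⟩
  have h6 : ∀ c : ℝ, c ^ 2 = t⁻¹ ^ 2 → c * f x ≤ n + 1 := fun c hc =>
    key (fun x => c * f x) (hf.subset fun y hy h0 => hy (by simp [h0])) (by
      rw [hEn, hc, inv_pow, inv_mul_le_iff₀ (by positivity), h5, mul_one]
      exact le_add_of_nonneg_right (by positivity)) x
  have h7 := (inv_mul_le_iff₀ ht).1 (h6 _ rfl)
  have h8 := h6 (-t⁻¹) (by ring)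
  rw [neg_mul, ← mul_neg, inv_mul_le_iff₀ ht] at h8
  calc f x ^ 2 ≤ (t * (n + 1)) ^ 2 := sq_le_sq' (by linarith) h7
    _ = _ := by rw [mul_pow, h5]; field_simp

end Gen

end Vale.Agent.P239
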