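import Vale.Agent.P239.Fill

/-! The Cech staircase: three colourable walls do not separate deeply. -/

namespace Vale.Agent.P239

open Filter Topology Set
open scoped Pointwise

section Alg
variable {ι : Type}

/-- the points `u, v` occupy exactly the pieces `a, b` -/
noncomputable def stE2 (a b u v : ι) : ZMod 2 :=
  fillI (u = a) * fillI (v = b) + fillI (u = b) * fillI (v = a)

/-- the points `u, v, w` occupy exactly the pieces `a, b, c` -/
noncomputable def stE3 (a b c u v w : ι) : ZMod 2 :=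
  fillI (u = c) * stE2 a b v w + fillI (v = c) * stE2 a b u w + fillI (w = c) * stE2 a b u v

theorem stE2_comm (a b u v : ι) : stE2 a b u v = stE2 b a u v := add_comm _ _

theorem stE2_self (a u v : ι) : stE2 a a u v = 0 := CharTwo.add_self_eq_zero _

theorem stE3_comm (a b c u v w : ι) : stE3 a b c u v w = stE3 b a c u v w := by
  simp only [stE3, stE2_comm a b]

theorem stE3_comm' (a b c u v w : ι) : stE3 a b c u v w = stE3 a c b u v w := by
  simp only [stE3, stE2]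
  ring

theorem stE3_self (a c u v w : ι) : stE3 a a c u v w = 0 := by
  simp only [stE3, stE2_self, mul_zero, add_zero]

theorem stE2_ne {a b u v : ι} (h : stE2 a b u v ≠ 0) : u = a ∨ v = a := by
  by_contra hc
  rw [not_or] at hc
  exact h (by simp only [stE2, fillI_neg hc.1, fillI_neg hc.2, zero_mul, mul_zero, add_zero])

theorem stE3_ne {a b c u v w : ι} (h : stE3 a b c u v w ≠ 0) : u = a ∨ v = a ∨ w = a := by
  by_contra hc
  rw [not_or, not_or] at hc
  exact h (by simp only [stE3, stE2, fillI_neg hc.1, fillI_neg hc.2.1, fillI_neg hc.2.2, zero_mul,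
    mul_zero, add_zero])

theorem stE3_cob {a b c u v w s : ι} (h : u = v ∨ u = w ∨ u = s ∨ v = w ∨ v = s ∨ w = s) :
    stE3 a b c v w s + stE3 a b c u w s + stE3 a b c u v s + stE3 a b c u v w = 0 := by
  rcases h with rfl | rfl | rfl | rfl | rfl | rfl <;> simp only [stE3, stE2] <;> ring_nf <;>
    reduce_mod_char

theorem stE2_fin (a u v : ι) (X : ZMod 2) : Function.HasFiniteSupport fun b => stE2 a b u v * X :=
  (toFinite {u, v}).subset fun b h => by
    have := stE2_ne (stE2_comm a b u v ▸ left_ne_zero_of_mul h)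
    simp only [mem_insert_iff, mem_singleton_iff]
    tauto

theorem stE2_sum (a u v : ι) (X : ZMod 2) :
    ∑ᶠ b, stE2 a b u v * X = (fillI (v = a) + fillI (u = a)) * X := by
  have e : ∀ b, stE2 a b u v * X = fillI (u = b) * (fillI (v = a) * X) +
      fillI (v = b) * (fillI (u = a) * X) := fun b => by
    rw [stE2]
    ring
  rw [finsum_congr e, finsum_add_distrib (fill_fin_ind _ _) (fill_fin_ind _ _), fill_sum_ind,
    fill_sum_ind, add_mul]

theorem stE3_sum (a b u v w : ι) (X : ZMod 2) :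
    ∑ᶠ c, stE3 a b c u v w * X = (stE2 a b v w + stE2 a b u w + stE2 a b u v) * X := by
  have e : ∀ c, stE3 a b c u v w * X = fillI (u = c) * (stE2 a b v w * X) +
      fillI (v = c) * (stE2 a b u w * X) + fillI (w = c) * (stE2 a b u v * X) := fun c => by
    rw [stE3]
    ring
  have hf : Function.HasFiniteSupport fun c => fillI (u = c) * (stE2 a b v w * X) +
      fillI (v = c) * (stE2 a b u w * X) := (fill_fin_ind _ _).add (fill_fin_ind _ _)
  rw [finsum_congr e, finsum_add_distrib hf (fill_fin_ind _ _), finsum_add_distrib (fill_fin_ind _ _) (fill_fin_ind _ _), fill_sum_ind,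
    fill_sum_ind, fill_sum_ind, add_mul, add_mul]

theorem st_double {f : ι → ι → ZMod 2} {T : Set ι} (hT : T.Finite) (h1 : ∀ a b, f a b = f b a)
    (h2 : ∀ a, f a a = 0) (h3 : ∀ a b, f a b ≠ 0 → b ∈ T) :
    (Function.HasFiniteSupport fun a => ∑ᶠ b, f a b) ∧ ∑ᶠ a, ∑ᶠ b, f a b = 0 := by
  have h4 : (Function.support fun a => ∑ᶠ b, f a b) ⊆ T := fun a ha => by
    obtain ⟨b, hb⟩ := fill_finsum_ne ha
    exact h3 b a (h1 a b ▸ hb)
  refine ⟨hT.subset h4, ?_⟩
  rw [finsum_eq_sum_of_support_subset_of_finite _ h4 hT, Finset.sum_congr rfl fun a _ =>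
    finsum_eq_sum_of_support_subset_of_finite (f a) (h3 a) hT, ← Finset.sum_product']
  refine Finset.sum_involution (fun p _ => p.swap) (fun p _ => ?_) (fun p _ h e => h ?_)
    (fun p hp => ?_) fun _ _ => rfl
  · rw [Prod.fst_swap, Prod.snd_swap, h1 p.2]
    exact CharTwo.add_self_eq_zero _
  · rw [show p.2 = p.1 from congrArg Prod.fst e, h2]
  · rw [Finset.mem_product] at hp ⊢
    exact hp.symm

theorem st_pigeon (a b c d : Fin 3) : a = b ∨ a = c ∨ a = d ∨ b = c ∨ b = d ∨ c = d := by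
  revert a b c d
  decide

end Alg

namespace Gen

variable {G : Type} [Group G] {Γ : Gen G}

theorem st_near {B : Set G} {n r : ℕ} {t : Fin n → G} (ht : Γ.Small r t) {i j : Fin n}
    (h : fillI (t i ∈ B) + fillI (t j ∈ B) ≠ 0) (l : Fin n) : t l ∈ Γ.nb (2 * r) (Γ.bd B) := by
  obtain ⟨v, hv, h1⟩ := fill_bd (Γ := Γ) h
  have := ht i j
  have := ht l i
  have := Γ.d_tri (t l) (t i) v
  exact ⟨v, hv, by omega⟩

theorem st_ball {n r D K : ℕ} {t : Fin n → G} (ht : Γ.Small r t) {a : G} {l : Fin n}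
    (h : Γ.d (t l) a ≤ D) (hK : D + r ≤ K) (i : Fin n) : t i ∈ Γ.ball a K := by
  have := ht l i
  have := Γ.d_tri a (t l) (t i)
  rw [Γ.d_comm a (t l)] at this
  rw [mem_ball]
  omega

theorem exists_stairAt (h1 : Γ.Van 1) (h2 : Γ.Van 2) (h3 : Γ.Van 3) :
    ∃ R : ℕ, ∀ R', R ≤ R' → Γ.StairAt R' := by
  obtain ⟨r2, hr2, H1⟩ := h1.fill_fun 1
  obtain ⟨r3, hr3, H2⟩ := h2.fill_fun r2
  obtain ⟨r4, hr4, H3⟩ := h3.fill_fun r3
  refine ⟨2 * r4, fun R hR D => ?_⟩
  obtain ⟨D3, F3, z3, hF3⟩ := H3 (D + r4)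
  obtain ⟨D2, F2, z2, hF2⟩ := H2 (D + r4 + D3)
  obtain ⟨D1, F1, z1, hF1⟩ := H1 (D + r4 + D2)
  refine ⟨D1 + D + R, fun B col hcol => ?_⟩
  choose q hq1 hq2 using fun i => fill_rep fun w hw w' h => hcol i w w' hw h
  set p : G → G := fun x => q (col x) x with hp
  have hp1 : ∀ x ∈ Γ.nb R (Γ.bd B), Γ.d x (p x) ≤ D := fun x hx => (hq1 (col x) x ⟨hx, rfl⟩).2
  have hp2 : ∀ x ∈ Γ.nb R (Γ.bd B), ∀ y ∈ Γ.nb R (Γ.bd B), col x = col y → Γ.d x y ≤ R →
      p x = p y := fun x hx y hy e hd => by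
    simp only [hp]
    rw [hq2 (col x) x ⟨hx, rfl⟩ y ⟨hy, e.symm⟩ hd, e]
  have hN : ∀ {n r : ℕ} {t : Fin n → G}, Γ.Small r t → r ≤ r4 → ∀ {i j : Fin n},
      fillI (t i ∈ B) + fillI (t j ∈ B) ≠ 0 → ∀ l, t l ∈ Γ.nb R (Γ.bd B) :=
    fun ht hr _ _ h l => Γ.nb_mono (by omega) subset_rfl (st_near ht h l)
  -- level three
  set C3 : G → G → G → (Fin 4 → G) → ZMod 2 := fun a b c => Γ.fillRes r4 fun t =>
    stE3 a b c (p (t 0)) (p (t 1)) (p (t 2)) * (fillI (t 2 ∈ B) + fillI (t 3 ∈ B)) with hC3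
  have s3 : ∀ a b c t, C3 a b c t ≠ 0 →
      (∃ x ∈ Γ.nb R (Γ.bd B), p x = a) ∧ ∀ i, t i ∈ Γ.ball a (D + r4) := by
    intro a b c t ht
    obtain ⟨a1, a2⟩ := fillRes_ne ht
    have a3 := hN a1 le_rfl (right_ne_zero_of_mul a2)
    rcases stE3_ne (left_ne_zero_of_mul a2) with h | h | h <;>
      exact ⟨⟨_, a3 _, h⟩, st_ball a1 (h ▸ hp1 _ (a3 _)) le_rfl⟩
  have c3 : ∀ a b c t, Γ.Small r4 t → cob (C3 a b c) t = 0 := by
    intro a b c t ht
    simp only [hC3]
    rw [cob_fillRes _ ht, fill_cob4 fun x y z w =>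
      stE3 a b c (p x) (p y) (p z) * (fillI (z ∈ B) + fillI (w ∈ B))]
    have e : ∀ P Q S T X Y Z : ZMod 2, P * (Y + Z) + Q * (Y + Z) + S * (Y + Z) + T * (X + Z) +
        T * (X + Y) = (P + Q + S + T) * (Y + Z) := by decide
    rw [e]
    by_cases h0 : fillI (t 3 ∈ B) + fillI (t 4 ∈ B) = 0
    · rw [h0, mul_zero]
    have a3 := hN ht le_rfl h0
    have a4 : ∀ i j, col (t i) = col (t j) → p (t i) = p (t j) := fun i j e =>
      hp2 _ (a3 i) _ (a3 j) e ((ht i j).trans (by omega))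
    rw [stE3_cob ((st_pigeon (col (t 0)) (col (t 1)) (col (t 2)) (col (t 3))).imp (a4 _ _)
      (Or.imp (a4 _ _) (Or.imp (a4 _ _) (Or.imp (a4 _ _) (Or.imp (a4 _ _) (a4 _ _)))))), zero_mul]
  have y3 : ∀ a b c, C3 a b c = C3 b a c := fun a b c => by simp only [hC3, stE3_comm a b]
  have y3' : ∀ a b c, C3 a b c = C3 a c b := fun a b c => by simp only [hC3, stE3_comm' a b]
  have d3 : ∀ a c, C3 a a c = 0 := fun a c => funext fun t => by
    simp only [hC3, fillRes, stE3_self, zero_mul, mul_zero, Pi.zero_apply]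
  have b3 := fun a b c => hF3 a (C3 a b c) (fun t ht => (s3 a b c t ht).2) (c3 a b c)
  have b3' : ∀ a b c t, F3 (C3 a b c) t ≠ 0 → ∀ i, t i ∈ Γ.ball c D3 := fun a b c => by
    rw [y3', y3]
    exact (b3 c a b).1
  have r3' : ∀ a b c t, F3 (C3 a b c) t ≠ 0 → ∃ x ∈ Γ.nb R (Γ.bd B), p x = a := by
    intro a b c t ht
    obtain ⟨s, hs⟩ := Function.ne_iff.1 fun h : C3 a b c = 0 => ht (by rw [h, z3]; rfl)
    exact (s3 a b c s hs).1
  -- level two
  set C2 : G → G → (Fin 3 → G) → ZMod 2 := fun a b => Γ.fillRes r3 ((fun t =>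
    stE2 a b (p (t 0)) (p (t 1)) * (fillI (t 1 ∈ B) + fillI (t 2 ∈ B))) +
      fun t => ∑ᶠ c, F3 (C3 a b c) t) with hC2
  have s2 : ∀ a b t, C2 a b t ≠ 0 →
      (∃ x ∈ Γ.nb R (Γ.bd B), p x = a) ∧ ∀ i, t i ∈ Γ.ball a (D + r4 + D3) := by
    intro a b t ht
    obtain ⟨a1, a2⟩ := fillRes_ne ht
    by_cases a5 : stE2 a b (p (t 0)) (p (t 1)) * (fillI (t 1 ∈ B) + fillI (t 2 ∈ B)) = 0
    · rw [Pi.add_apply, a5, zero_add] at a2
      obtain ⟨c, hc⟩ := fill_finsum_ne a2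
      exact ⟨r3' a b c t hc, fun i => Γ.ball_mono a (by omega) ((b3 a b c).1 t hc i)⟩
    · have a3 := hN a1 hr4 (right_ne_zero_of_mul a5)
      rcases stE2_ne (left_ne_zero_of_mul a5) with h | h <;>
        exact ⟨⟨_, a3 _, h⟩, st_ball a1 (h ▸ hp1 _ (a3 _)) (by omega)⟩
  have c2 : ∀ a b t, Γ.Small r3 t → cob (C2 a b) t = 0 := by
    intro a b t ht
    simp only [hC2]
    rw [cob_fillRes _ ht, cob_add, Pi.add_apply, fill_cob_finsum (b3' a b),
      finsum_congr fun c => ((b3 a b c).2 t ht).trans (fillRes_of _ (ht.mono hr4)), stE3_sum,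
      fill_cob3 fun x y z => stE2 a b (p x) (p y) * (fillI (y ∈ B) + fillI (z ∈ B))]
    ring_nf
    reduce_mod_char
  have y2 : ∀ a b, C2 a b = C2 b a := fun a b => by simp only [hC2, stE2_comm a b, y3 a b]
  have d2 : ∀ a, C2 a a = 0 := fun a => funext fun t => by
    simp only [hC2, fillRes, stE2_self, d3, z3, Pi.add_apply, zero_mul, mul_zero, Pi.zero_apply,
      finsum_zero, add_zero]
  have b2 := fun a b => hF2 a (C2 a b) (fun t ht => (s2 a b t ht).2) (c2 a b)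
  have b2' : ∀ a b t, F2 (C2 a b) t ≠ 0 → ∀ i, t i ∈ Γ.ball b D2 := fun a b => by
    rw [y2]
    exact (b2 b a).1
  have r2' : ∀ a b t, F2 (C2 a b) t ≠ 0 → ∃ x ∈ Γ.nb R (Γ.bd B), p x = a := by
    intro a b t ht
    obtain ⟨s, hs⟩ := Function.ne_iff.1 fun h : C2 a b = 0 => ht (by rw [h, z2]; rfl)
    exact (s2 a b s hs).1
  -- level one
  set C1 : G → (Fin 2 → G) → ZMod 2 := fun a => Γ.fillRes r2 ((fun t =>
    fillI (p (t 0) = a) * (fillI (t 0 ∈ B) + fillI (t 1 ∈ B))) +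
      fun t => ∑ᶠ b, F2 (C2 a b) t) with hC1
  have s1 : ∀ a t, C1 a t ≠ 0 →
      (∃ x ∈ Γ.nb R (Γ.bd B), p x = a) ∧ ∀ i, t i ∈ Γ.ball a (D + r4 + D2) := by
    intro a t ht
    obtain ⟨a1, a2⟩ := fillRes_ne ht
    by_cases a5 : fillI (p (t 0) = a) * (fillI (t 0 ∈ B) + fillI (t 1 ∈ B)) = 0
    · rw [Pi.add_apply, a5, zero_add] at a2
      obtain ⟨b, hb⟩ := fill_finsum_ne a2
      exact ⟨r2' a b t hb, fun i => Γ.ball_mono a (by omega) ((b2 a b).1 t hb i)⟩
    · have a3 := hN a1 (hr3.trans hr4) (right_ne_zero_of_mul a5)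
      have h := fillI_ne (left_ne_zero_of_mul a5)
      exact ⟨⟨_, a3 _, h⟩, st_ball a1 (h ▸ hp1 _ (a3 _)) (by omega)⟩
  have c1 : ∀ a t, Γ.Small r2 t → cob (C1 a) t = 0 := by
    intro a t ht
    have hd := st_double (f := fun b c => F3 (C3 a b c) t) (Γ.ball_finite (t 0) D3)
      (fun b c => by rw [y3']) (fun b => by rw [y3, y3', y3, d3, z3]; rfl)
      fun b c h => by rw [mem_ball, d_comm]; exact b3' a b c t h 0
    simp only [hC1]
    rw [cob_fillRes _ ht, cob_add, Pi.add_apply, fill_cob_finsum (b2' a),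
      finsum_congr fun b => ((b2 a b).2 t ht).trans (fillRes_of _ (ht.mono hr3))]
    simp only [Pi.add_apply]
    rw [finsum_add_distrib (stE2_fin _ _ _ _) hd.1, hd.2, stE2_sum,
      fill_cob2 fun x y => fillI (p x = a) * (fillI (x ∈ B) + fillI (y ∈ B))]
    ring_nf
    reduce_mod_char
  have b1 := fun a => hF1 a (C1 a) (fun t ht => (s1 a t ht).2) (c1 a)
  have key : ∀ x, ∑ᶠ a, F1 (C1 a) (fun _ => x) ≠ 0 → x ∈ Γ.nb (D1 + D + R) (Γ.bd B) := by
    intro x hx
    obtain ⟨a, ha⟩ := fill_finsum_ne hx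
    obtain ⟨s, hs⟩ := Function.ne_iff.1 fun h : C1 a = 0 => ha (by rw [h, z1]; rfl)
    obtain ⟨y, hy, e⟩ := (s1 a s hs).1
    have a1 : Γ.d a x ≤ D1 := (b1 a).1 _ ha 0
    have a2 := hp1 y hy
    obtain ⟨v, hv, a3⟩ := hy
    have a4 := Γ.d_tri x a v
    have a5 := Γ.d_tri a y v
    rw [e, d_comm] at a2
    rw [d_comm] at a1
    exact ⟨v, hv, by omega⟩
  refine (fill_side (Γ := Γ) B (b := fun t => ∑ᶠ a, F1 (C1 a) t) fun t ht => ?_).imp
    (fun h x hx => key x (h x hx)) fun h x hx => key x (h x hx)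
  have hd := st_double (f := fun a b => F2 (C2 a b) t) (Γ.ball_finite (t 0) D2)
    (fun a b => by rw [y2]) (fun a => by rw [d2, z2]; rfl)
    fun a b h => by rw [mem_ball, d_comm]; exact b2' a b t h 0
  rw [fill_cob_finsum fun a => (b1 a).1,
    finsum_congr fun a => ((b1 a).2 t ht).trans (fillRes_of _ (ht.mono hr2))]
  simp only [Pi.add_apply]
  rw [finsum_add_distrib (fill_fin_ind _ _) hd.1, hd.2, fill_sum_ind, add_zero]

end Gen

end Vale.Agent.P239
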