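import Vale.Agent.P239.Green
import Vale.Agent.P239.Iso
import Vale.Agent.P239.Col3
import Vale.Agent.P239.Stair

/-! Growth of coarsely separating subgroups, the base function, the standing situation. -/

namespace Vale.Agent.P239

open Filter Topology Set
open scoped Pointwise

namespace Gen

variable {G : Type} [Group G] {Γ : Gen G}

theorem StairAt.cubic {R : ℕ} (h : Γ.StairAt R) {H : Type} [Group H] (T : Gen H) (ι : H →* G)
    (hι : Function.Injective ι) {C : Set G} {ρ : ℕ} (hC : Γ.bd C ⊆ Γ.nb ρ (range ι))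
    (h1 : ∀ D, ¬ C ⊆ Γ.nb D (Γ.bd C)) (h2 : ∀ D, ¬ Cᶜ ⊆ Γ.nb D (Γ.bd C)) : T.Cubic := by
  by_contra hT
  obtain ⟨L, hL⟩ := (T.finite_iff_ball 1).1
    ((Γ.ball_finite 1 (2 * ρ + 3 * R)).preimage hι.injOn)
  obtain ⟨M, hM⟩ := (Γ.finite_iff_ball 1).1 (T.S.finite_toSet.image ι)
  obtain ⟨D, col, hcol⟩ := exists_col3 hT L
  have hd : ∀ n g g', T.d g g' = n → Γ.d (ι g) (ι g') ≤ M * n := by
    intro n
    induction n with
    | zero => exact fun g g' e => by simp [T.d_eq_zero.1 e]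
    | succ n ih =>
      intro g g' e
      obtain ⟨s, hs, e'⟩ := T.d_succ e
      have a1 := ih _ _ e'
      have a2 : Γ.d 1 (ι s) ≤ M := hM ⟨s, hs, rfl⟩
      have a3 := Γ.d_tri (ι g) (ι (g * s)) (ι g')
      rw [map_mul, d_mul_right, ← d_one, ← map_mul] at a3
      rw [mul_add]
      omega
  have hπ : ∀ x, ∃ g : H, x ∈ Γ.nb R (Γ.bd C) → Γ.d x (ι g) ≤ ρ + R := fun x => by
    by_cases hx : x ∈ Γ.nb R (Γ.bd C)
    · obtain ⟨z, hz, a1⟩ := hx
      obtain ⟨_, ⟨g, rfl⟩, a2⟩ := hC hz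
      exact ⟨g, fun _ => (Γ.d_tri x z _).trans (by omega)⟩
    · exact ⟨1, fun h => absurd h hx⟩
  choose π hπ using hπ
  obtain ⟨D', hD'⟩ := h (2 * (ρ + R) + M * D)
  refine (hD' C (fun x => col (π x)) fun i x y hx hxy => ?_).elim (h1 D') (h2 D')
  have a1 : T.Ch L (col ⁻¹' {i}) (π x) (π y) :=
    hxy.ind (p := fun y => T.Ch L (col ⁻¹' {i}) (π x) (π y)) (Ch.refl _ _ _)
      fun a b _ ha hb hab hp => hp.tail ha.2 hb.2 (by
        rw [d_eq_d_one]
        refine hL (show Γ.d 1 _ ≤ _ from ?_)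
        rw [map_mul, map_inv, ← d_eq_d_one]
        have b1 := hπ a ha.1
        have b2 := hπ b hb.1
        have b3 := Γ.d_tri (ι (π a)) a (ι (π b))
        have b4 := Γ.d_tri a b (ι (π b))
        rw [Γ.d_comm _ a] at b3
        omega)
  have a2 := (hd _ _ _ rfl).trans (Nat.mul_le_mul_left M (hcol i _ _ hx.2 a1))
  have b1 := hπ x hx.1
  have b2 := hπ y (hxy.mem hx).1
  have b3 := Γ.d_tri x (ι (π x)) y
  have b4 := Γ.d_tri (ι (π x)) (ι (π y)) y
  rw [Γ.d_comm (ι (π y)) y] at b4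
  omega

theorem basef_comp {A A' : Set G} (h : A ⊆ A') (x : G) : Γ.comp 1 A x ⊆ Γ.comp 1 A' x :=
  fun _ hy => ⟨h hy.1, hy.2.mono le_rfl h⟩

theorem basef_conn {A : Set G} {a b x : G} (ha : a ∈ A) (hx : x ∉ Γ.comp 1 (Γ.comp 1 A a)ᶜ b) :
    Γ.Ch 1 (Γ.comp 1 (Γ.comp 1 A a)ᶜ b)ᶜ a x := by
  have h1 : ∀ y ∈ Γ.comp 1 A a, Γ.Ch 1 (Γ.comp 1 (Γ.comp 1 A a)ᶜ b)ᶜ a y := fun y hy =>
    (hy.2.to_comp ha).mono le_rfl fun z hz h => comp_subset _ _ _ h hz
  by_cases h2 : x ∈ Γ.comp 1 A a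
  · exact h1 x h2
  have h3 : Γ.comp 1 (Γ.comp 1 A a)ᶜ x ⊆ (Γ.comp 1 (Γ.comp 1 A a)ᶜ b)ᶜ := fun y hy h =>
    hx ⟨h.1, h.2.trans hy.2.symm⟩
  obtain ⟨y, -, s, hs, -, h4, h5⟩ := (Γ.conn_univ x trivial a trivial).cross
    (B := Γ.comp 1 (Γ.comp 1 A a)ᶜ x) (mem_comp_self h2)
    fun h => comp_subset _ _ _ h (mem_comp_self ha)
  have h6 : y * s ∈ Γ.comp 1 A a := by
    by_contra hc
    exact h5 (mem_comp_of_near h4 hc (Γ.d_step y hs))
  refine ((h1 _ h6).tail (fun h => comp_subset _ _ _ h h6) (h3 h4) ?_).trans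
    ((h4.2.to_comp h2).mono le_rfl h3).symm
  rw [d_comm]
  exact Γ.d_step y hs

theorem basef_main {v : G → ℝ} (hv : Γ.Dir v) (hh : ∀ x, Γ.P v x = v x) {a b : G}
    (ha : v a = -1) (hb : v b = 2) : Nonempty Γ.Base := by
  have : Infinite G := not_finite_iff_infinite.1 fun _ => by
    have := Γ.max_principle (K := {y | 0 < v y}) (toFinite _)
      (fun h => by linarith [show 0 < v a from h.ge (mem_univ a)]) (fun x _ => (hh x).ge)
      (fun x _ s _ h => not_lt.1 h) b (by simp [hb])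
    linarith
  let C : ℝ → Set G := fun t => Γ.comp 1 {y | v y < t} a
  let B : ℝ → Set G := fun t => Γ.comp 1 (C t)ᶜ b
  let φ : G → ℝ := fun x => sSup (insert 0 {t ∈ Ioc 0 1 | x ∈ B t})
  have hC : ∀ t t', t ≤ t' → C t ⊆ C t' := fun t t' h =>
    basef_comp (fun y (hy : v y < t) => hy.trans_le h) a
  have hbdd : ∀ x, (1 : ℝ) ∈ upperBounds (insert 0 {t ∈ Ioc 0 1 | x ∈ B t}) := by
    rintro x t (rfl | ht)
    exacts [zero_le_one, ht.1.2]
  have h0 : ∀ x, 0 ≤ φ x := fun x => le_csSup ⟨1, hbdd x⟩ (mem_insert _ _)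
  have h1 : ∀ x, φ x ≤ 1 := fun x => csSup_le (insert_nonempty _ _) (hbdd x)
  have h2 : ∀ x, ∀ t ∈ Ioc 0 1, x ∈ B t → t ≤ φ x := fun x t ht hx =>
    le_csSup ⟨1, hbdd x⟩ (Or.inr ⟨ht, hx⟩)
  have h3 : ∀ x t, 0 < t → t < φ x → x ∈ B t := fun x t ht hx => by
    obtain ⟨t', rfl | h, h'⟩ := exists_lt_of_lt_csSup (insert_nonempty _ _) hx
    · exact absurd ht h'.not_gt
    · exact basef_comp (compl_subset_compl.2 (hC t t' h'.le)) b h.2
  have h4 : ∀ x ∈ C 0, φ x = 0 := fun x hx => by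
    by_contra hc
    have h5 := half_pos ((h0 x).lt_of_ne' hc)
    exact comp_subset _ _ _ (h3 x _ h5 (by linarith)) (hC _ _ h5.le hx)
  have h5 : ∀ x ∈ Γ.comp 1 {y | 1 < v y} b, φ x = 1 := fun x hx =>
    (h1 x).antisymm (h2 x 1 ⟨one_pos, le_rfl⟩ (basef_comp
      (fun y (hy : 1 < v y) h => hy.not_gt (comp_subset 1 {y | v y < 1} a h)) b hx))
  have h6 : ∀ x y, Γ.d x y ≤ 1 → φ x < φ y → φ y - φ x ≤ v y - v x := fun x y hd hxy => by
    have key : ∀ t, φ x < t → t < φ y → v x < t ∧ t ≤ v y := fun t a1 a2 => by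
      have a3 := h3 y t ((h0 x).trans_lt a1) a2
      have a4 : x ∈ C t := by
        by_contra hc
        exact a1.not_ge (h2 x t ⟨(h0 x).trans_lt a1, a2.le.trans (h1 y)⟩
          (mem_comp_of_near a3 hc (by rwa [d_comm])))
      exact ⟨comp_subset 1 {y | v y < t} a a4, not_lt.1 fun h =>
        comp_subset _ _ _ a3 (mem_comp_of_near a4 h hd)⟩
    refine sub_le_sub (not_lt.1 fun h => ?_) (not_lt.1 fun h => ?_)
    · obtain ⟨t, a1, a2⟩ := exists_between (max_lt h hxy)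
      exact (key t (max_lt_iff.1 a1).2 a2).2.not_gt (max_lt_iff.1 a1).1
    · obtain ⟨t, a1, a2⟩ := exists_between (lt_min h hxy)
      exact (key t a1 (lt_min_iff.1 a2).2).1.not_gt (lt_min_iff.1 a2).1
  refine ⟨⟨φ, a, b, h0, h1, h4 a (mem_comp_self (by simp [ha])),
    h5 b (mem_comp_self (by simp [hb])), (hv.of_le fun x s hs => ?_).1, fun r => ?_, fun r => ?_,
    Infinite.mono h4 ?_, Infinite.mono h5 (Γ.comp_level_infinite (fun x => (hh x).ge) (by simp [hb]))⟩⟩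
  · have hd := Γ.d_step x hs
    rcases lt_trichotomy (φ x) (φ (x * s)) with h | h | h
    · rw [abs_sub_comm, abs_sub_comm (v x), abs_of_pos (sub_pos.2 h)]
      exact (h6 _ _ hd h).trans (le_abs_self _)
    · simp [h]
    · rw [abs_of_pos (sub_pos.2 h)]
      exact (h6 _ _ (by rwa [d_comm]) h).trans (le_abs_self _)
  · rcases lt_or_ge r 0 with hr | hr
    · rw [eq_univ_of_forall fun x => (show x ∈ {x | r < φ x} from hr.trans_le (h0 x))]
      exact Γ.conn_univ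
    have key : ∀ x, r < φ x → Γ.Ch 1 {x | r < φ x} b x := fun x hx => by
      obtain ⟨t, a1, a2⟩ := exists_between hx
      have a3 := h3 x t (hr.trans_lt a1) a2
      exact (a3.2.to_comp a3.1).mono le_rfl fun y hy =>
        a1.trans_le (h2 y t ⟨hr.trans_lt a1, a2.le.trans (h1 x)⟩ hy)
    exact fun x hx y hy => (key x hx).symm.trans (key y hy)
  · rcases lt_or_ge 1 r with hr | hr
    · rw [eq_univ_of_forall fun x => (show x ∈ {x | φ x < r} from (h1 x).trans_lt hr)]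
      exact Γ.conn_univ
    have key : ∀ x, φ x < r → Γ.Ch 1 {x | φ x < r} a x := fun x hx => by
      obtain ⟨t, a1, a2⟩ := exists_between hx
      have a3 := (h0 x).trans_lt a1
      refine (basef_conn (A := {y | v y < t}) (b := b) (show v a < t by linarith)
        fun h => a1.not_ge (h2 x t ⟨a3, a2.le.trans hr⟩ h)).mono le_rfl fun y hy => ?_
      exact (not_lt.1 fun h => hy (h3 y t a3 h)).trans_lt a2
    exact fun x hx y hy => (key x hx).symm.trans (key y hy)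
  · have := Γ.comp_level_infinite (h := fun y => -v y) (a := 0) (x := a) (fun x => by
      rw [← hh x]
      simp [P, neg_div]) (by simp [ha])
    simpa only [neg_pos] using this

theorem exists_base {u : G → ℝ} (hu : Γ.Dir u) (hh : ∀ x, Γ.P u x = u x) {a b : G}
    (hab : u a ≠ u b) : Nonempty Γ.Base := by
  have h0 : u b - u a ≠ 0 := sub_ne_zero.2 hab.symm
  refine basef_main (v := fun x => 3 / (u b - u a) * (u x - u a) - 1) (a := a) (b := b)
    ((hu.mul_left ((3 / (u b - u a)) ^ 2)).congr fun x => ?_) (fun x => ?_) (by simp)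
    (by field_simp; ring)
  · simp only [gr, Finset.mul_sum]
    exact Finset.sum_congr rfl fun s _ => by ring
  · have := Γ.card_pos'
    rw [← hh x]
    simp only [P, Finset.sum_sub_distrib, ← Finset.mul_sum, Finset.sum_const, nsmul_eq_mul]
    field_simp

theorem Hyp.exists_wd (h : Γ.Hyp) (β : Γ.Base) : Nonempty (Wd G) := by
  obtain ⟨R₁, h1⟩ := exists_splitAt h.1 h.2.2.1
  obtain ⟨R₂, h2⟩ := exists_stairAt h.2.1 h.2.2.1 h.2.2.2
  have h3 := h2 (R₁ + R₂ + 1) (by omega)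
  have key : ∀ (D : ℕ) (c : ℝ), c = 0 ∨ c = 1 → {x | β.φ x = c}.Infinite →
      ∃ x, β.φ x = c ∧ x ∉ Γ.nb D (Γ.bd {x | 1 / 2 < β.φ x}) := fun D c hc hi => by
    obtain ⟨R, hR⟩ := β.dir.grad_small (D + 1) (η := 1 / 4) (by norm_num)
    obtain ⟨x, a1, a2⟩ := Γ.exists_far hi 1 R
    refine ⟨x, a1, fun ⟨z, ⟨s, hs, a3⟩, a4⟩ => ?_⟩
    have a5 := abs_le.1 (hR x z a2.le (by omega))
    have a6 := abs_le.1 (hR x (z * s) a2.le
      ((Γ.d_tri x z _).trans (add_le_add a4 (Γ.d_step z hs))))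
    rw [show β.φ x = c from a1] at a5 a6
    rcases hc with rfl | rfl
    · have := a3.2 (fun h : 1 / 2 < β.φ (z * s) => by linarith [a6.1])
      linarith [a5.1, show 1 / 2 < β.φ z from this]
    · exact a3.1 (show 1 / 2 < β.φ z by linarith [a5.2])
        (show 1 / 2 < β.φ (z * s) by linarith [a6.2])
  have h4 : Γ.Cubic := h3.cubic Γ (MonoidHom.id G) Function.injective_id
    (C := {x | 1 / 2 < β.φ x}) (ρ := 0) (fun x _ => ⟨x, ⟨x, rfl⟩, by simp⟩)
    (fun D hD => by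
      obtain ⟨x, a1, a2⟩ := key D 1 (Or.inr rfl) β.inf1
      exact a2 (hD (show 1 / 2 < β.φ x by linarith)))
    (fun D hD => by
      obtain ⟨x, a1, a2⟩ := key D 0 (Or.inl rfl) β.inf0
      exact a2 (hD fun h : 1 / 2 < β.φ x => by linarith))
  exact ⟨⟨Γ, β, R₁ + R₂ + 1, by omega, h.2.1.oneEnd, h1 _ (by omega), h3, h4.iso, h4.iso.cap⟩⟩

end Gen

end Vale.Agent.P239
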