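import Vale.Agent.P239.TDefs

/-! Local homology with coefficients in an arbitrary ring. -/

namespace Vale.Agent.P239

open Filter Topology Set

noncomputable section

variable {X : Type} [TopologicalSpace X]

/-- The chain `a ⊗ y` for an integral chain `y`. -/
def tens {R : Type} [Ring R] (a : R) {n : ℕ} : Sch ℤ X n →+ Sch R X n :=
  Finsupp.mapRange.addMonoidHom (zmultiplesHom R a)

/-- The natural operator given by a universal integral chain. -/
def opU (R : Type) [Ring R] (X : Type) [TopologicalSpace X] {n k : ℕ} (u : Sch ℤ (Sx n) k) :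
    Sch R X n →ₗ[R] Sch R X k :=
  Finsupp.linearCombination R fun σ : C(Sx n, X) => tens (1 : R) (push ℤ σ k u)

def RelG {R : Type} [Ring R] (D : Set X) {n : ℕ} (z : Sch R X (n + 1)) : Prop :=
  bd0 R X n z ∈ On R Dᶜ n

def NulG {R : Type} [Ring R] (D : Set X) {n : ℕ} (z : Sch R X n) : Prop :=
  ∃ y : Sch R X (n + 1), z - bd0 R X n y ∈ On R Dᶜ n

/-- `μ` freely generates the top local homology at `D` for all coefficient rings. -/
structure IsGen (D : Set X) (μ : Sch ℤ X 4) : Prop where
  rel : RelG D μ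
  ex : ∀ (R : Type) [Ring R] (z : Sch R X 4), RelG D z → ∃ a : R, NulG D (z - tens a μ)
  inj : ∀ (R : Type) [Ring R], ∀ x ∈ D, ∀ a : R, NulG {x} (tens a μ) → a = 0

structure LocG (D : Set X) : Prop where
  van : ∀ (R : Type) [Ring R] (q : ℕ), q ≠ 3 → ∀ z : Sch R X (q + 1), RelG D z → NulG D z
  top : ∃ μ, IsGen D μ

end

end Vale.Agent.P239
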