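import Vale.Agent.P239.Sing
import Vale.Agent.P239.GDefs

/-! Base change of integral chains and local homology over a ring. -/

namespace Vale.Agent.P239

open Filter Topology Set

variable {R : Type} [Ring R] {X Y : Type} [TopologicalSpace X] [TopologicalSpace Y] {n : ℕ}

theorem tens_single (a : R) (σ : C(Sx n, X)) (k : ℤ) :
    tens a (Finsupp.single σ k) = Finsupp.single σ (k • a) := by
  simp [tens, Finsupp.mapRange_single]

theorem tens_apply (a : R) (y : Sch ℤ X n) (σ : C(Sx n, X)) : tens a y σ = y σ • a := by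
  rfl

theorem tens_add (a b : R) (y : Sch ℤ X n) : tens (a + b) y = tens a y + tens b y := by
  ext σ
  simp only [tens_apply, Finsupp.add_apply, smul_add]

theorem tens_sub (a b : R) (y : Sch ℤ X n) : tens (a - b) y = tens a y - tens b y := by
  ext σ
  simp only [tens_apply, Finsupp.sub_apply, smul_sub]

theorem tens_zero (y : Sch ℤ X n) : tens (0 : R) y = 0 := by
  ext σ
  simp only [tens_apply, smul_zero, Finsupp.zero_apply]

theorem smul_tens (c a : R) (y : Sch ℤ X n) : c • tens a y = tens (c * a) y := by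
  ext σ
  simp only [tens_apply, Finsupp.smul_apply, smul_eq_mul, mul_smul_comm]

theorem tens_zsmul (k : ℤ) (a : R) (y : Sch ℤ X n) : tens a (k • y) = tens (k • a) y := by
  ext σ
  simp only [tens_apply, Finsupp.smul_apply, smul_eq_mul, smul_smul, mul_comm]

theorem tens_int (k : ℤ) (y : Sch ℤ X n) : tens k y = k • y := by
  ext σ
  simp only [tens_apply, Finsupp.smul_apply, smul_eq_mul, mul_comm]

theorem bd0_tens (a : R) (y : Sch ℤ X (n + 1)) : bd0 R X n (tens a y) = tens a (bd0 ℤ X n y) := by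
  induction y using Finsupp.induction_linear with
  | zero => simp only [map_zero]
  | add f g hf hg => simp only [map_add, hf, hg]
  | single σ k =>
    rw [tens_single, bd0_single, bd0_single, map_sum]
    simp only [map_zsmul, tens_single]

theorem aug_tens (a : R) (y : Sch ℤ X 0) : aug R X (tens a y) = aug ℤ X y • a := by
  induction y using Finsupp.induction_linear with
  | zero => simp only [map_zero, zero_smul]
  | add f g hf hg => simp only [map_add, hf, hg, add_smul]
  | single σ k => rw [tens_single, aug_single, aug_single]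

theorem push_tens (f : C(X, Y)) (a : R) (y : Sch ℤ X n) :
    push R f n (tens a y) = tens a (push ℤ f n y) := by
  induction y using Finsupp.induction_linear with
  | zero => simp only [map_zero]
  | add f g hf hg => simp only [map_add, hf, hg]
  | single σ k => rw [tens_single, push_single, push_single, tens_single]

theorem singG_support_tens (a : R) (y : Sch ℤ X n) : (tens a y).support ⊆ y.support := by
  intro σ hσ
  rw [Finsupp.mem_support_iff] at hσ ⊢
  intro h
  exact hσ (by rw [tens_apply, h, zero_smul])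

theorem tens_mem_On {U : Set X} (a : R) {y : Sch ℤ X n} (h : y ∈ On ℤ U n) :
    tens a y ∈ On R U n := by
  exact mem_On.2 fun σ hσ => mem_On.1 h σ (singG_support_tens a y hσ)

theorem tens_mem_Sm {𝒰 : Set (Set X)} (a : R) {y : Sch ℤ X n} (h : y ∈ Sm ℤ 𝒰 n) :
    tens a y ∈ Sm R 𝒰 n := by
  exact mem_Sm.2 fun σ hσ => mem_Sm.1 h σ (singG_support_tens a y hσ)

theorem opU_single {k : ℕ} (u : Sch ℤ (Sx n) k) (σ : C(Sx n, X)) (a : R) :
    opU R X u (Finsupp.single σ a) = tens a (push ℤ σ k u) := by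
  rw [opU, Finsupp.linearCombination_single, smul_tens, mul_one]

theorem singG_push_range {k : ℕ} (f : C(X, Y)) (u : Sch R X k) :
    push R f k u ∈ On R (range f) k := by
  refine push_mem_On (U := univ) f (fun x _ => mem_range_self x) ?_
  rw [On_univ]
  trivial

theorem opU_mem_On {k : ℕ} (u : Sch ℤ (Sx n) k) {U : Set X} {z : Sch R X n} (h : z ∈ On R U n) :
    opU R X u z ∈ On R U k := by
  refine sing_map_supported (opU R X u) (fun σ hσ => ?_) h
  rw [opU_single]
  exact tens_mem_On _ (On_mono hσ (singG_push_range σ u))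

theorem opU_mem_Sm {k : ℕ} (u : Sch ℤ (Sx n) k) {𝒰 : Set (Set X)} {z : Sch R X n}
    (h : z ∈ Sm R 𝒰 n) : opU R X u z ∈ Sm R 𝒰 k := by
  refine sing_map_supported (opU R X u) (fun σ hσ => ?_) h
  obtain ⟨U, hU, hσ⟩ := hσ
  rw [opU_single]
  exact On_le_Sm hU (tens_mem_On _ (On_mono hσ (singG_push_range σ u)))

theorem rel_iff {D : Set X} {z : Sch F2 X (n + 1)} : Rel D z ↔ RelG D z := Iff.rfl

theorem nul_iff {D : Set X} {z : Sch F2 X n} : Nul D z ↔ NulG D z := Iff.rfl

theorem RelG.mono {D D' : Set X} {z : Sch R X (n + 1)} (h : RelG D z) (hD : D' ⊆ D) :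
    RelG D' z := by
  exact On_mono (compl_subset_compl.2 hD) h

theorem NulG.mono {D D' : Set X} {z : Sch R X n} (h : NulG D z) (hD : D' ⊆ D) : NulG D' z := by
  obtain ⟨y, hy⟩ := h
  exact ⟨y, On_mono (compl_subset_compl.2 hD) hy⟩

theorem RelG.add {D : Set X} {z z' : Sch R X (n + 1)} (h : RelG D z) (h' : RelG D z') :
    RelG D (z + z') := by
  rw [RelG, map_add]
  exact add_mem h h'

theorem RelG.sub {D : Set X} {z z' : Sch R X (n + 1)} (h : RelG D z) (h' : RelG D z') :
    RelG D (z - z') := by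
  rw [RelG, map_sub]
  exact sub_mem h h'

theorem RelG.smul {D : Set X} {z : Sch R X (n + 1)} (h : RelG D z) (c : R) : RelG D (c • z) := by
  rw [RelG, map_smul]
  exact Submodule.smul_mem _ c h

theorem RelG.tens {D : Set X} {y : Sch ℤ X (n + 1)} (h : RelG D y) (a : R) :
    RelG D (tens a y) := by
  rw [RelG, bd0_tens]
  exact tens_mem_On a h

theorem NulG.add {D : Set X} {z z' : Sch R X n} (h : NulG D z) (h' : NulG D z') :
    NulG D (z + z') := by
  obtain ⟨y, hy⟩ := h
  obtain ⟨y', hy'⟩ := h'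
  refine ⟨y + y', ?_⟩
  rw [map_add, add_sub_add_comm]
  exact add_mem hy hy'

theorem NulG.sub {D : Set X} {z z' : Sch R X n} (h : NulG D z) (h' : NulG D z') :
    NulG D (z - z') := by
  obtain ⟨y, hy⟩ := h
  obtain ⟨y', hy'⟩ := h'
  refine ⟨y - y', ?_⟩
  rw [map_sub, sub_sub_sub_comm]
  exact sub_mem hy hy'

theorem NulG.neg {D : Set X} {z : Sch R X n} (h : NulG D z) : NulG D (-z) := by
  obtain ⟨y, hy⟩ := h
  refine ⟨-y, ?_⟩
  rw [map_neg, ← neg_sub']
  exact neg_mem hy

theorem NulG.smul {D : Set X} {z : Sch R X n} (h : NulG D z) (c : R) : NulG D (c • z) := by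
  obtain ⟨y, hy⟩ := h
  refine ⟨c • y, ?_⟩
  rw [map_smul, ← smul_sub]
  exact Submodule.smul_mem _ c hy

theorem NulG.tens {D : Set X} {y : Sch ℤ X n} (h : NulG D y) (a : R) : NulG D (tens a y) := by
  obtain ⟨w, hw⟩ := h
  refine ⟨Vale.Agent.P239.tens a w, ?_⟩
  rw [bd0_tens, ← map_sub]
  exact tens_mem_On a hw

theorem NulG.rel {D : Set X} {z : Sch R X (n + 1)} (h : NulG D z) : RelG D z := by
  obtain ⟨y, hy⟩ := h
  have := bd0_mem_On hy
  rwa [map_sub, bd0_bd0, sub_zero] at this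

theorem nulG_of_On {D : Set X} {z : Sch R X n} (h : z ∈ On R Dᶜ n) : NulG D z := by
  exact ⟨0, by simpa using h⟩

theorem nulG_bd0 (D : Set X) (y : Sch R X (n + 1)) : NulG D (bd0 R X n y) := by
  exact ⟨y, by simp⟩

theorem singG_mapsTo (e : X ≃ₜ Y) (D : Set X) : MapsTo (e : C(X, Y)) Dᶜ (e '' D)ᶜ := by
  rintro x hx ⟨y, hy, h⟩
  exact hx (e.injective h ▸ hy)

theorem singG_push_symm (e : X ≃ₜ Y) (z : Sch R X n) :
    push R (e.symm : C(Y, X)) n (push R (e : C(X, Y)) n z) = z := sing_push_symm e.symm z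

theorem singG_image_symm (e : X ≃ₜ Y) (D : Set X) : e.symm '' (e '' D) = D := by
  rw [image_image]
  simp

theorem RelG.push {D : Set X} {z : Sch R X (n + 1)} (h : RelG D z) (e : X ≃ₜ Y) :
    RelG (e '' D) (push R (e : C(X, Y)) (n + 1) z) := by
  rw [RelG, bd0_push]
  exact push_mem_On _ (singG_mapsTo e D) h

theorem NulG.push {D : Set X} {z : Sch R X n} (h : NulG D z) (e : X ≃ₜ Y) :
    NulG (e '' D) (push R (e : C(X, Y)) n z) := by
  obtain ⟨y, hy⟩ := h
  refine ⟨Vale.Agent.P239.push R (e : C(X, Y)) (n + 1) y, ?_⟩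
  rw [bd0_push, ← map_sub]
  exact push_mem_On _ (singG_mapsTo e D) hy

theorem singG_nhds [T2Space X] {x : X} {z : Sch R X n} (h : z ∈ On R {x}ᶜ n) :
    ∃ U ∈ 𝓝 x, z ∈ On R Uᶜ n := by
  obtain ⟨K, hK, hc, hz⟩ := exists_compact h
  exact ⟨Kᶜ, hc.isClosed.isOpen_compl.mem_nhds fun hx => hK hx rfl, by rwa [compl_compl]⟩

/-- Relative cycles at a point are relative cycles at a neighbourhood. -/
theorem RelG.exists_nhds [T2Space X] {x : X} {z : Sch R X (n + 1)} (h : RelG {x} z) :
    ∃ U ∈ 𝓝 x, RelG U z := by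
  exact singG_nhds h

theorem NulG.exists_nhds [T2Space X] {x : X} {z : Sch R X n} (h : NulG {x} z) :
    ∃ U ∈ 𝓝 x, NulG U z := by
  obtain ⟨y, hy⟩ := h
  obtain ⟨U, hU, h⟩ := singG_nhds hy
  exact ⟨U, hU, y, h⟩

theorem LocG.nul_iff {D : Set X} (h : LocG D) {z : Sch R X 4} (hz : RelG D z) {x : X}
    (hx : x ∈ D) : NulG {x} z ↔ NulG D z := by
  refine ⟨fun h1 => ?_, fun h1 => h1.mono (singleton_subset_iff.2 hx)⟩
  obtain ⟨μ, hμ⟩ := h.top
  obtain ⟨a, ha⟩ := hμ.ex R z hz
  have h2 := h1.sub (ha.mono (singleton_subset_iff.2 hx))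
  rw [sub_sub_cancel] at h2
  rwa [hμ.inj R x hx a h2, tens_zero, sub_zero] at ha

theorem IsGen.homeo {D : Set X} {μ : Sch ℤ X 4} (h : IsGen D μ) (e : X ≃ₜ Y) :
    IsGen (e '' D) (push ℤ (e : C(X, Y)) 4 μ) := by
  refine ⟨h.rel.push e, fun R _ z hz => ?_, ?_⟩
  · have h1 := hz.push e.symm
    rw [singG_image_symm] at h1
    obtain ⟨a, ha⟩ := h.ex R _ h1
    have h2 := ha.push e
    rw [map_sub, sing_push_symm, push_tens] at h2
    exact ⟨a, h2⟩
  · rintro R _ _ ⟨x, hx, rfl⟩ a ha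
    have h1 := ha.push e.symm
    rw [← image_singleton, singG_image_symm, ← push_tens, singG_push_symm] at h1
    exact h.inj R x hx a h1

theorem LocG.homeo {D : Set X} (h : LocG D) (e : X ≃ₜ Y) : LocG (e '' D) := by
  refine ⟨fun R _ q hq z hz => ?_, ?_⟩
  · have h1 := hz.push e.symm
    rw [singG_image_symm] at h1
    have h2 := (h.van R q hq _ h1).push e
    rwa [sing_push_symm] at h2
  · obtain ⟨μ, hμ⟩ := h.top
    exact ⟨_, hμ.homeo e⟩

theorem LocG.loc {D : Set X} (h : LocG D) : Loc D := by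
  refine ⟨fun q hq z hz => h.van F2 q hq z hz, ?_⟩
  obtain ⟨μ, hμ⟩ := h.top
  refine ⟨tens (1 : F2) μ, hμ.rel.tens 1, fun x hx h1 => one_ne_zero (hμ.inj F2 x hx 1 h1),
    fun z hz => ?_⟩
  obtain ⟨a, ha⟩ := hμ.ex F2 z hz
  have : ∀ a : ZMod 2, a = 0 ∨ a = 1 := by decide
  rcases this a with rfl | rfl
  · left
    rwa [tens_zero, sub_zero] at ha
  · right
    rwa [sub_eq_add_two] at ha

end Vale.Agent.P239
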