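import Vale.Agent.P239.Defs

/-! Word metric, chains, components, boundaries. -/

namespace Vale.Agent.P239

open Filter Topology Set
open scoped Pointwise

namespace Gen

variable {G : Type} [Group G] (Γ : Gen G)

theorem card_pos : 0 < Γ.S.card := Finset.card_pos.2 ⟨1, Γ.one_mem⟩

theorem card_pos' : (0 : ℝ) < Γ.S.card := Nat.cast_pos.2 Γ.card_pos

theorem one_le_card' : (1 : ℝ) ≤ Γ.S.card := Nat.one_le_cast.2 Γ.card_pos

theorem δ0_pos : 0 < Γ.δ0 := by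
  have := Γ.card_pos'
  unfold δ0
  positivity

theorem δ0_le : Γ.δ0 ≤ 1 / 2 := by
  have := Γ.one_le_card'
  unfold δ0
  exact one_div_le_one_div_of_le (by norm_num) (by linarith)

theorem len_spec (x : G) : ∃ l : List G, (∀ s ∈ l, s ∈ Γ.S) ∧ l.prod = x ∧ l.length = Γ.len x := by
  obtain ⟨l, h1, h2⟩ := Γ.gen x
  exact Nat.sInf_mem (s := {n | ∃ l : List G, (∀ s ∈ l, s ∈ Γ.S) ∧ l.prod = x ∧ l.length = n})
    ⟨l.length, l, h1, h2, rfl⟩

theorem len_le {l : List G} (h : ∀ s ∈ l, s ∈ Γ.S) : Γ.len l.prod ≤ l.length :=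
  Nat.sInf_le ⟨l, h, rfl, rfl⟩

theorem len_mul (x y : G) : Γ.len (x * y) ≤ Γ.len x + Γ.len y := by
  obtain ⟨l, h1, h2, h3⟩ := Γ.len_spec x
  obtain ⟨m, k1, k2, k3⟩ := Γ.len_spec y
  have := Γ.len_le (l := l ++ m) (by
    intro s hs
    rcases List.mem_append.1 hs with h | h
    exacts [h1 s h, k1 s h])
  rwa [List.prod_append, List.length_append, h2, k2, h3, k3] at this

theorem len_inv_le (x : G) : Γ.len x⁻¹ ≤ Γ.len x := by
  obtain ⟨l, h1, h2, h3⟩ := Γ.len_spec x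
  have := Γ.len_le (l := (l.map fun s => s⁻¹).reverse) (by
    intro s hs
    obtain ⟨t, ht, rfl⟩ := List.mem_map.1 (List.mem_reverse.1 hs)
    exact Γ.inv_mem t (h1 t ht))
  rwa [← List.prod_inv_reverse, List.length_reverse, List.length_map, h2, h3] at this

theorem len_inv (x : G) : Γ.len x⁻¹ = Γ.len x :=
  le_antisymm (Γ.len_inv_le x) (by simpa using Γ.len_inv_le x⁻¹)

theorem len_eq_zero {x : G} : Γ.len x = 0 ↔ x = 1 := by
  constructor
  · intro h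
    obtain ⟨l, -, h2, h3⟩ := Γ.len_spec x
    rw [h, List.length_eq_zero_iff] at h3
    simp [← h2, h3]
  · rintro rfl
    exact Nat.le_zero.1 (by simpa using Γ.len_le (l := []) (by simp))

theorem len_le_one {x : G} : Γ.len x ≤ 1 ↔ x ∈ Γ.S := by
  constructor
  · intro h
    obtain ⟨l, h1, h2, h3⟩ := Γ.len_spec x
    rw [← h3] at h
    match l, h1, h2, h with
    | [], _, h2, _ => simpa [← h2] using Γ.one_mem
    | [a], h1, h2, _ => simpa [← h2] using h1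
  · intro h
    simpa using Γ.len_le (l := [x]) (by simpa using h)

@[simp] theorem d_self (x : G) : Γ.d x x = 0 := by simp [d, len_eq_zero]

theorem d_comm (x y : G) : Γ.d x y = Γ.d y x := by
  rw [d, d, ← Γ.len_inv, mul_inv_rev, inv_inv]

theorem d_tri (x y z : G) : Γ.d x z ≤ Γ.d x y + Γ.d y z := by
  have := Γ.len_mul (x⁻¹ * y) (y⁻¹ * z)
  rwa [mul_assoc, mul_inv_cancel_left] at this

@[simp] theorem d_mul_left (g x y : G) : Γ.d (g * x) (g * y) = Γ.d x y := by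
  simp [d, mul_assoc]

theorem d_eq_zero {x y : G} : Γ.d x y = 0 ↔ x = y := by
  rw [d, len_eq_zero, inv_mul_eq_one]

theorem d_one (x : G) : Γ.d 1 x = Γ.len x := by simp [d]

theorem d_mul_right (x g : G) : Γ.d x (x * g) = Γ.len g := by simp [d]

theorem d_eq_d_one (x y : G) : Γ.d x y = Γ.d 1 (x⁻¹ * y) := by simp [d]

theorem d_step (x : G) {s : G} (hs : s ∈ Γ.S) : Γ.d x (x * s) ≤ 1 := by
  rw [d_mul_right]
  exact Γ.len_le_one.2 hs

theorem d_le_one {x y : G} : Γ.d x y ≤ 1 ↔ ∃ s ∈ Γ.S, y = x * s := by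
  constructor
  · intro h
    exact ⟨x⁻¹ * y, Γ.len_le_one.1 h, by simp⟩
  · rintro ⟨s, hs, rfl⟩
    exact Γ.d_step x hs

theorem d_succ {x y : G} {n : ℕ} (h : Γ.d x y = n + 1) : ∃ s ∈ Γ.S, Γ.d (x * s) y = n := by
  obtain ⟨l, h1, h2, h3⟩ := Γ.len_spec (x⁻¹ * y)
  rw [show Γ.len (x⁻¹ * y) = n + 1 from h] at h3
  match l, h1, h2, h3 with
  | a :: m, h1, h2, h3 =>
    have ha : a ∈ Γ.S := h1 a (by simp)
    refine ⟨a, ha, le_antisymm ?_ ?_⟩
    · have := Γ.len_le (l := m) fun s hs => h1 s (by simp [hs])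
      have e : m.prod = (x * a)⁻¹ * y := by
        rw [mul_inv_rev, mul_assoc, ← h2, List.prod_cons, inv_mul_cancel_left]
      rw [e] at this
      simp only [List.length_cons, Nat.add_right_cancel_iff] at h3
      exact h3 ▸ this
    · have := Γ.d_tri x (x * a) y
      have := Γ.d_step x ha
      omega

theorem mem_ball {x y : G} {n : ℕ} : y ∈ Γ.ball x n ↔ Γ.d x y ≤ n := Iff.rfl

theorem mem_ball_self (x : G) (n : ℕ) : x ∈ Γ.ball x n := by simp [mem_ball]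

theorem ball_mono (x : G) {m n : ℕ} (h : m ≤ n) : Γ.ball x m ⊆ Γ.ball x n :=
  fun _ hy => le_trans hy h

theorem ball_finite (x : G) (n : ℕ) : (Γ.ball x n).Finite := by
  induction n generalizing x with
  | zero => exact (finite_singleton x).subset fun y hy => (Γ.d_eq_zero.1 (Nat.le_zero.1 hy)).symm
  | succ n ih =>
    refine ((ih x).union (Γ.S.finite_toSet.biUnion fun s _ => ih (x * s))).subset fun y hy => ?_
    rcases Nat.lt_or_ge (Γ.d x y) (n + 1) with h | h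
    · exact Or.inl (Nat.lt_succ_iff.1 h)
    · obtain ⟨s, hs, h'⟩ := Γ.d_succ (le_antisymm hy h)
      exact Or.inr (mem_biUnion hs h'.le)

theorem smul_ball (g x : G) (n : ℕ) : g • Γ.ball x n = Γ.ball (g * x) n := by
  ext y
  rw [mem_smul_set_iff_inv_smul_mem, mem_ball, mem_ball, ← Γ.d_mul_left g, smul_eq_mul,
    mul_inv_cancel_left]

theorem ncard_ball (x : G) (n : ℕ) : (Γ.ball x n).ncard = (Γ.ball 1 n).ncard := by
  rw [← mul_one x, ← smul_ball, ncard_smul_set]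

include Γ in
theorem countable : Countable G := by
  rw [← countable_univ_iff]
  refine (countable_iUnion fun n => (Γ.ball_finite 1 n).countable).mono fun x _ => ?_
  exact mem_iUnion.2 ⟨Γ.d 1 x, Γ.mem_ball.2 le_rfl⟩

theorem finite_iff_ball {A : Set G} (x : G) : A.Finite ↔ ∃ n, A ⊆ Γ.ball x n := by
  constructor
  · intro h
    obtain ⟨n, hn⟩ := (h.image (Γ.d x)).bddAbove
    exact ⟨n, fun y hy => hn ⟨y, hy, rfl⟩⟩
  · rintro ⟨n, hn⟩
    exact (Γ.ball_finite x n).subset hn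

theorem exists_far {A : Set G} (hA : A.Infinite) (x : G) (n : ℕ) : ∃ y ∈ A, n < Γ.d x y := by
  obtain ⟨y, hy, h⟩ := hA.exists_notMem_finite (Γ.ball_finite x n)
  exact ⟨y, hy, not_le.1 h⟩

theorem tendsto_d (x : G) : Tendsto (Γ.d x) cofinite atTop :=
  tendsto_atTop.2 fun n => (Γ.ball_finite x n).subset fun y hy =>
    Γ.mem_ball.2 (not_le.1 (show ¬ n ≤ Γ.d x y from hy)).le

theorem subset_nb (R : ℕ) (Z : Set G) : Z ⊆ Γ.nb R Z := fun x hx => ⟨x, hx, by simp⟩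

theorem nb_mono {R R' : ℕ} {Z Z' : Set G} (hR : R ≤ R') (hZ : Z ⊆ Z') : Γ.nb R Z ⊆ Γ.nb R' Z' :=
  fun _ ⟨z, hz, h⟩ => ⟨z, hZ hz, h.trans hR⟩

theorem nb_finite (R : ℕ) {Z : Set G} (hZ : Z.Finite) : (Γ.nb R Z).Finite :=
  (hZ.biUnion fun z _ => Γ.ball_finite z R).subset fun _ ⟨z, hz, h⟩ =>
    mem_biUnion hz (by rwa [mem_ball, d_comm])

theorem smul_nb (g : G) (R : ℕ) (Z : Set G) : g • Γ.nb R Z = Γ.nb R (g • Z) := by
  ext y
  rw [mem_smul_set_iff_inv_smul_mem]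
  constructor
  · rintro ⟨z, hz, h⟩
    refine ⟨g * z, smul_mem_smul_set hz, ?_⟩
    rwa [← Γ.d_mul_left g, smul_eq_mul, mul_inv_cancel_left] at h
  · rintro ⟨_, ⟨z, hz, rfl⟩, h⟩
    refine ⟨z, hz, ?_⟩
    rwa [← Γ.d_mul_left g, smul_eq_mul, mul_inv_cancel_left]

/-! ### chains -/

variable {Γ}

theorem Ch.refl (R : ℕ) (A : Set G) (x : G) : Γ.Ch R A x x := Relation.ReflTransGen.refl

theorem Ch.single {R : ℕ} {A : Set G} {x y : G} (hx : x ∈ A) (hy : y ∈ A) (h : Γ.d x y ≤ R) :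
    Γ.Ch R A x y := Relation.ReflTransGen.single ⟨hx, hy, h⟩

theorem Ch.trans {R : ℕ} {A : Set G} {x y z : G} (h : Γ.Ch R A x y) (h' : Γ.Ch R A y z) :
    Γ.Ch R A x z := Relation.ReflTransGen.trans h h'

theorem Ch.tail {R : ℕ} {A : Set G} {x y z : G} (h : Γ.Ch R A x y) (hy : y ∈ A) (hz : z ∈ A)
    (hd : Γ.d y z ≤ R) : Γ.Ch R A x z := h.trans (Ch.single hy hz hd)

theorem Ch.symm {R : ℕ} {A : Set G} {x y : G} (h : Γ.Ch R A x y) : Γ.Ch R A y x := by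
  induction h with
  | refl => exact Ch.refl _ _ _
  | tail _ k ih => exact (Ch.single k.2.1 k.1 (by rw [d_comm]; exact k.2.2)).trans ih

theorem Ch.mono {R R' : ℕ} {A A' : Set G} {x y : G} (h : Γ.Ch R A x y) (hR : R ≤ R')
    (hA : A ⊆ A') : Γ.Ch R' A' x y := by
  induction h with
  | refl => exact Ch.refl _ _ _
  | tail _ k ih => exact ih.tail (hA k.1) (hA k.2.1) (k.2.2.trans hR)

theorem Ch.mem {R : ℕ} {A : Set G} {x y : G} (h : Γ.Ch R A x y) (hx : x ∈ A) : y ∈ A := by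
  induction h with
  | refl => exact hx
  | tail _ k _ => exact k.2.1

/-- Induction along a chain. -/
theorem Ch.ind {R : ℕ} {A : Set G} {p : G → Prop} {x y : G} (h : Γ.Ch R A x y) (hx : p x)
    (hs : ∀ a b, Γ.Ch R A x a → a ∈ A → b ∈ A → Γ.d a b ≤ R → p a → p b) : p y := by
  induction h with
  | refl => exact hx
  | tail k1 k ih => exact hs _ _ k1 k.1 k.2.1 k.2.2 ih

/-- Induction along an edge path. -/
theorem Ch.ind_one {A : Set G} {p : G → Prop} {x y : G} (h : Γ.Ch 1 A x y) (hx : p x)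
    (hs : ∀ a ∈ A, ∀ s ∈ Γ.S, a * s ∈ A → p a → p (a * s)) : p y :=
  h.ind hx fun a b _ ha hb hd hp => by
    obtain ⟨s, hs', rfl⟩ := Γ.d_le_one.1 hd
    exact hs a ha s hs' hb hp

theorem Ch.smul {R : ℕ} {A : Set G} {x y : G} (h : Γ.Ch R A x y) (g : G) :
    Γ.Ch R (g • A) (g * x) (g * y) :=
  h.ind (p := fun y => Γ.Ch R (g • A) (g * x) (g * y)) (Ch.refl _ _ _) fun _ _ _ ha hb hd hp =>
    hp.tail (smul_mem_smul_set ha) (smul_mem_smul_set hb) (by rwa [d_mul_left])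

/-- A chain uses only finitely many points. -/
theorem Ch.exists_finite {R : ℕ} {A : Set G} {x y : G} (h : Γ.Ch R A x y) :
    ∃ F ⊆ A, F.Finite ∧ Γ.Ch R F x y :=
  h.ind (p := fun y => ∃ F ⊆ A, F.Finite ∧ Γ.Ch R F x y)
    ⟨∅, empty_subset _, finite_empty, Ch.refl _ _ _⟩ fun a b _ ha hb hd ⟨F, h1, h2, h3⟩ =>
    ⟨F ∪ {a, b}, union_subset h1 (by rintro _ (rfl | rfl) <;> assumption),
      h2.union (toFinite _), (h3.mono le_rfl subset_union_left).tail (by simp) (by simp) hd⟩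

/-- A chain from `x` stays in the component of `x`. -/
theorem Ch.to_comp {R : ℕ} {A : Set G} {x y : G} (h : Γ.Ch R A x y) (hx : x ∈ A) :
    Γ.Ch R (Γ.comp R A x) x y :=
  h.ind (p := fun y => Γ.Ch R (Γ.comp R A x) x y) (Ch.refl _ _ _) fun _ _ k ha hb hd hp =>
    hp.tail ⟨hx, k⟩ ⟨hx, k.tail ha hb hd⟩ hd

theorem comp_subset (R : ℕ) (A : Set G) (x : G) : Γ.comp R A x ⊆ A := fun _ h => h.2.mem h.1

theorem mem_comp_self {R : ℕ} {A : Set G} {x : G} (hx : x ∈ A) : x ∈ Γ.comp R A x :=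
  ⟨hx, Ch.refl _ _ _⟩

theorem mem_comp_of_near {R : ℕ} {A : Set G} {x y z : G} (hy : y ∈ Γ.comp R A x) (hz : z ∈ A)
    (h : Γ.d y z ≤ R) : z ∈ Γ.comp R A x := ⟨hy.1, hy.2.tail (comp_subset _ _ _ hy) hz h⟩

theorem conn_comp (A : Set G) (x : G) : Γ.Conn (Γ.comp 1 A x) := fun _ hy _ hz =>
  (hy.2.to_comp hy.1).symm.trans (hz.2.to_comp hz.1)

theorem smul_comp (g : G) (R : ℕ) (A : Set G) (x : G) :
    g • Γ.comp R A x = Γ.comp R (g • A) (g * x) := by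
  ext y
  rw [mem_smul_set_iff_inv_smul_mem]
  constructor
  · rintro ⟨h1, h2⟩
    exact ⟨smul_mem_smul_set h1, by simpa using h2.smul g⟩
  · rintro ⟨h1, h2⟩
    exact ⟨smul_mem_smul_set_iff.1 h1, by simpa using h2.smul g⁻¹⟩

theorem Conn.smul {A : Set G} (h : Γ.Conn A) (g : G) : Γ.Conn (g • A) := by
  rintro _ ⟨x, hx, rfl⟩ _ ⟨y, hy, rfl⟩
  exact (h x hx y hy).smul g

variable (Γ)

/-- Geodesics. -/
theorem ch_geod (x y : G) : Γ.Ch 1 {w | Γ.d x w + Γ.d w y ≤ Γ.d x y} x y := by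
  induction h : Γ.d x y generalizing x with
  | zero =>
    rw [Γ.d_eq_zero.1 h]
    exact Ch.refl _ _ _
  | succ n ih =>
    obtain ⟨s, hs, h'⟩ := Γ.d_succ h
    have h1 := Γ.d_step x hs
    refine (Ch.single (y := x * s) (by simp [h]) (by simp only [mem_setOf_eq]; omega) h1).trans
      ((ih _ h').mono le_rfl fun w hw => ?_)
    have := Γ.d_tri x (x * s) w
    simp only [mem_setOf_eq] at hw ⊢
    omega

theorem ch_ball {c x : G} {n : ℕ} (hx : x ∈ Γ.ball c n) : Γ.Ch 1 (Γ.ball c n) c x :=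
  (Γ.ch_geod c x).mono le_rfl fun w hw => by
    simp only [mem_setOf_eq, mem_ball] at hw hx ⊢
    omega

theorem conn_ball (c : G) (n : ℕ) : Γ.Conn (Γ.ball c n) := fun _ hx _ hy =>
  (Γ.ch_ball hx).symm.trans (Γ.ch_ball hy)

theorem conn_univ : Γ.Conn univ := fun x _ y _ => (Γ.ch_geod x y).mono le_rfl (subset_univ _)

/-! ### boundaries -/

@[simp] theorem bd_compl (B : Set G) : Γ.bd Bᶜ = Γ.bd B := by
  ext x
  simp only [bd, mem_setOf_eq, mem_compl_iff]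
  exact exists_congr fun s => and_congr_right fun _ => by tauto

theorem mem_bd_of_near {B : Set G} {x y : G} (hx : x ∈ B) (hy : y ∉ B) (h : Γ.d x y ≤ 1) :
    x ∈ Γ.bd B ∧ y ∈ Γ.bd B := by
  obtain ⟨s, hs, rfl⟩ := Γ.d_le_one.1 h
  exact ⟨⟨s, hs, by tauto⟩, ⟨s⁻¹, Γ.inv_mem s hs, by simpa [hx] using hy⟩⟩

theorem mem_bd_iff {B : Set G} {x : G} :
    x ∈ Γ.bd B ↔ ∃ y, Γ.d x y ≤ 1 ∧ (x ∈ B ↔ y ∉ B) :=
  ⟨fun ⟨s, hs, h⟩ => ⟨x * s, Γ.d_step x hs, h⟩, fun ⟨_, h1, h2⟩ => by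
    obtain ⟨s, hs, rfl⟩ := Γ.d_le_one.1 h1
    exact ⟨s, hs, h2⟩⟩

theorem iff_of_notMem_bd {B : Set G} {x s : G} (hx : x ∉ Γ.bd B) (hs : s ∈ Γ.S) :
    x ∈ B ↔ x * s ∈ B := by
  by_contra h
  exact hx ⟨s, hs, by tauto⟩

theorem smul_bd (g : G) (B : Set G) : g • Γ.bd B = Γ.bd (g • B) := by
  ext x
  simp only [mem_smul_set_iff_inv_smul_mem, bd, mem_setOf_eq, smul_eq_mul, mul_assoc]

theorem bd_inter_subset (A B : Set G) : Γ.bd (A ∩ B) ⊆ Γ.bd A ∪ Γ.bd B := by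
  rintro x ⟨s, hs, h⟩
  by_contra hc
  rw [mem_union, not_or] at hc
  have h1 := Γ.iff_of_notMem_bd hc.1 hs
  have h2 := Γ.iff_of_notMem_bd hc.2 hs
  simp only [mem_inter_iff] at h
  tauto

theorem bd_union_subset (A B : Set G) : Γ.bd (A ∪ B) ⊆ Γ.bd A ∪ Γ.bd B := by
  rw [← bd_compl, compl_union, ← Γ.bd_compl A, ← Γ.bd_compl B]
  exact Γ.bd_inter_subset _ _

theorem bd_symmDiff_subset (A B : Set G) : Γ.bd (symmDiff A B) ⊆ Γ.bd A ∪ Γ.bd B := by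
  rintro x ⟨s, hs, h⟩
  by_contra hc
  rw [mem_union, not_or] at hc
  have h1 := Γ.iff_of_notMem_bd hc.1 hs
  have h2 := Γ.iff_of_notMem_bd hc.2 hs
  simp only [mem_symmDiff] at h
  tauto

theorem bd_subset_nb (B : Set G) : Γ.bd B ⊆ Γ.nb 1 B := by
  rintro x ⟨s, hs, h⟩
  by_cases hx : x ∈ B
  · exact ⟨x, hx, by simp⟩
  · exact ⟨x * s, by tauto, Γ.d_step x hs⟩

theorem bd_finite {B : Set G} (h : B.Finite) : (Γ.bd B).Finite :=
  (Γ.nb_finite 1 h).subset (Γ.bd_subset_nb B)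

theorem bd_comp_subset (A : Set G) (x : G) : Γ.bd (Γ.comp 1 A x) ⊆ Γ.bd A := by
  rintro y ⟨s, hs, h⟩
  by_contra hc
  have h1 := Γ.iff_of_notMem_bd hc hs
  have hd := Γ.d_step y hs
  by_cases hy : y ∈ Γ.comp 1 A x
  · exact h.1 hy (mem_comp_of_near hy (h1.1 (comp_subset _ _ _ hy)) hd)
  · have hy' : y * s ∈ Γ.comp 1 A x := by tauto
    exact hy (mem_comp_of_near hy' (h1.2 (comp_subset _ _ _ hy')) (by rwa [d_comm]))

variable {Γ}

/-- An edge path from `B` to its complement crosses the wall. -/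
theorem Ch.cross {A B : Set G} {x y : G} (h : Γ.Ch 1 A x y) (hx : x ∈ B) (hy : y ∉ B) :
    ∃ a ∈ A, ∃ s ∈ Γ.S, a * s ∈ A ∧ a ∈ B ∧ a * s ∉ B := by
  by_contra hc
  refine hy (h.ind_one (p := fun y => y ∈ B) hx fun a ha s hs has hp => ?_)
  by_contra hn
  exact hc ⟨a, ha, s, hs, has, hp, hn⟩

theorem Conn.subset_or {K B : Set G} (hK : Γ.Conn K) (h : Disjoint K (Γ.bd B)) :
    K ⊆ B ∨ K ⊆ Bᶜ := by
  by_contra hc
  rw [not_or, not_subset, not_subset] at hc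
  obtain ⟨⟨y, hy, hy'⟩, x, hx, hx'⟩ := hc
  obtain ⟨a, ha, s, hs, -, h1, h2⟩ := (hK x hx y hy).cross (not_not.1 hx') hy'
  exact disjoint_left.1 h ha ⟨s, hs, by tauto⟩

variable (Γ)

theorem exists_bd_between {B : Set G} {x y : G} (hx : x ∈ B) (hy : y ∉ B) :
    ∃ v ∈ Γ.bd B, v ∈ B ∧ Γ.d x v + Γ.d v y ≤ Γ.d x y := by
  obtain ⟨a, ha, s, hs, -, h1, h2⟩ := (Γ.ch_geod x y).cross hx hy
  exact ⟨a, ⟨s, hs, by tauto⟩, h1, ha⟩

/-- A connected set minus a finite set is a finite union of components. -/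
theorem Conn.finite_comps {Γ : Gen G} {K F : Set G} (hK : Γ.Conn K) (hF : F.Finite) :
    ∃ Q ⊆ K \ F, Q.Finite ∧ K \ F ⊆ ⋃ q ∈ Q, Γ.comp 1 (K \ F) q := by
  rcases (K ∩ F).eq_empty_or_nonempty with h0 | ⟨f, hfK, hfF⟩
  · have e : K \ F = K := sdiff_eq_left.2 (disjoint_iff_inter_eq_empty.2 h0)
    rcases K.eq_empty_or_nonempty with rfl | ⟨q, hq⟩
    · exact ⟨∅, by simp, by simp, by simp⟩
    · refine ⟨{q}, by simpa [e] using hq, toFinite _, fun x hx => ?_⟩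
      rw [e] at hx ⊢
      exact mem_biUnion (mem_singleton q) ⟨hq, hK q hq x hx⟩
  · refine ⟨(K \ F) ∩ Γ.nb 1 F, inter_subset_left, (Γ.nb_finite 1 hF).subset inter_subset_right,
      fun x hx => ?_⟩
    obtain ⟨a, -, s, hs, has, h1, h2⟩ := (hK x hx.1 f hfK).cross (B := Γ.comp 1 (K \ F) x)
      (mem_comp_self hx) fun h => (comp_subset _ _ _ h).2 hfF
    have hF' : a * s ∈ F := by
      by_contra hn
      exact h2 (mem_comp_of_near h1 ⟨has, hn⟩ (Γ.d_step a hs))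
    have ha := comp_subset _ _ _ h1
    exact mem_biUnion (⟨ha, a * s, hF', Γ.d_step a hs⟩ : a ∈ (K \ F) ∩ Γ.nb 1 F) ⟨ha, h1.2.symm⟩

theorem Conn.exists_inf {Γ : Gen G} {K F : Set G} (hK : Γ.Conn K) (hi : K.Infinite)
    (hF : F.Finite) : ∃ K' ⊆ K \ F, Γ.Conn K' ∧ K'.Infinite := by
  obtain ⟨Q, -, h2, h3⟩ := hK.finite_comps hF
  by_contra hc
  refine (hi.diff hF) ((h2.biUnion fun q _ => ?_).subset h3)
  by_contra hq
  exact hc ⟨_, comp_subset _ _ _, conn_comp _ q, hq⟩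

theorem Conn.exists_comp_mem {Γ : Gen G} {K F : Set G} (hK : Γ.Conn K) (hF : F.Finite)
    (u : Ultrafilter G) (hu : (u : Filter G) ≤ cofinite) (hKu : K ∈ u) :
    ∃ q ∈ K \ F, Γ.comp 1 (K \ F) q ∈ u := by
  obtain ⟨Q, h1, h2, h3⟩ := hK.finite_comps hF
  have : (⋃ q ∈ Q, Γ.comp 1 (K \ F) q) ∈ u :=
    mem_of_superset (inter_mem hKu (hu hF.compl_mem_cofinite)) h3
  obtain ⟨q, hq, h⟩ := (Ultrafilter.finite_biUnion_mem_iff h2).1 this
  exact ⟨q, h1 hq, h⟩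

theorem smul_Sp (g : G) (R : ℕ) (A C : Set G) : g • Γ.Sp R A C = Γ.Sp R (g • A) (g • C) := by
  have e : ∀ (x : G) (p : G → Prop),
      (∃ y ∈ Γ.ball (g⁻¹ * x) R, p y) ↔ ∃ y ∈ Γ.ball x R, p (g⁻¹ * y) := fun x p =>
    ⟨fun ⟨y, h1, h2⟩ => ⟨g * y, by
        rwa [mem_ball, ← Γ.d_mul_left g⁻¹, inv_mul_cancel_left], by simpa using h2⟩,
      fun ⟨y, h1, h2⟩ => ⟨g⁻¹ * y, by rwa [mem_ball, d_mul_left], h2⟩⟩
  ext x
  simp only [Sp, ← smul_bd, mem_smul_set_iff_inv_smul_mem, mem_setOf_eq, smul_eq_mul, e]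

@[simp] theorem Sp_compl_left (R : ℕ) (A C : Set G) : Γ.Sp R Aᶜ C = Γ.Sp R A C := by
  ext x
  simp only [Sp, mem_setOf_eq, mem_compl_iff, not_not]
  tauto

@[simp] theorem Sp_compl_right (R : ℕ) (A C : Set G) : Γ.Sp R A Cᶜ = Γ.Sp R A C := by
  simp only [Sp, bd_compl]

theorem Sp_subset_nb (R : ℕ) (A C : Set G) : Γ.Sp R A C ⊆ Γ.bd C ∩ Γ.nb R (Γ.bd A) := by
  rintro w ⟨h1, ⟨x, hx, hxA⟩, y, hy, hyA⟩
  refine ⟨h1, ?_⟩
  rw [mem_ball] at hx hy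
  by_cases hw : w ∈ A
  · obtain ⟨v, hv, -, h⟩ := Γ.exists_bd_between hw hyA
    exact ⟨v, hv, by omega⟩
  · obtain ⟨v, hv, -, h⟩ := Γ.exists_bd_between (B := Aᶜ) hw (not_not.2 hxA)
    exact ⟨v, by simpa using hv, by omega⟩

theorem CutAt.compl {Γ : Gen G} {A C Z : Set G} {x : G} (h : Γ.CutAt A C Z x) :
    Γ.CutAt A C Zᶜ x := fun s hs => by
  have := h s hs
  simp only [mem_compl_iff]
  tauto

/-- Splitting when the overlap lies in a ball. -/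
theorem SplitAt.ball {Γ : Gen G} {R : ℕ} (h : Γ.SplitAt R) (ρ : ℕ) : ∃ ρ' : ℕ,
    ∀ (A C : Set G) (c : G), Γ.Sp R A C ⊆ Γ.ball c ρ →
      ∃ Z : Set G, ∀ x, ρ' < Γ.d c x → Γ.CutAt A C Z x := by
  obtain ⟨D', hD⟩ := h (2 * ρ)
  refine ⟨ρ + D', fun A C c hc => ?_⟩
  obtain ⟨Z, hZ⟩ := hD A C fun w hw w' hw' => by
    have h1 : Γ.d c w ≤ ρ := hc hw
    have h2 : Γ.d c w' ≤ ρ := hc (hw'.mem hw)
    have := Γ.d_tri w c w'
    rw [Γ.d_comm w c] at this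
    omega
  refine ⟨Z, fun x hx => hZ x fun w hw => ?_⟩
  have h1 : Γ.d c w ≤ ρ := hc hw
  have := Γ.d_tri c w x
  rw [Γ.d_comm w x] at this
  omega

/-- Splitting without overlap. -/
theorem SplitAt.empty {Γ : Gen G} {R : ℕ} (h : Γ.SplitAt R) {A C : Set G}
    (hs : Γ.Sp R A C = ∅) : ∃ Z : Set G, ∀ x, Γ.CutAt A C Z x := by
  obtain ⟨D', hD⟩ := h 0
  obtain ⟨Z, hZ⟩ := hD A C (by simp [hs])
  exact ⟨Z, fun x => hZ x (by simp [hs])⟩

/-- Splitting with finite overlap. -/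
theorem SplitAt.finite {Γ : Gen G} {R : ℕ} (h : Γ.SplitAt R) {A C : Set G}
    (hs : (Γ.Sp R A C).Finite) : ∃ Z : Set G, {x | ¬ Γ.CutAt A C Z x}.Finite := by
  obtain ⟨ρ, hρ⟩ := (Γ.finite_iff_ball 1).1 hs
  obtain ⟨ρ', h'⟩ := h.ball ρ
  obtain ⟨Z, hZ⟩ := h' A C 1 hρ
  exact ⟨Z, (Γ.ball_finite 1 ρ').subset fun x hx => not_lt.1 fun k => hx (hZ x k)⟩

end Gen

namespace Wd

variable {G : Type} [Group G] (w : Wd G)

theorem ph_nonneg (i : G × Bool) (x : G) : 0 ≤ w.ph i x := by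
  unfold ph
  split_ifs
  exacts [w.β.nonneg _, sub_nonneg.2 (w.β.le_one _)]

theorem ph_le_one (i : G × Bool) (x : G) : w.ph i x ≤ 1 := by
  unfold ph
  split_ifs
  exacts [w.β.le_one _, sub_le_self _ (w.β.nonneg _)]

theorem ph_mul (g : G) (i : G × Bool) (x : G) : w.ph (g * i.1, i.2) (g * x) = w.ph i x := by
  simp [ph, mul_assoc]

theorem ph_not (i : G × Bool) (x : G) : w.ph (i.1, !i.2) x = 1 - w.ph i x := by
  obtain ⟨h, b⟩ := i
  cases b <;> simp [ph]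

theorem abs_ph_sub (i : G × Bool) (x y : G) :
    |w.ph i x - w.ph i y| = |w.β.φ (i.1⁻¹ * x) - w.β.φ (i.1⁻¹ * y)| := by
  unfold ph
  split_ifs
  · rfl
  · rw [abs_sub_comm]
    congr 1
    ring

theorem abs_ph_sub_xs (ξ : G → ℝ) (i : G × Bool) (x : G) :
    |w.ph i x - xs ξ i| = |w.β.φ (i.1⁻¹ * x) - ξ i.1| := by
  unfold ph xs
  split_ifs
  · rfl
  · rw [abs_sub_comm]
    congr 1
    ring

theorem xs_ph (z : G) (i : G × Bool) : xs (fun h => w.β.φ (h⁻¹ * z)) i = w.ph i z := rfl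

theorem smul_U (g : G) (i : G × Bool) (r : ℝ) : g • w.U i r = w.U (g * i.1, i.2) r := by
  ext x
  rw [mem_smul_set_iff_inv_smul_mem, U, U, mem_setOf_eq, mem_setOf_eq, ← w.ph_mul g, smul_eq_mul,
    mul_inv_cancel_left]

theorem conn_U (i : G × Bool) (r : ℝ) : w.Γ.Conn (w.U i r) := by
  obtain ⟨h, b⟩ := i
  have : w.U (h, b) r = h • w.U (1, b) r := by simp [smul_U]
  rw [this]
  refine Gen.Conn.smul ?_ h
  cases b
  · convert w.β.conn_lt (1 - r) using 1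
    ext x
    simp [U, ph, lt_sub_comm]
  · convert w.β.conn_gt r using 1
    ext x
    simp [U, ph]

theorem exists_ph_one : ∃ L : ℕ, ∀ i : G × Bool, ∃ x ∈ w.Γ.ball i.1 L, w.ph i x = 1 := by
  refine ⟨max (w.Γ.len w.β.o0) (w.Γ.len w.β.o1), fun ⟨h, b⟩ => ?_⟩
  cases b
  · exact ⟨h * w.β.o0, by simp [Gen.mem_ball, Gen.d_mul_right], by simp [ph, w.β.at0]⟩
  · exact ⟨h * w.β.o1, by simp [Gen.mem_ball, Gen.d_mul_right], by simp [ph, w.β.at1]⟩

theorem infinite_ph_one (i : G × Bool) : {x | w.ph i x = 1}.Infinite := by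
  obtain ⟨h, b⟩ := i
  cases b
  · refine (w.β.inf0.image (mul_right_injective h).injOn).mono ?_
    rintro _ ⟨x, hx, rfl⟩
    simpa [ph] using hx
  · refine (w.β.inf1.image (mul_right_injective h).injOn).mono ?_
    rintro _ ⟨x, hx, rfl⟩
    simpa [ph] using hx

include w in
theorem infinite : Infinite G := infinite_univ_iff.1 (w.β.inf1.mono (subset_univ _))

end Wd

end Vale.Agent.P239
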