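import Vale.Agent.P239.Htpy
import Vale.Agent.P239.Word
import Vale.Agent.P239.SingG

/-! From the algebraic key property to the vanishing of the first homology dimension. -/

namespace Vale.Agent.P239

open Filter Topology Set

theorem extDim_eq_zero {N : Type} [Ring N] {tr : N → ℝ} (h0 : tr 0 = 0) {M : Type}
    [AddCommGroup M] [Module N M] (h : ∀ (m : M) (a : N), a ≠ 0 → ∃ x : N, x * a ≠ 0 ∧ x • m = 0) :
    extDim tr M = 0 := by
  simp only [extDim, ENNReal.iSup_eq_zero]
  rintro n A - ⟨f, hf⟩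
  have hA : ∀ i, A i i = 0 := fun i => by_contra fun hi => by
    obtain ⟨x, h1, h2⟩ := h (f ⟨_, Pi.single i 1, rfl⟩) _ hi
    rw [← map_smul, map_eq_zero_iff f hf] at h2
    have h3 := congrFun (congrArg Subtype.val h2) i
    simp only [SetLike.mk_smul_mk, Matrix.vecMulLinear_apply, Matrix.single_one_vecMul] at h3
    exact h1 h3
  simp only [hA, h0, Finset.sum_const_zero, ENNReal.ofReal_zero]

theorem betti_sec {Γ Y : Type} [Group Γ] [MulAction Γ Y]
    (hfree : ∀ (g : Γ) (y : Y), g • y = y → g = 1) :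
    ∃ v : Y → Γ, ∀ g y, v (g • y) = g * v y := by
  have h : ∀ y : Y, ∃ g : Γ, g • (Quotient.mk (MulAction.orbitRel Γ Y) y).out = y := fun y =>
    (MulAction.orbitRel Γ Y).symm (Quotient.mk_out y)
  choose v hv using h
  refine ⟨v, fun g y => ?_⟩
  have h1 := hv (g • y)
  rw [Quotient.sound (s := MulAction.orbitRel Γ Y) (a := g • y) (b := y) ⟨g, rfl⟩] at h1
  refine (inv_mul_eq_one.1 (hfree _ (Quotient.mk (MulAction.orbitRel Γ Y) y).out ?_)).symm
  rw [mul_smul, h1, inv_smul_eq_iff, mul_smul, hv]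

/-- the boundary map of the Cayley graph -/
noncomputable def bettiD {Γ : Type} [Group Γ] (S : Gen Γ) (r : Γ → Γ →₀ ℤ) : Γ →₀ ℤ :=
  ∑ s ∈ S.S, (Finsupp.mapDomain (fun g => g * s) (r s) - r s)

theorem betti_path {Γ : Type} [Group Γ] (S : Gen Γ) (g h : Γ) :
    ∃ r, bettiD S r = Finsupp.single h 1 - Finsupp.single g 1 := by
  classical
  obtain ⟨l, hl, e⟩ := S.gen (g⁻¹ * h)
  obtain rfl : h = g * l.prod := by rw [e, mul_inv_cancel_left]
  clear e
  induction l generalizing g with
  | nil => exact ⟨0, by simp [bettiD]⟩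
  | cons s l ih =>
    obtain ⟨r, hr⟩ := ih (g * s) fun t ht => hl t (List.mem_cons_of_mem _ ht)
    refine ⟨r + Pi.single s (Finsupp.single g 1), ?_⟩
    rw [List.prod_cons, ← mul_assoc, ← sub_add_sub_cancel _ (Finsupp.single (g * s) 1), ← hr]
    simp only [bettiD, Pi.add_apply, Finsupp.mapDomain_add, add_sub_add_comm,
      Finset.sum_add_distrib]
    rw [Finset.sum_eq_single_of_mem s (hl s List.mem_cons_self) (f := fun t =>
      Finsupp.mapDomain _ (Pi.single (M := fun _ => Γ →₀ ℤ) s _ t) - _) fun t _ ht => by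
        rw [Pi.single_eq_of_ne ht, Finsupp.mapDomain_zero, sub_zero],
      Pi.single_eq_same, Finsupp.mapDomain_single]

section

variable {Γ X N : Type} [Group Γ] [TopologicalSpace X] [MulAction Γ X] [ContinuousConstSMul Γ X]
  [Ring N] (ι : Γ → N) {n k : ℕ}

/-- translation of integral chains -/
noncomputable def bettiAct (g : Γ) (n : ℕ) : Sch ℤ X n →ₗ[ℤ] Sch ℤ X n :=
  push ℤ ⟨fun x => g • x, continuous_const_smul g⟩ n

theorem bettiAct_single (g : Γ) (σ : C(Sx n, X)) (a : ℤ) :
    bettiAct g n (Finsupp.single σ a) = Finsupp.single (g • σ) a := push_single _ _ _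

theorem bettiAct_mul (g h : Γ) (y : Sch ℤ X n) :
    bettiAct (g * h) n y = bettiAct g n (bettiAct h n y) := by
  induction y using Finsupp.induction_linear with
  | zero => simp only [map_zero]
  | add f g hf hg => simp only [map_add, hf, hg]
  | single σ a => simp only [bettiAct_single, mul_smul]

theorem betti_bdry (y : Sch N X (n + 1)) :
    bdry ι X n ((rel ι X (n + 1)).mkQ y) = (rel ι X n).mkQ (bd0 N X n y) := rfl

theorem betti_single (g : Γ) (σ : C(Sx n, X)) (a : N) : (rel ι X n).mkQ (Finsupp.single (g • σ) a) =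
    (rel ι X n).mkQ (Finsupp.single σ (a * ι g)) :=
  (Submodule.Quotient.eq _).2 (Submodule.subset_span ⟨g, σ, a, rfl⟩)

theorem betti_tens_act (g : Γ) (a : N) (y : Sch ℤ X n) :
    (rel ι X n).mkQ (tens a (bettiAct g n y)) = (rel ι X n).mkQ (tens (a * ι g) y) := by
  induction y using Finsupp.induction_linear with
  | zero => simp only [map_zero]
  | add f g hf hg => simp only [map_add, hf, hg]
  | single σ a => rw [bettiAct_single, tens_single, tens_single, betti_single, smul_mul_assoc]

theorem betti_tens_lc (a : N) (y : Sch ℤ X n) (r : Γ →₀ ℤ) :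
    (rel ι X n).mkQ (tens a (Finsupp.linearCombination ℤ (fun g => bettiAct g n y) r)) =
      (a * Finsupp.linearCombination ℤ ι r) • (rel ι X n).mkQ (tens 1 y) := by
  induction r using Finsupp.induction_linear with
  | zero => simp only [map_zero, mul_zero, zero_smul]
  | add f g hf hg => simp only [map_add, hf, hg, mul_add, add_smul]
  | single g c =>
    rw [Finsupp.linearCombination_single, Finsupp.linearCombination_single, map_zsmul, map_zsmul,
      betti_tens_act, mul_smul_comm, smul_assoc, ← map_smul _ (a * ι g), smul_tens, mul_one]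

theorem betti_kill {M : Type} [AddCommGroup M] [Module N M] {F : C(Sx n, X) → M}
    (hF : ∀ (g : Γ) σ, F (g • σ) = ι g • F σ) {z : Sch N X n} (hz : z ∈ rel ι X n) :
    Finsupp.linearCombination N F z = 0 := by
  refine (Submodule.span_le.2 ?_ : rel ι X n ≤ LinearMap.ker (Finsupp.linearCombination N F)) hz
  rintro _ ⟨g, σ, a, rfl⟩
  rw [SetLike.mem_coe, LinearMap.mem_ker, map_sub, Finsupp.linearCombination_single,
    Finsupp.linearCombination_single, hF, mul_smul, sub_self]

theorem betti_lc_tens {M : Type} [AddCommGroup M] [Module N M] (F : C(Sx n, X) → M) (a : N)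
    (y : Sch ℤ X n) :
    Finsupp.linearCombination N F (tens a y) = a • Finsupp.linearCombination ℤ F y := by
  induction y using Finsupp.induction_linear with
  | zero => simp only [map_zero, smul_zero]
  | add f g hf hg => simp only [map_add, hf, hg, smul_add]
  | single σ c =>
    rw [tens_single, Finsupp.linearCombination_single, Finsupp.linearCombination_single,
      smul_assoc, smul_comm]

theorem betti_lc {α M M' Φ : Type} [AddCommGroup M] [AddCommGroup M'] [FunLike Φ M M']
    [AddMonoidHomClass Φ M M'] (φ : Φ) (F : α → M) (r : α →₀ ℤ) :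
    φ (Finsupp.linearCombination ℤ F r) = Finsupp.linearCombination ℤ (fun i => φ (F i)) r := by
  simp only [Finsupp.linearCombination_apply, map_finsuppSum, map_zsmul]

end

theorem hml_smul_eq_zero {Γ X N : Type} [Group Γ] [TopologicalSpace X] [MulAction Γ X]
    [ContinuousConstSMul Γ X] [Ring N] (ι : Γ → N) (n : ℕ) (m : Hml ι X (n + 1)) :
    ∃ z : Chn ι X (n + 1), bdry ι X n z = 0 ∧
      ∀ x : N, (∃ y, bdry ι X (n + 1) y = x • z) → x • m = 0 := by
  obtain ⟨z, rfl⟩ := Submodule.Quotient.mk_surjective _ m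
  exact ⟨z.1, z.2, fun x hx => (Submodule.Quotient.mk_eq_zero _ (x := x • z)).2 hx⟩

theorem hml_tors {Γ X N : Type} [Group Γ] [TopologicalSpace X] [MulAction Γ X]
    [ContinuousConstSMul Γ X] [ContractibleSpace X] (hfree : ∀ (g : Γ) (x : X), g • x = x → g = 1)
    [Ring N] (ι : Γ → N) (h1 : ι 1 = 1) (hmul : ∀ g h, ι (g * h) = ι g * ι h) (S : Gen Γ)
    (hkey : ∀ z : Γ → N, ∑ s ∈ S.S, z s * (ι s - 1) = 0 → ∀ a : N, a ≠ 0 →
      ∃ x : N, x * a ≠ 0 ∧ ∃ (n : ℕ) (y : Fin n → N) (r : Fin n → Γ → (Γ →₀ ℤ)),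
        (∀ j, ∑ s ∈ S.S, (Finsupp.mapDomain (fun g => g * s) (r j s) - r j s) = 0) ∧
        ∀ s ∈ S.S, x * z s = ∑ j, y j * (r j s).sum fun g k => k • ι g)
    (m : Hml ι X 1) (a : N) (ha : a ≠ 0) : ∃ x : N, x * a ≠ 0 ∧ x • m = 0 := by
  obtain ⟨z, hz, H⟩ := hml_smul_eq_zero ι 0 m
  obtain ⟨z, rfl⟩ := (rel ι X 1).mkQ_surjective z
  replace hz : bd0 N X 0 z ∈ rel ι X 0 := (Submodule.Quotient.mk_eq_zero _).1 hz
  let p0 : C(Sx 0, X) := ContinuousMap.const _ (Classical.arbitrary X)
  obtain ⟨v, hv⟩ := betti_sec (Γ := Γ) (Y := C(Sx 0, X)) fun g σ h =>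
    hfree g _ (DFunLike.congr_fun h (Classical.arbitrary _))
  have hp : ∀ y : C(Sx 0, X), ∃ w, bd0 ℤ X 0 w = Finsupp.single y 1 - Finsupp.single p0 1 :=
    fun y => acyclic_zero _ (by rw [map_sub, aug_single, aug_single, sub_self])
  choose p hp using hp
  have hq : ∀ (g : Γ) (y : C(Sx 0, X)), bd0 ℤ X 0 (bettiAct g 1 (p y)) =
      Finsupp.single (g • y) 1 - Finsupp.single (g • p0) 1 := fun g y => by
    rw [bettiAct, bd0_push, hp, ← bettiAct, map_sub, bettiAct_single, bettiAct_single]
  let E : (Γ → Γ →₀ ℤ) → Sch ℤ X 1 := fun r => ∑ s ∈ S.S,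
    Finsupp.linearCombination ℤ (fun g => bettiAct g 1 (p (s • p0))) (r s)
  have hE : ∀ r, bd0 ℤ X 0 (E r) =
      Finsupp.linearCombination ℤ (fun g => Finsupp.single (g • p0) 1) (bettiD S r) := fun r => by
    simp only [E, bettiD, map_sum, map_sub, Finsupp.linearCombination_mapDomain, betti_lc, hq]
    refine Finset.sum_congr rfl fun s _ => ?_
    simp only [Finsupp.linearCombination_apply, smul_sub, Finsupp.sum_sub, Function.comp_apply,
      mul_smul]
  have hE' : ∀ (b : N) r, (rel ι X 1).mkQ (tens b (E r)) = ∑ s ∈ S.S,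
      (b * Finsupp.linearCombination ℤ ι (r s)) • (rel ι X 1).mkQ (tens 1 (p (s • p0))) :=
    fun b r => by
      simp only [E, map_sum, betti_tens_lc]
  have hc : ∀ σ : C(Sx 1, X), ∃ r, bettiD S r =
      Finsupp.mapDomain v (bd0 ℤ X 0 (Finsupp.single σ 1)) := fun σ => by
    rw [bd0_single, Fin.sum_univ_two]
    simp only [Fin.val_zero, Fin.val_one, pow_zero, pow_one, one_smul, neg_smul, ← sub_eq_add_neg,
      Finsupp.mapDomain_sub, Finsupp.mapDomain_single]
    exact betti_path S _ _
  choose c hc using hc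
  let h0 : C(Sx 0, X) → Sch ℤ X 1 := fun y => bettiAct (v y) 1 (p ((v y)⁻¹ • y))
  have hh : ∀ σ : C(Sx 1, X), ∃ w, bd0 ℤ X 1 w = Finsupp.single σ 1 - E (c σ) -
      Finsupp.linearCombination ℤ h0 (bd0 ℤ X 0 (Finsupp.single σ 1)) := fun σ => by
    refine acyclic _ ?_
    rw [map_sub, map_sub, hE, hc, betti_lc, Finsupp.linearCombination_mapDomain]
    simp only [h0, hq, smul_inv_smul, Finsupp.linearCombination_apply, smul_sub, Finsupp.sum_sub,
      Finsupp.smul_single_one, Finsupp.sum_single, Function.comp_apply, sub_self]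
  choose h2 hh using hh
  let Z : Γ → Sch N X 1 →ₗ[N] N := fun s =>
    Finsupp.linearCombination N fun σ => Finsupp.linearCombination ℤ ι (c σ s)
  have e1 : ∀ w : Sch N X 1, ∑ s ∈ S.S, Z s w * (ι s - 1) =
      Finsupp.linearCombination N (fun y => ι (v y)) (bd0 N X 0 w) := fun w => by
    induction w using Finsupp.induction_linear with
    | zero => simp only [map_zero, zero_mul, Finset.sum_const_zero]
    | add f g hf hg => simp only [map_add, add_mul, Finset.sum_add_distrib, hf, hg]
    | single σ b =>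
      have e := congrArg (Finsupp.linearCombination ℤ ι) (hc σ)
      rw [Finsupp.linearCombination_mapDomain] at e
      conv_rhs => rw [← one_smul ℤ b, ← tens_single, bd0_tens, betti_lc_tens]
      refine Eq.trans ?_ (congrArg (b • ·) e)
      simp only [Z, Finsupp.linearCombination_single, bettiD, map_sum, map_sub, smul_eq_mul,
        Finset.mul_sum, mul_assoc, Finsupp.linearCombination_mapDomain]
      refine Finset.sum_congr rfl fun s _ => congrArg _ ?_
      simp only [mul_sub, mul_one, Finsupp.linearCombination_apply, Finsupp.sum_mul,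
        Function.comp_apply, hmul, smul_mul_assoc]
  have e2 : ∀ w : Sch N X 1, (rel ι X 1).mkQ w =
      bdry ι X 1 (Finsupp.linearCombination N (fun σ => (rel ι X 2).mkQ (tens 1 (h2 σ))) w) +
      ∑ s ∈ S.S, Z s w • (rel ι X 1).mkQ (tens 1 (p (s • p0))) +
      Finsupp.linearCombination N (fun y => (rel ι X 1).mkQ (tens 1 (h0 y))) (bd0 N X 0 w) :=
    fun w => by
      induction w using Finsupp.induction_linear with
      | zero => simp only [map_zero, zero_smul, Finset.sum_const_zero, add_zero]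
      | add f g hf hg =>
        simp only [map_add, add_smul, Finset.sum_add_distrib]
        rw [hf, hg]
        abel
      | single σ b =>
        have e : Finsupp.single σ b = tens b (Finsupp.single σ 1) := by rw [tens_single, one_smul]
        rw [Finsupp.linearCombination_single, ← map_smul, smul_tens, mul_one, betti_bdry, bd0_tens,
          hh, map_sub, map_sub, map_sub, map_sub, hE', ← e]
        simp only [Z, Finsupp.linearCombination_single, smul_eq_mul]
        rw [sub_right_comm, sub_add_cancel, e, bd0_tens, betti_lc_tens, ← betti_lc, ← betti_lc, ← map_smul,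
          smul_tens, mul_one, sub_add_cancel]
  obtain ⟨x, hx, n, y, r, r1, r2⟩ := hkey (fun s => Z s z) ((e1 z).trans
    (betti_kill ι (fun g σ => by rw [hv, hmul, smul_eq_mul]) hz)) a ha
  have hw : ∀ j, ∃ w, bd0 ℤ X 1 w = E (r j) := fun j => acyclic _ (by
    rw [hE, show bettiD S (r j) = 0 from r1 j, map_zero])
  choose w hw using hw
  refine ⟨x, hx, H x ⟨x • Finsupp.linearCombination N (fun σ => (rel ι X 2).mkQ (tens 1 (h2 σ))) z
    + ∑ j, (rel ι X 2).mkQ (tens (y j) (w j)), ?_⟩⟩
  rw [e2 z, betti_kill ι (F := fun y => (rel ι X 1).mkQ (tens 1 (h0 y))) (fun g σ => ?_) hz,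
    add_zero, smul_add, map_add, map_smul, map_sum, Finset.smul_sum]
  · simp only [betti_bdry, bd0_tens, hw, hE']
    rw [Finset.sum_comm]
    refine congrArg _ (Finset.sum_congr rfl fun s hs => ?_)
    rw [smul_smul, r2 s hs, Finset.sum_smul]
    rfl
  · simp only [h0, hv, mul_inv_rev, mul_smul, inv_smul_smul, bettiAct_mul]
    rw [betti_tens_act, ← map_smul, smul_tens, one_mul, mul_one]

theorem hml0_tors {Γ X N : Type} [Group Γ] [TopologicalSpace X] [MulAction Γ X]
    [ContinuousConstSMul Γ X] [ContractibleSpace X] [Ring N] (ι : Γ → N)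
    (hkey : ∀ b a : N, a ≠ 0 → ∃ x : N, x * a ≠ 0 ∧ ∃ (n : ℕ) (y : Fin n → N) (g : Fin n → Γ),
      x * b = ∑ j, y j * (ι (g j) - 1))
    (m : Hml ι X 0) (a : N) (ha : a ≠ 0) : ∃ x : N, x * a ≠ 0 ∧ x • m = 0 := by
  obtain ⟨⟨z, hz⟩, rfl⟩ := Submodule.Quotient.mk_surjective _ m
  obtain ⟨z, rfl⟩ := (rel ι X 0).mkQ_surjective z
  let p0 : C(Sx 0, X) := ContinuousMap.const _ (Classical.arbitrary X)
  obtain ⟨x, hx, n, y, g, e⟩ := hkey (aug N X z) a ha
  obtain ⟨w, hw⟩ := acyclic_zero (x • z - Finsupp.single p0 (x * aug N X z) +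
    ∑ j, (Finsupp.single (g j • p0) (y j) - Finsupp.single p0 (y j))) (by
      simp only [map_add, map_sub, map_sum, map_smul, aug_single, smul_eq_mul, sub_self,
        Finset.sum_const_zero, add_zero])
  refine ⟨x, hx, ?_⟩
  rw [← Submodule.Quotient.mk_smul, Submodule.Quotient.mk_eq_zero]
  refine ⟨(rel ι X 1).mkQ w, ?_⟩
  rw [betti_bdry, hw, e]
  simp only [mul_sub, mul_one, Finsupp.single_finsetSum, Finsupp.single_sub, map_add, map_sub,
    map_sum, betti_single, sub_add_cancel, map_smul]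
  rfl

end Vale.Agent.P239
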