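import Mathlib

/-! Statement-level definitions for P239: extended dimension, singular chains with coefficients
over the group ring, group von Neumann algebra, L2-Betti numbers. -/

namespace Vale.Agent.P239.Pub

noncomputable section

section algebra

variable {Γ N : Type} [Group Γ] [Ring N]

/-- The left module `P` embeds in the left module `M`. -/
def Embeds (N P M : Type) [Ring N] [AddCommGroup P] [Module N P] [AddCommGroup M] [Module N M] :
    Prop :=
  ∃ f : LinearMap (RingHom.id N) P M, Function.Injective f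

/-- The submodule `P` of a free module embeds in `M`. -/
def SubEmbeds {F : Type} [AddCommGroup F] [Module N F] (P : Submodule N F) (M : Type)
    [AddCommGroup M] [Module N M] : Prop :=
  Embeds N P M

/-- The extended dimension of a left module `M` over a ring `N` with trace `tr`: the supremum of
the traces of the idempotent matrices `A` whose finitely generated projective module (the span
of the rows of `A`) embeds in `M`. -/
def extDim (tr : N → ℝ) (M : Type) [AddCommGroup M] [Module N M] : ENNReal :=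
  ⨆ (n : ℕ) (A : Matrix (Fin n) (Fin n) N) (_ : A * A = A)
    (_ : SubEmbeds (Submodule.span N (Set.range fun i : Fin n => fun j : Fin n => A i j)) M),
    ENNReal.ofReal (∑ i, tr (A i i))

/-- The extended dimension of the quotient `F / B`. -/
def quotDim (tr : N → ℝ) {F : Type} [AddCommGroup F] [Module N F] (B : Submodule N F) : ENNReal :=
  extDim tr (F ⧸ B)

/-- The extended dimension of the cokernel of `d`. -/
def cokerDim (tr : N → ℝ) {A B : Type} [AddCommGroup A] [Module N A] [AddCommGroup B] [Module N B]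
    (d : LinearMap (RingHom.id N) A B) : ENNReal :=
  quotDim tr (LinearMap.range d)

/-- The extended dimension of the homology `ker d₀ / im d₁` of `A → B → C`. -/
def midDim (tr : N → ℝ) {A B C : Type} [AddCommGroup A] [Module N A] [AddCommGroup B] [Module N B]
    [AddCommGroup C] [Module N C] (d1 : LinearMap (RingHom.id N) A B)
    (d0 : LinearMap (RingHom.id N) B C) : ENNReal :=
  quotDim tr ((LinearMap.range d1).comap (LinearMap.ker d0).subtype)

/-- The relations `a ⊗ (g σ) = (a g) ⊗ σ` presenting `N ⊗_{ℤ Γ} ℤ[S]` as a quotient of `N[S]`. -/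
def rel (ι : Γ → N) (S : Type) [MulAction Γ S] : Submodule N (Finsupp S N) :=
  Submodule.span N {y | ∃ (g : Γ) (σ : S) (a : N),
    y = Finsupp.single (g • σ) a - Finsupp.single σ (a * ι g)}

/-- The alternating sum `a σ ↦ ∑ (-1)^i a (f i σ)`. -/
def altSum (N : Type) [Ring N] {S T : Type} {m : ℕ} (f : Fin m → S → T) :
    LinearMap (RingHom.id N) (Finsupp S N) (Finsupp T N) :=
  ∑ i : Fin m, (-1 : ℤ) ^ i.val • Finsupp.lmapDomain N N (f i)

/-- The face maps commute with the action. -/
def Eqvar (Γ : Type) [Group Γ] {S T : Type} [MulAction Γ S] [MulAction Γ T] {m : ℕ}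
    (f : Fin m → S → T) : Prop :=
  ∀ (i : Fin m) (g : Γ) (σ : S), f i (g • σ) = g • f i σ

theorem rel_le (ι : Γ → N) {S T : Type} [MulAction Γ S] [MulAction Γ T] {m : ℕ}
    {f : Fin m → S → T} (h : Eqvar Γ f) : rel ι S ≤ (rel ι T).comap (altSum N f) := by
  refine Submodule.span_le.2 ?_
  rintro _ ⟨g, σ, a, rfl⟩
  simp only [SetLike.mem_coe, Submodule.mem_comap, altSum, LinearMap.sum_apply,
    LinearMap.smul_apply, Finsupp.lmapDomain_apply]
  refine Submodule.sum_mem _ fun i _ => zsmul_mem ?_ _
  rw [Finsupp.mapDomain_sub, Finsupp.mapDomain_single, Finsupp.mapDomain_single, h i]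
  exact Submodule.subset_span ⟨g, f i σ, a, rfl⟩

/-- The boundary operator `N ⊗_{ℤ Γ} ℤ[S] → N ⊗_{ℤ Γ} ℤ[T]` induced by the alternating sum. -/
def bdry (ι : Γ → N) {S T : Type} [MulAction Γ S] [MulAction Γ T] {m : ℕ}
    (f : Fin m → S → T) (h : Eqvar Γ f) :
    LinearMap (RingHom.id N) (Finsupp S N ⧸ rel ι S) (Finsupp T N ⧸ rel ι T) :=
  (rel ι S).mapQ (rel ι T) (altSum N f) (rel_le ι h)

/-- The dimension of the bottom homology of the tensored complex. -/
def botDim (ι : Γ → N) (tr : N → ℝ) {S T : Type} [MulAction Γ S] [MulAction Γ T] {m : ℕ}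
    (f : Fin m → S → T) (h : Eqvar Γ f) : ENNReal :=
  cokerDim tr (bdry ι f h)

/-- The dimension of the homology in the middle of three terms of the tensored complex. -/
def stepDim (ι : Γ → N) (tr : N → ℝ) {S T U : Type} [MulAction Γ S] [MulAction Γ T]
    [MulAction Γ U] {m k : ℕ} (f : Fin m → S → T) (h : Eqvar Γ f) (f' : Fin k → T → U)
    (h' : Eqvar Γ f') : ENNReal :=
  midDim tr (bdry ι f h) (bdry ι f' h')

/-- The `i`-th face of a singular simplex. -/
def face (X : Type) [TopologicalSpace X] (n : ℕ) (i : Fin (n + 1 + 1))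
    (σ : ContinuousMap (stdSimplex ℝ (Fin (n + 1 + 1))) X) :
    ContinuousMap (stdSimplex ℝ (Fin (n + 1))) X :=
  σ.comp ⟨stdSimplex.map i.succAbove, stdSimplex.continuous_map i.succAbove⟩

theorem face_eqvar (Γ : Type) [Group Γ] (X : Type) [TopologicalSpace X] [MulAction Γ X]
    [ContinuousConstSMul Γ X] (n : ℕ) : Eqvar Γ (face X n) := fun _ _ _ => rfl

/-- The extended dimension of `H_n (N ⊗_{ℤ Γ} C_*(X))`, with `C_*` the singular chains. -/
def homDim (ι : Γ → N) (tr : N → ℝ) (X : Type) [TopologicalSpace X] [MulAction Γ X]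
    [ContinuousConstSMul Γ X] (n : ℕ) : ENNReal :=
  Nat.casesOn n (botDim ι tr (face X 0) (face_eqvar Γ X 0)) fun k =>
    stepDim ι tr (face X (k + 1)) (face_eqvar Γ X (k + 1)) (face X k) (face_eqvar Γ X k)

end algebra

section operators

variable {Γ H : Type} [Group Γ] [NormedAddCommGroup H] [InnerProductSpace ℂ H]
  (ev : H → Γ → ℂ)

/-- `R` is the right translation `f ↦ (x ↦ f (x * g))` for some `g`. -/
def IsRight (R : ContinuousLinearMap (RingHom.id ℂ) H H) : Prop :=
  ∃ g : Γ, ∀ f x, ev (R f) x = ev f (x * g)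

/-- The bounded operators commuting with all right translations. -/
def vN : Subalgebra ℂ (ContinuousLinearMap (RingHom.id ℂ) H H) :=
  Subalgebra.centralizer ℂ {R | IsRight ev R}

/-- `T` is the left translation `f ↦ (x ↦ f (g⁻¹ * x))`. -/
def IsLeft (g : Γ) (T : vN ev) : Prop := ∀ f x, ev (T.val f) x = ev f (g⁻¹ * x)

/-- All left translations exist in `vN ev`. -/
def HasLeft : Prop := ∀ g, ∃ T, IsLeft ev g T

/-- The vector state `T ↦ ⟨δ, T δ⟩` (real part). -/
def vecTr (δ : H) (T : vN ev) : ℝ := (inner ℂ δ (T.val δ)).re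

/-- Homology dimension over the algebra `vN ev`. -/
def vnDim (δ : H) (h : HasLeft ev) (X : Type) [TopologicalSpace X] [MulAction Γ X]
    [ContinuousConstSMul Γ X] (n : ℕ) : ENNReal :=
  homDim (fun g => (h g).choose) (vecTr ev δ) X n

end operators

/-- The values of an element of `ℓ²(Γ)`. -/
def l2ev (Γ : Type) (f : lp (fun _ : Γ => ℂ) 2) (x : Γ) : ℂ := f.val x

theorem hasLeft (Γ : Type) [Group Γ] : HasLeft (l2ev Γ) := by
  intro g
  let e := Equiv.mulLeft g⁻¹
  refine ⟨⟨LinearMap.mkContinuous
    { toFun := fun f => ⟨fun x => f (e x), memℓp_gen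
        ((e.summable_iff (f := fun x => ‖f x‖ ^ (2 : ENNReal).toReal)).2
          (lp.hasSum_norm (by norm_num) f).summable)⟩
      map_add' := fun _ _ => rfl
      map_smul' := fun _ _ => rfl }
    1 fun f => lp.norm_le_of_tsum_le (by norm_num) (by positivity) (by
      rw [one_mul, ← (lp.hasSum_norm (by norm_num) f).tsum_eq]
      exact (e.tsum_eq fun x => ‖f x‖ ^ (2 : ENNReal).toReal).le), ?_⟩, fun _ _ => rfl⟩
  rintro R ⟨k, hk⟩
  refine ContinuousLinearMap.ext fun f => lp.ext (funext fun x => ?_)
  exact (hk _ x).trans ((congrArg f (mul_assoc g⁻¹ x k).symm).trans (hk f (g⁻¹ * x)).symm)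

open Classical in
/-- The `n`-th L2-Betti number of the `Γ`-space `X`. -/
def l2Betti (Γ : Type) [Group Γ] (X : Type) [TopologicalSpace X] [MulAction Γ X]
    [ContinuousConstSMul Γ X] (n : ℕ) : ENNReal :=
  vnDim (l2ev Γ) (lp.single 2 (1 : Γ) (1 : ℂ)) (hasLeft Γ) X n

end

end Vale.Agent.P239.Pub
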