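import Vale.Agent.P239.All
import Vale.Agent.P239.Pub

/-! Comparison of the published definitions with the working definitions. -/

namespace Vale.Agent.P239

theorem pub_extDim {N : Type} [Ring N] (tr : N → ℝ) (M : Type) [AddCommGroup M] [Module N M] :
    Pub.extDim tr M = extDim tr M := by
  unfold Pub.extDim extDim
  refine iSup_congr fun n => iSup_congr fun A => iSup_congr fun _ => ?_
  rw [range_vecMulLinear]
  rfl

theorem extDim_congr {N : Type} [Ring N] (tr : N → ℝ) {M M' : Type} [AddCommGroup M] [Module N M]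
    [AddCommGroup M'] [Module N M'] (e : M ≃ₗ[N] M') : extDim tr M = extDim tr M' := by
  unfold extDim
  refine iSup_congr fun n => iSup_congr fun A => iSup_congr fun _ => ?_
  refine iSup_congr_Prop ⟨fun ⟨f, hf⟩ => ⟨e.toLinearMap ∘ₗ f, e.injective.comp hf⟩,
    fun ⟨f, hf⟩ => ⟨e.symm.toLinearMap ∘ₗ f, e.symm.injective.comp hf⟩⟩ fun _ => rfl

theorem pub_homDim {Γ N : Type} [Group Γ] [Ring N] (ι : Γ → N) (tr : N → ℝ) (X : Type)
    [TopologicalSpace X] [MulAction Γ X] [ContinuousConstSMul Γ X] (n : ℕ) :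
    Pub.homDim ι tr X n = extDim tr (Hml ι X n) := by
  cases n with
  | zero =>
    refine (pub_extDim tr (Chn ι X 0 ⧸ LinearMap.range (bdry ι X 0))).trans ?_
    refine (extDim_congr tr (Submodule.Quotient.equiv _ _ Submodule.topEquiv ?_)).symm
    ext x
    exact ⟨fun ⟨y, hy, e⟩ => e ▸ hy, fun hx => ⟨⟨x, trivial⟩, hx, rfl⟩⟩
  | succ k => exact pub_extDim tr (Hml ι X (k + 1))

theorem pub_vN (Γ : Type) [Group Γ] : Pub.vN (Pub.l2ev Γ) = NG Γ := by
  unfold Pub.vN NG
  congr 1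
  ext R
  exact ⟨fun ⟨g, hg⟩ => ⟨g, ContinuousLinearMap.ext fun f => lp.ext (funext fun x =>
    (hg f x).symm)⟩, fun ⟨g, hg⟩ => ⟨g, fun f x => hg ▸ rfl⟩⟩

open Classical in
theorem pub_l2Betti (Γ : Type) [Group Γ] (X : Type) [TopologicalSpace X] [MulAction Γ X]
    [ContinuousConstSMul Γ X] (n : ℕ) : Pub.l2Betti Γ X n = l2Betti Γ X n := by
  have key : ∀ (A : Subalgebra ℂ (L2 Γ →L[ℂ] L2 Γ)) (_ : A = NG Γ) (ι : Γ → A)
      (_ : ∀ g, (ι g).1 = (lam g).1), Pub.homDim ι (fun T : A =>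
        (inner ℂ (lp.single 2 (1 : Γ) (1 : ℂ) : L2 Γ) (T.1 (lp.single 2 (1 : Γ) (1 : ℂ)))).re) X n =
        l2Betti Γ X n := by
    rintro _ rfl ι hι
    obtain rfl : ι = lam := funext fun g => Subtype.ext (hι g)
    exact pub_homDim _ _ X n
  exact key _ (pub_vN Γ) _ fun g => ContinuousLinearMap.ext fun f => lp.ext (funext fun x =>
    (Pub.hasLeft Γ g).choose_spec f x)

end Vale.Agent.P239
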