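import Vale.Agent.P239.Pot1

/-! Regular sets and their harmonic measure. -/

namespace Vale.Agent.P239

open Filter Topology Set
open scoped Pointwise

namespace Gen

variable {G : Type} [Group G] {Γ : Gen G}

theorem pot2_ind (B : Set G) (x : G) :
    0 ≤ B.indicator (1 : G → ℝ) x ∧ B.indicator (1 : G → ℝ) x ≤ 1 := by
  by_cases hx : x ∈ B <;> simp [hx]

theorem pot2_iter (B : Set G) (n : ℕ) (x : G) :
    0 ≤ Γ.P^[n] (B.indicator 1) x ∧ Γ.P^[n] (B.indicator 1) x ≤ 1 :=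
  ⟨Γ.pot1_iter_nonneg n (fun y => (pot2_ind B y).1) x,
    (Γ.iter_indicator_le_hit n B x).trans (Γ.hit_le_one B x)⟩

theorem pot2_abs (n : ℕ) {f g v : G → ℝ} (h : ∀ x, |f x - g x| ≤ v x) (x : G) :
    |Γ.P^[n] f x - Γ.P^[n] g x| ≤ Γ.P^[n] v x := by
  have := Γ.abs_iter_le n (f - g) x
  rw [iter_sub] at this
  exact this.trans (Γ.iter_mono n h x)

theorem abs_iter_sub_le (B : Set G) (n : ℕ) (x : G) :
    |Γ.P^[n] (B.indicator 1) x - B.indicator 1 x| ≤ Γ.hit (Γ.bd B) x := by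
  induction n generalizing x with
  | zero => simpa using Γ.hit_nonneg _ x
  | succ n ih =>
    by_cases hx : x ∈ Γ.bd B
    · have h1 := pot2_ind B x
      have h2 := pot2_iter (Γ := Γ) B (n + 1) x
      rw [Γ.hit_of_mem hx, abs_le]
      constructor <;> linarith
    · have h1 : Γ.P (B.indicator 1) x = B.indicator 1 x := by
        rw [← congrFun (Γ.P_const (B.indicator (1 : G → ℝ) x)) x]
        simp only [P]
        congr 1
        refine Finset.sum_congr rfl fun s hs => ?_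
        have := Γ.iff_of_notMem_bd hx hs
        by_cases h : x ∈ B <;> simp [h, ← this, indicator]
      rw [Function.iterate_succ_apply', ← h1]
      exact (pot2_abs 1 ih x).trans (Γ.P_hit_le _ x)

theorem Reg.tendsto {B : Set G} (h : Γ.Reg B) (x : G) :
    Tendsto (fun n => Γ.P^[n] (B.indicator 1) x) atTop (𝓝 (Γ.hm B x)) := by
  refine CauchySeq.tendsto_limUnder (cauchySeq_of_le_tendsto_0' _ (fun n m hnm => ?_) (h x))
  obtain ⟨k, rfl⟩ := Nat.exists_eq_add_of_le hnm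
  rw [dist_comm, Real.dist_eq, Function.iterate_add_apply]
  exact pot2_abs n (abs_iter_sub_le B k) x

theorem Reg.hm_nonneg {B : Set G} (h : Γ.Reg B) (x : G) : 0 ≤ Γ.hm B x :=
  ge_of_tendsto' (h.tendsto x) fun n => (pot2_iter B n x).1

theorem Reg.hm_le_one {B : Set G} (h : Γ.Reg B) (x : G) : Γ.hm B x ≤ 1 :=
  le_of_tendsto' (h.tendsto x) fun n => (pot2_iter B n x).2

theorem Reg.P_hm {B : Set G} (h : Γ.Reg B) (x : G) : Γ.P (Γ.hm B) x = Γ.hm B x := by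
  refine tendsto_nhds_unique (Γ.pot1_tendsto_P h.tendsto x) ?_
  simp only [← Function.iterate_succ_apply' Γ.P]
  exact (h.tendsto x).comp (tendsto_add_atTop_nat 1)

theorem Reg.abs_hm_sub_le {B : Set G} (h : Γ.Reg B) (x : G) :
    |Γ.hm B x - B.indicator 1 x| ≤ Γ.hit (Γ.bd B) x :=
  le_of_tendsto' ((h.tendsto x).sub_const _).abs fun n => abs_iter_sub_le B n x

theorem Reg.abs_hm_sub_iter_le {B : Set G} (h : Γ.Reg B) (n : ℕ) (x : G) :
    |Γ.hm B x - Γ.P^[n] (B.indicator 1) x| ≤ Γ.P^[n] (Γ.hit (Γ.bd B)) x := by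
  rw [← congrFun (Γ.iter_of_harm n h.P_hm) x]
  exact pot2_abs n h.abs_hm_sub_le x

theorem Reg.compl {B : Set G} (h : Γ.Reg B) : Γ.Reg Bᶜ := by
  rwa [Reg, bd_compl]

theorem Reg.inter {A B : Set G} (h : Γ.Reg A) (h' : Γ.Reg B) : Γ.Reg (A ∩ B) :=
  (Thin.union h h').mono (Γ.bd_inter_subset A B)

theorem Reg.union {A B : Set G} (h : Γ.Reg A) (h' : Γ.Reg B) : Γ.Reg (A ∪ B) :=
  (Thin.union h h').mono (Γ.bd_union_subset A B)

theorem Reg.diff {A B : Set G} (h : Γ.Reg A) (h' : Γ.Reg B) : Γ.Reg (A \ B) :=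
  h.inter h'.compl

theorem Reg.smul {B : Set G} (h : Γ.Reg B) (g : G) : Γ.Reg (g • B) := by
  rw [Reg, ← smul_bd]
  exact Thin.smul h g

theorem reg_biUnion {ι : Type} {T : Set ι} (hT : T.Finite) {B : ι → Set G}
    (h : ∀ i ∈ T, Γ.Reg (B i)) : Γ.Reg (⋃ i ∈ T, B i) := by
  induction T, hT using Set.Finite.induction_on with
  | empty => exact thin_empty.mono fun x ⟨s, hs, h⟩ => by simp at h
  | insert _ _ ih =>
    rw [biUnion_insert]
    exact (h _ (mem_insert _ _)).union (ih fun i hi => h i (mem_insert_of_mem _ hi))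

theorem reg_univ : Γ.Reg univ :=
  thin_empty.mono fun x ⟨s, hs, h⟩ => by simp at h

theorem reg_empty : Γ.Reg ∅ :=
  thin_empty.mono fun x ⟨s, hs, h⟩ => by simp at h

theorem Thin.reg {Z : Set G} (h : Γ.Thin Z) : Γ.Reg Z :=
  (h.nb 1).mono (Γ.bd_subset_nb Z)

theorem Thin.hm_eq {Z : Set G} (h : Γ.Thin Z) (x : G) : Γ.hm Z x = 0 :=
  (h.tendsto_indicator x).limUnder_eq

theorem hm_univ (x : G) : Γ.hm univ x = 1 := by
  refine Tendsto.limUnder_eq ?_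
  rw [indicator_univ, Pi.one_def]
  simp only [iter_const, tendsto_const_nhds]

theorem hm_empty (x : G) : Γ.hm ∅ x = 0 := thin_empty.hm_eq x

theorem hm_smul (g : G) (B : Set G) (x : G) : Γ.hm (g • B) (g * x) = Γ.hm B x := by
  have e : (B.indicator 1 : G → ℝ) = fun y => (g • B).indicator 1 (g * y) := by
    ext y
    have : g * y ∈ g • B ↔ y ∈ B := smul_mem_smul_set_iff
    by_cases hy : y ∈ B <;> simp [indicator, this, hy]
  simp only [hm, e, iter_shift]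

theorem pot2_hm_smul (g : G) (B : Set G) (x : G) : Γ.hm (g • B) x = Γ.hm B (g⁻¹ * x) := by
  rw [← hm_smul g B, mul_inv_cancel_left]

theorem Reg.hm_compl {B : Set G} (h : Γ.Reg B) (x : G) : Γ.hm Bᶜ x = 1 - Γ.hm B x := by
  refine tendsto_nhds_unique (h.compl.tendsto x) ?_
  have e : (Bᶜ.indicator 1 : G → ℝ) = (fun _ => 1) - B.indicator 1 := indicator_compl B 1
  simp only [e, iter_sub, iter_const, Pi.sub_apply]
  exact (h.tendsto x).const_sub 1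

theorem Reg.hm_mono {A B : Set G} (h : Γ.Reg A) (h' : Γ.Reg B) (hAB : A ⊆ B) (x : G) :
    Γ.hm A x ≤ Γ.hm B x :=
  le_of_tendsto_of_tendsto' (h.tendsto x) (h'.tendsto x) fun n =>
    Γ.iter_mono n (indicator_le_indicator_of_subset hAB fun _ => zero_le_one) x

theorem Reg.hm_union_add_inter {A B : Set G} (h : Γ.Reg A) (h' : Γ.Reg B) (x : G) :
    Γ.hm (A ∪ B) x + Γ.hm (A ∩ B) x = Γ.hm A x + Γ.hm B x := by
  refine tendsto_nhds_unique (((h.union h').tendsto x).add ((h.inter h').tendsto x)) ?_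
  refine ((h.tendsto x).add (h'.tendsto x)).congr fun n => ?_
  rw [← Pi.add_apply, ← iter_add, ← Pi.add_apply (Γ.P^[n] _), ← iter_add]
  exact congrArg (Γ.P^[n] · x) (indicator_union_add_inter 1 A B).symm

theorem Reg.hm_union_le {A B : Set G} (h : Γ.Reg A) (h' : Γ.Reg B) (x : G) :
    Γ.hm (A ∪ B) x ≤ Γ.hm A x + Γ.hm B x := by
  linarith [h.hm_union_add_inter h' x, (h.inter h').hm_nonneg x]

theorem Reg.congr {A B : Set G} (h : Γ.Reg A) (ht : Γ.Thin (symmDiff A B)) :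
    Γ.Reg B ∧ Γ.hm B = Γ.hm A := by
  have h1 : Γ.Reg B := by
    rw [← symmDiff_symmDiff_cancel_left A B]
    exact (Thin.union h ht.reg).mono (Γ.bd_symmDiff_subset _ _)
  have h2 : ∀ {A B D : Set G}, Γ.Reg A → Γ.Reg B → Γ.Thin D → A ⊆ B ∪ D → ∀ x,
      Γ.hm A x ≤ Γ.hm B x := fun hA hB hD h x => by
    have := (hA.hm_mono (hB.union hD.reg) h x).trans (hB.hm_union_le hD.reg x)
    rwa [hD.hm_eq, add_zero] at this
  refine ⟨h1, funext fun x => le_antisymm (h2 h1 h ht (fun y hy => ?_) x)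
    (h2 h h1 ht (fun y hy => ?_) x)⟩ <;> rw [mem_union, mem_symmDiff] <;> tauto

theorem Reg.hm_le_hit {B : Set G} (h : Γ.Reg B) (x : G) : Γ.hm B x ≤ Γ.hit B x :=
  le_of_tendsto' (h.tendsto x) fun n => Γ.iter_indicator_le_hit n B x

theorem pot2_hit_le (B : Set G) (x : G) : Γ.hit B x ≤ B.indicator 1 x + Γ.hit (Γ.bd B) x := by
  classical
  have h1 : ∀ y, (if y ∈ B then 1 else Γ.hit (Γ.bd B) y) ≤ 1 := fun y => by
    split_ifs
    exacts [le_rfl, Γ.hit_le_one _ _]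
  refine (Γ.hit_le_of_super (v := fun y => if y ∈ B then 1 else Γ.hit (Γ.bd B) y) (fun y => ?_)
    (fun y hy => ?_) (fun y hy => by rw [if_pos hy]) x).trans ?_
  · split_ifs
    exacts [zero_le_one, Γ.hit_nonneg _ _]
  · rw [if_neg hy]
    by_cases h : y ∈ Γ.bd B
    · rw [Γ.hit_of_mem h]
      simpa only [P_const] using Γ.P_mono (g := fun _ => 1) h1 y
    · refine (Γ.P_mono_at fun s hs => ?_).trans (Γ.P_hit_le _ y)
      rw [if_neg fun h2 => hy ((Γ.iff_of_notMem_bd h hs).2 h2)]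
  · by_cases hx : x ∈ B <;> simp [hx, Γ.hit_nonneg]

theorem Reg.tendsto_hit {B : Set G} (h : Γ.Reg B) (x : G) :
    Tendsto (fun n => Γ.P^[n] (Γ.hit B) x) atTop (𝓝 (Γ.hm B x)) :=
  tendsto_of_tendsto_of_tendsto_of_le_of_le (h.tendsto x) (by simpa using (h.tendsto x).add (h x))
    (fun n => Γ.iter_mono n (Γ.indicator_le_hit B) x) fun n =>
    (Γ.iter_mono n (g := B.indicator 1 + Γ.hit (Γ.bd B)) (pot2_hit_le B) x).trans_eq
      (by rw [iter_add, Pi.add_apply])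

theorem Reg.thin_of_zero {B : Set G} (h : Γ.Reg B) {x : G} (hx : Γ.hm B x = 0) : Γ.Thin B :=
  thin_of_at (x := x) fun _ hε =>
    ((h.tendsto_hit x).eventually (ge_mem_nhds (hx.trans_lt hε))).exists

theorem Reg.hm_pos {B : Set G} (h : Γ.Reg B) (h0 : ∃ x, Γ.hm B x ≠ 0) (x : G) :
    0 < Γ.hm B x := by
  obtain ⟨y, hy⟩ := h0
  exact (h.hm_nonneg x).lt_of_ne' fun hx => hy ((h.thin_of_zero hx).hm_eq y)

theorem Reg.harnack_hm {B : Set G} (h : Γ.Reg B) {x y : G} {n : ℕ} (hd : Γ.d x y ≤ n) :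
    Γ.hm B y ≤ (Γ.S.card : ℝ) ^ n * Γ.hm B x ∧
      1 - Γ.hm B y ≤ (Γ.S.card : ℝ) ^ n * (1 - Γ.hm B x) := by
  refine ⟨Γ.harnack h.hm_nonneg (fun x => (h.P_hm x).le) hd, ?_⟩
  rw [← h.hm_compl, ← h.hm_compl]
  exact Γ.harnack h.compl.hm_nonneg (fun x => (h.compl.P_hm x).le) hd

/-- If `A ∩ B` is null then `hm A + hm B ≤ 1`. -/
theorem Reg.add_le_one {A B : Set G} (h : Γ.Reg A) (h' : Γ.Reg B) {y : G}
    (h0 : Γ.hm (A ∩ B) y = 0) (x : G) : Γ.hm A x + Γ.hm B x ≤ 1 := by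
  linarith [h.hm_union_add_inter h' x, ((h.inter h').thin_of_zero h0).hm_eq x,
    (h.union h').hm_le_one x]

/-- If `hm A + hm B ≤ 1` then `A ∩ B` is thin. -/
theorem Reg.thin_inter {A B : Set G} (h : Γ.Reg A) (h' : Γ.Reg B)
    (hle : ∀ x, Γ.hm A x + Γ.hm B x ≤ 1) : Γ.Thin (A ∩ B) := by
  refine ((Thin.level h one_half_pos).union (Thin.level h' one_half_pos)).mono fun x hx => ?_
  have h1 := (abs_le.1 (h.abs_hm_sub_le x)).1
  have h2 := (abs_le.1 (h'.abs_hm_sub_le x)).1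
  rw [indicator_of_mem hx.1, Pi.one_apply] at h1
  rw [indicator_of_mem hx.2, Pi.one_apply] at h2
  by_contra hc
  simp only [mem_union, mem_ofPred_eq, not_or, not_le] at hc
  linarith [hle x, hc.1, hc.2]

theorem Reg.pot2_in {B : Set G} (h : Γ.Reg B) {x : G} (hx : x ∈ B) :
    1 - Γ.hm B x ≤ Γ.hit (Γ.bd B) x := by
  have h1 := (abs_le.1 (h.abs_hm_sub_le x)).1
  rw [indicator_of_mem hx, Pi.one_apply] at h1
  linarith

theorem Reg.pot2_out {B : Set G} (h : Γ.Reg B) {x : G} (hx : x ∉ B) :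
    Γ.hm B x ≤ Γ.hit (Γ.bd B) x := by
  simpa [hx] using (abs_le.1 (h.abs_hm_sub_le x)).2

theorem Reg.W_subset {B : Set G} (h : Γ.Reg B) (δ : ℝ) :
    Γ.W δ B ⊆ {x | δ ≤ Γ.hit (Γ.bd B) x} := fun x hx => by
  by_cases hB : x ∈ B
  · exact (le_sub_comm.1 hx.2).trans (h.pot2_in hB)
  · exact hx.1.trans (h.pot2_out hB)

theorem Reg.thin_W {B : Set G} (h : Γ.Reg B) {δ : ℝ} (hδ : 0 < δ) : Γ.Thin (Γ.W δ B) :=
  (Thin.level h hδ).mono (h.W_subset δ)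

theorem Reg.W_compl {B : Set G} (h : Γ.Reg B) (δ : ℝ) : Γ.W δ Bᶜ = Γ.W δ B := by
  ext x
  simp only [W, mem_ofPred_eq, h.hm_compl]
  constructor <;> rintro ⟨h1, h2⟩ <;> constructor <;> linarith

theorem W_mono {δ δ' : ℝ} (h : δ ≤ δ') (B : Set G) : Γ.W δ' B ⊆ Γ.W δ B :=
  fun _ hx => ⟨h.trans hx.1, hx.2.trans (sub_le_sub_left h 1)⟩

theorem smul_W (g : G) (δ : ℝ) (B : Set G) : g • Γ.W δ B = Γ.W δ (g • B) := by
  ext x
  simp only [mem_smul_set_iff_inv_smul_mem, W, mem_ofPred_eq, smul_eq_mul, pot2_hm_smul]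

theorem smul_nat (g : G) (B : Set G) : g • Γ.nat B = Γ.nat (g • B) := by
  ext x
  simp only [mem_smul_set_iff_inv_smul_mem, nat, mem_ofPred_eq, smul_eq_mul, pot2_hm_smul]

theorem Reg.W_near {B : Set G} (h : Γ.Reg B) {δ : ℝ} (hδ : 0 ≤ δ) {x y : G} {n : ℕ}
    (hx : x ∈ Γ.W δ B) (hd : Γ.d x y ≤ n) : y ∈ Γ.W (δ / (Γ.S.card : ℝ) ^ n) B := by
  have hc := pow_pos Γ.card_pos' n
  have := h.harnack_hm ((Γ.d_comm y x).trans_le hd)
  refine ⟨?_, le_sub_comm.1 ?_⟩ <;> rw [div_le_iff₀' hc]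
  exacts [hx.1.trans this.1, (le_sub_comm.1 hx.2).trans this.2]

/-- Any set squeezed between two level sets of `hm B` is equivalent to `B`. -/
theorem Reg.level {B : Set G} (h : Γ.Reg B) {δ : ℝ} (hδ : 0 < δ) {L : Set G}
    (h1 : ∀ x, 1 - δ < Γ.hm B x → x ∈ L) (h2 : ∀ x ∈ L, δ ≤ Γ.hm B x) :
    Γ.Thin (symmDiff B L) ∧ Γ.Reg L ∧ Γ.hm L = Γ.hm B := by
  have : Γ.Thin (symmDiff B L) := (Thin.level h hδ).mono fun x hx => by
    rcases hx with ⟨hx, hx'⟩ | ⟨hx, hx'⟩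
    · exact (le_sub_comm.1 (not_lt.1 fun h3 => hx' (h1 x h3))).trans (h.pot2_in hx)
    · exact (h2 x hx).trans (h.pot2_out hx')
  exact ⟨this, h.congr this⟩

theorem Reg.symmDiff_subset {B : Set G} (h : Γ.Reg B) :
    symmDiff B (Γ.nat B) ⊆ {x | 1 / 2 ≤ Γ.hit (Γ.bd B) x} := by
  rintro x (⟨hx, hx'⟩ | ⟨hx, hx'⟩)
  · have := h.pot2_in hx
    simp only [Gen.nat, mem_ofPred_eq, not_le] at hx' ⊢
    linarith
  · exact le_trans hx (h.pot2_out hx')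

theorem Reg.nat {B : Set G} (h : Γ.Reg B) : Γ.SC (Γ.nat B) ∧ Γ.hm (Γ.nat B) = Γ.hm B := by
  have := h.congr ((Thin.level h one_half_pos).mono h.symmDiff_subset)
  refine ⟨⟨this.1, ?_, ?_⟩, this.2⟩ <;> rw [this.2]
  exacts [fun x hx => hx, fun x hx => (not_le.1 hx).le]

theorem SC.compl {B : Set G} (h : Γ.SC B) : Γ.SC Bᶜ := by
  refine ⟨h.1.compl, fun x hx => ?_, fun x hx => ?_⟩ <;> rw [h.1.hm_compl]
  · linarith [h.2.2 x hx]
  · linarith [h.2.1 x (not_not.1 hx)]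

theorem SC.smul {B : Set G} (h : Γ.SC B) (g : G) : Γ.SC (g • B) := by
  refine ⟨h.1.smul g, fun x hx => ?_, fun x hx => ?_⟩ <;> rw [pot2_hm_smul] <;>
    rw [mem_smul_set_iff_inv_smul_mem] at hx
  exacts [h.2.1 _ hx, h.2.2 _ hx]

theorem pot2_δ0 {a : ℝ} (h : 1 / 2 ≤ (Γ.S.card : ℝ) ^ 1 * a) : Γ.δ0 ≤ a := by
  have := Γ.card_pos'
  rw [δ0, div_le_iff₀ (by positivity)]
  linarith

theorem SC.bd_subset {B : Set G} (h : Γ.SC B) : Γ.bd B ⊆ Γ.W Γ.δ0 B := by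
  rintro x ⟨s, hs, hx⟩
  have h1 := h.1.harnack_hm (Γ.d_step x hs)
  have h2 := Γ.δ0_le
  by_cases hB : x ∈ B
  · have h3 := h.2.2 _ (hx.1 hB)
    exact ⟨h2.trans (h.2.1 x hB), le_sub_comm.1 (pot2_δ0 (by linarith [h1.2]))⟩
  · have h3 := h.2.1 _ (not_not.1 (mt hx.2 hB))
    exact ⟨pot2_δ0 (h3.trans h1.1), by linarith [h.2.2 x hB]⟩

theorem SC.mem_of_gt {B : Set G} (h : Γ.SC B) {x : G} (hx : 1 / 2 < Γ.hm B x) : x ∈ B :=
  by_contra fun h2 => not_le.2 hx (h.2.2 x h2)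

theorem SC.notMem_of_lt {B : Set G} (h : Γ.SC B) {x : G} (hx : Γ.hm B x < 1 / 2) : x ∉ B :=
  fun h2 => not_le.2 hx (h.2.1 x h2)

/-- `δ0 * hit (nb 1 B) ≤ hm B` for a self consistent set. -/
theorem SC.hit_nb_le {B : Set G} (h : Γ.SC B) (x : G) :
    Γ.δ0 * Γ.hit (Γ.nb 1 B) x ≤ Γ.hm B x := by
  refine Γ.mul_hit_le h.1.hm_nonneg (fun x => (h.1.P_hm x).le) (fun y hy => ?_) x
  obtain ⟨z, hz, hd⟩ := hy
  exact pot2_δ0 ((h.2.1 z hz).trans (h.1.harnack_hm hd).1)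

theorem Nontriv.compl {B : Set G} (hB : Γ.Reg B) (h : Γ.Nontriv B) : Γ.Nontriv Bᶜ := by
  obtain ⟨⟨x, hx⟩, y, hy⟩ := h
  refine ⟨⟨y, ?_⟩, x, ?_⟩ <;> rw [hB.hm_compl]
  exacts [sub_ne_zero.2 hy.symm, fun h => hx (by linarith)]

theorem Nontriv.smul {B : Set G} (h : Γ.Nontriv B) (g : G) : Γ.Nontriv (g • B) := by
  obtain ⟨⟨x, hx⟩, y, hy⟩ := h
  exact ⟨⟨g * x, by rwa [hm_smul]⟩, g * y, by rwa [hm_smul]⟩

theorem nontriv_of_W {B : Set G} {δ : ℝ} (hδ : 0 < δ) {x : G} (hx : x ∈ Γ.W δ B) :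
    Γ.Nontriv B :=
  ⟨⟨x, (hδ.trans_le hx.1).ne'⟩, x, (hx.2.trans_lt (sub_lt_self 1 hδ)).ne⟩

theorem Reg.lex {B : Set G} (h : Γ.Reg B) : Γ.SC (Γ.lex B) ∧ Γ.hm (Γ.lex B) = Γ.hm B := by
  have h1 : ∀ x ∈ Γ.lex B, 1 / 2 ≤ Γ.hm B x := fun x hx => hx.elim le_of_lt fun h => h.1.ge
  have := (h.level (L := Γ.lex B) one_half_pos (fun x hx => Or.inl (by linarith)) h1).2
  refine ⟨⟨this.1, ?_, ?_⟩, this.2⟩ <;> rw [this.2]
  exacts [h1, fun x hx => not_lt.1 fun h => hx (Or.inl h)]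

theorem pot2_min {f : G → ℝ} {y : G} (hy : f y ≠ 1 / 2) :
    ∃ z, f z ≠ 1 / 2 ∧ (∀ y', WellOrderingRel y' z → f y' = 1 / 2) ∧
      ∀ y, f y ≠ 1 / 2 → y = z ∨ WellOrderingRel z y := by
  obtain ⟨z, hz, hm⟩ := (IsWellFounded.wf (r := WellOrderingRel)).has_min {y | f y ≠ 1 / 2} ⟨y, hy⟩
  refine ⟨z, hz, fun y' h => by_contra fun h2 => hm y' h2 h, fun y hy => ?_⟩
  rcases trichotomous_of WellOrderingRel y z with h | h | h
  exacts [(hm y hy h).elim, Or.inl h, Or.inr h]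

theorem Reg.lex_compl {B : Set G} (h : Γ.Reg B) : Γ.lex Bᶜ = (Γ.lex B)ᶜ := by
  ext x
  obtain ⟨y, hy⟩ : ∃ y, Γ.hm B (x * y) ≠ 1 / 2 := by
    by_contra! hc
    refine not_thin_univ ((h.thin_W one_half_pos).mono fun y _ => ?_)
    have := hc (x⁻¹ * y)
    rw [mul_inv_cancel_left] at this
    exact ⟨this.ge, by linarith⟩
  obtain ⟨z, h1, h2, h3⟩ := pot2_min (f := fun y => Γ.hm B (x * y)) hy
  simp only [Gen.lex, mem_ofPred_eq, mem_compl_iff, h.hm_compl]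
  constructor
  · rintro (h4 | ⟨h4, a, ha, ha'⟩) (h5 | ⟨h5, b, hb, hb'⟩)
    · linarith
    · linarith
    · linarith
    · have e1 : a = z := (h3 a (by linarith : Γ.hm B (x * a) < 1 / 2).ne).resolve_right
        fun h => h1 (by linarith [ha' z h])
      have e2 : b = z := (h3 b hb.ne').resolve_right fun h => h1 (hb' z h)
      rw [e1] at ha
      rw [e2] at hb
      linarith
  · intro h4
    rcases lt_trichotomy (Γ.hm B x) (1 / 2) with h5 | h5 | h5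
    · exact Or.inl (by linarith)
    · refine Or.inr ⟨by linarith, z, ?_, fun y' h => by linarith [h2 y' h]⟩
      rcases lt_or_gt_of_ne h1 with h6 | h6
      · linarith
      · exact (h4 (Or.inr ⟨h5, z, h6, h2⟩)).elim
    · exact (h4 (Or.inl h5)).elim

theorem lex_mono {A B : Set G} (hA : Γ.Reg A) (hB : Γ.Reg B) (h : ∀ x, Γ.hm A x ≤ Γ.hm B x) :
    Γ.lex A ⊆ Γ.lex B := by
  rintro x (h1 | ⟨h1, y, hy, hy'⟩)
  · exact Or.inl (h1.trans_le (h x))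
  rcases (h1.ge.trans (h x)).lt_or_eq with h2 | h2
  · exact Or.inl h2
  obtain ⟨z, h3, h4, h5⟩ := pot2_min (f := fun y => Γ.hm B (x * y)) (hy.trans_le (h _)).ne'
  refine Or.inr ⟨h2.symm, z, ?_, h4⟩
  rcases h5 y (hy.trans_le (h _)).ne' with rfl | h6
  · exact hy.trans_le (h _)
  · exact ((hy' z h6).ge.trans (h _)).lt_of_ne' h3

theorem smul_lex (g : G) (B : Set G) : g • Γ.lex B = Γ.lex (g • B) := by
  ext x
  simp only [mem_smul_set_iff_inv_smul_mem, lex, mem_ofPred_eq, smul_eq_mul, pot2_hm_smul,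
    mul_assoc]

end Gen

end Vale.Agent.P239
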