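import Vale.Agent.P239.Green
import Vale.Agent.P239.Pot2

/-! Regular levels, symmetrisation, decreasing limits, components. -/

namespace Vale.Agent.P239

open Filter Topology Set
open scoped Pointwise

namespace Gen

variable {G : Type} [Group G] {Γ : Gen G}

theorem pot3_sum (hC : Γ.Cap) {f : G → ℝ} (hf : Γ.Dir f) (T : Finset ℝ) {ε : ℝ} (hε : 0 < ε) :
    ∃ F : Set G, F.Finite ∧ ∀ y ∉ F,
      ∑ t ∈ T, Γ.hit (Γ.bd {x | t < f x}) y ≤ 1 + T.card * (2 * ε) := by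
  obtain ⟨η, hgap, hη⟩ : ∃ η : ℝ, (∀ t ∈ T, ∀ t' ∈ T, t ≠ t' → η ≤ |t - t'| / 4) ∧ 0 < η := by
    refine (Eventually.and (f := 𝓝[>] 0) ?_ eventually_mem_nhdsWithin).exists
    simp only [eventually_all_finset, eventually_imp_distrib_left]
    exact fun t _ t' _ h => nhdsWithin_le_nhds (ge_mem_nhds (by have := sub_ne_zero.2 h; positivity))
  obtain ⟨R1, h1⟩ := hf.grad_small 1 hη
  obtain ⟨R2, h2⟩ := hC.max_ineq hf hη hε
  refine ⟨_, (hC.finite_hit (Γ.ball_finite 1 R1) hε).union (Γ.ball_finite 1 R2), fun y hy => ?_⟩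
  simp only [mem_union, mem_ofPred_eq, mem_ball, not_or, not_le] at hy
  have h3 : ∀ t ∈ T, Γ.hit (Γ.bd {x | t < f x}) y ≤
      (if |f y - t| < 2 * η then 1 else 0) + 2 * ε := fun t _ => by
    split_ifs with h
    · linarith [Γ.hit_le_one (Γ.bd {x | t < f x}) y]
    · refine (Γ.hit_mono (Z' := Γ.ball 1 R1 ∪ {z | η ≤ |f z - f y|}) (fun z hz => ?_) y).trans
        ((Γ.hit_union_le _ _ y).trans (by linarith [h2 y hy.2.le, hy.1]))
      obtain ⟨s, hs, hz⟩ := hz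
      refine (le_or_gt (Γ.d 1 z) R1).imp id fun h4 => ?_
      have h5 := abs_le.1 (h1 z (z * s) h4.le (Γ.d_step z hs))
      have h6 := abs_sub_le (f y) (f z) t
      have h7 : |f z - t| ≤ η := by
        simp only [mem_ofPred_eq, not_lt] at hz
        rw [abs_le]
        rcases lt_or_ge t (f z) with h8 | h8
        · constructor <;> linarith [hz.1 h8, h5.2]
        · constructor <;> linarith [not_le.1 (mt hz.2 (not_lt.2 h8)), h5.1]
      rw [mem_ofPred_eq, abs_sub_comm]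
      linarith
  refine (Finset.sum_le_sum h3).trans ?_
  rw [Finset.sum_add_distrib, Finset.sum_const, nsmul_eq_mul, Finset.sum_boole]
  refine add_le_add (Nat.cast_le_one.2 (Finset.card_le_one.2 fun a ha b hb => ?_)) le_rfl
  rw [Finset.mem_filter] at ha hb
  by_contra hab
  have h4 := hgap a ha.1 b hb.1 hab
  have h5 := abs_sub_le a (f y) b
  rw [abs_sub_comm a (f y)] at h5
  linarith [ha.2, hb.2]

theorem Cap.countable_nonreg (hC : Γ.Cap) {f : G → ℝ} (hf : Γ.Dir f) :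
    {t : ℝ | ¬ Γ.Reg {x | t < f x}}.Countable := by
  refine (countable_iUnion fun m : ℕ => Finite.countable
    (s := {t | ∀ n, 1 / ((m : ℝ) + 1) ≤ Γ.P^[n] (Γ.hit (Γ.bd {x | t < f x})) 1}) ?_).mono
    fun t ht => ?_
  · by_contra hi
    obtain ⟨T, hT, hc⟩ := Set.Infinite.exists_subset_card_eq hi (2 * m + 3)
    have hk : (0 : ℝ) < T.card := by rw [hc]; positivity
    obtain ⟨F, hF, h1⟩ := pot3_sum hC hf T (ε := 1 / (2 * T.card)) (by positivity)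
    have h2 : ∀ n, T.card * (1 / ((m : ℝ) + 1)) ≤
        2 + T.card * Γ.P^[n] (F.indicator 1) 1 := fun n => by
      have h3 := Γ.iter_mono n (f := ∑ t ∈ T, Γ.hit (Γ.bd {x | t < f x}))
        (g := (fun _ => 2) + (T.card : ℝ) • F.indicator 1) (fun y => ?_) 1
      · rw [iter_sum, iter_add, iter_smul, iter_const, Finset.sum_apply] at h3
        exact le_trans (by simpa using Finset.card_nsmul_le_sum T _ _ fun t ht => hT ht n) h3
      · rw [Finset.sum_apply]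
        by_cases hy : y ∈ F
        · have := Finset.sum_le_card_nsmul T _ _ fun t _ => Γ.hit_le_one (Γ.bd {x | t < f x}) y
          simp only [Pi.add_apply, Pi.smul_apply, indicator_of_mem hy, Pi.one_apply, smul_eq_mul,
            nsmul_eq_mul] at this ⊢
          linarith
        · refine (h1 y hy).trans_eq ?_
          simp only [Pi.add_apply, Pi.smul_apply, indicator_of_notMem hy, smul_zero]
          field_simp
          norm_num
    have h3 := ge_of_tendsto' ((((hC.thin_finite hF).tendsto_indicator 1).const_mul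
      (T.card : ℝ)).const_add 2) h2
    rw [hc, mul_zero, add_zero, mul_one_div, div_le_iff₀ (by positivity)] at h3
    push_cast at h3
    linarith
  · by_contra hc
    simp only [mem_iUnion, mem_ofPred_eq, not_exists, not_forall, not_le] at hc
    refine ht (thin_of_at (x := 1) fun ε hε => ?_)
    obtain ⟨m, hm⟩ := exists_nat_one_div_lt hε
    obtain ⟨n, hn⟩ := hc m
    exact ⟨n, (hn.trans hm).le⟩

theorem Cap.sym (hC : Γ.Cap) {F : G → ℝ} (hF : Γ.Dir F) {α ε : ℝ} (hε : 0 < ε)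
    (h : {x | α ≤ F x}.Infinite) : {g | α - ε ≤ F g ∧ α - ε ≤ F g⁻¹}.Infinite := by
  intro hT
  obtain ⟨R, hR⟩ := hC.max_ineq hF (half_pos hε) (ε := 1 / 4) (by norm_num)
  obtain ⟨x, hx, hxR⟩ := Γ.exists_far h 1 R
  obtain ⟨R', hR'⟩ := hF.grad_small (Γ.len x⁻¹) (half_pos hε)
  set Z := {y | ε / 2 ≤ |F y - F x|} with hZ
  have key : ∀ w, x * w ∉ Z → x * w ∉ Γ.ball 1 R' → α - ε ≤ F (x * w * x⁻¹) := fun w h1 h2 => by
    have h3 := abs_le.1 (hR' (x * w) (x * w * x⁻¹) (not_le.1 h2).le (Γ.d_mul_right _ _).le)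
    have h4 := abs_lt.1 (not_le.1 (show ¬ ε / 2 ≤ |F (x * w) - F x| from h1))
    linarith [show α ≤ F x from hx, h3.2, h4.1]
  have hG : {w | x * w ∉ Z ∧ x * w⁻¹ ∉ Z}.Finite := by
    refine (((hT.preimage (f := fun w => x * w * x⁻¹) fun a _ b _ h => by simpa using h).union
      ((Γ.ball_finite 1 R').preimage (f := fun w => x * w) fun a _ b _ h => by simpa using h)).union
      ((Γ.ball_finite 1 R').preimage (f := fun w => x * w⁻¹) fun a _ b _ h => by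
        simpa using h)).subset fun w hw => ?_
    by_contra hc
    simp only [mem_union, mem_preimage, not_or] at hc
    exact hc.1.1 ⟨key w hw.1 hc.1.2, by simpa [mul_assoc] using key w⁻¹ hw.2 hc.2⟩
  have h1 : ∀ n, 1 / 2 ≤ Γ.P^[n] ({w | x * w ∉ Z ∧ x * w⁻¹ ∉ Z}.indicator 1) 1 := fun n => by
    have h2 := Γ.iter_mono n (f := fun _ => 1) (g := {w | x * w ∉ Z ∧ x * w⁻¹ ∉ Z}.indicator 1 +
      (fun w => Z.indicator 1 (x * w)) + fun w => Z.indicator 1 (x * w⁻¹)) (fun w => by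
        by_cases h1 : x * w ∈ Z <;> by_cases h2 : x * w⁻¹ ∈ Z <;> simp [h1, h2]) 1
    have h3 := (Γ.iter_indicator_le_hit n Z x).trans (hR x hxR.le)
    rw [iter_add, iter_add, iter_const, Pi.add_apply, Pi.add_apply,
      Γ.iter_inv n fun w => Z.indicator 1 (x * w), iter_shift] at h2
    simp only [mul_one] at h2
    linarith
  linarith [ge_of_tendsto' ((hC.thin_finite hG).tendsto_indicator 1) h1]

theorem pot3_le {B : Set G} (hB : Γ.Reg B) {κ : G → ℝ} {M : ℝ}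
    (h : ∀ x, κ x ≤ Γ.P κ x) (h1 : ∀ x, κ x ≤ M) (h2 : ∀ x, κ x ≤ Γ.hm B x) (x : G) :
    κ x ≤ M * Γ.hm B x := by
  refine le_of_forall_pos_le_add fun δ hδ => ?_
  obtain ⟨-, h3, h4⟩ := hB.level (lt_min hδ one_half_pos) (L := {y | min δ (1 / 2) ≤ Γ.hm B y})
    (fun y hy => by
      rw [mem_ofPred_eq]
      linarith [min_le_right δ (1 / 2)]) fun _ hy => hy
  rw [← h4]
  refine ge_of_tendsto' (((h3.tendsto x).const_mul M).add_const δ) fun n =>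
    (Γ.le_iter_of_sub n h x).trans ((Γ.iter_mono n (g := M • {y | min δ (1 / 2) ≤
      Γ.hm B y}.indicator 1 + fun _ => δ) (fun y => ?_) x).trans_eq ?_)
  · rw [Pi.add_apply, Pi.smul_apply, smul_eq_mul]
    by_cases hy : y ∈ {y | min δ (1 / 2) ≤ Γ.hm B y}
    · rw [indicator_of_mem hy, Pi.one_apply]
      linarith [h1 y]
    · rw [indicator_of_notMem hy]
      linarith [h2 y, min_le_left δ (1 / 2), show ¬ min δ (1 / 2) ≤ Γ.hm B y from hy]
  · rw [iter_add, iter_smul, iter_const]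
    rfl

/-- Decreasing limits of harmonic measures are zero or have supremum one. -/
theorem sup_one [Infinite G] {C : ℕ → Set G} (hC : ∀ n, Γ.Reg (C n))
    (hanti : ∀ n x, Γ.hm (C (n + 1)) x ≤ Γ.hm (C n) x) {x0 : G} {c : ℝ} (hc : 0 < c)
    (h0 : ∀ n, c ≤ Γ.hm (C n) x0) {ε : ℝ} (hε : 0 < ε) :
    ∃ K, Γ.Conn K ∧ K.Infinite ∧ ∀ x ∈ K, ∀ n, 1 - ε < Γ.hm (C n) x := by
  have hb : ∀ x, BddBelow (range fun n => Γ.hm (C n) x) := fun x =>
    ⟨0, by rintro _ ⟨n, rfl⟩; exact (hC n).hm_nonneg x⟩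
  have ht : ∀ x, Tendsto (fun n => Γ.hm (C n) x) atTop (𝓝 (⨅ n, Γ.hm (C n) x)) := fun x =>
    tendsto_atTop_ciInf (antitone_nat_of_succ_le (hanti · x)) (hb x)
  have hP : ∀ x, ⨅ n, Γ.hm (C n) x ≤ Γ.P (fun x => ⨅ n, Γ.hm (C n) x) x := fun x =>
    (tendsto_nhds_unique (ht x) ((Γ.pot1_tendsto_P ht x).congr fun n => (hC n).P_hm x)).le
  have h1 : c ≤ ⨅ n, Γ.hm (C n) x0 := le_ciInf h0
  obtain ⟨x, hx⟩ : ∃ x, 1 - ε < ⨅ n, Γ.hm (C n) x := by
    by_contra! h2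
    have h3 := ge_of_tendsto' ((ht x0).const_mul (1 - ε)) fun n =>
      pot3_le (hC n) hP h2 (fun x => ciInf_le (hb x) n) x0
    nlinarith
  exact ⟨_, conn_comp _ x, Γ.comp_level_infinite hP hx, fun y hy n =>
    (mem_ofPred_eq ▸ comp_subset _ _ _ hy :).trans_le (ciInf_le (hb y) n)⟩

theorem Reg.exists_conn [Infinite G] {B : Set G} (hB : Γ.Reg B) (h0 : ∃ x, Γ.hm B x ≠ 0)
    {ε : ℝ} (hε : 0 < ε) : ∃ K, Γ.Conn K ∧ K.Infinite ∧ ∀ x ∈ K, 1 - ε < Γ.hm B x := by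
  obtain ⟨K, h1, h2, h3⟩ := sup_one (C := fun _ => B) (fun _ => hB) (fun _ _ => le_rfl)
    (hB.hm_pos h0 1) (fun _ => le_rfl) hε
  exact ⟨K, h1, h2, fun x hx => h3 x hx 0⟩

/-- Uniform coverage by translates of two non null sets. -/
theorem cover_unif [Infinite G] {D : Bool → Set G} (hD : ∀ b, Γ.Reg (D b))
    (h0 : ∀ b, ∃ x, Γ.hm (D b) x ≠ 0) {ε : ℝ} (hε : 0 < ε) :
    ∃ n : ℕ, ∀ (σ : G → Bool) (x : G),
      1 - ε ≤ Γ.hm (⋃ y ∈ Γ.ball x n, y • D (σ y)) x := by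
  have hR : ∀ (σ : G → Bool) x n, Γ.Reg (⋃ y ∈ Γ.ball x n, y • D (σ y)) := fun σ x n =>
    reg_biUnion (Γ.ball_finite x n) fun y _ => (hD _).smul y
  have h1 : ∀ σ : G → Bool, ∃ n, 1 - ε ≤ Γ.hm (⋃ y ∈ Γ.ball 1 n, y • D (σ y)) 1 := fun σ => by
    by_contra! hc
    obtain ⟨K, -, hK, h2⟩ := sup_one (C := fun n => (⋃ y ∈ Γ.ball 1 n, y • D (σ y))ᶜ)
      (fun n => (hR σ 1 n).compl) (fun n x => (hR σ 1 _).compl.hm_mono (hR σ 1 n).compl
        (compl_subset_compl.2 (biUnion_subset_biUnion_left (Γ.ball_mono 1 (Nat.le_succ n)))) x)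
      (x0 := 1) hε (fun n => by rw [(hR σ 1 n).hm_compl]; linarith [hc n])
      (lt_min ((hD true).hm_pos (h0 _) 1) ((hD false).hm_pos (h0 _) 1))
    obtain ⟨y, hy⟩ := hK.nonempty
    have h3 := h2 y hy (Γ.d 1 y)
    have h4 := ((hD (σ y)).smul y).hm_mono (hR σ 1 (Γ.d 1 y))
      (subset_biUnion_of_mem (u := fun y => y • D (σ y)) (Γ.mem_ball.2 le_rfl)) (y * 1)
    rw [hm_smul, mul_one] at h4
    rw [(hR σ 1 _).hm_compl] at h3
    have h5 : min (Γ.hm (D true) 1) (Γ.hm (D false) 1) ≤ Γ.hm (D (σ y)) 1 := by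
      cases σ y
      exacts [min_le_right _ _, min_le_left _ _]
    linarith
  by_contra! hc
  choose σ x hx using hc
  obtain ⟨τ, hτ⟩ := exists_clusterPt_of_compactSpace (map (fun n y => σ n (x n * y)) atTop)
  obtain ⟨N, hN⟩ := h1 τ
  obtain ⟨n, hn, hNn⟩ := ((mapClusterPt_iff_frequently.1 hτ {ρ | ∀ y ∈ Γ.ball 1 N, ρ y = τ y}
    ((eventually_all_finite (Γ.ball_finite 1 N)).2 fun y _ =>
      (continuous_apply y).continuousAt.eventually (by simp : {τ y} ∈ 𝓝 (τ y)))).and_eventually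
    (eventually_ge_atTop N)).exists
  have h2 := ((hR τ 1 N).smul (x n)).hm_mono (hR (σ n) (x n) n) (fun z hz => ?_) (x n * 1)
  · rw [hm_smul, mul_one] at h2
    linarith [hx n]
  · obtain ⟨z, hz, rfl⟩ := hz
    obtain ⟨y, hy, hz⟩ := mem_iUnion₂.1 hz
    refine mem_iUnion₂.2 ⟨x n * y, ?_, ?_⟩
    · rw [mem_ball, d_mul_right, ← d_one]
      exact le_trans hy hNn
    · rw [mul_smul, show σ n (x n * y) = τ y from hn y hy]
      exact smul_mem_smul_set hz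

theorem pot3_comp {u : G → ℝ} (hu : ∀ x, Γ.P u x = u x) (h1 : ∀ x, u x ≤ 1) {A : Set G}
    (hp : ∀ x ∈ A, 0 ≤ u x) (hn : ∀ x ∉ A, u x ≤ 0) {y : G} (hT : Γ.Thin (Γ.comp 1 A y)) :
    ∀ x ∈ Γ.comp 1 A y, u x ≤ 0 := fun x hx => by
  have h0 : ∀ z, 0 ≤ (Γ.comp 1 A y).indicator u z :=
    indicator_nonneg fun z hz => hp z (comp_subset _ _ _ hz)
  rw [← indicator_of_mem hx u]
  refine ge_of_tendsto' (hT.tendsto_indicator x) fun n => (Γ.le_iter_of_sub n (fun z => ?_) x).trans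
    (Γ.iter_mono n (fun z => indicator_le_indicator (h1 z)) x)
  by_cases hz : z ∈ Γ.comp 1 A y
  · rw [indicator_of_mem hz, ← hu]
    refine Γ.P_mono_at fun s hs => ?_
    by_cases h : z * s ∈ Γ.comp 1 A y
    · rw [indicator_of_mem h]
    · rw [indicator_of_notMem h]
      exact hn _ fun h2 => h (mem_comp_of_near hz h2 (Γ.d_step z hs))
  · rw [indicator_of_notMem hz]
    exact Γ.pot1_iter_nonneg 1 h0 z

theorem Reg.comp_nat {B : Set G} (hB : Γ.Reg B) {y : G} (hy : y ∈ Γ.nat B) :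
    Γ.Reg (Γ.comp 1 (Γ.nat B) y) ∧ ∃ x, Γ.hm (Γ.comp 1 (Γ.nat B) y) x ≠ 0 := by
  have hR : Γ.Reg (Γ.comp 1 (Γ.nat B) y) := Thin.mono hB.nat.1.1 (Γ.bd_comp_subset _ y)
  refine ⟨hR, 1, fun h => ?_⟩
  have hu : ∀ x, Γ.P (Γ.hm B - fun _ => 1 / 2) x = Γ.hm B x - 1 / 2 := fun x => by
    rw [P_sub, P_const, Pi.sub_apply, hB.P_hm]
  have h1 := pot3_comp hu (fun x => by simp only [Pi.sub_apply]; linarith [hB.hm_le_one x])
    (fun x hx => sub_nonneg.2 hx) (fun x hx => sub_nonpos.2 (not_le.1 hx).le) (hR.thin_of_zero h)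
  refine not_thin_univ ((hR.thin_of_zero h).mono fun z _ => ?_)
  refine (Γ.conn_univ y (mem_univ _) z (mem_univ _)).ind_one (p := (· ∈ Γ.comp 1 (Γ.nat B) y))
    (mem_comp_self hy) fun a _ s hs _ ha => mem_comp_of_near ha
      (show 1 / 2 ≤ Γ.hm B (a * s) from not_lt.1 fun h2 => ?_) (Γ.d_step a hs)
  have h3 := Finset.sum_lt_sum (s := Γ.S) (f := fun t => Γ.hm B (a * t)) (g := fun _ => 1 / 2)
    (fun t ht => not_lt.1 fun h4 => not_le.2 h4
      (sub_nonpos.1 (h1 _ (mem_comp_of_near ha h4.le (Γ.d_step a ht))))) ⟨s, hs, h2⟩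
  have h5 := comp_subset _ _ _ ha
  have h4 := (show 1 / 2 ≤ Γ.hm B a from h5).trans_eq (hB.P_hm a).symm
  rw [P, le_div_iff₀' Γ.card_pos'] at h4
  rw [Finset.sum_const, nsmul_eq_mul] at h3
  linarith

theorem Reg.comp_nat_compl {B : Set G} (hB : Γ.Reg B) {y : G} (hy : y ∉ Γ.nat B) :
    Γ.Reg (Γ.comp 1 (Γ.nat B)ᶜ y) ∧ ∃ x, Γ.hm (Γ.comp 1 (Γ.nat B)ᶜ y) x ≠ 0 := by
  have hR : Γ.Reg (Γ.comp 1 (Γ.nat B)ᶜ y) := Thin.mono hB.nat.1.1.compl (Γ.bd_comp_subset _ y)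
  refine ⟨hR, 1, fun h => ?_⟩
  have := pot3_comp (u := (fun _ => 1 / 2) - Γ.hm B) (A := (Γ.nat B)ᶜ)
    (fun x => by rw [P_sub, P_const, Pi.sub_apply, hB.P_hm, Pi.sub_apply])
    (fun x => by simp only [Pi.sub_apply]; linarith [hB.hm_nonneg x])
    (fun x hx => sub_nonneg.2 (not_le.1 (show ¬ 1 / 2 ≤ Γ.hm B x from hx)).le)
    (fun x hx => sub_nonpos.2 (show 1 / 2 ≤ Γ.hm B x from not_not.1 hx))
    (hR.thin_of_zero h) y (mem_comp_self hy)
  exact hy (show 1 / 2 ≤ Γ.hm B y from sub_nonpos.1 this)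

theorem Nontriv.bd_infinite (hC : Γ.Cap) (hE : Γ.OneEnd) {B : Set G} (h : Γ.Nontriv B) :
    (Γ.bd B).Infinite := by
  intro hf
  obtain ⟨⟨x, hx⟩, y, hy⟩ := h
  rcases hE B hf with h | h
  · exact hx ((hC.thin_finite h).hm_eq x)
  · have := (hC.thin_finite h).hm_eq y
    rw [Reg.hm_compl (hC.thin_finite hf)] at this
    exact hy (by linarith)

theorem Nontriv.W_infinite (hC : Γ.Cap) (hE : Γ.OneEnd) {B : Set G} (hB : Γ.Reg B)
    (h : Γ.Nontriv B) : (Γ.W Γ.δ0 B).Infinite := by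
  refine (Nontriv.bd_infinite hC hE (B := Γ.nat B) (by rwa [Nontriv, hB.nat.2])).mono ?_
  have := hB.nat.1.bd_subset
  rwa [W, hB.nat.2] at this

theorem Reg.not_subset_nb {B : Set G} (hB : Γ.Reg B) (h0 : ∃ x, Γ.hm B x ≠ 0) (D : ℕ) :
    ¬ B ⊆ Γ.nb D (Γ.bd B) := fun h => by
  obtain ⟨x, hx⟩ := h0
  exact hx (((Thin.nb hB D).mono h).hm_eq x)

theorem pot3_pt {B Ω : Set G} (hB : Γ.Reg B) {δ : ℝ} {a : G} (ha : a ∈ Γ.W δ B)
    (haΩ : a ∈ Ω) (hh : Γ.hit Ωᶜ a < δ) : ∃ p ∈ Γ.comp 1 Ω a, 3 / 4 < Γ.hm B p := by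
  by_contra! hc
  obtain ⟨-, h1, h2⟩ := hB.level (δ := 1 / 4) (by norm_num) (L := {y | 3 / 4 < Γ.hm B y})
    (fun y hy => by rw [mem_ofPred_eq]; linarith) fun y hy => by rw [mem_ofPred_eq] at hy; linarith
  have h3 := (h1.hm_le_hit a).trans ((Γ.hit_mono (fun y hy h => not_le.2 hy (hc y h)) a).trans
    (Γ.hit_compl_comp haΩ))
  rw [h2] at h3
  linarith [ha.1]

theorem Reg.two_points {B Ω : Set G} (hB : Γ.Reg B) {δ : ℝ} {a : G} (ha : a ∈ Γ.W δ B)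
    (haΩ : a ∈ Ω) (hh : Γ.hit Ωᶜ a < δ) :
    (∃ p ∈ Γ.comp 1 Ω a, 3 / 4 < Γ.hm B p) ∧ ∃ q ∈ Γ.comp 1 Ω a, Γ.hm B q < 1 / 4 := by
  refine ⟨pot3_pt hB ha haΩ hh, ?_⟩
  obtain ⟨p, hp, h⟩ := pot3_pt hB.compl (by rwa [hB.W_compl]) haΩ hh
  rw [hB.hm_compl] at h
  exact ⟨p, hp, by linarith⟩

theorem pot3_inf (hC : Γ.Cap) {B Ω : Set G} (hB : Γ.Reg B) {δ : ℝ} {a : G}
    (ha : a ∈ Γ.W δ B) (haΩ : a ∈ Ω) (hh : Γ.hit Ωᶜ a < δ) : (Γ.comp 1 Ω a ∩ B).Infinite := by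
  intro hf
  obtain ⟨h1, h2⟩ := hB.congr (B := B \ Γ.comp 1 Ω a) ((hC.thin_finite hf).mono fun y hy => by
    simp only [mem_symmDiff, Set.mem_sdiff, mem_inter_iff] at hy ⊢
    tauto)
  have h3 := (h1.hm_le_hit a).trans ((Γ.hit_mono (fun y hy => hy.2) a).trans
    (Γ.hit_compl_comp haΩ))
  rw [h2] at h3
  linarith [ha.1]

theorem Reg.two_infinite (hC : Γ.Cap) {B Ω : Set G} (hB : Γ.Reg B) {δ : ℝ} {a : G}
    (ha : a ∈ Γ.W δ B) (haΩ : a ∈ Ω) (hh : Γ.hit Ωᶜ a < δ) :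
    (Γ.comp 1 Ω a ∩ B).Infinite ∧ (Γ.comp 1 Ω a \ B).Infinite :=
  ⟨pot3_inf hC hB ha haΩ hh, pot3_inf hC hB.compl (by rwa [hB.W_compl]) haΩ hh⟩

end Gen

end Vale.Agent.P239
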