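import Vale.Agent.P239.FPL
import Vale.Agent.P239.Pot3

/-! Deep points, point cuts, the limit lemma. -/

namespace Vale.Agent.P239

open Filter Topology Set
open scoped Pointwise

namespace Wd

variable {G : Type} [Group G] (w : Wd G)

theorem hit_low {η ε : ℝ} (hη : 0 < η) (hε : 0 < ε) : ∃ ρ : ℕ, ∀ (i : G × Bool) (t : ℝ) (x : G),
    t + η ≤ w.ph i x → ρ ≤ w.Γ.d i.1 x → w.Γ.hit {y | w.ph i y ≤ t} x ≤ ε := by
  obtain ⟨R, hR⟩ := w.cap.max_ineq w.β.dir hη hε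
  refine ⟨R, fun i t x h1 h2 => ?_⟩
  have h3 := hR (i.1⁻¹ * x) (by rwa [← Gen.d_eq_d_one])
  rw [← w.Γ.hit_smul i.1, mul_inv_cancel_left] at h3
  refine (w.Γ.hit_mono (fun y hy => ?_) x).trans h3
  rw [mem_smul_set_iff_inv_smul_mem, smul_eq_mul, mem_ofPred_eq, ← w.abs_ph_sub, abs_sub_comm]
  exact le_trans (by linarith [show w.ph i y ≤ t from hy]) (le_abs_self _)

theorem wd_unif (ρ : ℕ) {η δ : ℝ} (hη : 0 < η) (hδ : 0 < δ) : ∃ ρ' : ℕ,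
    ∀ (Z : Set G) (i : G × Bool) (t : ℝ), Z ∩ w.U i t ⊆ w.Γ.ball i.1 ρ →
      ∀ x, t + η ≤ w.ph i x → δ ≤ w.Γ.hit Z x → w.Γ.d i.1 x ≤ ρ' := by
  obtain ⟨R, hR⟩ := w.hit_low hη (ε := δ / 3) (by positivity)
  obtain ⟨D, hD⟩ := w.cap.hit_ball ρ (ε := δ / 3) (by positivity)
  refine ⟨max R D, fun Z i t hZ x h1 h2 => ?_⟩
  by_contra hc
  rw [not_le, max_lt_iff] at hc
  have h3 := w.Γ.hit_mono (Z := Z) (Z' := w.Γ.ball i.1 ρ ∪ {y | w.ph i y ≤ t})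
    (fun y hy => (le_or_gt (w.ph i y) t).elim Or.inr fun h => Or.inl (hZ ⟨hy, h⟩)) x
  linarith [w.Γ.hit_union_le (w.Γ.ball i.1 ρ) {y | w.ph i y ≤ t} x, hR i t x h1 hc.1.le,
    hD i.1 x hc.2.le]

theorem wd_fin {η δ : ℝ} (hη : 0 < η) (hδ : 0 < δ) {Z : Set G} {i : G × Bool} {t : ℝ}
    (h : (Z ∩ w.U i t).Finite) : {x | t + η ≤ w.ph i x ∧ δ ≤ w.Γ.hit Z x}.Finite := by
  obtain ⟨ρ, hρ⟩ := (w.Γ.finite_iff_ball i.1).1 h
  obtain ⟨ρ', h'⟩ := w.wd_unif ρ hη hδ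
  exact (w.Γ.ball_finite i.1 ρ').subset fun x hx => h' Z i t hρ x hx.1 hx.2

theorem bd_nat_fin {η : ℝ} (hη : 0 < η) {Z : Set G} (hZ : w.Γ.Reg Z) {i : G × Bool} {t : ℝ}
    (h : (w.Γ.bd Z ∩ w.U i t).Finite) :
    (w.Γ.bd (w.Γ.nat Z) ∩ {x | t + η ≤ w.ph i x}).Finite ∧
      (symmDiff Z (w.Γ.nat Z) ∩ {x | t + η ≤ w.ph i x}).Finite := by
  refine ⟨(w.wd_fin hη w.Γ.δ0_pos h).subset fun x hx => ⟨hx.2, hZ.W_subset _ ?_⟩,
    (w.wd_fin hη one_half_pos h).subset fun x hx => ⟨hx.2, hZ.symmDiff_subset hx.1⟩⟩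
  have := hZ.nat.1.bd_subset hx.1
  rwa [Gen.W, hZ.nat.2] at this

theorem bd_U_fin (i : G × Bool) (t : ℝ) {η : ℝ} (hη : 0 < η) :
    {x | x ∈ w.Γ.bd (w.U i t) ∧ η ≤ |w.ph i x - t|}.Finite := by
  obtain ⟨ρ, hρ⟩ := w.grad 1 (half_pos hη)
  refine (w.Γ.ball_finite i.1 ρ).subset fun x ⟨⟨s, hs, h1⟩, h2⟩ => ?_
  by_contra hc
  have h3 := abs_le.1 (hρ i x (x * s) (not_le.1 hc).le (w.Γ.d_step x hs))
  simp only [U, mem_ofPred_eq, not_lt] at h1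
  rcases lt_or_ge t (w.ph i x) with h4 | h4
  · rw [abs_of_pos (by linarith)] at h2
    linarith [h1.1 h4, h3.2]
  · rw [abs_of_nonpos (by linarith)] at h2
    have := mt h1.2 (not_lt.2 h4)
    linarith [not_le.1 this, h3.1]

theorem exists_reg_level (i : G × Bool) {a b : ℝ} (hab : a < b) :
    ∃ t ∈ Ioo a b, w.Γ.Reg (w.U i t) := by
  by_contra hc
  have h1 := (w.cap.countable_nonreg (w.dir_ph i).1).mono
    (show Ioo a b ⊆ _ from fun t ht h => hc ⟨t, ht, h⟩)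
  have h2 := h1.measure_zero MeasureTheory.volume
  rw [Real.volume_Ioo, ENNReal.ofReal_eq_zero] at h2
  linarith

theorem hm_U_ne_zero (i : G × Bool) {t : ℝ} (ht : t < 1) (h : w.Γ.Reg (w.U i t)) :
    ∃ x, w.Γ.hm (w.U i t) x ≠ 0 := by
  obtain ⟨ρ, hρ⟩ := w.hit_low (sub_pos.2 ht) one_half_pos
  obtain ⟨x, h1, h2⟩ := w.Γ.exists_far (w.infinite_ph_one i) i.1 ρ
  have h3 := hρ i t x (by rw [show w.ph i x = 1 from h1]; linarith) h2.le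
  have h4 := h.compl.hm_le_hit x
  rw [h.hm_compl, show (w.U i t)ᶜ = {y | w.ph i y ≤ t} from by ext; simp [U]] at h4
  exact ⟨x, by linarith⟩

theorem pc_iff (B : Set G) (ξ : G → ℝ) : w.PC B ξ ↔ ∀ δ : ℝ, 0 < δ → ∀ (i : G × Bool) (α : ℝ),
    0 < α → {x | x ∈ w.Γ.W δ B ∧ xs ξ i + α ≤ w.ph i x}.Finite := by
  refine ⟨fun h δ hδ i α hα => (h δ hδ i.1 α hα).subset fun x hx => ⟨hx.1, ?_⟩,
    fun h δ hδ g η hη => ((h δ hδ (g, true) η hη).union (h δ hδ (g, false) η hη)).subset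
      fun x hx => ?_⟩
  · rw [← w.abs_ph_sub_xs]
    exact le_trans (by linarith [hx.2]) (le_abs_self _)
  · rcases le_abs.1 hx.2 with h1 | h1
    · exact Or.inl ⟨hx.1, by simp only [xs, ph, if_true]; linarith⟩
    · exact Or.inr ⟨hx.1, by simp only [xs, ph, Bool.false_eq_true, if_false]; linarith⟩

theorem pc_of_bd {B : Set G} {ξ : G → ℝ} (hB : w.Γ.Reg B)
    (h : ∀ (i : G × Bool) (α : ℝ), 0 < α →
      {x | x ∈ w.Γ.bd B ∧ xs ξ i + α ≤ w.ph i x}.Finite) : w.PC B ξ := by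
  refine (w.pc_iff B ξ).2 fun δ hδ i α hα => ?_
  refine (w.wd_fin (half_pos hα) hδ (Z := w.Γ.bd B) (i := i) (t := xs ξ i + α / 2)
    ((h i _ (half_pos hα)).subset fun x hx => ⟨hx.1, le_of_lt hx.2⟩)).subset fun x hx =>
    ⟨by linarith [hx.2], hB.W_subset δ hx.1⟩

theorem PC.bd_fin {w : Wd G} {B : Set G} {ξ : G → ℝ} (h : w.PC B ξ) (hB : w.Γ.SC B)
    (i : G × Bool) {α : ℝ} (hα : 0 < α) :
    {x | x ∈ w.Γ.bd B ∧ xs ξ i + α ≤ w.ph i x}.Finite := by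
  exact ((w.pc_iff B ξ).1 h _ w.Γ.δ0_pos i α hα).subset fun x hx => ⟨hB.bd_subset hx.1, hx.2⟩

theorem PC.congr {w : Wd G} {B B' : Set G} {ξ : G → ℝ} (h : w.PC B ξ)
    (he : w.Γ.hm B' = w.Γ.hm B) : w.PC B' ξ := by
  simpa only [PC, Gen.W, he] using h

theorem PC.compl {w : Wd G} {B : Set G} {ξ : G → ℝ} (h : w.PC B ξ) (hB : w.Γ.Reg B) :
    w.PC Bᶜ ξ := by
  simpa only [PC, hB.W_compl] using h

theorem PC.smul {w : Wd G} {B : Set G} {ξ : G → ℝ} (h : w.PC B ξ) (g : G) :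
    w.PC (g • B) fun x => ξ (g⁻¹ * x) := by
  intro δ hδ k η hη
  refine ((h δ hδ (g⁻¹ * k) η hη).smul_set (a := g)).subset fun x hx => ?_
  rw [mem_smul_set_iff_inv_smul_mem, smul_eq_mul]
  refine ⟨?_, by simpa [mul_assoc] using hx.2⟩
  have := hx.1
  rwa [← Gen.smul_W, mem_smul_set_iff_inv_smul_mem] at this

theorem cover_inter {w : Wd G} {B D : Set G} {ξ ξ' : G → ℝ} (h : w.PC B ξ)
    (h' : w.PC D ξ') (hne : ξ' ≠ ξ) {δ : ℝ} (hδ : 0 < δ) :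
    (w.Γ.W δ B ∩ w.Γ.W δ D).Finite := by
  obtain ⟨g, hg⟩ := Function.ne_iff.1 hne
  have h0 : 0 < |ξ' g - ξ g| / 2 := half_pos (abs_pos.2 (sub_ne_zero.2 hg))
  refine ((h δ hδ g _ h0).union (h' δ hδ g _ h0)).subset fun x hx => ?_
  by_contra hc
  simp only [mem_union, mem_ofPred_eq, hx.1, hx.2, true_and, not_or, not_le] at hc
  have := abs_sub_le (ξ' g) (w.β.φ (g⁻¹ * x)) (ξ g)
  rw [abs_sub_comm (ξ' g) (w.β.φ _)] at this
  linarith [hc.1, hc.2]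

theorem PC.unique {w : Wd G} {B : Set G} {ξ ξ' : G → ℝ} (h : w.PC B ξ) (h' : w.PC B ξ')
    (hB : w.Γ.Reg B) (hn : w.Γ.Nontriv B) : ξ = ξ' := by
  by_contra hne
  exact hn.W_infinite w.cap w.oneEnd hB (by
    simpa using cover_inter h h' (Ne.symm hne) w.Γ.δ0_pos)

theorem PC.W_inter_finite {w : Wd G} {B D : Set G} {ξ ξ' : G → ℝ} (h : w.PC B ξ)
    (h' : w.PC D ξ') (hne : ξ' ≠ ξ) {δ : ℝ} (hδ : 0 < δ) :
    (w.Γ.W δ B ∩ w.Γ.W δ D).Finite := by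
  exact cover_inter h h' hne hδ

theorem exists_index {ξ ξ' : G → ℝ} (hne : ξ' ≠ ξ) : ∃ i : G × Bool, xs ξ i < xs ξ' i := by
  obtain ⟨g, hg⟩ := Function.ne_iff.1 hne
  rcases lt_or_gt_of_ne hg with h | h
  · exact ⟨(g, false), by simpa [xs] using h⟩
  · exact ⟨(g, true), by simpa [xs] using h⟩

theorem cover_col {w : Wd G} {B E F : Set G} {ξ ξ' : G → ℝ} (hB : w.Γ.Reg B) (hp : w.PC B ξ)
    (hE : w.Γ.Reg E) (hp' : w.PC E ξ') (hne : ξ' ≠ ξ) (hF : (w.Γ.bd B ∩ F).Finite)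
    (h : ∀ x ∈ w.Γ.bd B, x ∉ F → w.Γ.hm E x ≤ 1 / 2) : w.Γ.Col B E := by
  intro δ hδ η hη
  have h0 : 0 < min η (δ / 4) := lt_min hη (by positivity)
  refine ((w.cap.finite_hit hF (half_pos hδ)).union (cover_inter hp hp' hne h0)).subset
    fun x hx => ?_
  by_contra hc
  rw [mem_union, not_or, mem_ofPred_eq, not_le] at hc
  have h1 : δ ≤ w.Γ.hit (w.Γ.bd B) x := hB.W_subset δ hx.1
  have h2 := w.Γ.hit_union_le (w.Γ.bd B ∩ F) (w.Γ.bd B \ F) x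
  rw [inter_union_sdiff] at h2
  have h3 := w.Γ.mul_hit_le (Z := w.Γ.bd B \ F) (c := 1 / 2) hE.compl.hm_nonneg
    (fun y => (hE.compl.P_hm y).le)
    (fun y hy => by rw [hE.hm_compl]; linarith [h y hy.1 hy.2]) x
  rw [hE.hm_compl] at h3
  have h4 := min_le_right η (δ / 4)
  exact hc.2 ⟨Gen.W_mono (by linarith) B hx.1, (min_le_left _ _).trans hx.2, by linarith [hc.1]⟩

/-- Primeness criterion in terms of walls. -/
theorem prime_of_bd {B : Set G} {ξ : G → ℝ} (hB : w.Γ.Reg B) (hn : w.Γ.Nontriv B)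
    (hp : w.PC B ξ) (h : ∀ (D : Set G) (ξ' : G → ℝ), w.Γ.SC D → w.PC D ξ' → ξ' ≠ ξ →
      (w.Γ.bd B ∩ D).Finite ∨ (w.Γ.bd B \ D).Finite) : w.Prime B ξ := by
  refine ⟨hB, hn, hp, fun B' ξ' hB' hp' hne => ?_⟩
  rcases h _ ξ' hB'.nat.1 (hp'.congr hB'.nat.2) hne with h1 | h1
  · exact Or.inl (cover_col hB hp hB' hp' hne h1 fun x _ hx => (not_le.1 hx).le)
  · refine Or.inr (cover_col hB hp hB'.compl (hp'.compl hB') hne h1 fun x _ hx => ?_)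
    have : 1 / 2 ≤ w.Γ.hm B' x := by
      by_contra hc
      exact hx hc
    rw [hB'.hm_compl]
    linarith

end Wd

end Vale.Agent.P239
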