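import Mathlib

/-! Working definitions for the group part of P239. -/

namespace Vale.Agent.P239

open Filter Topology Set
open scoped Pointwise

noncomputable section

/-- A finite symmetric generating set containing `1`. -/
structure Gen (G : Type) [Group G] where
  S : Finset G
  one_mem : (1 : G) ∈ S
  inv_mem : ∀ s ∈ S, s⁻¹ ∈ S
  gen : ∀ x : G, ∃ l : List G, (∀ s ∈ l, s ∈ S) ∧ l.prod = x

/-- Coboundary of a mod 2 cochain on ordered tuples. -/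
def cob {V : Type} {n : ℕ} (c : (Fin n → V) → ZMod 2) (t : Fin (n + 1) → V) : ZMod 2 :=
  ∑ i : Fin (n + 1), c (t ∘ i.succAbove)

namespace Gen

variable {G : Type} [Group G] (Γ : Gen G)

/-- Word length. -/
def len (x : G) : ℕ := sInf {n | ∃ l : List G, (∀ s ∈ l, s ∈ Γ.S) ∧ l.prod = x ∧ l.length = n}

/-- Left invariant word metric. -/
def d (x y : G) : ℕ := Γ.len (x⁻¹ * y)

def ball (x : G) (n : ℕ) : Set G := {y | Γ.d x y ≤ n}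

/-- The `R`-neighbourhood of a set. -/
def nb (R : ℕ) (Z : Set G) : Set G := {x | ∃ z ∈ Z, Γ.d x z ≤ R}

/-- `R`-chains inside `A`. -/
def Ch (R : ℕ) (A : Set G) : G → G → Prop :=
  Relation.ReflTransGen fun a b => a ∈ A ∧ b ∈ A ∧ Γ.d a b ≤ R

/-- The `R`-component of `x` in `A` (empty if `x ∉ A`). -/
def comp (R : ℕ) (A : Set G) (x : G) : Set G := {y | x ∈ A ∧ Γ.Ch R A x y}

def Conn (A : Set G) : Prop := ∀ x ∈ A, ∀ y ∈ A, Γ.Ch 1 A x y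

/-- Two sided vertex boundary. -/
def bd (B : Set G) : Set G := {x | ∃ s ∈ Γ.S, (x ∈ B ↔ x * s ∉ B)}

/-- The Markov operator of the lazy simple random walk. -/
def P (f : G → ℝ) (x : G) : ℝ := (∑ s ∈ Γ.S, f (x * s)) / Γ.S.card

def gr (f : G → ℝ) (x : G) : ℝ := ∑ s ∈ Γ.S, (f x - f (x * s)) ^ 2

/-- Finite Dirichlet energy. -/
def Dir (f : G → ℝ) : Prop := Summable (Γ.gr f)

def En (f : G → ℝ) : ℝ := ∑' x, Γ.gr f x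

/-- Oscillation on a ball. -/
def osc (R : ℕ) (f : G → ℝ) (x : G) : ℝ := ⨆ y : Γ.ball x R, |f y - f x|

/-- Points have positive capacity. -/
def Cap : Prop :=
  ∃ K : ℝ, ∀ f : G → ℝ, (Function.support f).Finite → ∀ x, f x ^ 2 ≤ K * Γ.En f

/-- Size of the edge boundary. -/
def eb (A : Set G) : ℕ := {p : G × G | p.1 ∈ A ∧ p.2 ∉ A ∧ Γ.d p.1 p.2 ≤ 1}.ncard

/-- Three dimensional isoperimetric inequality. -/
def Iso : Prop :=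
  ∃ c : ℝ, 0 < c ∧ ∀ (k : ℕ) (A : Set G), A.Finite → 64 ^ k ≤ A.ncard → c * 16 ^ k ≤ Γ.eb A

def Cubic : Prop := ∃ ε : ℝ, 0 < ε ∧ ∀ n : ℕ, ε * n ^ 3 ≤ (Γ.ball 1 n).ncard

def hitN (Z : Set G) : ℕ → G → ℝ
  | 0 => Z.indicator 1
  | n + 1 => fun x => max (Z.indicator 1 x) (Γ.P (hitN Z n) x)

/-- Probability of ever hitting `Z`. -/
def hit (Z : Set G) (x : G) : ℝ := ⨆ n, Γ.hitN Z n x

/-- `Z` is almost surely visited only finitely often. -/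
def Thin (Z : Set G) : Prop := ∀ x, Tendsto (fun n => Γ.P^[n] (Γ.hit Z) x) atTop (𝓝 0)

def Reg (B : Set G) : Prop := Γ.Thin (Γ.bd B)

/-- Probability of eventually staying in a regular set. -/
def hm (B : Set G) (x : G) : ℝ := limUnder atTop fun n => Γ.P^[n] (B.indicator 1) x

def W (δ : ℝ) (B : Set G) : Set G := {x | δ ≤ Γ.hm B x ∧ Γ.hm B x ≤ 1 - δ}

def nat (B : Set G) : Set G := {x | 1 / 2 ≤ Γ.hm B x}

/-- Self consistent regular sets. -/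
def SC (B : Set G) : Prop :=
  Γ.Reg B ∧ (∀ x ∈ B, 1 / 2 ≤ Γ.hm B x) ∧ ∀ x ∉ B, Γ.hm B x ≤ 1 / 2

def Nontriv (B : Set G) : Prop := (∃ x, Γ.hm B x ≠ 0) ∧ ∃ x, Γ.hm B x ≠ 1

def δ0 : ℝ := 1 / (2 * Γ.S.card)

/-- Equivariant monotone representative of a regular set with lexicographic tie breaking. -/
def lex (B : Set G) : Set G :=
  {x | 1 / 2 < Γ.hm B x ∨ (Γ.hm B x = 1 / 2 ∧ ∃ y, 1 / 2 < Γ.hm B (x * y) ∧
    ∀ y', WellOrderingRel y' y → Γ.hm B (x * y') = 1 / 2)}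

/-- `hm D → 0` along the wall of `B`. -/
def Col (B D : Set G) : Prop :=
  ∀ δ : ℝ, 0 < δ → ∀ η : ℝ, 0 < η → {x | x ∈ Γ.W δ B ∧ η ≤ Γ.hm D x}.Finite

def Small {n : ℕ} (R : ℕ) (t : Fin n → G) : Prop := ∀ i j, Γ.d (t i) (t j) ≤ R

/-- Coarse vanishing of finitely supported mod 2 cohomology in degree `k`. -/
def Van (k : ℕ) : Prop :=
  ∀ R : ℕ, ∃ R' : ℕ, ∀ c : (Fin (k + 1) → G) → ZMod 2, (Function.support c).Finite →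
    (∀ t, Γ.Small R' t → cob c t = 0) →
    ∃ b : (Fin k → G) → ZMod 2, (Function.support b).Finite ∧ ∀ t, Γ.Small R t → cob b t = c t

/-- The mod 2 cycle space of the Cayley graph is generated by short cycles. -/
def FP2 : Prop :=
  ∃ R : ℕ, ∀ c : (Fin 2 → G) → ZMod 2, (∀ t, Γ.Small R t → cob c t = 0) →
    ∃ b : (Fin 1 → G) → ZMod 2, ∀ t, Γ.Small 1 t → cob b t = c t

def Hyp : Prop := Γ.FP2 ∧ Γ.Van 1 ∧ Γ.Van 2 ∧ Γ.Van 3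

def OneEnd : Prop := ∀ B : Set G, (Γ.bd B).Finite → B.Finite ∨ Bᶜ.Finite

/-- Wall points of `C` whose `R`-ball is split by `A`. -/
def Sp (R : ℕ) (A C : Set G) : Set G :=
  {w | w ∈ Γ.bd C ∧ (∃ x ∈ Γ.ball w R, x ∈ A) ∧ ∃ y ∈ Γ.ball w R, y ∉ A}

/-- At `x`, the wall of `Z` is the part of the wall of `C` lying in `A`. -/
def CutAt (A C Z : Set G) (x : G) : Prop :=
  ∀ s ∈ Γ.S, ((x ∈ Z ↔ x * s ∉ Z) ↔ (x ∈ A ∧ (x ∈ C ↔ x * s ∉ C)))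

def SplitAt (R : ℕ) : Prop :=
  ∀ D : ℕ, ∃ D' : ℕ, ∀ A C : Set G,
    (∀ w ∈ Γ.Sp R A C, ∀ w', Γ.Ch R (Γ.Sp R A C) w w' → Γ.d w w' ≤ D) →
    ∃ Z : Set G, ∀ x, (∀ w ∈ Γ.Sp R A C, D' < Γ.d x w) → Γ.CutAt A C Z x

def StairAt (R : ℕ) : Prop :=
  ∀ D : ℕ, ∃ D' : ℕ, ∀ (B : Set G) (col : G → Fin 3),
    (∀ i x y, x ∈ Γ.nb R (Γ.bd B) ∩ col ⁻¹' {i} →
      Γ.Ch R (Γ.nb R (Γ.bd B) ∩ col ⁻¹' {i}) x y → Γ.d x y ≤ D) →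
    B ⊆ Γ.nb D' (Γ.bd B) ∨ Bᶜ ⊆ Γ.nb D' (Γ.bd B)

/-- Nested families (input of Lemma F). -/
structure NF (𝒩 : Set (Set G)) : Prop where
  compl : ∀ M ∈ 𝒩, Mᶜ ∈ 𝒩
  smul : ∀ (g : G), ∀ M ∈ 𝒩, g • M ∈ 𝒩
  nested : ∀ M ∈ 𝒩, ∀ M' ∈ 𝒩, M ⊆ M' ∨ M ⊆ M'ᶜ ∨ Mᶜ ⊆ M' ∨ Mᶜ ⊆ M'ᶜ
  esc : ∀ M ∈ 𝒩, ∃ K ⊆ M, Γ.Conn K ∧ K.Infinite
  tight : ∀ M : ℕ → Set G, (∀ i ≤ 6, M i ∈ 𝒩) → (∀ i < 6, M i ⊂ M (i + 1)) → ∀ R : ℕ,
    {p : G × G | p.1 ∈ M 0 ∧ p.2 ∉ M 6 ∧ Γ.d p.1 p.2 ≤ R}.Finite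
  esc2 : ∀ M : ℕ → Set G, (∀ i, M i ∈ 𝒩) → StrictMono M → (⋃ i, M i) ≠ univ → ∀ R : ℕ,
    ∃ K, Γ.Conn K ∧ K.Infinite ∧ ∀ x ∈ K, ∀ i, ∀ y ∈ M i, R < Γ.d x y

/-- A base function with connected level sets. -/
structure Base where
  φ : G → ℝ
  o0 : G
  o1 : G
  nonneg : ∀ x, 0 ≤ φ x
  le_one : ∀ x, φ x ≤ 1
  at0 : φ o0 = 0
  at1 : φ o1 = 1
  dir : Γ.Dir φ
  conn_gt : ∀ r, Γ.Conn {x | r < φ x}
  conn_lt : ∀ r, Γ.Conn {x | φ x < r}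
  inf0 : {x | φ x = 0}.Infinite
  inf1 : {x | φ x = 1}.Infinite

end Gen

/-- The standing situation, to be refuted. -/
structure Wd (G : Type) [Group G] where
  Γ : Gen G
  β : Γ.Base
  R : ℕ
  one_le_R : 1 ≤ R
  oneEnd : Γ.OneEnd
  split : Γ.SplitAt R
  stair : Γ.StairAt R
  iso : Γ.Iso
  cap : Γ.Cap

/-- The value `ξ h` or `1 - ξ h`. -/
def xs {G : Type} (ξ : G → ℝ) (i : G × Bool) : ℝ := if i.2 then ξ i.1 else 1 - ξ i.1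

namespace Wd

variable {G : Type} [Group G] (w : Wd G)

/-- Translates of the base function and their flips. -/
def ph (i : G × Bool) (x : G) : ℝ :=
  if i.2 then w.β.φ (i.1⁻¹ * x) else 1 - w.β.φ (i.1⁻¹ * x)

def U (i : G × Bool) (r : ℝ) : Set G := {x | r < w.ph i x}

/-- Point cuts: all translates of the base function converge along the wall. -/
def PC (B : Set G) (ξ : G → ℝ) : Prop :=
  ∀ δ : ℝ, 0 < δ → ∀ (h : G) (η : ℝ), 0 < η →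
    {x | x ∈ w.Γ.W δ B ∧ η ≤ |w.β.φ (h⁻¹ * x) - ξ h|}.Finite

def Prime (B : Set G) (ξ : G → ℝ) : Prop :=
  w.Γ.Reg B ∧ w.Γ.Nontriv B ∧ w.PC B ξ ∧
    ∀ (B' : Set G) (ξ' : G → ℝ), w.Γ.Reg B' → w.PC B' ξ' → ξ' ≠ ξ → w.Γ.Col B B' ∨ w.Γ.Col B B'ᶜ

def Pr (B : Set G) : Prop := ∃ ξ, w.Prime B ξ

def xi (B : Set G) : G → ℝ := Classical.epsilon fun ξ => w.Prime B ξ

/-- Two primes define the same point. -/
def Same (B B' : Set G) : Prop :=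
  w.Pr B ∧ w.Pr B' ∧ w.xi B = w.xi B' ∧
    ∀ E, w.Pr E → w.xi E ≠ w.xi B → (w.Γ.Col B E ↔ w.Γ.Col B' E)

/-- The direction of `E` seen from the point of `B`. -/
def Dirn (B E : Set G) : Set G := {x | ∀ C, w.Same B C → w.Γ.Col E C → x ∈ w.Γ.lex Cᶜ}

def Assoc (B M : Set G) : Prop :=
  ∃ E, w.Pr E ∧ ¬ w.Same B E ∧ (M = w.Dirn B E ∨ M = (w.Dirn B E)ᶜ)

def Fam : Set (Set G) := {M | ∃ B, w.Pr B ∧ w.Assoc B M}

def Prec (B M B' M' : Set G) : Prop := M ⊆ (w.Dirn B B')ᶜ ∧ w.Dirn B' B ⊆ M'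

def Sig (B : Set G) : Set G := {x | ∃ B', w.Same B B' ∧ x ∈ w.Γ.W w.Γ.δ0 B'}

/-- Disc bound. -/
def DB (ξ : G → ℝ) (Z : Set G) (i : G × Bool) (α : ℝ) (ρ : ℕ) : Prop :=
  ∀ x ∈ Z, xs ξ i + α ≤ w.ph i x → w.Γ.d i.1 x ≤ ρ

def Matched (ρ : ℕ) (C : Set G) (y : G) : Prop :=
  ∃ B, w.Pr B ∧ w.Γ.SC B ∧
    ∀ x ∈ w.Γ.ball y ρ, (x ∈ B ↔ x ∈ C) ∧ |w.Γ.hm B x - w.Γ.hm C x| ≤ 1 / 8

/-- Oriented edges inside `S` separated by `A`. -/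
def cut (S A : Set G) : Set (G × G) :=
  {p | p.1 ∈ S ∧ p.2 ∈ S ∧ w.Γ.d p.1 p.2 ≤ 1 ∧ (p.1 ∈ A ↔ p.2 ∉ A)}

/-- A minimal cut of a level set between two ultrafilters. -/
structure Cfg where
  i : G × Bool
  r : ℝ
  A : Set G
  u0 : Ultrafilter G
  u1 : Ultrafilter G
  reg : w.Γ.Reg (w.U i r)
  u0c : (u0 : Filter G) ≤ cofinite
  u1c : (u1 : Filter G) ≤ cofinite
  sep : A ∈ u1 ↔ A ∉ u0
  fin : (w.cut (w.U i r) A).Finite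
  min : ∀ A' : Set G, (A' ∈ u1 ↔ A' ∉ u0) → (w.cut (w.U i r) A').Finite →
    (w.cut (w.U i r) A).ncard ≤ (w.cut (w.U i r) A').ncard

/-- The self consistent set of a configuration. -/
def Cfg.C {w : Wd G} (c : w.Cfg) : Set G := w.Γ.nat (c.A ∩ w.U c.i c.r)

def UC : Prop :=
  ∀ η : ℝ, 0 < η → ∃ R : ℕ, ∀ (C : Set G) (i : G × Bool) (r : ℝ), w.Γ.SC C →
    (w.Γ.bd C ∩ w.U i r).Finite → ∀ y ∈ w.Γ.bd C, r + η ≤ w.ph i y → w.Γ.d i.1 y ≤ R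

/-- Generic levels of the base function. -/
def GenLev (s : ℝ) : Prop :=
  w.Γ.Reg (w.U (1, true) s) ∧ ∀ (i : G × Bool) (a b : ℝ), a < b →
    ∃ t ∈ Ioo a b, (w.Γ.Sp w.R (w.U i t) (w.U (1, true) s)).Finite

end Wd

end

end Vale.Agent.P239
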