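import Mathlib

/-! Abstract descent lemma. -/

namespace Vale.Agent.P239

theorem descent {Y St : Type} (lvl : St → ℕ) (Ω : St → ℕ → Set Y) (near : St → Y → Prop)
    (Bad : Set Y) (top : St) (hmono : ∀ σ, Monotone (Ω σ))
    (hstep : ∀ y ∈ Bad ∩ Ω top (lvl top + 1),
      ∃ σ, lvl σ ≤ lvl top ∧ near σ y ∧ (Bad ∩ Ω σ 0).Nonempty)
    (hnest : ∀ σ σ' y, lvl σ' ≤ lvl σ → near σ' y → y ∈ Ω σ (lvl σ') →
      Ω σ' (lvl σ' + 1) ⊆ Ω σ (lvl σ' + 1))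
    (haway : ∀ σ y, near σ y → y ∉ Ω σ (lvl σ + 1))
    (hfin : (Bad ∩ Ω top (lvl top + 1)).Finite) : Bad ∩ Ω top 0 = ∅ := by
  classical
  by_contra hne
  obtain ⟨y0, hy0⟩ := Set.nonempty_iff_ne_empty.2 hne
  set L := lvl top with hL
  let V : Set (ℕ → St) := {τ | (∀ l ≤ L, l ≤ lvl (τ l)) ∧
    (∃ y ∈ Bad, ∀ l ≤ L, y ∈ Ω (τ l) l) ∧
    (∀ k l, k < l → l ≤ L → Ω (τ k) (k + 1) ⊆ Ω (τ l) l) ∧
    ∀ k ≤ L, Ω (τ k) (k + 1) ⊆ Ω top (L + 1)}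
  let f : (ℕ → St) → Fin (L + 1) → ℕ := fun τ l => (Bad ∩ Ω (τ l) (l + 1)).ncard
  have hwf : WellFounded (Pi.Lex (ι := Fin (L + 1)) (β := fun _ => ℕ) (· > ·) fun {_} => (· < ·)) :=
    Pi.Lex.wellFounded (· > ·) fun _ => wellFounded_lt
  have hV : V.Nonempty := ⟨fun _ => top, fun l hl => hl,
    ⟨y0, hy0.1, fun l _ => hmono top (Nat.zero_le l) hy0.2⟩, fun k l hkl _ => hmono top hkl,
    fun k hk => hmono top (Nat.succ_le_succ hk)⟩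
  obtain ⟨τ, ⟨h1, ⟨y, hyB, hy⟩, h3, h4⟩, hmin⟩ := (InvImage.wf f hwf).has_min V hV
  obtain ⟨σ, hσ, hn, y', hy'B, hy'⟩ := hstep y
    ⟨hyB, h4 0 (Nat.zero_le _) (hmono _ (Nat.zero_le _) (hy 0 (Nat.zero_le _)))⟩
  have hsub : Ω σ (lvl σ + 1) ⊆ Ω (τ (lvl σ)) (lvl σ + 1) :=
    hnest _ _ y (h1 _ hσ) hn (hy _ hσ)
  let τ' : ℕ → St := fun l => if l ≤ lvl σ then σ else τ l
  have e1 : ∀ l, l ≤ lvl σ → τ' l = σ := fun l h => if_pos h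
  have e2 : ∀ l, lvl σ < l → τ' l = τ l := fun l h => if_neg (not_le.2 h)
  refine hmin τ' ⟨fun l hl => ?_, ⟨y', hy'B, fun l hl => ?_⟩, fun k l hkl hl => ?_,
    fun k hk => ?_⟩ ⟨⟨lvl σ, Nat.lt_succ_of_le hσ⟩, fun j hj => ?_, ?_⟩
  · rcases le_or_gt l (lvl σ) with h | h
    · rw [e1 l h]; exact h
    · rw [e2 l h]; exact h1 l hl
  · rcases le_or_gt l (lvl σ) with h | h
    · rw [e1 l h]; exact hmono σ (Nat.zero_le _) hy'
    · rw [e2 l h]; exact h3 _ l h hl (hsub (hmono σ (Nat.zero_le _) hy'))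
  · rcases le_or_gt l (lvl σ) with h | h
    · rw [e1 l h, e1 k (hkl.le.trans h)]; exact hmono σ hkl
    · rw [e2 l h]
      rcases le_or_gt k (lvl σ) with h' | h'
      · rw [e1 k h']
        exact (hmono σ (Nat.succ_le_succ h')).trans (hsub.trans (h3 _ l h hl))
      · rw [e2 k h']; exact h3 k l hkl hl
  · rcases le_or_gt k (lvl σ) with h' | h'
    · rw [e1 k h']
      exact (hmono σ (Nat.succ_le_succ h')).trans (hsub.trans (h4 _ hσ))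
    · rw [e2 k h']; exact h4 k hk
  · simp only [f]
    rw [e2 j hj]
  · simp only [f]
    rw [e1 _ le_rfl]
    refine Set.ncard_lt_ncard ⟨Set.inter_subset_inter_right _ hsub, fun h => ?_⟩
      (hfin.subset (Set.inter_subset_inter_right _ (h4 _ hσ)))
    exact haway σ y hn (h ⟨hyB, hmono _ (Nat.le_succ _) (hy _ hσ)⟩).2

end Vale.Agent.P239
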