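import Vale.Agent.P239.Disc
import Vale.Agent.P239.BaseF

/-! The walls of a point. -/

namespace Vale.Agent.P239

open Filter Topology Set
open scoped Pointwise

namespace Wd

variable {G : Type} [Group G] (w : Wd G)

theorem dev_types : ∃ 𝒯 : Set (Set G), 𝒯.Finite ∧
    ∀ B x, x ∈ w.Sig B → ∃ t ∈ 𝒯, w.Same (x⁻¹ • B) t := by
  obtain ⟨𝒯, h1, h2⟩ := w.finite_points w.Γ.δ0_pos
  refine ⟨𝒯, h1, fun B x ⟨C, h3, h4⟩ => ?_⟩
  obtain ⟨t, h5, h6⟩ := h2 _ (h3.2.1.smul x⁻¹).1 (by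
    rwa [← Gen.smul_W, mem_inv_smul_set_iff, smul_eq_mul, mul_one])
  exact ⟨t, h5, (h3.smul _).trans h6⟩

theorem dev_cl (g : G) {B t : Set G} (h : w.Same (g • B) t) :
    g • {B' | w.Same B B'} = {B' | w.Same t B'} := by
  ext C
  rw [mem_smul_set_iff_inv_smul_mem]
  exact ⟨fun h1 => h.symm.trans (by simpa using Same.smul h1 g),
    fun h1 => by simpa using (h.trans h1).smul g⁻¹⟩

theorem dev_side {Γ : Gen G} {A N Z C : Set G} (h : ∀ x, Γ.CutAt A N Z x) (hC : C = N ∨ C = Nᶜ)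
    {a y : G} (hy : y ∈ Γ.comp 1 C a) : y ∈ Z ↔ a ∈ Z := by
  refine hy.2.ind_one (p := fun y => y ∈ Z ↔ a ∈ Z) Iff.rfl fun b hb s hs hbs h1 => ?_
  have := h b s hs
  rcases hC with rfl | rfl
  · tauto
  · rw [mem_compl_iff] at hb hbs
    tauto

/-- A transient subgroup of the stabiliser of a point whose wall passes through `1`. -/
theorem exists_sub {B : Set G} (hB : w.Pr B) (h1 : (1 : G) ∈ w.Sig B) :
    ∃ (H : Subgroup G) (T : Gen H), T.Cap ∧ (∀ g ∈ H, w.Same (g • B) B) := by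
  obtain ⟨𝒯, t1, t2⟩ := w.dev_types
  have hS : w.Sig B ⊆ {x | x⁻¹ • {B' | w.Same B B'} ∈ (fun t => {B' | w.Same t B'}) '' 𝒯} :=
    fun x hx => by
      obtain ⟨t, h2, h3⟩ := t2 B x hx
      exact ⟨t, h2, (w.dev_cl _ h3).symm⟩
  have h2 := hS h1
  obtain ⟨C, c1, c2⟩ := h1
  obtain ⟨L, hL⟩ := w.lobes w.Γ.δ0_pos
  obtain ⟨⟨p, p1, p2⟩, q, q1, q2⟩ := hL C 1 c1.2.1 c2
  obtain ⟨Λ, Q, l1, l2, l3, -, l4⟩ := Gen.exists_gpd (Γ := w.Γ) (t1.image _)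
    (ω := {B' | w.Same B B'}) (by simpa using h2) (3 * L + 2 * w.R)
  obtain ⟨T⟩ := Gen.exists_gen_closure l1
  have hC := c1.2.1.reg
  have hN : w.Γ.bd (w.Γ.nat C) ⊆ _ := fun x hx =>
    hS ⟨_, c1.trans (c1.2.1.congr hC.nat.1.1 hC.nat.2), hC.nat.1.bd_subset hx⟩
  set M := w.Γ.comp (3 * L + 2 * w.R)
    {x | x⁻¹ • {B' | w.Same B B'} ∈ (fun t => {B' | w.Same t B'}) '' 𝒯} 1 with hM
  have hA : ∀ x ∈ w.Γ.bd (w.Γ.nat C), ∀ y ∈ w.Γ.nb w.R M, w.Γ.d x y ≤ w.R → x ∈ M := by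
    rintro x hx y ⟨z, hz, hd⟩ hd'
    have := w.Γ.d_tri x y z
    exact Gen.mem_comp_of_near hz (hN hx) (by rw [w.Γ.d_comm]; omega)
  obtain ⟨Z, hZ⟩ := w.split.empty (A := w.Γ.nb w.R M) (C := w.Γ.nat C) (by
    refine eq_empty_of_forall_notMem ?_
    rintro x ⟨hx, ⟨y, h3, h4⟩, z, h5, h6⟩
    exact h6 ⟨x, hA x hx y h4 h3, (w.Γ.d_comm _ _).trans_le h5⟩)
  have hb : w.Γ.bd Z ⊆ w.Γ.bd (w.Γ.nat C) ∩ M := by
    rintro x ⟨s, hs, h⟩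
    have := (hZ x s hs).1 h
    exact ⟨⟨s, hs, this.2⟩, hA x ⟨s, hs, this.2⟩ x this.1 (by simp)⟩
  have hR : w.Γ.Reg Z := Gen.Thin.mono hC.nat.1.1 fun x hx => (hb hx).1
  obtain ⟨v, ⟨s, hs, v1⟩, v2, v3⟩ := w.Γ.exists_bd_between (B := w.Γ.nat C) (x := p) (y := q)
    (show 1 / 2 ≤ w.Γ.hm C p by linarith) (show ¬ 1 / 2 ≤ w.Γ.hm C q by linarith)
  have hv : v ∈ M := Gen.mem_comp_of_near (Gen.mem_comp_self h2) (hN ⟨s, hs, v1⟩) (by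
    have h3 := w.Γ.d_tri 1 p v
    have h4 := w.Γ.d_tri p 1 q
    rw [w.Γ.d_comm p 1] at h4
    rw [Gen.mem_ball] at p1 q1
    omega)
  have h3 := (hZ v s hs).2 ⟨w.Γ.subset_nb _ _ hv, v1⟩
  have h4 : ∀ {K Y : Set G}, (w.Γ.Reg K ∧ ∃ x, w.Γ.hm K x ≠ 0) → w.Γ.Reg Y → K ⊆ Y →
      ∀ D, ¬ Y ⊆ w.Γ.nb D (w.Γ.bd Y) := fun ⟨k1, k2⟩ hY h => hY.not_subset_nb
    ⟨1, ((k1.hm_pos k2 1).trans_le (k1.hm_mono hY h 1)).ne'⟩
  have k1 := hC.comp_nat v2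
  have k2 := hC.comp_nat_compl (v1.1 v2)
  have h5 : (∀ D, ¬ Z ⊆ w.Γ.nb D (w.Γ.bd Z)) ∧ ∀ D, ¬ Zᶜ ⊆ w.Γ.nb D (w.Γ.bd Zᶜ) := by
    by_cases h : v ∈ Z
    · exact ⟨h4 k1 hR fun y hy => (dev_side hZ (Or.inl rfl) hy).2 h,
        h4 k2 hR.compl fun y hy h6 => h3.1 h ((dev_side hZ (Or.inr rfl) hy).1 h6)⟩
    · exact ⟨h4 k2 hR fun y hy => (dev_side hZ (Or.inr rfl) hy).2 (not_not.1 (mt h3.2 h)),
        h4 k1 hR.compl fun y hy h6 => h ((dev_side hZ (Or.inl rfl) hy).1 h6)⟩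
  obtain ⟨ρ, hρ⟩ := (w.Γ.finite_iff_ball 1).1 l2
  refine ⟨_, T, (w.stair.cubic T (Subgroup.closure Λ).subtype Subtype.val_injective (C := Z)
    (ρ := ρ) (fun x hx => ?_) h5.1 (by simpa using h5.2)).iso.cap, fun g hg => ?_⟩
  · obtain ⟨h, hh, y, hy, rfl⟩ := l4 (hb hx).2
    exact ⟨h, ⟨⟨h, hh⟩, rfl⟩, by rw [w.Γ.d_comm, Gen.d_mul_right, ← Gen.d_one]; exact hρ hy⟩
  · have h6 : g • {B' | w.Same B B'} = {B' | w.Same B B'} :=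
      (Subgroup.closure_le (MulAction.stabilizer G {B' | w.Same B B'})).2 l3 hg
    exact (h6.symm.trans (w.dev_cl g (hB.smul g).1.same)).subset hB.same

theorem dev_fin {B : Set G} (hB : w.Pr B) (h1 : (1 : G) ∈ w.Sig B) {η : ℝ} (hη : 0 < η) :
    {x | η ≤ |w.β.φ x - w.xi B x⁻¹|}.Finite := by
  obtain ⟨H, T, hT, hH⟩ := w.exists_sub hB h1
  have hf : ∀ (g : H) h, w.xi B (H.subtype g * h) = w.xi B h := fun g h => by
    simpa [(hB.smul _).2] using congrFun (hH _ (H.inv_mem g.2)).2.2.1 h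
  have h2 := w.fix T hT H.subtype Subtype.val_injective hB.reg hB.nontriv hB.pc hf
  obtain ⟨K, hK0, hK⟩ := hT.c0
  obtain ⟨L, hL⟩ := w.dir_pull T H.subtype Subtype.val_injective 1
  have hc := T.card_pos'
  obtain ⟨s, hs⟩ := fpl_tail (f := fun x => w.Γ.osc L w.β.φ x ^ 2)
    (θ := η ^ 2 / (K * T.S.card + 1)) (by positivity)
  refine (s.finite_toSet.biUnion fun y _ => (h2 y⁻¹ hη).image fun g : H => y * g).subset
    fun x hx => ?_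
  obtain ⟨g, hg⟩ : ∃ g : H, x * g ∈ s := by
    by_contra! hn
    have h3 := hK _ (hL x (w.xi B x⁻¹)).1 (by
      refine Metric.tendsto_nhds.2 fun ε hε => (h2 x⁻¹ hε).subset fun g hg => ?_
      simpa [Real.dist_eq] using hg) 1
    have h4 : ∑' g : H, w.Γ.osc L w.β.φ (x * H.subtype g * 1) ^ 2 ≤ _ := le_trans (by
      refine le_of_eq (tsum_congr fun g => ?_)
      simp [hn g]) ((tsum_comp_le_tsum_of_inj ((w.β.dir.summable_osc L).indicator (s : Set G)ᶜ)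
        (indicator_nonneg fun _ _ => sq_nonneg _) (i := fun g : H => x * g)
        fun a b h => Subtype.ext (mul_left_cancel h)).trans hs)
    have h5 := h3.trans (mul_le_mul_of_nonneg_left ((hL x _).2.trans
      (mul_le_mul_of_nonneg_left h4 hc.le)) hK0)
    have h6 := pow_le_pow_left₀ hη.le hx 2
    simp only [map_one, mul_one] at h5
    rw [← mul_assoc, ← mul_div_assoc, le_div_iff₀ (by positivity)] at h5
    rw [sq_abs] at h6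
    nlinarith [pow_pos hη 2, mul_le_mul_of_nonneg_left h6 (mul_nonneg hK0 hc.le)]
  refine mem_biUnion hg ⟨g⁻¹, ?_, by simp⟩
  have := hf g⁻¹ x⁻¹
  simp only [map_inv, Subgroup.subtype_apply] at this
  simpa [this] using hx

theorem dev {η : ℝ} (hη : 0 < η) : ∃ ρ : ℕ, ∀ (B : Set G) (i : G × Bool) (x : G), w.Pr B →
    x ∈ w.Sig B → ρ ≤ w.Γ.d i.1 x → |w.ph i x - xs (w.xi B) i| ≤ η := by
  obtain ⟨𝒯, t1, t2⟩ := w.dev_types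
  obtain ⟨ρ, hρ⟩ := (w.Γ.finite_iff_ball 1).1 ((t1.inter_of_left {t | w.Pr t ∧ 1 ∈ w.Sig t}).biUnion
    fun t ht => w.dev_fin ht.2.1 ht.2.2 hη)
  refine ⟨ρ + 1, fun B i x hB hx hd => not_lt.1 fun h => ?_⟩
  obtain ⟨t, h1, h2⟩ := t2 B x hx
  have h3 := hρ (mem_biUnion (x := t) (y := i.1⁻¹ * x) ⟨h1, h2.2.1, by
    rwa [← h2.sig_eq, ← smul_sig _ _ hB, mem_inv_smul_set_iff, smul_eq_mul, mul_one]⟩ (by
      rw [w.abs_ph_sub_xs] at h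
      simpa [← h2.2.2.1, (hB.smul _).2] using h.le))
  rw [Gen.mem_ball, ← Gen.d_eq_d_one] at h3
  omega

theorem dev_ne {B B' : Set G} (hB : w.Pr B) (hB' : w.Pr B') (hn : w.xi B' ≠ w.xi B) :
    (w.Sig B ∩ w.Sig B').Finite := by
  obtain ⟨i, hi⟩ := exists_index hn
  obtain ⟨ρ, hρ⟩ := w.dev (η := (xs (w.xi B') i - xs (w.xi B) i) / 3) (by linarith)
  refine (w.Γ.ball_finite i.1 ρ).subset fun x hx => w.Γ.mem_ball.2 (not_lt.1 fun h => ?_)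
  linarith [(abs_le.1 (hρ B i x hB hx.1 h.le)).2, (abs_le.1 (hρ B' i x hB' hx.2 h.le)).1]

theorem dev_col {B E : Set G} (hB : w.Pr B) (hE : w.Pr E) (hn : w.xi E ≠ w.xi B)
    (h : w.Γ.Col B E) : {x | x ∈ w.Sig B ∧ 1 / 2 ≤ w.Γ.hm E x}.Finite := by
  refine (w.dev_ne hB hE hn).subset fun x hx => ⟨hx.1, E, hE.same, w.Γ.δ0_le.trans hx.2, ?_⟩
  obtain ⟨⟨C, h1, h2⟩, -⟩ := hx
  have h3 := (h1.2.2.2 E hE hn).1 h
  rcases hE.prime.2.2.2 C _ h1.2.1.reg h1.2.1.pc (h1.2.2.1 ▸ hn.symm) with h4 | h4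
  · linarith [add_le_of_col hE.reg hE.nontriv h1.2.1.reg h4 h3 x, h2.1]
  · linarith [add_le_of_col hE.reg hE.nontriv h1.2.1.reg.compl h4
      ((Gen.col_compl_left h1.2.1.reg E).2 h3) x, h2.2, h1.2.1.reg.hm_compl x]

theorem sig_inter_finite {B B' : Set G} (hB : w.Pr B) (hB' : w.Pr B') (hn : ¬ w.Same B B') :
    (w.Sig B ∩ w.Sig B').Finite := by
  by_cases he : w.xi B = w.xi B'
  · obtain ⟨E, h1, h2, h3, h4⟩ := exists_sep hB hB' hn he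
    refine ((w.dev_col hB h1 h2 h3).union (w.dev_col hB' h1.compl.1
      (by rwa [h1.compl.2, ← he]) h4)).subset fun x hx => ?_
    rcases le_total (1 / 2) (w.Γ.hm E x) with h | h
    · exact Or.inl ⟨hx.1, h⟩
    · exact Or.inr ⟨hx.2, by rw [h1.reg.hm_compl]; linarith⟩
  · exact w.dev_ne hB hB' (Ne.symm he)

theorem sig_inter_unif : ∃ ρ : ℕ, ∀ (B B' : Set G) (x : G), w.Pr B → w.Pr B' → ¬ w.Same B B' →
    x ∈ w.Sig B ∩ w.Sig B' → w.Sig B ∩ w.Sig B' ⊆ w.Γ.ball x ρ := by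
  obtain ⟨𝒯, t1, t2⟩ := w.dev_types
  obtain ⟨ρ, hρ⟩ := (w.Γ.finite_iff_ball 1).1 (((t1.prod t1).inter_of_left
    {p | w.Pr p.1 ∧ w.Pr p.2 ∧ ¬ w.Same p.1 p.2}).biUnion
    fun p hp => w.sig_inter_finite hp.2.1 hp.2.2.1 hp.2.2.2)
  refine ⟨ρ, fun B B' x hB hB' hn hx y hy => ?_⟩
  obtain ⟨t, h1, h2⟩ := t2 B x hx.1
  obtain ⟨t', h3, h4⟩ := t2 B' x hx.2
  rw [Gen.mem_ball, Gen.d_eq_d_one]
  refine hρ (mem_biUnion (x := (t, t')) ⟨⟨h1, h3⟩, h2.2.1, h4.2.1, fun h => hn (by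
    simpa using ((h2.trans h).trans h4.symm).smul x)⟩ ⟨?_, ?_⟩)
  · rw [← h2.sig_eq, ← smul_sig _ _ hB]
    exact smul_mem_smul_set hy.1
  · rw [← h4.sig_eq, ← smul_sig _ _ hB']
    exact smul_mem_smul_set hy.2

end Wd

end Vale.Agent.P239
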