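import Vale.Agent.P239.Cover

/-! Subgroups fixing the point of a point cut. -/

namespace Vale.Agent.P239

open Filter Topology Set
open scoped Pointwise

namespace Wd

variable {G : Type} [Group G] (w : Wd G)

/-- Pull back of a Dirichlet function to a finitely generated subgroup. -/
theorem dir_pull {H : Type} [Group H] (T : Gen H) (ι : H →* G) (hι : Function.Injective ι)
    (k : G) : ∃ L : ℕ, ∀ (x : G) (c : ℝ), T.Dir (fun g => w.β.φ (x * ι g * k) - c) ∧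
      T.En (fun g => w.β.φ (x * ι g * k) - c) ≤
        T.S.card * ∑' g : H, w.Γ.osc L w.β.φ (x * ι g * k) ^ 2 := by
  refine ⟨T.S.sup fun t => w.Γ.len (k⁻¹ * ι t * k), fun x c => ?_⟩
  set L := T.S.sup fun t => w.Γ.len (k⁻¹ * ι t * k) with hL
  have hinj : Function.Injective fun g : H => x * ι g * k := fun a b hab =>
    hι (mul_left_cancel (mul_right_cancel hab))
  have hs : Summable fun g : H => w.Γ.osc L w.β.φ (x * ι g * k) ^ 2 :=
    (w.β.dir.summable_osc L).comp_injective hinj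
  have hle : ∀ g : H, T.gr (fun g => w.β.φ (x * ι g * k) - c) g ≤
      T.S.card * w.Γ.osc L w.β.φ (x * ι g * k) ^ 2 := fun g => by
    unfold Gen.gr
    rw [← nsmul_eq_mul]
    refine Finset.sum_le_card_nsmul _ _ _ fun t ht => ?_
    have hd : w.Γ.d (x * ι g * k) (x * ι (g * t) * k) ≤ L := by
      have e : x * ι (g * t) * k = x * ι g * k * (k⁻¹ * ι t * k) := by
        rw [map_mul]; group
      rw [e, Gen.d_mul_right]
      exact Finset.le_sup (f := fun t => w.Γ.len (k⁻¹ * ι t * k)) ht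
    have h1 := w.Γ.abs_sub_le_osc w.β.φ hd
    rw [sub_sub_sub_cancel_right, ← sq_abs, abs_sub_comm]
    exact pow_le_pow_left₀ (abs_nonneg _) h1 2
  have hd : T.Dir fun g => w.β.φ (x * ι g * k) - c :=
    Summable.of_nonneg_of_le (T.gr_nonneg _) hle (hs.mul_left _)
  refine ⟨hd, ?_⟩
  rw [← tsum_mul_left]
  exact hd.tsum_le_tsum hle (hs.mul_left _)

theorem fix {H : Type} [Group H] (T : Gen H) (hT : T.Cap) (ι : H →* G)
    (hι : Function.Injective ι) {B : Set G} {ξ : G → ℝ} (hB : w.Γ.Reg B) (hn : w.Γ.Nontriv B)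
    (hp : w.PC B ξ) (hfix : ∀ g h, ξ (ι g * h) = ξ h) (h : G) {η : ℝ} (hη : 0 < η) :
    {g : H | η ≤ |w.β.φ (h⁻¹ * ι g) - ξ h|}.Finite := by
  by_contra hinf
  obtain ⟨L, hL⟩ := w.dir_pull T ι hι h
  let F : H → ℝ := fun g => |w.β.φ (h⁻¹ * ι g * h) - ξ h|
  have hF : T.Dir F :=
    ((hL h⁻¹ (ξ h)).1.of_le fun _ _ _ => abs_abs_sub_abs_le_abs_sub _ _).1
  obtain ⟨R, hR⟩ := w.β.dir.grad_small (w.Γ.len h) (show 0 < η / 4 by positivity)
  have hfin1 : {g : H | h⁻¹ * ι g ∈ w.Γ.ball 1 R}.Finite :=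
    (w.Γ.ball_finite 1 R).preimage fun a _ b _ hab => hι (mul_left_cancel hab)
  have hbig : {g | 3 * η / 4 ≤ F g}.Infinite := by
    refine (Set.Infinite.sdiff hinf hfin1).mono fun g hg => ?_
    have h1 : η ≤ |w.β.φ (h⁻¹ * ι g) - ξ h| := hg.1
    have h2 := hR (h⁻¹ * ι g) (h⁻¹ * ι g * h) (not_le.1 hg.2).le (by rw [Gen.d_mul_right])
    have h3 := abs_sub_le (w.β.φ (h⁻¹ * ι g)) (w.β.φ (h⁻¹ * ι g * h)) (ξ h)
    change 3 * η / 4 ≤ |w.β.φ (h⁻¹ * ι g * h) - ξ h|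
    linarith
  have hsym := hT.sym hF (show 0 < η / 4 by positivity) hbig
  obtain ⟨ρ, hρ⟩ := w.fpl (show 0 < η / 8 by positivity)
  have hfin2 : {g : H | ι g * h ∈ w.Γ.ball h ρ}.Finite :=
    (w.Γ.ball_finite h ρ).preimage fun a _ b _ hab => hι (mul_right_cancel hab)
  obtain ⟨g, ⟨hg1, hg2⟩, hg3⟩ := hsym.exists_notMem_finite hfin2
  have hfar : ρ ≤ w.Γ.d h (ι g * h) := (not_le.1 hg3).le
  obtain ⟨x, hxW, hx⟩ := (hn.W_infinite w.cap w.oneEnd hB).exists_notMem_finite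
    ((hp _ w.Γ.δ0_pos h (η / 8) (by positivity)).union
      (hp _ w.Γ.δ0_pos (ι g * h) (η / 8) (by positivity)))
  rw [mem_union, not_or] at hx
  have hx1 : |w.β.φ (h⁻¹ * x) - ξ h| < η / 8 := not_le.1 fun k => hx.1 ⟨hxW, k⟩
  have hx2 : |w.β.φ ((ι g * h)⁻¹ * x) - ξ h| < η / 8 := by
    rw [← hfix g h]
    exact not_le.1 fun k => hx.2 ⟨hxW, k⟩
  have key : |w.ph (ι g * h, true) x - w.ph (ι g * h, true) h| ≤ η / 8 := by
    change 3 * η / 4 - η / 4 ≤ |w.β.φ (h⁻¹ * ι g * h) - ξ h| at hg1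
    rw [abs_lt] at hx1
    rcases le_abs'.1 hg1 with k | k
    · refine hρ (h, true) (ι g * h, true) x hfar ?_
      simp only [ph, if_true, ← mul_assoc]
      linarith [hx1.1]
    · refine hρ (h, false) (ι g * h, true) x hfar ?_
      simp only [ph, Bool.false_eq_true, if_false, ← mul_assoc]
      linarith [hx1.2]
  simp only [ph, if_true] at key
  change 3 * η / 4 - η / 4 ≤ |w.β.φ (h⁻¹ * ι g⁻¹ * h) - ξ h| at hg2
  rw [map_inv, ← mul_inv_rev] at hg2
  have h3 := abs_sub_le (w.β.φ ((ι g * h)⁻¹ * h)) (w.β.φ ((ι g * h)⁻¹ * x)) (ξ h)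
  rw [abs_sub_comm] at key
  linarith

theorem no_fix {B : Set G} {ξ : G → ℝ} (hB : w.Γ.Reg B) (hn : w.Γ.Nontriv B) (hp : w.PC B ξ) :
    ∃ g : G, (fun x => ξ (g⁻¹ * x)) ≠ ξ := by
  by_contra hc
  push Not at hc
  have hfin := w.fix w.Γ w.cap (MonoidHom.id G) Function.injective_id hB hn hp
    (fun g h => by simpa using congrFun (hc g⁻¹) h) 1 (show (0 : ℝ) < 1 / 2 by norm_num)
  rcases le_total (ξ 1) (1 / 2) with k | k
  · refine w.β.inf1 (hfin.subset fun x hx => ?_)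
    have hx' : w.β.φ x = 1 := hx
    simp only [mem_ofPred_eq, inv_one, one_mul, MonoidHom.id_apply, hx']
    exact le_abs.2 (Or.inl (by linarith))
  · refine w.β.inf0 (hfin.subset fun x hx => ?_)
    have hx' : w.β.φ x = 0 := hx
    simp only [mem_ofPred_eq, inv_one, one_mul, MonoidHom.id_apply, hx']
    exact le_abs.2 (Or.inr (by linarith))

end Wd

end Vale.Agent.P239
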