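import Vale.Agent.P239.Gpd

/-! Lemma F: nested families are discrete. -/

namespace Vale.Agent.P239

open Filter Topology Set
open scoped Pointwise

theorem lemF_seq {α : Type} {𝒞 : Set (Set α)} (hi : 𝒞.Infinite)
    (hc : ∀ M ∈ 𝒞, ∀ M' ∈ 𝒞, M ⊆ M' ∨ M' ⊆ M) :
    ∃ f : ℕ → Set α, (∀ i, f i ∈ 𝒞) ∧ (StrictMono f ∨ StrictAnti f) := by
  obtain ⟨g, hg⟩ := exists_increasing_or_nonincreasing_subseq (· < ·)
    fun n => ((hi.natEmbedding 𝒞 n : 𝒞) : Set α)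
  refine ⟨fun n => (hi.natEmbedding 𝒞 (g n) : 𝒞), fun n => (hi.natEmbedding 𝒞 (g n)).2, ?_⟩
  refine hg.imp (fun h m n hmn => h m n hmn) fun h m n hmn => ?_
  have hne : ((hi.natEmbedding 𝒞 (g n) : 𝒞) : Set α) ≠ (hi.natEmbedding 𝒞 (g m) : 𝒞) := fun e =>
    hmn.ne' (g.injective ((hi.natEmbedding 𝒞).injective (Subtype.ext e)))
  rcases hc _ (hi.natEmbedding 𝒞 (g n)).2 _ (hi.natEmbedding 𝒞 (g m)).2 with k | k
  · exact lt_of_le_of_ne k hne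
  · exact absurd (lt_of_le_of_ne k hne.symm) (h m n hmn)

theorem lemF_eventually_subset {α : Type} {Q : ℕ → Set α} (hQ : Monotone Q) {F : Set α}
    (hF : F.Finite) (h : ∀ x ∈ F, ∃ k, x ∈ Q k) : ∀ᶠ k in atTop, F ⊆ Q k :=
  (hF.eventually_all (p := fun x k => x ∈ Q k)).2 fun x hx =>
    let ⟨k, hk⟩ := h x hx
    (eventually_ge_atTop k).mono fun _ hj => hQ hj hk

namespace Gen

variable {G : Type} [Group G] {Γ : Gen G}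

theorem lemF_near {A : Set G} {w : G} (hw : w ∈ Γ.bd A) :
    ∃ a ∈ A, ∃ c ∉ A, Γ.d a c ≤ 1 ∧ Γ.d w a ≤ 1 ∧ Γ.d w c ≤ 1 ∧ (w = a ∨ w = c) := by
  obtain ⟨y, hy, h⟩ := Γ.mem_bd_iff.1 hw
  by_cases hA : w ∈ A
  · exact ⟨w, hA, y, h.1 hA, hy, by simp, hy, Or.inl rfl⟩
  · exact ⟨y, by tauto, w, hA, by rwa [d_comm], hy, by simp, Or.inr rfl⟩

/-- The members separating `x, y` from `z, v`. -/
def lemFI (𝒩 : Set (Set G)) (x y z v : G) : Set (Set G) :=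
  {N | N ∈ 𝒩 ∧ x ∈ N ∧ y ∈ N ∧ z ∉ N ∧ v ∉ N}

/-- Short edges from `M` to the complement of `M'`. -/
def lemFE (Γ : Gen G) (R : ℕ) (M M' : Set G) : Set (G × G) :=
  {p | p.1 ∈ M ∧ p.2 ∉ M' ∧ Γ.d p.1 p.2 ≤ R}

theorem NF.lemF_smul {𝒩 : Set (Set G)} (h : Γ.NF 𝒩) (g : G) {x y z v : G} {N : Set G}
    (hN : N ∈ lemFI 𝒩 x y z v) : g • N ∈ lemFI 𝒩 (g * x) (g * y) (g * z) (g * v) :=
  ⟨h.smul g N hN.1, smul_mem_smul_set hN.2.1, smul_mem_smul_set hN.2.2.1,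
    fun k => hN.2.2.2.1 (smul_mem_smul_set_iff.1 k), fun k => hN.2.2.2.2 (smul_mem_smul_set_iff.1 k)⟩

theorem NF.lemF_pair {𝒩 : Set (Set G)} (h : Γ.NF 𝒩) {x y z v : G}
    (hi : (lemFI 𝒩 x y z v).Infinite) :
    ∃ M ∈ lemFI 𝒩 x y z v, ∃ M' ∈ lemFI 𝒩 x y z v, (Γ.lemFE 1 M M').Finite := by
  obtain ⟨f, h1, h2 | h2⟩ := lemF_seq hi fun M hM M' hM' =>
    h.chain hM.1 hM'.1 hM.2.1 hM'.2.1 hM.2.2.2.1 hM'.2.2.2.1
  · exact ⟨f 0, h1 _, f 6, h1 _,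
      h.tight f (fun i _ => (h1 i).1) (fun i _ => h2 (Nat.lt_succ_self i)) 1⟩
  · exact ⟨f 6, h1 _, f 0, h1 _, h.tight (fun i => f (6 - i)) (fun i _ => (h1 _).1)
      (fun i hi => h2 (show 6 - (i + 1) < 6 - i by omega)) 1⟩

theorem NF.lemF_bound {𝒩 : Set (Set G)} (h : Γ.NF 𝒩) (L : ℕ) : ∃ b : ℕ, ∀ w x y z v : G,
    x ∈ Γ.ball w L → y ∈ Γ.ball w L → z ∈ Γ.ball w L → v ∈ Γ.ball w L →
    (lemFI 𝒩 x y z v).Infinite → ∃ M ∈ lemFI 𝒩 x y z v, ∃ M' ∈ lemFI 𝒩 x y z v,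
      (Γ.lemFE 1 M M').Finite ∧ (Γ.lemFE 1 M M').ncard ≤ b := by
  have h1 : ∀ t : G × G × G × G, ∃ n : ℕ, (lemFI 𝒩 t.1 t.2.1 t.2.2.1 t.2.2.2).Infinite →
      ∃ M ∈ lemFI 𝒩 t.1 t.2.1 t.2.2.1 t.2.2.2, ∃ M' ∈ lemFI 𝒩 t.1 t.2.1 t.2.2.1 t.2.2.2,
        (Γ.lemFE 1 M M').Finite ∧ (Γ.lemFE 1 M M').ncard ≤ n := by
    intro t
    by_cases hi : (lemFI 𝒩 t.1 t.2.1 t.2.2.1 t.2.2.2).Infinite
    · obtain ⟨M, hM, M', hM', hf⟩ := h.lemF_pair hi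
      exact ⟨_, fun _ => ⟨M, hM, M', hM', hf, le_rfl⟩⟩
    · exact ⟨0, fun k => absurd k hi⟩
  choose n hn using h1
  have hB := Γ.ball_finite 1 L
  obtain ⟨b, hb⟩ := ((hB.prod (hB.prod (hB.prod hB))).image n).bddAbove
  refine ⟨b, fun w x y z v hx hy hz hv hi => ?_⟩
  have e : ∀ a ∈ Γ.ball w L, w⁻¹ * a ∈ Γ.ball 1 L := fun a ha => by
    rwa [mem_ball, ← d_eq_d_one]
  have hi' : (lemFI 𝒩 (w⁻¹ * x) (w⁻¹ * y) (w⁻¹ * z) (w⁻¹ * v)).Infinite := by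
    refine (hi.image (MulAction.injective w⁻¹).injOn).mono ?_
    rintro _ ⟨N, hN, rfl⟩
    exact h.lemF_smul _ hN
  obtain ⟨M, hM, M', hM', hf, hc⟩ := hn (w⁻¹ * x, w⁻¹ * y, w⁻¹ * z, w⁻¹ * v) hi'
  have hle : n (w⁻¹ * x, w⁻¹ * y, w⁻¹ * z, w⁻¹ * v) ≤ b :=
    hb ⟨_, ⟨e x hx, e y hy, e z hz, e v hv⟩, rfl⟩
  have k1 := h.lemF_smul w hM
  have k2 := h.lemF_smul w hM'
  simp only [mul_inv_cancel_left] at k1 k2
  have hs : Γ.lemFE 1 (w • M) (w • M') ⊆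
      (fun p : G × G => (w * p.1, w * p.2)) '' Γ.lemFE 1 M M' := by
    rintro ⟨a, c⟩ ⟨ha, hc, hd⟩
    refine ⟨(w⁻¹ * a, w⁻¹ * c), ⟨mem_smul_set_iff_inv_smul_mem.1 ha,
      fun k => hc (mem_smul_set_iff_inv_smul_mem.2 k), by rwa [d_mul_left]⟩, by simp⟩
  exact ⟨_, k1, _, k2, (hf.image _).subset hs,
    ((ncard_le_ncard hs (hf.image _)).trans (ncard_image_le hf)).trans (hc.trans hle)⟩

/-- The members separating `x, y` from `z, v` lie between `N k` and the union. -/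
theorem NF.lemF_mem {𝒩 : Set (Set G)} (h : Γ.NF 𝒩) {N : ℕ → Set G} (hN : ∀ i, N i ∈ 𝒩)
    (hm : Monotone N) {k : ℕ} {x y z v : G} (hx : x ∈ N k) (hy : y ∉ N k) (hz : z ∉ ⋃ i, N i)
    (hv : v ∈ ⋃ i, N i) {M : Set G} :
    M ∈ lemFI 𝒩 x y z v ↔ M ∈ 𝒩 ∧ N k ⊆ M ∧ M ⊆ ⋃ i, N i ∧ y ∈ M ∧ v ∉ M := by
  constructor
  · rintro ⟨h1, h2, h3, h4, h5⟩
    have hz' : ∀ i, z ∉ N i := fun i k => hz (mem_iUnion.2 ⟨i, k⟩)
    obtain ⟨j, hj⟩ := mem_iUnion.1 hv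
    refine ⟨h1, ?_, ?_, h3, h5⟩
    · exact (h.chain (hN k) h1 hx h2 (hz' k) h4).resolve_right fun k => hy (k h3)
    · rcases h.chain (hN (max j k)) h1 (hm (le_max_right _ _) hx) h2 (hz' _) h4 with e | e
      · exact absurd (e (hm (le_max_left _ _) hj)) h5
      · exact e.trans (subset_iUnion _ _)
  · rintro ⟨h1, h2, h3, h4, h5⟩
    exact ⟨h1, h2 hx, h4, fun k => hz (h3 k), h5⟩

omit [Group G] in
theorem lemF_inf {𝒩 : Set (Set G)} {N : ℕ → Set G} (hN : ∀ i, N i ∈ 𝒩) (hm : StrictMono N)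
    {x y z v : G} (hx : x ∈ ⋃ i, N i) (hy : y ∈ ⋃ i, N i) (hz : z ∉ ⋃ i, N i)
    (hv : v ∉ ⋃ i, N i) : (lemFI 𝒩 x y z v).Infinite := by
  obtain ⟨i, hi⟩ := mem_iUnion.1 hx
  obtain ⟨j, hj⟩ := mem_iUnion.1 hy
  refine infinite_of_injective_forall_mem (f := fun n => N (n + max i j))
    (hm.injective.comp (add_left_injective _)) fun n => ⟨hN _, hm.monotone ?_ hi, hm.monotone ?_ hj,
      fun k => hz (mem_iUnion.2 ⟨_, k⟩), fun k => hv (mem_iUnion.2 ⟨_, k⟩)⟩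
  · omega
  · omega

/-- A triple near `w` straddling `N k` and the union. -/
def lemFT (Γ : Gen G) (N : ℕ → Set G) (k L : ℕ) (w x y z : G) : Prop :=
  x ∈ Γ.ball w L ∧ y ∈ Γ.ball w L ∧ z ∈ Γ.ball w L ∧ x ∈ N k ∧ y ∈ ⋃ i, N i ∧ y ∉ N k ∧
    z ∉ ⋃ i, N i

theorem NF.lemF_tight {𝒩 : Set (Set G)} (h : Γ.NF 𝒩) {N : ℕ → Set G} (hN : ∀ i, N i ∈ 𝒩)
    (hm : StrictMono N) (k R : ℕ) : (Γ.lemFE R (N k) (⋃ i, N i)).Finite :=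
  (h.tight (fun i => N (k + i)) (fun _ _ => hN _) (fun i _ => hm (Nat.lt_succ_self (k + i)))
    R).subset fun _ hp => ⟨hp.1, fun e => hp.2.1 (mem_iUnion.2 ⟨_, e⟩), hp.2.2⟩

theorem NF.lemF_lamb {𝒩 : Set (Set G)} (h : Γ.NF 𝒩) {N : ℕ → Set G} (hN : ∀ i, N i ∈ 𝒩)
    (hm : StrictMono N) (hb : (Γ.bd (⋃ i, N i)).Infinite) (L R : ℕ) :
    ∀ᶠ k in atTop, ∀ w w' x y z x' y' z', Γ.lemFT N k L w x y z → Γ.lemFT N k L w' x' y' z' →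
      Γ.d w w' ≤ R → lamb 𝒩 x y z ⊆ lamb 𝒩 x' y' z' := by
  obtain ⟨b, hb'⟩ := h.lemF_bound (L + R)
  have h1 : (Γ.lemFE 1 (⋃ i, N i) (⋃ i, N i)).Infinite := by
    intro hf
    refine hb (((hf.image Prod.fst).union (hf.image Prod.snd)).subset fun w hw => ?_)
    obtain ⟨a, ha, c, hc, hd, -, -, rfl | rfl⟩ := lemF_near hw
    · exact Or.inl ⟨(w, c), ⟨ha, hc, hd⟩, rfl⟩
    · exact Or.inr ⟨(a, w), ⟨ha, hc, hd⟩, rfl⟩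
  obtain ⟨F, hF, hF1, hF2⟩ := h1.exists_subset_ncard_eq (b + 1)
  have h2 := lemF_eventually_subset (Q := fun k => Γ.lemFE 1 (N k) (⋃ i, N i))
    (fun i j hij p hp => ⟨hm.monotone hij hp.1, hp.2⟩) hF1 fun p hp =>
      let ⟨k, hk⟩ := mem_iUnion.1 (hF hp).1
      ⟨k, hk, (hF hp).2⟩
  filter_upwards [h2] with k hk w w' x y z x' y' z' ⟨t1, t2, t3, t4, t5, t6, t7⟩
    ⟨s1, s2, s3, s4, s5, s6, s7⟩ hd v hv
  have hvA : v ∈ ⋃ i, N i := by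
    by_contra e
    exact lemF_inf hN hm (mem_iUnion.2 ⟨k, t4⟩) t5 t7 e hv
  have hI : (lemFI 𝒩 x' y' z' y).Finite := by
    by_contra hi
    have e : ∀ a ∈ Γ.ball w' L, a ∈ Γ.ball w' (L + R) := fun a ha =>
      Γ.ball_mono _ (Nat.le_add_right _ _) ha
    obtain ⟨M, hM, M', hM', hf, hc⟩ := hb' w' x' y' z' y (e _ s1) (e _ s2) (e _ s3) (by
      have := Γ.d_tri w' w y
      rw [Γ.d_comm w' w] at this
      rw [mem_ball] at t2 ⊢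
      omega) hi
    rw [h.lemF_mem hN hm.monotone s4 s6 s7 t5] at hM hM'
    have := ncard_le_ncard (hk.trans (show _ ⊆ Γ.lemFE 1 M M' from
      fun p hp => ⟨hM.2.1 hp.1, fun e => hp.2.1 (hM'.2.2.1 e), hp.2.2⟩)) hf
    omega
  refine (hI.union (show (lemFI 𝒩 x y z v).Finite from hv)).subset fun M hM => ?_
  have hM' := (h.lemF_mem hN hm.monotone s4 s6 s7 hvA).1 hM
  by_cases e : y ∈ M
  · exact Or.inr ((h.lemF_mem hN hm.monotone t4 t6 t7 hvA).2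
      ⟨hM'.1, hM'.2.1, hM'.2.2.1, e, hM'.2.2.2.2⟩)
  · exact Or.inl ⟨hM.1, hM.2.1, hM.2.2.1, hM.2.2.2.1, e⟩

theorem NF.lemF_core {𝒩 : Set (Set G)} (h : Γ.NF 𝒩) (hE : Γ.OneEnd) {R : ℕ} (hR : 1 ≤ R)
    (hS : Γ.SplitAt R) {N : ℕ → Set G} (hN : ∀ i, N i ∈ 𝒩) (hm : StrictMono N)
    (hu : (⋃ i, N i) ≠ univ) : False := by
  obtain ⟨D, hD⟩ := h.cluster (2 * R + 1) R
  obtain ⟨D', hD'⟩ := hS D
  obtain ⟨K1, c1, i1, f1⟩ := h.esc2 N hN hm hu (D' + 1)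
  obtain ⟨K, hK, cK, iK⟩ := h.esc _ (hN 0)
  obtain ⟨K0, hK0, c0, i0⟩ := cK.exists_inf iK
    ((h.lemF_tight hN hm 0 (D' + 1)).image Prod.fst)
  set A := ⋃ i, N i with hA
  have a0 : K0 ⊆ A := fun x hx => mem_iUnion.2 ⟨0, hK (hK0 hx).1⟩
  have a1 : K1 ⊆ Aᶜ := fun x hx e => by
    obtain ⟨i, hi⟩ := mem_iUnion.1 e
    simpa using f1 x hx i x hi
  have hb : (Γ.bd A).Infinite := fun hf =>
    (hE A hf).elim (fun e => i0 (e.subset a0)) fun e => i1 (e.subset a1)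
  have far : ∀ x ∈ K0 ∪ K1, ∀ w ∈ Γ.bd A, D' < Γ.d x w := by
    intro x hx w hw
    obtain ⟨a, ha, c, hc, -, d1, d2, -⟩ := lemF_near hw
    rcases hx with hx | hx
    · have e : ¬ Γ.d x c ≤ D' + 1 := fun e => (hK0 hx).2 ⟨(x, c), ⟨hK (hK0 hx).1, hc, e⟩, rfl⟩
      have := Γ.d_tri x w c
      omega
    · obtain ⟨i, hi⟩ := mem_iUnion.1 ha
      have := f1 x hx i a hi
      have := Γ.d_tri x w a
      omega
  obtain ⟨p, hp⟩ := i0.nonempty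
  obtain ⟨q, hq⟩ := i1.nonempty
  set Q : ℕ → Set G := fun k => {w | w ∈ Γ.bd A ∧ Γ.ball w R ∩ A ⊆ N k} with hQ
  have hF : {w | Γ.d p w + Γ.d w q ≤ Γ.d p q}.Finite :=
    (Γ.ball_finite p (Γ.d p q)).subset fun w hw => le_trans (Nat.le_add_right _ _) hw
  have ev := lemF_eventually_subset (Q := Q) (fun i j hij w hw => ⟨hw.1, hw.2.trans
    (hm.monotone hij)⟩) ((Γ.nb_finite D' hF).inter_of_left (Γ.bd A)) fun w hw => by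
      obtain ⟨k, hk⟩ := (lemF_eventually_subset hm.monotone ((Γ.ball_finite w R).inter_of_left A)
        fun x hx => mem_iUnion.1 hx.2).exists
      exact ⟨k, hw.2, hk⟩
  obtain ⟨k, k1, k2⟩ := (ev.and (h.lemF_lamb hN hm hb (2 * R + 1) R)).exists
  have hQf : (Q k).Finite := by
    have hf := h.lemF_tight hN hm k 1
    refine ((hf.image Prod.fst).union (hf.image Prod.snd)).subset fun w hw => ?_
    obtain ⟨a, ha, c, hc, hd, d1, -, e⟩ := lemF_near hw.1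
    have ha' : a ∈ N k := hw.2 ⟨d1.trans hR, ha⟩
    rcases e with rfl | rfl
    · exact Or.inl ⟨(w, c), ⟨ha', hc, hd⟩, rfl⟩
    · exact Or.inr ⟨(a, w), ⟨ha', hc, hd⟩, rfl⟩
  have hSp : ∀ w ∈ Γ.Sp R (Γ.nb R (Q k)) A, w ∉ Q k := fun w ⟨_, _, y, hy, hy'⟩ e =>
    hy' ⟨w, e, by rwa [d_comm]⟩
  have hT : ∀ w ∈ Γ.Sp R (Γ.nb R (Q k)) A, ∃ x y z, Γ.lemFT N k (2 * R + 1) w x y z := by
    intro w hw
    obtain ⟨y, ⟨hy1, hy2⟩, hy3⟩ := not_subset.1 fun e => hSp w hw ⟨hw.1, e⟩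
    obtain ⟨x', hx', v, hv, hd⟩ := hw.2.1
    obtain ⟨a, ha, -, -, -, d1, -⟩ := lemF_near hv.1
    obtain ⟨-, -, z, hz, -, -, d2, -⟩ := lemF_near hw.1
    have := Γ.d_tri w x' v
    have := Γ.d_tri w v a
    rw [mem_ball] at hx' hy1
    exact ⟨a, y, z, by rw [mem_ball]; omega, by rw [mem_ball]; omega, by rw [mem_ball]; omega,
      hv.2 ⟨d1.trans hR, ha⟩, hy2, hy3, hz⟩
  obtain ⟨Z, hZ⟩ := hD' (Γ.nb R (Q k)) A fun w hw w' hw' => by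
    obtain ⟨x, y, z, t⟩ := hT w hw
    have key : ∀ a x' y' z', Γ.lemFT N k (2 * R + 1) a x' y' z' → lamb 𝒩 x' y' z' = lamb 𝒩 x y z →
        a ∈ {a | ∃ x' ∈ Γ.ball a (2 * R + 1), ∃ y' ∈ Γ.ball a (2 * R + 1),
          ∃ z' ∈ Γ.ball a (2 * R + 1), {N | N ∈ 𝒩 ∧ x' ∈ N ∧ y' ∈ N ∧ z' ∉ N}.Infinite ∧
            lamb 𝒩 x' y' z' = lamb 𝒩 x y z} :=
      fun a x' y' z' ⟨s1, s2, s3, s4, s5, _, s7⟩ e => ⟨x', s1, y', s2, z', s3,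
        (lemF_inf hN hm (mem_iUnion.2 ⟨k, s4⟩) s5 s7 s7).mono
          fun _ hM => ⟨hM.1, hM.2.1, hM.2.2.1, hM.2.2.2.1⟩, e⟩
    refine hD (lamb 𝒩 x y z) w w' (hw'.ind (p := fun b => Γ.Ch R _ w b ∧ ∃ x' y' z',
      Γ.lemFT N k (2 * R + 1) b x' y' z' ∧ lamb 𝒩 x' y' z' = lamb 𝒩 x y z)
      ⟨Ch.refl _ _ _, x, y, z, t, rfl⟩ ?_).1
    rintro a b - - hb hd ⟨c, x1, y1, z1, t1, e1⟩
    obtain ⟨x2, y2, z2, t2⟩ := hT b hb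
    have e2 : lamb 𝒩 x2 y2 z2 = lamb 𝒩 x y z := by
      rw [← e1]
      exact (k2 _ _ _ _ _ _ _ _ t2 t1 (by rwa [d_comm])).antisymm (k2 _ _ _ _ _ _ _ _ t1 t2 hd)
    exact ⟨c.tail (key _ _ _ _ t1 e1) (key _ _ _ _ t2 e2) hd, x2, y2, z2, t2, e2⟩
  have main : ∀ Z : Set G, Z.Finite → (∀ x, (∀ w ∈ Γ.Sp R (Γ.nb R (Q k)) A, D' < Γ.d x w) →
      Γ.CutAt (Γ.nb R (Q k)) A Z x) → False := by
    intro Z hf hZ
    have out : ∀ K' ⊆ K0 ∪ K1, Γ.Conn K' → K'.Infinite → K' ⊆ Zᶜ := fun K' h1 h2 h3 => by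
      refine (h2.subset_or (disjoint_left.2 ?_)).resolve_left fun e => h3 (hf.subset e)
      rintro x hx ⟨s, hs, e⟩
      have e1 := ((hZ x (fun w hw => far x (h1 hx) w hw.1) s hs).1 e).2
      simpa using far x (h1 hx) x ⟨s, hs, e1⟩
    have hp' : p ∉ Z := out K0 subset_union_left c0 i0 hp
    have hq' : q ∉ Z := out K1 subset_union_right c1 i1 hq
    have := (Γ.ch_geod p q).ind_one (p := fun x => ¬ (x ∈ Z ↔ x ∈ A))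
      (fun e => hp' (e.2 (a0 hp))) fun a ha s hs _ hc => by
        have e1 := hZ a (fun w hw => not_le.1 fun e =>
          hSp w hw (k1 ⟨⟨a, ha, by rwa [d_comm]⟩, hw.1⟩)) s hs
        have e2 : (a ∈ A ↔ a * s ∉ A) → a ∈ Γ.nb R (Q k) := fun e =>
          ⟨a, k1 ⟨⟨a, ha, by simp⟩, s, hs, e⟩, by simp⟩
        tauto
    exact this ⟨fun e => absurd e hq', fun e => absurd e (a1 hq)⟩
  have hAk := Γ.nb_finite R hQf
  have hbd : (Γ.bd Z).Finite := by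
    refine ((Γ.nb_finite D' (Γ.nb_finite R hAk)).union hAk).subset ?_
    rintro x ⟨s, hs, e⟩
    by_cases hx : ∀ w ∈ Γ.Sp R (Γ.nb R (Q k)) A, D' < Γ.d x w
    · exact Or.inr ((hZ x hx s hs).1 e).1
    · push Not at hx
      obtain ⟨w, hw, hd⟩ := hx
      exact Or.inl ⟨w, hw.2.1.imp fun _ k => ⟨k.2, k.1⟩, hd⟩
  rcases hE Z hbd with e | e
  · exact main Z e hZ
  · exact main Zᶜ e fun x hx => (hZ x hx).compl

theorem NF.finite {𝒩 : Set (Set G)} (h : Γ.NF 𝒩) (hE : Γ.OneEnd) {R : ℕ} (hR : 1 ≤ R)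
    (hS : Γ.SplitAt R) (l u : G) : {M | M ∈ 𝒩 ∧ l ∈ M ∧ u ∉ M}.Finite := by
  by_contra hi
  obtain ⟨f, h1, h2 | h2⟩ := lemF_seq hi fun M hM M' hM' =>
    h.chain hM.1 hM'.1 hM.2.1 hM'.2.1 hM.2.2 hM'.2.2
  · refine h.lemF_core hE hR hS (fun i => (h1 i).1) h2 fun e => ?_
    obtain ⟨i, hi⟩ := mem_iUnion.1 (e ▸ mem_univ u)
    exact (h1 i).2.2 hi
  · refine h.lemF_core hE hR hS (N := fun i => (f i)ᶜ) (fun i => h.compl _ (h1 i).1)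
      (fun i j hij => compl_lt_compl_iff_lt.2 (h2 hij)) fun e => ?_
    obtain ⟨i, hi⟩ := mem_iUnion.1 (e ▸ mem_univ l)
    exact hi (h1 i).2.1

end Gen

end Vale.Agent.P239
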