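import Vale.Agent.P239.Nest
import Vale.Agent.P239.LemF
import Vale.Agent.P239.Fix

/-! Points are discrete. -/

namespace Vale.Agent.P239

open Filter Topology Set
open scoped Pointwise

namespace Wd

variable {G : Type} [Group G] (w : Wd G)

theorem disc_choice {w : Wd G} {B D0 D1 : Set G} (hB : w.Pr B) (h0 : w.Pr D0) (h1 : w.Pr D1)
    (hn : ¬ w.Same D0 D1) (c0 : w.Γ.Col D0 D1) (c1 : w.Γ.Col D1 D0) :
    (¬ w.Same B D0 ∧ w.Γ.Col B D0) ∨ (¬ w.Same B D1 ∧ w.Γ.Col B D1) := by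
  by_cases s0 : w.Same B D0
  · have : ¬ w.Same B D1 := fun h => hn (s0.symm.trans h)
    exact Or.inr ⟨this, (s0.col_iff h1 this).2 c0⟩
  by_cases s1 : w.Same B D1
  · exact Or.inl ⟨s0, (s1.col_iff h0 s0).2 c1⟩
  refine (col_or hB h0 s0).imp (⟨s0, ·⟩) fun h => ⟨s1, h.mono fun x => ?_⟩
  rw [h0.reg.hm_compl]
  linarith [add_le_of_col h0.reg h0.nontriv h1.reg c0 c1 x]

theorem disc_null {w : Wd G} {C : Set G} (hC : w.Pr C) {T : Set G} (hT : T.Finite) {D : G → Set G}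
    (hD : ∀ y, w.Pr (D y)) (h : ∀ y, w.Γ.Col C (D y)) (h' : ∀ y ∈ T, w.Γ.Col (D y) C) (x : G) :
    w.Γ.hm (⋃ y ∈ T, D y) x + w.Γ.hm C x ≤ 1 := by
  have : w.Γ.Thin ((⋃ y ∈ T, D y) ∩ C) := by
    induction T, hT using Set.Finite.induction_on with
    | empty => simpa using Gen.thin_empty
    | @insert a s _ _ ih =>
      rw [biUnion_insert, union_inter_distrib_right]
      exact ((hD a).reg.thin_inter hC.reg (add_le_of_col (hD a).reg (hD a).nontriv hC.reg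
        (h' a (mem_insert _ _)) (h a))).union (ih fun y hy => h' y (mem_insert_of_mem _ hy))
  exact (Gen.reg_biUnion hT fun y _ => (hD y).reg).add_le_one hC.reg (this.hm_eq x) x

theorem cov {δ : ℝ} (hδ : 0 < δ) : ∃ 𝒟 : Set (Set G), 𝒟.Finite ∧ (∀ D ∈ 𝒟, w.Pr D) ∧
    ∀ B, w.Pr B → (1 : G) ∈ w.Γ.W δ B → ∃ D ∈ 𝒟, ∃ D' ∈ 𝒟, ¬ w.Same B D ∧ ¬ w.Same B D' ∧
      w.Γ.Col B D ∧ w.Γ.Col B D' ∧ w.Γ.Col D Bᶜ ∧ w.Γ.Col D' B := by
  by_cases h : ∃ E, w.Pr E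
  swap
  · exact ⟨∅, finite_empty, by simp, fun B hB => (h ⟨B, hB⟩).elim⟩
  obtain ⟨E, hE⟩ := h
  have := w.infinite
  obtain ⟨g, hg⟩ := w.no_fix hE.reg hE.nontriv hE.pc
  have hn : ¬ w.Same E (g • E) := fun h => hg ((hE.smul g).2.symm.trans h.2.2.1.symm)
  obtain ⟨D1, a1, a2⟩ := nest_side hE (hE.smul g).1 hn
  obtain ⟨D0, b1, b2⟩ := nest_side (hE.smul g).1 hE fun h => hn h.symm
  have n1 : ¬ w.Same E D1 := fun h => hn (h.trans a1.symm)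
  have n2 : ¬ w.Same (g • E) D0 := fun h => hn (b1.trans h.symm)
  have hD : ∀ b : Bool, w.Pr (if b then D1 else D0) := fun b => by
    cases b
    exacts [b1.2.1, a1.2.1]
  obtain ⟨n, hn'⟩ := Gen.cover_unif (D := fun b => if b then D1 else D0) (fun b => (hD b).reg)
    (fun b => (hD b).nontriv.1) (half_pos hδ)
  refine ⟨image2 (fun (y : G) (b : Bool) => y • if b then D1 else D0) (w.Γ.ball 1 n) univ,
    (w.Γ.ball_finite 1 n).image2 _ finite_univ, ?_, fun B hB h1 => ?_⟩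
  · rintro _ ⟨y, -, b, -, rfl⟩
    exact ((hD b).smul y).1
  have h2 : ∀ y : G, ∃ b : Bool, ¬ w.Same B (y • if b then D1 else D0) ∧
      w.Γ.Col B (y • if b then D1 else D0) := fun y =>
    (disc_choice hB (b1.2.1.smul y).1 (a1.2.1.smul y).1
      (fun h => n1 (b1.trans (by simpa using h.smul y⁻¹)))
      ((Gen.col_smul y _ _).2 ((b1.col_iff a1.2.1 n1).1 a2))
      ((Gen.col_smul y _ _).2 ((a1.col_iff b1.2.1 n2).1 b2))).elim (⟨false, ·⟩) (⟨true, ·⟩)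
  choose σ h2 h3 using h2
  have h4 := hn' σ 1
  have h5 : ∀ y, w.Pr (y • if σ y then D1 else D0) := fun y => ((hD _).smul y).1
  obtain ⟨y, hy, h6⟩ : ∃ y ∈ w.Γ.ball 1 n, ¬ w.Γ.Col (y • if σ y then D1 else D0) B := by
    by_contra! hc
    linarith [disc_null hB (w.Γ.ball_finite 1 n) h5 h3 hc 1, h1.1]
  obtain ⟨z, hz, h7⟩ : ∃ y ∈ w.Γ.ball 1 n, ¬ w.Γ.Col (y • if σ y then D1 else D0) Bᶜ := by
    by_contra! hc
    linarith [disc_null hB.compl.1 (w.Γ.ball_finite 1 n) h5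
      (fun y => (Gen.col_compl_left hB.reg _).2 (h3 y)) hc 1, h1.2, hB.reg.hm_compl 1]
  exact ⟨_, ⟨y, hy, _, trivial, rfl⟩, _, ⟨z, hz, _, trivial, rfl⟩, h2 y, h2 z, h3 y, h3 z,
    (col_or (h5 y) hB fun h => h2 y h.symm).resolve_left h6,
    (col_or (h5 z) hB fun h => h2 z h.symm).resolve_right h7⟩

theorem lobes {δ : ℝ} (hδ : 0 < δ) : ∃ L : ℕ, ∀ (B : Set G) (x : G), w.Pr B → x ∈ w.Γ.W δ B →
    (∃ p ∈ w.Γ.ball x L, 7 / 8 < w.Γ.hm B p) ∧ ∃ q ∈ w.Γ.ball x L, w.Γ.hm B q < 1 / 8 := by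
  obtain ⟨𝒟, h1, h2, h3⟩ := w.cov hδ
  have := w.infinite
  have h4 : ∀ D ∈ 𝒟, ∃ p, 7 / 8 < w.Γ.hm D p := fun D hD => by
    obtain ⟨K, -, k1, k2⟩ := (h2 D hD).reg.exists_conn (h2 D hD).nontriv.1 (ε := 1 / 8) (by norm_num)
    obtain ⟨p, hp⟩ := k1.nonempty
    exact ⟨p, by linarith [k2 p hp]⟩
  choose! p hp using h4
  obtain ⟨L, hL⟩ := (w.Γ.finite_iff_ball 1).1 (h1.image p)
  refine ⟨L, fun B x hB hx => ?_⟩
  have hB' := (hB.smul x⁻¹).1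
  have e : ∀ y, w.Γ.hm (x⁻¹ • B) y = w.Γ.hm B (x * y) := fun y => by
    rw [Gen.pot2_hm_smul, inv_inv]
  have m : ∀ D ∈ 𝒟, x * p D ∈ w.Γ.ball x L := fun D hD => by
    rw [Gen.mem_ball, Gen.d_mul_right, ← Gen.d_one]
    exact hL (mem_image_of_mem p hD)
  obtain ⟨D, hD, D', hD', -, -, c1, c2, c3, c4⟩ := h3 _ hB' (by
    simpa only [Gen.W, mem_ofPred_eq, e, mul_one] using hx)
  refine ⟨⟨_, m D hD, ?_⟩, _, m D' hD', ?_⟩ <;> rw [← e]
  · linarith [add_le_of_col (h2 D hD).reg (h2 D hD).nontriv hB'.reg.compl c3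
      ((Gen.col_compl_left hB'.reg _).2 c1) (p D), hB'.reg.hm_compl (p D), hp D hD]
  · linarith [add_le_of_col hB'.reg hB'.nontriv (h2 D' hD').reg c2 c4 (p D'), hp D' hD']

theorem disc_fin (M : Set G) :
    ((fun B => {B' | w.Same B B'}) '' {B | w.Pr B ∧ w.Assoc B M}).Finite := by
  by_contra hi
  have f := Set.Infinite.natEmbedding _ hi
  choose B hB e using fun n => (f n).2
  have hn : ∀ m n, m ≠ n → ¬ w.Same (B m) (B n) := fun m n h hs => h (f.injective (Subtype.ext (by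
    rw [← e, ← e]
    exact Subset.antisymm (fun _ h => hs.symm.trans h) fun _ h => hs.trans h)))
  have key : {p : G × G | p.1 ∈ M ∧ p.2 ∉ M ∧ w.Γ.d p.1 p.2 ≤ 1}.Finite := by
    obtain ⟨g, h | h⟩ := exists_increasing_or_nonincreasing_subseq'
      (fun a b => w.Prec (B a) M (B b) M) id
    · have hg : ∀ n, ¬ w.Same (B (g n)) (B (g (n + 1))) := fun n =>
        hn _ _ (g.injective.ne (by omega))
      exact nest_tight (hB _).1 (hB _).1 (hB _).1 (hB _).1 (hg 0) (hg 1) (hg 2) (h 0) (h 1) (h 2) 1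
    · have hg : ∀ n, ¬ w.Same (B (g (n + 1))) (B (g n)) := fun n =>
        hn _ _ (g.injective.ne (by omega))
      have h' : ∀ n, w.Prec (B (g (n + 1))) M (B (g n)) M := fun n =>
        (prec_or (hB _).1 (hB _).1 (hg n) (hB _).2 (hB _).2 subset_rfl).resolve_right
          fun h1 => h n (n + 1) (by omega) h1.2
      exact nest_tight (hB _).1 (hB _).1 (hB _).1 (hB _).1 (hg 2) (hg 1) (hg 0) (h' 2) (h' 1)
        (h' 0) 1
  obtain ⟨⟨K, k1, -, k2⟩, K', k3, -, k4⟩ := (hB 0).2.esc (hB 0).1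
  refine (w.oneEnd M (((key.image Prod.fst).union (key.image Prod.snd)).subset ?_)).elim
    (k2.mono k1) (k4.mono k3)
  rintro x ⟨s, hs, h⟩
  by_cases hx : x ∈ M
  · exact Or.inl ⟨(x, x * s), ⟨hx, h.1 hx, w.Γ.d_step x hs⟩, rfl⟩
  · exact Or.inr ⟨(x * s, x), ⟨not_not.1 (mt h.2 hx), hx,
      (w.Γ.d_comm _ _).trans_le (w.Γ.d_step x hs)⟩, rfl⟩

theorem finite_points {δ : ℝ} (hδ : 0 < δ) : ∃ 𝒯 : Set (Set G), 𝒯.Finite ∧
    ∀ B, w.Pr B → (1 : G) ∈ w.Γ.W δ B → ∃ B' ∈ 𝒯, w.Same B B' := by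
  obtain ⟨𝒟, h1, h2, h3⟩ := w.cov hδ
  have h4 : ∀ D ∈ 𝒟, ∃ p, p ∈ w.Γ.lex D := fun D hD => by
    obtain ⟨K, k1, -, k2⟩ := nest_lex_esc (h2 D hD) subset_rfl
    exact k2.nonempty.mono k1
  choose! p hp using h4
  have h5 : ((fun B => {B' | w.Same B B'}) '' {B | w.Pr B ∧ (1 : G) ∈ w.Γ.W δ B}).Finite := by
    refine (h1.biUnion fun D _ => h1.biUnion fun D' _ => ((nf_fam w).finite w.oneEnd w.one_le_R
      w.split (p D) (p D')).biUnion fun M _ => w.disc_fin M).subset ?_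
    rintro _ ⟨B, ⟨hB, h1⟩, rfl⟩
    obtain ⟨D, hD, D', hD', n1, -, c1, c2, c3, c4⟩ := h3 B hB h1
    have hA : w.Assoc B (w.Dirn B D) := ⟨D, h2 D hD, n1, Or.inl rfl⟩
    simp only [mem_iUnion]
    refine ⟨D, hD, D', hD', _, ⟨⟨B, hB, hA⟩, lex_subset_dirn hB (h2 D hD) n1 c1 (hp D hD),
      fun h => ?_⟩, B, ⟨hB, hA⟩, rfl⟩
    have := nest_lex (h2 D' hD') hB c4 c2 (hp D' hD')
    rw [hB.reg.lex_compl] at this
    exact this (dirn_subset_lex hB c3 h)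
  obtain ⟨𝒯, -, t1, t2⟩ := h5.exists_subset_finite_image_eq subset_rfl
  refine ⟨𝒯, t1, fun B hB h1 => ?_⟩
  obtain ⟨B', h6, h7⟩ := t2.ge (mem_image_of_mem _ (show B ∈ {B | w.Pr B ∧ _} from ⟨hB, h1⟩))
  exact ⟨B', h6, Same.symm (h7.ge hB.same)⟩

end Wd

end Vale.Agent.P239
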