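import Vale.Agent.P239.Green

/-! Oscillation, the far pair lemma and nesting. -/

namespace Vale.Agent.P239

open Filter Topology Set
open scoped Pointwise

section measure

open MeasureTheory

theorem fpl_tail {ι : Type} {f : ι → ℝ} {θ : ℝ} (hθ : 0 < θ) :
    ∃ s : Finset ι, ∑' x, ((s : Set ι)ᶜ).indicator f x ≤ θ := by
  obtain ⟨s, hs⟩ := ((tendsto_tsum_compl_atTop_zero f).eventually (gt_mem_nhds hθ)).exists
  refine ⟨s, ?_⟩
  rw [← tsum_subtype]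
  exact hs.le

theorem fpl_exists {B : Set ℝ} {u v : ℝ} (h : volume B < ENNReal.ofReal (v - u)) :
    ∃ s ∈ Ioo u v, s ∉ B := by
  by_contra hc
  push Not at hc
  have := measure_mono (μ := (volume : Measure ℝ)) (show Ioo u v ⊆ B from hc)
  rw [Real.volume_Ioo] at this
  exact absurd h (not_lt.2 this)

theorem fpl_meas {ι : Type} [Countable ι] (c e : ι → ℝ) {a b : ι → ℝ} (ha : ∀ x, 0 ≤ a x)
    (hb : ∀ x, 0 ≤ b x) (hs : Summable fun x => a x * b x) {ε τ l : ℝ} (hτ : 0 < τ) (hl : 0 < l)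
    (hε : ∑' x, a x * b x ≤ ε) (h : 2 * ε < τ * l) (p : ℝ) :
    ∃ t ∈ Ioo p (p + l), (∀ x, c x ≠ t) ∧ ∀ u v, u + 2 * τ < v →
      ∃ s ∈ Ioo u v, ∀ x, |t - c x| ≤ a x → b x < |s - e x| := by
  set T : ℝ → ENNReal := fun t => ∑' x, (Icc (c x - a x) (c x + a x)).indicator
    (fun _ => ENNReal.ofReal (b x)) t with hT
  have hm : ∀ x, Measurable ((Icc (c x - a x) (c x + a x)).indicator
      (fun _ => ENNReal.ofReal (b x))) := fun x => measurable_const.indicator measurableSet_Icc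
  have h1 : ∫⁻ t, T t ≤ ENNReal.ofReal (2 * ε) := by
    rw [hT, lintegral_tsum fun x => (hm x).aemeasurable]
    have : ∀ x, ∫⁻ t, (Icc (c x - a x) (c x + a x)).indicator (fun _ => ENNReal.ofReal (b x)) t =
        ENNReal.ofReal (2 * (a x * b x)) := by
      intro x
      rw [lintegral_indicator_const measurableSet_Icc, Real.volume_Icc,
        ← ENNReal.ofReal_mul (hb x)]
      congr 1
      ring
    simp only [this]
    rw [← ENNReal.ofReal_tsum_of_nonneg (fun x => by have := ha x; have := hb x; positivity)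
      (hs.mul_left 2), tsum_mul_left]
    exact ENNReal.ofReal_le_ofReal (by linarith)
  have h2 : volume {t | ENNReal.ofReal τ ≤ T t} < ENNReal.ofReal l := by
    refine (meas_ge_le_lintegral_div (Measurable.tsum hm).aemeasurable
      (ENNReal.ofReal_pos.2 hτ).ne' ENNReal.ofReal_ne_top).trans_lt ?_
    refine (ENNReal.div_le_div_right h1 _).trans_lt ?_
    rw [← ENNReal.ofReal_div_of_pos hτ, ENNReal.ofReal_lt_ofReal_iff hl, div_lt_iff₀ hτ]
    linarith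
  obtain ⟨t, ht, hB⟩ := fpl_exists (B := {t | ENNReal.ofReal τ ≤ T t} ∪ range c) (u := p)
    (v := p + l) (by
      refine (measure_union_le _ _).trans_lt ?_
      rwa [(countable_range c).measure_zero, add_zero, add_sub_cancel_left])
  rw [mem_union, not_or] at hB
  refine ⟨t, ht, fun x hx => hB.2 ⟨x, hx⟩, fun u v huv => ?_⟩
  have h3 : T t < ENNReal.ofReal τ := not_le.1 hB.1
  obtain ⟨s, hs', hB'⟩ := fpl_exists (B := ⋃ x, {s | |t - c x| ≤ a x ∧ |s - e x| ≤ b x}) (u := u)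
    (v := v) (by
      refine (measure_iUnion_le _).trans_lt ?_
      have h4 : ∀ x, volume {s | |t - c x| ≤ a x ∧ |s - e x| ≤ b x} ≤
          2 * (Icc (c x - a x) (c x + a x)).indicator (fun _ => ENNReal.ofReal (b x)) t := by
        intro x
        by_cases hx : |t - c x| ≤ a x
        · rw [indicator_of_mem (show t ∈ Icc (c x - a x) (c x + a x) from
            ⟨by linarith [(abs_le.1 hx).1], by linarith [(abs_le.1 hx).2]⟩)]
          refine (measure_mono (t := Icc (e x - b x) (e x + b x)) fun s hs =>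
            ⟨by linarith [(abs_le.1 hs.2).1], by linarith [(abs_le.1 hs.2).2]⟩).trans ?_
          rw [Real.volume_Icc, two_mul, ← ENNReal.ofReal_add (hb x) (hb x)]
          exact le_of_eq (by congr 1; ring)
        · simp [hx]
      refine (ENNReal.tsum_le_tsum h4).trans_lt ?_
      rw [ENNReal.tsum_mul_left]
      refine (mul_le_mul_right h3.le 2).trans_lt ?_
      rw [two_mul, ← ENNReal.ofReal_add hτ.le hτ.le,
        ENNReal.ofReal_lt_ofReal_iff (by linarith)]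
      linarith)
  refine ⟨s, hs', fun x hx => not_le.1 fun h => hB' (mem_iUnion.2 ⟨x, hx, h⟩)⟩

end measure

namespace Gen

variable {G : Type} [Group G] {Γ : Gen G}

theorem osc_nonneg (R : ℕ) (f : G → ℝ) (x : G) : 0 ≤ Γ.osc R f x :=
  Real.iSup_nonneg fun _ => abs_nonneg _

theorem abs_sub_le_osc {R : ℕ} (f : G → ℝ) {x y : G} (h : Γ.d x y ≤ R) :
    |f y - f x| ≤ Γ.osc R f x := by
  have := (Γ.ball_finite x R).to_subtype
  exact le_ciSup (f := fun y : Γ.ball x R => |f y - f x|) (Finite.bddAbove_range _) ⟨y, h⟩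

theorem fpl_osc_le {R : ℕ} {f : G → ℝ} {x : G} {c : ℝ}
    (h : ∀ y, Γ.d x y ≤ R → |f y - f x| ≤ c) : Γ.osc R f x ≤ c := by
  have : Nonempty (Γ.ball x R) := ⟨⟨x, Γ.mem_ball_self x R⟩⟩
  exact ciSup_le fun y => h y y.2

theorem osc_shift (R : ℕ) (f : G → ℝ) (g x : G) :
    Γ.osc R (fun y => f (g * y)) x = Γ.osc R f (g * x) := by
  refine le_antisymm (fpl_osc_le fun y hy => abs_sub_le_osc f (by rwa [d_mul_left]))
    (fpl_osc_le fun y hy => ?_)
  have := abs_sub_le_osc (Γ := Γ) (R := R) (fun y => f (g * y)) (x := x) (y := g⁻¹ * y)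
    (by rwa [← Γ.d_mul_left g, mul_inv_cancel_left])
  simpa using this

theorem Dir.summable_osc {f : G → ℝ} (hf : Γ.Dir f) (R : ℕ) :
    Summable fun x => Γ.osc R f x ^ 2 := by
  induction R with
  | zero =>
    have : ∀ x, Γ.osc 0 f x = 0 := fun x => le_antisymm (fpl_osc_le fun y hy => by
      rw [Γ.d_eq_zero.1 (Nat.le_zero.1 hy), sub_self, abs_zero]) (osc_nonneg _ _ _)
    simp [this]
  | succ R ih =>
    have h1 : Summable fun x => 2 * ∑ s ∈ Γ.S, Γ.osc R f (x * s) ^ 2 + 2 * Γ.gr f x :=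
      ((summable_sum fun s _ => (Equiv.mulRight s).summable_iff.2 ih).mul_left 2).add
        (Summable.mul_left 2 hf)
    refine Summable.of_nonneg_of_le (fun x => sq_nonneg _) (fun x => ?_) h1
    have h2 : 0 ≤ ∑ s ∈ Γ.S, Γ.osc R f (x * s) ^ 2 := Finset.sum_nonneg fun _ _ => sq_nonneg _
    have h3 := Γ.gr_nonneg f x
    rw [← Real.le_sqrt (osc_nonneg _ _ _) (by positivity)]
    refine fpl_osc_le fun y hy => Real.abs_le_sqrt ?_
    rcases hd : Γ.d x y with _ | n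
    · rw [← Γ.d_eq_zero.1 hd, sub_self, zero_pow two_ne_zero]
      positivity
    · obtain ⟨s, hs, hs'⟩ := Γ.d_succ hd
      have a1 := abs_sub_le_osc (Γ := Γ) (R := R) f (x := x * s) (y := y) (by omega)
      have a2 : (f y - f (x * s)) ^ 2 ≤ Γ.osc R f (x * s) ^ 2 := by
        rw [← sq_abs]
        exact pow_le_pow_left₀ (abs_nonneg _) a1 2
      have a3 := Finset.single_le_sum (f := fun s => Γ.osc R f (x * s) ^ 2)
        (fun _ _ => sq_nonneg _) hs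
      have a4 : (f x - f (x * s)) ^ 2 ≤ Γ.gr f x :=
        Finset.single_le_sum (f := fun s => (f x - f (x * s)) ^ 2) (fun _ _ => sq_nonneg _) hs
      nlinarith [sq_nonneg (f y - f (x * s) + (f x - f (x * s)))]

theorem fpl_decay (Γ : Gen G) {a b : G → ℝ} (ha : ∀ x, 0 ≤ a x) (hb : ∀ x, 0 ≤ b x)
    (sa : Summable fun x => a x ^ 2) (sb : Summable fun x => b x ^ 2) {ε : ℝ} (hε : 0 < ε) :
    ∃ ρ : ℕ, ∀ h h', ρ ≤ Γ.d h h' → (Summable fun x => a (h⁻¹ * x) * b (h'⁻¹ * x)) ∧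
      ∑' x, a (h⁻¹ * x) * b (h'⁻¹ * x) ≤ ε := by
  have A0 : 0 ≤ ∑' x, a x ^ 2 := tsum_nonneg fun _ => sq_nonneg _
  have B0 : 0 ≤ ∑' x, b x ^ 2 := tsum_nonneg fun _ => sq_nonneg _
  set A := ∑' x, a x ^ 2 with hA
  set B := ∑' x, b x ^ 2 with hB
  set m : ℝ := ε / (2 * (A + B + 1)) with hm
  have m0 : 0 < m := by positivity
  obtain ⟨s, hs⟩ := fpl_tail (f := fun x => a x ^ 2) (θ := ε * m / 4) (by positivity)
  obtain ⟨s', hs'⟩ := fpl_tail (f := fun x => b x ^ 2) (θ := ε * m / 4) (by positivity)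
  obtain ⟨N, hN⟩ := (Γ.finite_iff_ball 1).1 (s.finite_toSet.union s'.finite_toSet)
  refine ⟨2 * N + 1, fun h h' hd => ?_⟩
  have e1 := (Equiv.mulLeft h⁻¹).summable_iff.2 sa
  have e2 := (Equiv.mulLeft h'⁻¹).summable_iff.2 sb
  have e3 := (Equiv.mulLeft h⁻¹).summable_iff.2 (sa.indicator (s : Set G)ᶜ)
  have e4 := (Equiv.mulLeft h'⁻¹).summable_iff.2 (sb.indicator (s' : Set G)ᶜ)
  have f1 := ((e3.hasSum.add e4.hasSum).mul_left m⁻¹).add ((e1.hasSum.add e2.hasSum).mul_left m)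
  simp only [Function.comp_def] at f1
  rw [(Equiv.mulLeft h⁻¹).tsum_eq (fun x => a x ^ 2),
    (Equiv.mulLeft h'⁻¹).tsum_eq (fun x => b x ^ 2),
    (Equiv.mulLeft h⁻¹).tsum_eq (((s : Set G)ᶜ).indicator fun x => a x ^ 2),
    (Equiv.mulLeft h'⁻¹).tsum_eq (((s' : Set G)ᶜ).indicator fun x => b x ^ 2)] at f1
  simp only [Equiv.coe_mulLeft] at f1
  have key : ∀ x, a (h⁻¹ * x) * b (h'⁻¹ * x) ≤
      m⁻¹ * (((s : Set G)ᶜ).indicator (fun x => a x ^ 2) (h⁻¹ * x) +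
        ((s' : Set G)ᶜ).indicator (fun x => b x ^ 2) (h'⁻¹ * x)) +
      m * (a (h⁻¹ * x) ^ 2 + b (h'⁻¹ * x) ^ 2) := by
    intro x
    have amgm : ∀ u v : ℝ, 0 ≤ u → 0 ≤ v → u * v ≤ m⁻¹ * u ^ 2 + m * v ^ 2 := by
      intro u v hu hv
      have h1 : m⁻¹ * (u - m * v) ^ 2 = m⁻¹ * u ^ 2 - 2 * (u * v) + m * v ^ 2 := by
        field_simp
        ring
      have h2 : 0 ≤ m⁻¹ * (u - m * v) ^ 2 := by positivity
      nlinarith [mul_nonneg hu hv]
    have n1 : 0 ≤ m⁻¹ * ((s : Set G)ᶜ).indicator (fun x => a x ^ 2) (h⁻¹ * x) :=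
      mul_nonneg (inv_pos.2 m0).le (indicator_nonneg (fun _ _ => sq_nonneg _) _)
    have n2 : 0 ≤ m⁻¹ * ((s' : Set G)ᶜ).indicator (fun x => b x ^ 2) (h'⁻¹ * x) :=
      mul_nonneg (inv_pos.2 m0).le (indicator_nonneg (fun _ _ => sq_nonneg _) _)
    have n3 : 0 ≤ m * a (h⁻¹ * x) ^ 2 := by positivity
    have n4 : 0 ≤ m * b (h'⁻¹ * x) ^ 2 := by positivity
    by_cases h1 : h⁻¹ * x ∈ (s : Set G)
    · have h2 : h'⁻¹ * x ∈ (s' : Set G)ᶜ := by
        intro h2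
        have d1 : Γ.d 1 (h⁻¹ * x) ≤ N := hN (Or.inl h1)
        have d2 : Γ.d 1 (h'⁻¹ * x) ≤ N := hN (Or.inr h2)
        rw [← Γ.d_eq_d_one] at d1 d2
        have := Γ.d_tri h x h'
        rw [Γ.d_comm x h'] at this
        omega
      rw [indicator_of_mem h2]
      have := amgm _ _ (hb (h'⁻¹ * x)) (ha (h⁻¹ * x))
      linarith
    · rw [indicator_of_mem (show h⁻¹ * x ∈ (s : Set G)ᶜ from h1)]
      have := amgm _ _ (ha (h⁻¹ * x)) (hb (h'⁻¹ * x))
      linarith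
  have sm : Summable fun x => a (h⁻¹ * x) * b (h'⁻¹ * x) :=
    Summable.of_nonneg_of_le (fun x => mul_nonneg (ha _) (hb _)) key f1.summable
  refine ⟨sm, (hasSum_le key sm.hasSum f1).trans ?_⟩
  have g1 : m⁻¹ * (∑' x, ((s : Set G)ᶜ).indicator (fun x => a x ^ 2) x +
      ∑' x, ((s' : Set G)ᶜ).indicator (fun x => b x ^ 2) x) ≤ m⁻¹ * (ε * m / 4 + ε * m / 4) :=
    mul_le_mul_of_nonneg_left (add_le_add hs hs') (inv_pos.2 m0).le
  have g2 : m⁻¹ * (ε * m / 4 + ε * m / 4) = ε / 2 := by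
    field_simp
    ring
  have g3 : m * (A + B + 1) = ε / 2 := by
    rw [hm]
    field_simp
  nlinarith

end Gen

namespace Wd

variable {G : Type} [Group G] (w : Wd G)

theorem dir_ph (i : G × Bool) : w.Γ.Dir (w.ph i) ∧ w.Γ.En (w.ph i) = w.Γ.En w.β.φ := by
  have e : w.Γ.gr (w.ph i) = w.Γ.gr fun x => w.β.φ (i.1⁻¹ * x) := by
    funext x
    refine Finset.sum_congr rfl fun s _ => ?_
    rw [← sq_abs, w.abs_ph_sub, sq_abs]
  have h := w.β.dir.shift i.1⁻¹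
  unfold Gen.Dir Gen.En at *
  rw [e]
  exact h

theorem osc_ph (R : ℕ) (i : G × Bool) (x : G) :
    w.Γ.osc R (w.ph i) x = w.Γ.osc R w.β.φ (i.1⁻¹ * x) := by
  rw [← Gen.osc_shift]
  unfold Gen.osc
  simp only [w.abs_ph_sub]

theorem grad (k : ℕ) {η : ℝ} (hη : 0 < η) : ∃ ρ : ℕ, ∀ (i : G × Bool) (x y : G),
    ρ ≤ w.Γ.d i.1 x → w.Γ.d x y ≤ k → |w.ph i x - w.ph i y| ≤ η := by
  obtain ⟨R, hR⟩ := w.β.dir.grad_small k hη
  refine ⟨R, fun i x y h1 h2 => ?_⟩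
  rw [w.abs_ph_sub]
  exact hR _ _ (by rwa [← w.Γ.d_eq_d_one]) (by rwa [w.Γ.d_mul_left])

theorem fpl_timar {U : Set G} (h1 : w.Γ.Conn U) (h2 : w.Γ.Conn Uᶜ) {f : G → ℝ} {s : ℝ}
    (hs : ∀ x ∈ w.Γ.bd U, w.Γ.osc w.R f x < |s - f x|) {a b : G} (ha : a ∈ w.Γ.bd U)
    (hb : b ∈ w.Γ.bd U) (has : f a < s) (hbs : s < f b) : False := by
  obtain ⟨Z, hZ⟩ := w.split.empty (A := {x | s < f x}) (C := U) (by
    rw [eq_empty_iff_forall_notMem]
    rintro v ⟨hv, ⟨x, hx, hx'⟩, y, hy, hy'⟩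
    have a1 := abs_le.1 (Gen.abs_sub_le_osc f (w.Γ.mem_ball.1 hx))
    have a2 := abs_le.1 (Gen.abs_sub_le_osc f (w.Γ.mem_ball.1 hy))
    have a3 : s < f x := hx'
    have a4 : f y ≤ s := not_lt.1 hy'
    exact absurd (hs v hv) (not_lt.2 (abs_le.2 ⟨by linarith [a2.1], by linarith [a1.2]⟩)))
  have c : ∀ x y, (x ∈ U ↔ y ∈ U) → (x ∈ Z ↔ y ∈ Z) := by
    intro x y hxy
    by_cases hx : x ∈ U
    · refine (h1 x hx y (hxy.1 hx)).ind_one (p := fun y => x ∈ Z ↔ y ∈ Z) Iff.rfl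
        fun a ha s hs has hp => ?_
      have := hZ a s hs
      tauto
    · refine (h2 x hx y fun h => hx (hxy.2 h)).ind_one (p := fun y => x ∈ Z ↔ y ∈ Z) Iff.rfl
        fun a ha s hs has hp => ?_
      have := hZ a s hs
      have ha' : a ∉ U := ha
      have has' : a * s ∉ U := has
      tauto
  obtain ⟨s1, hs1, e1⟩ := ha
  obtain ⟨s2, hs2, e2⟩ := hb
  have z1 : ¬ (a ∈ Z ↔ a * s1 ∉ Z) := fun h => absurd ((hZ a s1 hs1).1 h).1 (not_lt.2 has.le)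
  have z2 : b ∈ Z ↔ b * s2 ∉ Z := (hZ b s2 hs2).2 ⟨hbs, e2⟩
  by_cases k : a ∈ U ↔ b ∈ U
  · have c1 := c a b k
    have c2 := c (a * s1) (b * s2) (by tauto)
    tauto
  · have c1 := c a (b * s2) (by tauto)
    have c2 := c (a * s1) b (by tauto)
    tauto

/-- Far pair lemma. -/
theorem fpl {η : ℝ} (hη : 0 < η) : ∃ ρ : ℕ, ∀ (i j : G × Bool) (x : G),
    ρ ≤ w.Γ.d i.1 j.1 → w.ph i j.1 + η ≤ w.ph i x → |w.ph j x - w.ph j i.1| ≤ η := by
  have := w.Γ.countable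
  obtain ⟨L, hL⟩ := w.exists_ph_one
  obtain ⟨ρ1, h1⟩ := w.grad L (η := η / 3) (by positivity)
  obtain ⟨ρ2, h2⟩ := w.Γ.fpl_decay (Gen.osc_nonneg 1 w.β.φ) (Gen.osc_nonneg w.R w.β.φ)
    (w.β.dir.summable_osc 1) (w.β.dir.summable_osc w.R) (ε := η ^ 2 / 40) (by positivity)
  refine ⟨ρ1 + ρ2, fun i j x hd hx => ?_⟩
  obtain ⟨s1, s2⟩ := h2 i.1 j.1 (by omega)
  simp only [← w.osc_ph] at s1 s2
  obtain ⟨t, ht, hne, hsep⟩ := fpl_meas (w.ph i) (w.ph j) (Gen.osc_nonneg 1 (w.ph i))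
    (Gen.osc_nonneg w.R (w.ph j)) s1 (τ := η / 6) (l := η / 3) (by positivity) (by positivity) s2
    (by nlinarith [mul_pos hη hη]) (w.ph i j.1 + η / 3)
  have hc : (w.U i t)ᶜ = w.U (i.1, !i.2) (1 - t) := by
    ext y
    simp only [U, mem_compl_iff, mem_ofPred_eq, w.ph_not, not_lt]
    exact ⟨fun h => by linarith [lt_of_le_of_ne h (hne y)], fun h => by linarith⟩
  have hbd : ∀ y ∈ w.Γ.bd (w.U i t), |t - w.ph i y| ≤ w.Γ.osc 1 (w.ph i) y := by
    rintro y ⟨s, hs, h⟩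
    have a1 := abs_le.1 (Gen.abs_sub_le_osc (w.ph i) (w.Γ.d_step y hs))
    by_cases hy : t < w.ph i y
    · have a2 : w.ph i (y * s) ≤ t := not_lt.1 (h.1 hy)
      exact abs_le.2 ⟨by linarith [a1.1], by linarith [a1.1, a1.2]⟩
    · have a2 : t < w.ph i (y * s) := by
        by_contra h'
        exact hy (h.2 h')
      exact abs_le.2 ⟨by linarith [a1.1, a1.2], by linarith [a1.2]⟩
  have hvar : ∀ a ∈ w.Γ.bd (w.U i t), ∀ b ∈ w.Γ.bd (w.U i t),
      w.ph j b ≤ w.ph j a + 2 * (η / 6) := by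
    intro a ha b hb
    by_contra hh
    obtain ⟨s, hs, hs'⟩ := hsep _ _ (not_le.1 hh)
    exact w.fpl_timar (w.conn_U i t) (hc ▸ w.conn_U _ _) (fun y hy => hs' y (hbd y hy)) ha hb
      hs.1 hs.2
  have hxU : x ∈ w.U i t := show t < w.ph i x by linarith [ht.2]
  obtain ⟨a, ha, -⟩ := w.Γ.exists_bd_between hxU
    (show ¬ t < w.ph i j.1 from not_lt.2 (by linarith [ht.1]))
  have up : ∀ (b : Bool) (c : ℝ), (∀ y ∈ w.Γ.bd (w.U i t), w.ph (j.1, b) y ≤ c) →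
      ∀ y ∈ w.U i t, w.ph (j.1, b) y ≤ c := by
    intro b c hb y hy
    by_contra hh
    have hyK : y ∈ w.U (j.1, b) c := not_le.1 hh
    obtain ⟨o, ho, ho'⟩ := hL (j.1, b)
    have hoK : o ∈ w.U (j.1, b) c :=
      show c < _ by linarith [w.ph_le_one (j.1, b) y, not_le.1 hh]
    rcases (w.conn_U (j.1, b) c).subset_or (B := w.U i t)
      (disjoint_left.2 fun z hz hz' => absurd (hb z hz') (not_le.2 hz)) with h | h
    · have a1 : t < w.ph i o := h hoK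
      have a2 := abs_le.1 (h1 i j.1 o (by omega) ho)
      linarith [a2.1, ht.1]
    · exact h hyK hy
  have u1 := up j.2 (w.ph j a + 2 * (η / 6)) fun y hy => hvar a ha y hy
  have u2 := up (!j.2) (1 - w.ph j a + 2 * (η / 6)) fun y hy => by
    rw [w.ph_not]
    linarith [hvar y hy a ha]
  simp only [w.ph_not] at u2
  obtain ⟨o, ho, ho'⟩ := hL i
  have hoU : o ∈ w.U i t := show t < w.ph i o by linarith [ht.2, w.ph_le_one i x]
  have a2 := abs_le.1 (h1 j i.1 o (by rw [w.Γ.d_comm]; omega) ho)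
  have b1 : w.ph j x ≤ _ := u1 x hxU
  have b2 : w.ph j o ≤ _ := u1 o hoU
  have b3 := u2 x hxU
  have b4 := u2 o hoU
  exact abs_le.2 ⟨by linarith [a2.2], by linarith [a2.1]⟩

theorem nest {ε : ℝ} (hε : 0 < ε) (k ρ : ℕ) : ∃ ρ' : ℕ, ρ ≤ ρ' ∧
    ∀ (i j : G × Bool) (t : ℝ) (z y x : G), (z = i.1 ∨ w.ph i z ≤ t) → t + ε ≤ w.ph i y →
      ρ' ≤ w.Γ.d i.1 y → w.Γ.d j.1 y ≤ k → w.ph j z + ε ≤ w.ph j x →
      t ≤ w.ph i x ∧ ρ ≤ w.Γ.d i.1 x := by
  obtain ⟨ρ1, h1⟩ := w.fpl (η := ε / 4) (by positivity)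
  obtain ⟨ρ2, h2⟩ := w.grad k (η := ε / 4) (by positivity)
  obtain ⟨ρ3, h3⟩ := w.grad ρ (η := ε / 4) (by positivity)
  refine ⟨ρ + ρ1 + ρ2 + ρ3 + k, by omega, fun i j t z y x hz hy d1 d2 hx => ?_⟩
  have d3 := w.Γ.d_tri i.1 j.1 y
  have d4 := w.Γ.d_comm i.1 j.1
  have a1 := abs_le.1 (h2 i y j.1 (by omega) (by rwa [w.Γ.d_comm]))
  have a2 : |w.ph j z - w.ph j i.1| ≤ ε / 4 := by
    rcases hz with rfl | hz
    · rw [sub_self, abs_zero]
      positivity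
    · exact h1 (i.1, !i.2) j z (show ρ1 ≤ w.Γ.d i.1 j.1 by omega)
        (by rw [w.ph_not, w.ph_not]; linarith [a1.2])
  rw [abs_le] at a2
  have a3 := abs_le.1 (h1 j i x (by omega) (by linarith [a2.1]))
  refine ⟨by linarith [a3.1, a1.2], ?_⟩
  by_contra hh
  have a4 := abs_le.1 (h3 j i.1 x (by omega) (by omega))
  linarith [a4.1, a2.1]

end Wd

end Vale.Agent.P239
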