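import Vale.Agent.P239.Word

/-! Cochains on tuples, uniform fillings, one endedness, splitting of walls. -/

namespace Vale.Agent.P239

open Filter Topology Set
open scoped Pointwise

theorem cob_cob {V : Type} {n : ℕ} (c : (Fin n → V) → ZMod 2) : cob (cob c) = 0 := by
  funext t
  simp only [cob, Pi.zero_apply]
  rw [← Fintype.sum_prod_type']
  refine Finset.sum_ninvolution (fun p => (p.1.succAbove p.2, p.2.predAbove p.1)) (fun p => ?_)
    (fun p _ h => Fin.succAbove_ne _ _ (congrArg Prod.fst h)) (fun _ => Finset.mem_univ _)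
    fun p => Prod.ext (Fin.succAbove_succAbove_predAbove _ _)
      (Fin.predAbove_predAbove_succAbove _ _)
  have : (t ∘ (p.1.succAbove p.2).succAbove) ∘ (p.2.predAbove p.1).succAbove =
      (t ∘ p.1.succAbove) ∘ p.2.succAbove :=
    funext fun k => congrArg t (Fin.succAbove_succAbove_succAbove_predAbove _ _ k)
  rw [this]
  exact CharTwo.add_self_eq_zero _

theorem cob_add {V : Type} {n : ℕ} (c c' : (Fin n → V) → ZMod 2) :
    cob (c + c') = cob c + cob c' := by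
  funext t
  simp only [cob, Pi.add_apply, Finset.sum_add_distrib]

open Classical in
/-- mod 2 indicator -/
noncomputable def fillI (p : Prop) : ZMod 2 := if p then 1 else 0

theorem fillI_pos {p : Prop} (h : p) : fillI p = 1 := if_pos h

theorem fillI_neg {p : Prop} (h : ¬ p) : fillI p = 0 := if_neg h

theorem fillI_ne {p : Prop} (h : fillI p ≠ 0) : p := by
  by_contra hp
  exact h (fillI_neg hp)

theorem fillI_add_ne {p q : Prop} (h : fillI p + fillI q ≠ 0) : p ↔ ¬ q := by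
  by_cases hp : p <;> by_cases hq : q <;> simp_all [fillI, CharTwo.add_self_eq_zero]

theorem fill_fin_ind {ι : Type} (u : ι) (X : ZMod 2) :
    Function.HasFiniteSupport fun a => fillI (u = a) * X :=
  (finite_singleton u).subset fun _ h => (fillI_ne (left_ne_zero_of_mul h)).symm

theorem fill_sum_ind {ι : Type} (u : ι) (X : ZMod 2) : ∑ᶠ a, fillI (u = a) * X = X := by
  rw [finsum_eq_single _ u fun a h => by rw [fillI_neg (Ne.symm h), zero_mul], fillI_pos rfl,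
    one_mul]

theorem fill_finsum_ne {ι : Type} {f : ι → ZMod 2} (h : ∑ᶠ a, f a ≠ 0) : ∃ a, f a ≠ 0 := by
  by_contra hc
  push Not at hc
  exact h (finsum_eq_zero_of_forall_eq_zero hc)

theorem fill_cob1 {V : Type} (f : V → ZMod 2) (t : Fin 2 → V) :
    cob (fun s : Fin 1 → V => f (s 0)) t = f (t 1) + f (t 0) :=
  (Fin.sum_univ_two _).trans rfl

theorem fill_cob2 {V : Type} (f : V → V → ZMod 2) (t : Fin 3 → V) :
    cob (fun s : Fin 2 → V => f (s 0) (s 1)) t = f (t 1) (t 2) + f (t 0) (t 2) + f (t 0) (t 1) :=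
  (Fin.sum_univ_three _).trans rfl

theorem fill_cob3 {V : Type} (f : V → V → V → ZMod 2) (t : Fin 4 → V) :
    cob (fun s : Fin 3 → V => f (s 0) (s 1) (s 2)) t =
      f (t 1) (t 2) (t 3) + f (t 0) (t 2) (t 3) + f (t 0) (t 1) (t 3) + f (t 0) (t 1) (t 2) :=
  (Fin.sum_univ_four _).trans rfl

theorem fill_cob4 {V : Type} (f : V → V → V → V → ZMod 2) (t : Fin 5 → V) :
    cob (fun s : Fin 4 → V => f (s 0) (s 1) (s 2) (s 3)) t =
      f (t 1) (t 2) (t 3) (t 4) + f (t 0) (t 2) (t 3) (t 4) + f (t 0) (t 1) (t 3) (t 4) +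
        f (t 0) (t 1) (t 2) (t 4) + f (t 0) (t 1) (t 2) (t 3) :=
  (Fin.sum_univ_five _).trans rfl

namespace Gen

variable {G : Type} [Group G] {Γ : Gen G}

theorem Small.mono {n R R' : ℕ} {t : Fin n → G} (h : Γ.Small R t) (hR : R ≤ R') : Γ.Small R' t :=
  fun i j => (h i j).trans hR

/-- restriction of a cochain to small tuples -/
noncomputable def fillRes (Γ : Gen G) {n : ℕ} (r : ℕ) (c : (Fin n → G) → ZMod 2)
    (t : Fin n → G) : ZMod 2 := fillI (Γ.Small r t) * c t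

theorem fillRes_of {n r : ℕ} (c : (Fin n → G) → ZMod 2) {t : Fin n → G} (h : Γ.Small r t) :
    Γ.fillRes r c t = c t := by rw [fillRes, fillI_pos h, one_mul]

theorem fillRes_ne {n r : ℕ} {c : (Fin n → G) → ZMod 2} {t : Fin n → G}
    (h : Γ.fillRes r c t ≠ 0) : Γ.Small r t ∧ c t ≠ 0 :=
  ⟨fillI_ne (left_ne_zero_of_mul h), right_ne_zero_of_mul h⟩

theorem cob_fillRes {n r : ℕ} (c : (Fin n → G) → ZMod 2) {t : Fin (n + 1) → G}
    (h : Γ.Small r t) : cob (Γ.fillRes r c) t = cob c t :=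
  Finset.sum_congr rfl fun _ _ => fillRes_of c fun _ _ => h _ _

theorem fill_fin {k K : ℕ} {b : G → (Fin (k + 1) → G) → ZMod 2}
    (hb : ∀ a t, b a t ≠ 0 → ∀ i, t i ∈ Γ.ball a K) (t : Fin (k + 1) → G) :
    Function.HasFiniteSupport fun a => b a t :=
  (Γ.ball_finite (t 0) K).subset fun a h => by
    rw [mem_ball, d_comm]
    exact hb a t h 0

theorem fill_cob_finsum {k K : ℕ} {b : G → (Fin (k + 1) → G) → ZMod 2}
    (hb : ∀ a t, b a t ≠ 0 → ∀ i, t i ∈ Γ.ball a K) (t : Fin (k + 2) → G) :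
    cob (fun s => ∑ᶠ a, b a s) t = ∑ᶠ a, cob (b a) t :=
  (finsum_sum_comm _ (fun a (i : Fin (k + 2)) => b a (t ∘ i.succAbove))
    fun _ _ => fill_fin hb _).symm

omit [Group G] in
theorem fill_tuples (k : ℕ) {A : Set G} (hA : A.Finite) : {t : Fin k → G | ∀ i, t i ∈ A}.Finite :=
  Set.Finite.pi' fun _ => hA

omit [Group G] in
theorem fill_range {k : ℕ} {T : Set (Fin k → G)} (hT : T.Finite) :
    {x | ∃ t ∈ T, ∃ i, t i = x}.Finite :=
  (hT.biUnion fun t _ => finite_range t).subset fun _ ⟨_, ht, h⟩ => mem_biUnion ht h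

/-- Uniform fillings. -/
theorem Van.unif {k : ℕ} (h : Γ.Van k) (R : ℕ) : ∃ R' : ℕ, R ≤ R' ∧ ∀ D : ℕ, ∃ D' : ℕ,
    ∀ (z : G) (c : (Fin (k + 1) → G) → ZMod 2),
      (∀ t, c t ≠ 0 → ∀ i, t i ∈ Γ.ball z D) → (∀ t, Γ.Small R' t → cob c t = 0) →
      ∃ b : (Fin k → G) → ZMod 2, (∀ t, b t ≠ 0 → ∀ i, t i ∈ Γ.ball z D') ∧
        (c = 0 → b = 0) ∧ ∀ t, Γ.Small R t → cob b t = c t := by
  obtain ⟨R0, h0⟩ := h R
  refine ⟨max R R0, le_max_left _ _, fun D => ?_⟩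
  have hT := fill_tuples (k + 1) (Γ.ball_finite 1 D)
  have hC : {c : (Fin (k + 1) → G) → ZMod 2 | ∀ t, c t ≠ 0 → ∀ i, t i ∈ Γ.ball 1 D}.Finite := by
    have := hT.to_subtype
    refine Set.Finite.of_finite_image (f := fun c (t : {t : Fin (k + 1) → G |
      ∀ i, t i ∈ Γ.ball 1 D}) => c t.1) (toFinite _) fun c hc c' hc' e => funext fun t => ?_
    by_cases ht : ∀ i, t i ∈ Γ.ball 1 D
    · exact congrFun e ⟨t, ht⟩
    · rw [not_not.1 fun h => ht (hc t h), not_not.1 fun h => ht (hc' t h)]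
  have hex : ∀ c : (Fin (k + 1) → G) → ZMod 2, ∃ ρ : ℕ,
      (∀ t, c t ≠ 0 → ∀ i, t i ∈ Γ.ball 1 D) → (∀ t, Γ.Small R0 t → cob c t = 0) →
      ∃ b : (Fin k → G) → ZMod 2, (∀ t, b t ≠ 0 → ∀ i, t i ∈ Γ.ball 1 ρ) ∧
        ∀ t, Γ.Small R t → cob b t = c t := by
    intro c
    by_cases hc : (∀ t, c t ≠ 0 → ∀ i, t i ∈ Γ.ball 1 D) ∧ ∀ t, Γ.Small R0 t → cob c t = 0
    · obtain ⟨b, hb1, hb2⟩ := h0 c (hT.subset fun t ht => hc.1 t ht) hc.2
      obtain ⟨ρ, hρ⟩ := (Γ.finite_iff_ball 1).1 (fill_range hb1)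
      exact ⟨ρ, fun _ _ => ⟨b, fun t ht i => hρ ⟨t, ht, i, rfl⟩, hb2⟩⟩
    · exact ⟨0, fun h1 h2 => (hc ⟨h1, h2⟩).elim⟩
  choose ρ hρ using hex
  obtain ⟨D', hD'⟩ := (hC.image ρ).bddAbove
  refine ⟨D', fun z c h1 h2 => ?_⟩
  by_cases hc0 : c = 0
  · subst hc0
    exact ⟨0, fun t ht => (ht rfl).elim, fun _ => rfl, fun t _ => by simp [cob]⟩
  have h3 : ∀ t : Fin (k + 1) → G, c (fun i => z * t i) ≠ 0 → ∀ i, t i ∈ Γ.ball 1 D :=
    fun t ht i => by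
      have := h1 _ ht i
      rwa [mem_ball, d_mul_right, ← d_one] at this
  obtain ⟨b, hb1, hb2⟩ := hρ (fun t => c fun i => z * t i) h3 fun t ht =>
    h2 (fun i => z * t i) fun i j => by
      rw [d_mul_left]
      exact (ht i j).trans (le_max_right _ _)
  refine ⟨fun t => b fun i => z⁻¹ * t i, fun t ht i => ?_, fun h => (hc0 h).elim, fun t ht => ?_⟩
  · have := (hb1 _ ht i).trans (hD' ⟨_, h3, rfl⟩)
    rwa [← d_eq_d_one] at this
  · have := hb2 (fun i => z⁻¹ * t i) fun i j => by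
      rw [d_mul_left]
      exact ht i j
    simp only [mul_inv_cancel_left] at this
    exact this

/-- Uniform fillings depending only on the cochain. -/
theorem Van.fill_fun {k : ℕ} (h : Γ.Van k) (R : ℕ) : ∃ R' : ℕ, R ≤ R' ∧ ∀ D : ℕ, ∃ D' : ℕ,
    ∃ F : ((Fin (k + 1) → G) → ZMod 2) → (Fin k → G) → ZMod 2, F 0 = 0 ∧
      ∀ (z : G) (c : (Fin (k + 1) → G) → ZMod 2),
      (∀ t, c t ≠ 0 → ∀ i, t i ∈ Γ.ball z D) → (∀ t, Γ.Small R' t → cob c t = 0) →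
      (∀ t, F c t ≠ 0 → ∀ i, t i ∈ Γ.ball z D') ∧ ∀ t, Γ.Small R t → cob (F c) t = c t := by
  obtain ⟨R', hR, h0⟩ := h.unif R
  refine ⟨R', hR, fun D => ?_⟩
  obtain ⟨D', hD⟩ := h0 D
  have hex : ∀ c : (Fin (k + 1) → G) → ZMod 2, ∃ b : (Fin k → G) → ZMod 2, (c = 0 → b = 0) ∧
      ∀ z, (∀ t, c t ≠ 0 → ∀ i, t i ∈ Γ.ball z D) → (∀ t, Γ.Small R' t → cob c t = 0) →
      (∀ t, b t ≠ 0 → ∀ i, t i ∈ Γ.ball z (2 * D + D')) ∧ ∀ t, Γ.Small R t → cob b t = c t := by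
    intro c
    by_cases hc0 : c = 0
    · subst hc0
      exact ⟨0, fun _ => rfl, fun _ _ _ => ⟨fun t ht => (ht rfl).elim, fun t _ => by simp [cob]⟩⟩
    by_cases hc : ∃ z, ∀ t, c t ≠ 0 → ∀ i, t i ∈ Γ.ball z D
    swap
    · exact ⟨0, fun _ => rfl, fun z hz => (hc ⟨z, hz⟩).elim⟩
    by_cases hc' : ∀ t, Γ.Small R' t → cob c t = 0
    swap
    · exact ⟨0, fun _ => rfl, fun _ _ hz => (hc' hz).elim⟩
    obtain ⟨z0, hz0⟩ := hc
    obtain ⟨b, hb1, hb2, hb3⟩ := hD z0 c hz0 hc'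
    obtain ⟨s, hs⟩ := Function.ne_iff.1 hc0
    refine ⟨b, hb2, fun z hz _ => ⟨fun t ht i => ?_, hb3⟩⟩
    have a1 : Γ.d z (s 0) ≤ D := hz s hs 0
    have a2 : Γ.d z0 (s 0) ≤ D := hz0 s hs 0
    have a3 : Γ.d z0 (t i) ≤ D' := hb1 t ht i
    have a4 := Γ.d_tri z (s 0) (t i)
    have a5 := Γ.d_tri (s 0) z0 (t i)
    rw [Γ.d_comm (s 0) z0] at a5
    rw [mem_ball]
    omega
  choose F hF1 hF2 using hex
  exact ⟨2 * D + D', F, hF1 0 rfl, fun z c => hF2 c z⟩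

theorem fill_edge {b : (Fin 1 → G) → ZMod 2} {c : (Fin 2 → G) → ZMod 2}
    (h : ∀ t, Γ.Small 1 t → cob b t = c t) (x : G) {s : G} (hs : s ∈ Γ.S) :
    b (fun _ => x * s) + b (fun _ => x) = c ![x, x * s] := by
  have h1 := Γ.d_step x hs
  rw [← h ![x, x * s] fun i j => by
    fin_cases i <;> fin_cases j <;> simp [h1, Γ.d_comm (x * s) x]]
  have e : b = fun s : Fin 1 → G => b fun _ => s 0 :=
    funext fun s => congrArg b (funext fun i => congrArg s (Subsingleton.elim _ _))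
  conv_rhs => rw [e]
  exact (fill_cob1 (fun y => b fun _ => y) ![x, x * s]).symm

theorem fill_side (B : Set G) {b : (Fin 1 → G) → ZMod 2}
    (h : ∀ t, Γ.Small 1 t → cob b t = fillI (t 0 ∈ B) + fillI (t 1 ∈ B)) :
    (∀ x ∈ B, b (fun _ => x) ≠ 0) ∨ ∀ x ∉ B, b (fun _ => x) ≠ 0 := by
  have key : ∀ x, fillI (x ∈ B) + b (fun _ => x) = fillI ((1 : G) ∈ B) + b fun _ => 1 := by
    intro x
    refine (Γ.conn_univ 1 trivial x trivial).ind_one
      (p := fun x => fillI (x ∈ B) + b (fun _ => x) = fillI ((1 : G) ∈ B) + b fun _ => 1) rfl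
      fun a _ s hs _ hp => ?_
    have h1 : b (fun _ => a * s) + b (fun _ => a) = fillI (a ∈ B) + fillI (a * s ∈ B) :=
      fill_edge (c := fun t => fillI (t 0 ∈ B) + fillI (t 1 ∈ B)) h a hs
    rw [← hp]
    revert h1
    generalize b (fun _ => a * s) = u
    generalize b (fun _ => a) = v
    generalize fillI (a ∈ B) = w
    generalize fillI (a * s ∈ B) = y
    decide +revert
  by_cases h0 : fillI ((1 : G) ∈ B) + b (fun _ => 1) = 0
  · refine Or.inl fun x hx hb => ?_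
    have := key x
    rw [h0, hb, fillI_pos hx] at this
    exact absurd this (by decide)
  · refine Or.inr fun x hx hb => h0 ?_
    rw [← key x, hb, fillI_neg hx, add_zero]

theorem fill_bd {B : Set G} {x y : G} (h : fillI (x ∈ B) + fillI (y ∈ B) ≠ 0) :
    ∃ v ∈ Γ.bd B, Γ.d x v + Γ.d v y ≤ Γ.d x y := by
  have h1 := fillI_add_ne h
  by_cases hx : x ∈ B
  · obtain ⟨v, hv, -, h2⟩ := Γ.exists_bd_between hx (h1.1 hx)
    exact ⟨v, hv, h2⟩
  · obtain ⟨v, hv, -, h2⟩ := Γ.exists_bd_between (B := Bᶜ) (y := y) hx fun h => hx (h1.2 h)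
    exact ⟨v, by simpa using hv, h2⟩

theorem Van.oneEnd (h : Γ.Van 1) : Γ.OneEnd := by
  intro B hB
  obtain ⟨R', hR⟩ := h 1
  obtain ⟨b, hb1, hb2⟩ := hR (Γ.fillRes (max R' 1) fun t => fillI (t 0 ∈ B) + fillI (t 1 ∈ B))
    ((fill_tuples 2 (Γ.nb_finite (2 * max R' 1) hB)).subset fun t ht i => by
      obtain ⟨h1, h2⟩ := fillRes_ne ht
      obtain ⟨v, hv, h3⟩ := fill_bd (Γ := Γ) h2
      have := h1 0 1
      have := h1 i 0
      have := Γ.d_tri (t i) (t 0) v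
      exact ⟨v, hv, by omega⟩)
    fun t ht => by
      rw [cob_fillRes _ (ht.mono (le_max_left _ _)),
        fill_cob2 fun x y => fillI (x ∈ B) + fillI (y ∈ B)]
      ring_nf
      reduce_mod_char
  have h3 := fill_side B fun t ht => (hb2 t ht).trans (fillRes_of _ (ht.mono (le_max_right _ _)))
  exact h3.imp (fun h4 => (fill_range hb1).subset fun x hx => ⟨_, h4 x hx, 0, rfl⟩)
    fun h4 => (fill_range hb1).subset fun x hx => ⟨_, h4 x hx, 0, rfl⟩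

/-- Representatives of bounded clusters. -/
theorem fill_rep {R D : ℕ} {A : Set G} (h : ∀ w ∈ A, ∀ w', Γ.Ch R A w w' → Γ.d w w' ≤ D) :
    ∃ p : G → G, (∀ w ∈ A, p w ∈ A ∧ Γ.d w (p w) ≤ D) ∧
      ∀ w ∈ A, ∀ w' ∈ A, Γ.d w w' ≤ R → p w = p w' := by
  refine ⟨fun w => Classical.epsilon fun y => y ∈ Γ.comp R A w, fun w hw => ?_,
    fun w hw w' hw' hd => ?_⟩
  · have := Classical.epsilon_spec (p := fun y => y ∈ Γ.comp R A w) ⟨w, mem_comp_self hw⟩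
    exact ⟨comp_subset _ _ _ this, h w hw _ this.2⟩
  · have : Γ.comp R A w = Γ.comp R A w' := by
      have h1 := Ch.single hw hw' hd
      ext y
      exact ⟨fun hy => ⟨hw', h1.symm.trans hy.2⟩, fun hy => ⟨hw, h1.trans hy.2⟩⟩
    simp only [this]

theorem exists_splitAt (h0 : Γ.FP2) (h2 : Γ.Van 2) : ∃ R : ℕ, ∀ R', R ≤ R' → Γ.SplitAt R' := by
  obtain ⟨r0, hr0⟩ := h0
  obtain ⟨r, -, hr⟩ := h2.fill_fun r0
  refine ⟨5 * max r r0, fun R' hR D => ?_⟩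
  obtain ⟨D', F, hF0, hF⟩ := hr (D + 3 * max r r0)
  refine ⟨D', fun A C hAC => ?_⟩
  obtain ⟨ρ, hρ⟩ : ∃ ρ, ρ = max r r0 := ⟨_, rfl⟩
  have hρ1 : r ≤ ρ := hρ ▸ le_max_left _ _
  have hρ2 : r0 ≤ ρ := hρ ▸ le_max_right _ _
  rw [← hρ] at hR hF
  obtain ⟨p, hp1, hp2⟩ := fill_rep hAC
  have hw : ∀ y, ∃ w, y ∈ Γ.nb (2 * ρ) (Γ.Sp R' A C) → w ∈ Γ.Sp R' A C ∧ Γ.d y w ≤ 2 * ρ := by
    intro y
    by_cases hy : y ∈ Γ.nb (2 * ρ) (Γ.Sp R' A C)
    · obtain ⟨w, h1, h2⟩ := hy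
      exact ⟨w, fun _ => ⟨h1, h2⟩⟩
    · exact ⟨1, fun h => (hy h).elim⟩
  choose w hw using hw
  have hsp : ∀ x y z u : G, fillI (x ∈ A) + fillI (y ∈ A) ≠ 0 → fillI (z ∈ C) + fillI (u ∈ C) ≠ 0 →
      Γ.d z x ≤ ρ → Γ.d z y ≤ ρ → Γ.d z u ≤ ρ → ∃ v ∈ Γ.Sp R' A C, Γ.d z v ≤ ρ := by
    intro x y z u h1 h2 a1 a2 a3
    obtain ⟨v, hv, h3⟩ := fill_bd (Γ := Γ) h2
    have b1 := Γ.d_tri v z x
    have b2 := Γ.d_tri v z y
    rw [Γ.d_comm v z] at b1 b2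
    have hx : x ∈ Γ.ball v R' := by rw [mem_ball]; omega
    have hy : y ∈ Γ.ball v R' := by rw [mem_ball]; omega
    have h4 := fillI_add_ne h1
    refine ⟨v, ⟨hv, ?_⟩, by omega⟩
    by_cases hxA : x ∈ A
    · exact ⟨⟨x, hx, hxA⟩, y, hy, h4.1 hxA⟩
    · exact ⟨⟨y, hy, not_not.1 fun h => hxA (h4.2 h)⟩, x, hx, hxA⟩
  set κ : G → (Fin 3 → G) → ZMod 2 := fun a => Γ.fillRes ρ fun t => fillI (p (w (t 1)) = a) *
    ((fillI (t 0 ∈ A) + fillI (t 1 ∈ A)) * (fillI (t 1 ∈ C) + fillI (t 2 ∈ C))) with hκ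
  have hκ1 : ∀ a t, κ a t ≠ 0 → a ∈ Γ.Sp R' A C ∧ ∀ i, t i ∈ Γ.ball a (D + 3 * ρ) := by
    intro a t ht
    obtain ⟨h1, h2⟩ := fillRes_ne ht
    have h3 := fillI_ne (left_ne_zero_of_mul h2)
    have h4 := right_ne_zero_of_mul h2
    obtain ⟨v, hv, h5⟩ := hsp _ _ _ _ (left_ne_zero_of_mul h4) (right_ne_zero_of_mul h4)
      (h1 1 0) (h1 1 1) (h1 1 2)
    obtain ⟨h6, h7⟩ := hw (t 1) ⟨v, hv, by omega⟩
    obtain ⟨h8, h9⟩ := hp1 _ h6
    rw [h3] at h8 h9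
    refine ⟨h8, fun i => ?_⟩
    have b1 := Γ.d_tri a (w (t 1)) (t i)
    have b2 := Γ.d_tri (w (t 1)) (t 1) (t i)
    have b3 := h1 1 i
    rw [Γ.d_comm a (w (t 1))] at b1
    rw [Γ.d_comm (w (t 1)) (t 1)] at b2
    rw [mem_ball]
    omega
  have hκ2 : ∀ a t, Γ.Small r t → cob (κ a) t = 0 := by
    intro a t ht
    have ht' := ht.mono hρ1
    rw [hκ]
    dsimp only
    rw [cob_fillRes _ ht', fill_cob3 fun x y z => fillI (p (w y) = a) *
      ((fillI (x ∈ A) + fillI (y ∈ A)) * (fillI (y ∈ C) + fillI (z ∈ C)))]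
    have e : ∀ P Q X Y Z U V W : ZMod 2, Q * ((Y + Z) * (V + W)) + Q * ((X + Z) * (V + W)) +
        P * ((X + Y) * (U + W)) + P * ((X + Y) * (U + V)) = (P + Q) * ((X + Y) * (V + W)) := by
      decide
    rw [e]
    by_cases h1 : (fillI (t 0 ∈ A) + fillI (t 1 ∈ A)) * (fillI (t 2 ∈ C) + fillI (t 3 ∈ C)) = 0
    · rw [h1, mul_zero]
    obtain ⟨v, hv, h5⟩ := hsp _ _ _ _ (left_ne_zero_of_mul h1) (right_ne_zero_of_mul h1)
      (ht' 2 0) (ht' 2 1) (ht' 2 3)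
    have b1 := Γ.d_tri (t 1) (t 2) v
    have b2 := ht' 1 2
    obtain ⟨h6, h7⟩ := hw (t 1) ⟨v, hv, by omega⟩
    obtain ⟨h8, h9⟩ := hw (t 2) ⟨v, hv, by omega⟩
    have b3 := Γ.d_tri (w (t 1)) (t 1) (w (t 2))
    have b4 := Γ.d_tri (t 1) (t 2) (w (t 2))
    rw [Γ.d_comm (w (t 1)) (t 1)] at b3
    rw [hp2 _ h6 _ h8 (by omega), CharTwo.add_self_eq_zero, zero_mul]
  have hβ := fun a => hF a (κ a) (fun t ht => (hκ1 a t ht).2) (hκ2 a)
  obtain ⟨b, hb⟩ := hr0 ((fun t => fillI (t 0 ∈ A) * (fillI (t 0 ∈ C) + fillI (t 1 ∈ C))) +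
      fun t => ∑ᶠ a, F (κ a) t) fun t ht => by
    rw [cob_add, Pi.add_apply, fill_cob_finsum (fun a => (hβ a).1),
      finsum_congr fun a => ((hβ a).2 t ht).trans (fillRes_of _ (ht.mono hρ2)), fill_sum_ind,
      fill_cob2 fun x y => fillI (x ∈ A) * (fillI (x ∈ C) + fillI (y ∈ C))]
    ring_nf
    reduce_mod_char
  refine ⟨{x | b (fun _ => x) = 1}, fun x hx s hs => ?_⟩
  have h1 := fill_edge hb x hs
  have h3 : ∑ᶠ a, F (κ a) ![x, x * s] = 0 := by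
    by_contra h4
    obtain ⟨a, ha⟩ := fill_finsum_ne h4
    have h5 : κ a ≠ 0 := fun h => ha (by rw [h, hF0]; rfl)
    obtain ⟨t, ht⟩ := Function.ne_iff.1 h5
    have h6 : Γ.d a x ≤ D' := (hβ a).1 _ ha 0
    have h7 := hx a (hκ1 a t ht).1
    rw [d_comm] at h7
    omega
  rw [Pi.add_apply, h3, add_zero] at h1
  simp only [Matrix.cons_val_zero, Matrix.cons_val_one] at h1
  simp only [mem_ofPred_eq]
  revert h1
  generalize b (fun _ => x * s) = u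
  generalize b (fun _ => x) = v
  by_cases a1 : x ∈ A <;> by_cases a2 : x ∈ C <;> by_cases a3 : x * s ∈ C <;>
    simp only [fillI, a1, a2, a3, if_true, if_false] <;> revert u v <;> decide

end Gen

end Vale.Agent.P239
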