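import Vale.Agent.P239.Cover

/-! Generic levels and the parity ultrafilter. -/

namespace Vale.Agent.P239

open Filter Topology Set
open scoped Pointwise

open MeasureTheory in
theorem level_box {G : Type} [Countable G] (f g : G → ℝ) {a b : G → ℝ} (ha : ∀ x, 0 ≤ a x)
    (sa : Summable fun x => a x ^ 2) (sb : Summable fun x => b x ^ 2) :
    ∀ᵐ s : ℝ, ∀ᵐ t : ℝ, {x | |s - f x| ≤ a x ∧ |t - g x| ≤ b x}.Finite := by
  have h := ae_finite_setOfPred_mem (μ := (volume : Measure ℝ).prod volume)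
    (s := fun x => Metric.closedBall (f x) (a x) ×ˢ Metric.closedBall (g x) (b x)) (by
      refine ne_top_of_le_ne_top ((sa.add sb).mul_left 2).tsum_ofReal_ne_top
        (ENNReal.tsum_le_tsum fun x => ?_)
      rw [Measure.prod_prod, Real.volume_closedBall, Real.volume_closedBall,
        ← ENNReal.ofReal_mul (by linarith [ha x])]
      exact ENNReal.ofReal_le_ofReal (by nlinarith [sq_nonneg (a x - b x)]))
  simpa only [mem_prod, Metric.mem_closedBall, Real.dist_eq] using Measure.ae_ae_of_ae_prod h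

theorem level_symm {G : Type} (u : Ultrafilter G) (X Y : Set G) :
    symmDiff X Y ∈ u ↔ (X ∈ u ↔ Y ∉ u) := by
  rw [Set.symmDiff_def, Ultrafilter.union_mem_iff, sdiff_eq, sdiff_eq,
    ← Ultrafilter.mem_coe, ← Ultrafilter.mem_coe, inter_mem_iff, inter_mem_iff]
  simp only [Ultrafilter.mem_coe, Ultrafilter.compl_mem_iff_notMem]
  tauto

namespace Wd

variable {G : Type} [Group G] (w : Wd G)

theorem level_osc {R : ℕ} (f : G → ℝ) {x y y' : G} {t : ℝ} (hy : w.Γ.d x y ≤ R)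
    (hy' : w.Γ.d x y' ≤ R) (h : t < f y) (h' : ¬ t < f y') : |t - f x| ≤ w.Γ.osc R f x := by
  have a1 := abs_le.1 (Gen.abs_sub_le_osc f hy)
  have a2 := abs_le.1 (Gen.abs_sub_le_osc f hy')
  exact abs_le.2 ⟨by linarith [a2.1, not_lt.1 h'], by linarith [a1.2]⟩

open MeasureTheory in
theorem level_ae : ∀ᵐ s : ℝ, w.GenLev s := by
  have := w.Γ.countable
  have h1 : ∀ᵐ s : ℝ, w.Γ.Reg (w.U (1, true) s) :=
    (w.cap.countable_nonreg (w.dir_ph (1, true)).1).measure_zero volume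
  have h2 := ae_all_iff.2 fun i : G × Bool => level_box (w.ph (1, true)) (w.ph i)
    (Gen.osc_nonneg (Γ := w.Γ) 1 (w.ph (1, true))) ((w.dir_ph (1, true)).1.summable_osc 1)
    ((w.dir_ph i).1.summable_osc w.R)
  filter_upwards [h1, h2] with s h1 h2
  refine ⟨h1, fun i a b hab => ?_⟩
  obtain ⟨t, ht, h3⟩ := Measure.exists_mem_of_measure_ne_zero_of_ae (μ := volume) (s := Ioo a b)
    (by simpa using hab) (ae_restrict_of_ae (h2 i))
  refine ⟨t, ht, h3.subset ?_⟩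
  rintro x ⟨⟨r, hr, h4⟩, ⟨y, hy, h5⟩, y', hy', h6⟩
  refine ⟨?_, w.level_osc _ hy hy' h5 h6⟩
  by_cases hx : x ∈ w.U (1, true) s
  · exact w.level_osc _ (by simp) (w.Γ.d_step x hr) hx (h4.1 hx)
  · exact w.level_osc _ (w.Γ.d_step x hr) (by simp) (not_not.1 (mt h4.2 hx)) hx

theorem infinite_genLev : {s | s ∈ Icc (2 / 5 : ℝ) (3 / 5) ∧ w.GenLev s}.Infinite := by
  intro h
  have h1 := MeasureTheory.measure_eq_zero_iff_ae_notMem.1 (h.measure_zero MeasureTheory.volume)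
  obtain ⟨t, ht, h2, h3⟩ := MeasureTheory.Measure.exists_mem_of_measure_ne_zero_of_ae
    (μ := MeasureTheory.volume) (s := Icc (2 / 5 : ℝ) (3 / 5)) (by norm_num)
    (MeasureTheory.ae_restrict_of_ae (h1.and w.level_ae))
  exact h2 ⟨ht, h3⟩

theorem level_inter {A A' B : Set G} (h : (w.Γ.Sp w.R A B).Finite)
    (h' : (w.Γ.Sp w.R A' B).Finite) : (w.Γ.Sp w.R (A ∩ A') B).Finite := by
  refine (h.union h').subset ?_
  rintro v ⟨hv, ⟨x, hx, h1, h2⟩, y, hy, h3⟩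
  rcases not_and_or.1 h3 with h3 | h3
  · exact Or.inl ⟨hv, ⟨x, hx, h1⟩, y, hy, h3⟩
  · exact Or.inr ⟨hv, ⟨x, hx, h2⟩, y, hy, h3⟩

theorem level_same {𝔭 𝔮 : Ultrafilter G} (hp : (𝔭 : Filter G) ≤ cofinite)
    (hq : (𝔮 : Filter G) ≤ cofinite) {Z : Set G} (h : (w.Γ.bd Z).Finite) : Z ∈ 𝔭 ↔ Z ∈ 𝔮 := by
  rcases w.oneEnd Z h with h1 | h1
  · exact iff_of_false (Ultrafilter.compl_mem_iff_notMem.1 (hp h1.compl_mem_cofinite))
      (Ultrafilter.compl_mem_iff_notMem.1 (hq h1.compl_mem_cofinite))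
  · exact iff_of_true (hp h1) (hq h1)

/-- Odd parity of the piece `A` of the wall of `B`. -/
def levelPar (B : Set G) (𝔭 𝔮 : Ultrafilter G) (A : Set G) : Prop :=
  ∃ Z : Set G, {x | ¬ w.Γ.CutAt A B Z x}.Finite ∧ (Z ∈ 𝔮 ↔ Z ∉ 𝔭)

theorem level_split {B : Set G} {𝔭 𝔮 : Ultrafilter G} (hp : (𝔭 : Filter G) ≤ cofinite)
    (hq : (𝔮 : Filter G) ≤ cofinite) {A A' : Set G} (h : (w.Γ.Sp w.R A B).Finite)
    (h' : (w.Γ.Sp w.R A' B).Finite) (H : w.levelPar B 𝔭 𝔮 A) :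
    w.levelPar B 𝔭 𝔮 (A ∩ A') ∨ w.levelPar B 𝔭 𝔮 (A ∩ A'ᶜ) := by
  obtain ⟨Z, hZ, hs⟩ := H
  obtain ⟨Z1, h1⟩ := w.split.finite (w.level_inter h h')
  obtain ⟨Z2, h2⟩ := w.split.finite (w.level_inter (A' := A'ᶜ) h (by simpa using h'))
  by_contra hc
  rw [not_or] at hc
  have k1 : ¬ (Z1 ∈ 𝔮 ↔ Z1 ∉ 𝔭) := fun k => hc.1 ⟨Z1, h1, k⟩
  have k2 : ¬ (Z2 ∈ 𝔮 ↔ Z2 ∉ 𝔭) := fun k => hc.2 ⟨Z2, h2, k⟩
  have h3 := w.level_same hp hq (Z := symmDiff Z (symmDiff Z1 Z2))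
    ((hZ.union (h1.union h2)).subset ?_)
  · simp only [level_symm] at h3
    clear hc
    tauto
  · rintro x ⟨s, hs', h4⟩
    by_contra hn
    simp only [mem_union, mem_ofPred_eq, not_or, not_not] at hn
    have a0 := hn.1 s hs'
    have a1 := hn.2.1 s hs'
    have a2 := hn.2.2 s hs'
    simp only [mem_symmDiff, mem_inter_iff, mem_compl_iff] at h4 a1 a2
    generalize (x ∈ B ↔ x * s ∉ B) = c at a0 a1 a2
    clear hn hc k1 k2 hs
    grind

/-- An ultrafilter all of whose members in the algebra of the wall of `B` contain a piece of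
odd parity. -/
theorem exists_ultra {B : Set G} (𝔭 𝔮 : Ultrafilter G) (hp : (𝔭 : Filter G) ≤ cofinite)
    (hq : (𝔮 : Filter G) ≤ cofinite) (hBp : B ∉ 𝔭) (hBq : B ∈ 𝔮) :
    ∃ 𝔢 : Ultrafilter G, ∀ A ∈ 𝔢, (w.Γ.Sp w.R A B).Finite →
      ∃ Z : Set G, Z ∉ 𝔭 ∧ Z ∈ 𝔮 ∧ (w.Γ.bd Z \ (A ∩ w.Γ.bd B)).Finite := by
  have hu : (w.Γ.Sp w.R univ B).Finite := finite_empty.subset fun _ ⟨_, _, _, _, h⟩ => h trivial
  let F : Filter G :=
    { sets := {S | ∃ A, (w.Γ.Sp w.R A B).Finite ∧ Aᶜ ⊆ S ∧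
        ∀ A' ⊆ A, (w.Γ.Sp w.R A' B).Finite → ¬ w.levelPar B 𝔭 𝔮 A'}
      univ_sets := by
        refine ⟨∅, by rwa [← Gen.Sp_compl_left, compl_empty], subset_univ _, ?_⟩
        rintro A' hA' - ⟨Z, hZ, hs⟩
        have := w.level_same hp hq (Z := Z) (hZ.subset fun x ⟨s, hs, h⟩ k => hA' ((k s hs).1 h).1)
        tauto
      sets_of_superset := fun ⟨A, h1, h2, h3⟩ h => ⟨A, h1, h2.trans h, h3⟩
      inter_sets := by
        rintro S S' ⟨A, h1, h2, h3⟩ ⟨A', k1, k2, k3⟩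
        refine ⟨A ∪ A', ?_, by rw [compl_union]; exact inter_subset_inter h2 k2,
          fun C hC hf hpar => ?_⟩
        · rw [← Gen.Sp_compl_left, compl_union]
          exact w.level_inter (by simpa using h1) (by simpa using k1)
        · rcases w.level_split hp hq hf h1 hpar with h | h
          · exact h3 _ inter_subset_right (w.level_inter hf h1) h
          · exact k3 _ (fun x hx => (hC hx.1).resolve_left hx.2)
              (w.level_inter hf (by simpa using h1)) h }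
  have hF : F.NeBot := by
    rw [neBot_iff, ne_eq, ← empty_mem_iff_bot]
    rintro ⟨A, -, h2, h3⟩
    exact h3 univ (fun x _ => not_not.1 fun k => h2 k) hu
      ⟨B, finite_empty.subset fun x hx => hx fun s _ => by simp, iff_of_true hBq hBp⟩
  obtain ⟨𝔢, he⟩ := Ultrafilter.exists_le F
  refine ⟨𝔢, fun A hA hf => ?_⟩
  obtain ⟨A', h1, Z, hZ, hs⟩ : ∃ A' ⊆ A, w.levelPar B 𝔭 𝔮 A' := by
    by_contra hc
    exact Ultrafilter.compl_mem_iff_notMem.1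
      (he ⟨A, hf, subset_rfl, fun A' h _ k => hc ⟨A', h, k⟩⟩) hA
  have h2 : (w.Γ.bd Z \ (A ∩ w.Γ.bd B)).Finite := hZ.subset fun x ⟨⟨s, hs, h⟩, hx⟩ k =>
    hx ⟨h1 ((k s hs).1 h).1, s, hs, ((k s hs).1 h).2⟩
  by_cases h : Z ∈ 𝔮
  · exact ⟨Z, hs.1 h, h, h2⟩
  · exact ⟨Zᶜ, fun k => h (hs.2 (Ultrafilter.compl_mem_iff_notMem.1 k)),
      Ultrafilter.compl_mem_iff_notMem.2 h, by rwa [Gen.bd_compl]⟩

theorem sp_inter_finite {A A' B : Set G} (h : (w.Γ.Sp w.R A B).Finite)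
    (h' : (w.Γ.Sp w.R A' B).Finite) : (w.Γ.Sp w.R (A ∩ A') B).Finite := w.level_inter h h'

end Wd

end Vale.Agent.P239
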