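import Vale.Agent.P239.Cover

/-! Uniform thinness and the limit lemma. -/

namespace Vale.Agent.P239

open Filter Topology Set
open scoped Pointwise

namespace Wd

variable {G : Type} [Group G] (w : Wd G)

/-- Uniform thinness. -/
theorem unif_thin (ξ : G → ℝ) (x : G) {ε : ℝ} (hε : 0 < ε) : ∃ I : Set (G × Bool), I.Finite ∧
    ∀ ρ : ℕ, ∃ T : ℕ, ∀ Z : Set G, (∀ i ∈ I, w.DB ξ Z i (1 / 10) ρ) →
      w.Γ.P^[T] (w.Γ.hit Z) x ≤ ε := by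
  have := w.infinite
  have hr : ∀ b : Bool, ∃ t ∈ Ioo (6 / 10 : ℝ) (7 / 10), w.Γ.Reg (w.U (1, b) t) := fun b =>
    w.exists_reg_level (1, b) (by norm_num)
  choose r hr hreg using hr
  obtain ⟨n, hn⟩ := Gen.cover_unif (Γ := w.Γ) (D := fun b => w.U (1, b) (r b)) hreg
    (fun b => w.hm_U_ne_zero _ (by linarith [(hr b).2]) (hreg b)) (ε := ε / 3) (by positivity)
  set σ : G → Bool := fun y => decide (ξ y ≤ 1 / 2) with hσ
  have hV := hn σ x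
  set V : Set G := ⋃ y ∈ w.Γ.ball x n, y • w.U (1, σ y) (r (σ y)) with hVdef
  have hVreg : w.Γ.Reg V := Gen.reg_biUnion (w.Γ.ball_finite x n) fun y _ => (hreg _).smul y
  refine ⟨(fun y => (y, σ y)) '' w.Γ.ball x n, (w.Γ.ball_finite x n).image _, fun ρ => ?_⟩
  have hF : (⋃ y ∈ w.Γ.ball x n, w.Γ.ball y ρ).Finite :=
    (w.Γ.ball_finite x n).biUnion fun y _ => w.Γ.ball_finite y ρ
  have e1 := (w.cap.thin_finite hF x).eventually (ge_mem_nhds (show (0 : ℝ) < ε / 3 by positivity))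
  have e2 := (hVreg.compl.tendsto_hit x).eventually (ge_mem_nhds
    (show w.Γ.hm Vᶜ x < 2 * ε / 3 by rw [hVreg.hm_compl]; linarith))
  obtain ⟨T, h1, h2⟩ := (e1.and e2).exists
  refine ⟨T, fun Z hZ => ?_⟩
  have hsub : Z ⊆ (⋃ y ∈ w.Γ.ball x n, w.Γ.ball y ρ) ∪ Vᶜ := by
    intro z hz
    by_cases hzV : z ∈ V
    · left
      obtain ⟨y, hy, hzy⟩ := mem_iUnion₂.1 hzV
      rw [w.smul_U] at hzy
      simp only [mul_one] at hzy
      have h3 : r (σ y) < w.ph (y, σ y) z := hzy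
      have h4 : xs ξ (y, σ y) ≤ 1 / 2 := by
        unfold xs
        by_cases h : ξ y ≤ 1 / 2
        · have h5 : σ y = true := by simpa [hσ] using h
          simp only [h5, if_true]
          exact h
        · have h5 : σ y = false := by simpa [hσ] using h
          simp only [h5]
          push Not at h
          simp only [Bool.false_eq_true, if_false]
          linarith
      have h5 := hZ (y, σ y) ⟨y, hy, rfl⟩ z hz (by linarith [(hr (σ y)).1])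
      exact mem_iUnion₂.2 ⟨y, hy, h5⟩
    · exact Or.inr hzV
  have h3 := w.Γ.iter_mono T (f := w.Γ.hit Z)
    (g := w.Γ.hit (⋃ y ∈ w.Γ.ball x n, w.Γ.ball y ρ) + w.Γ.hit Vᶜ)
    (fun y => (w.Γ.hit_mono hsub y).trans (w.Γ.hit_union_le _ _ y)) x
  rw [w.Γ.iter_add, Pi.add_apply] at h3
  linarith

omit [Group G] in
theorem limit_iff {ι : Type} (𝒰 : Ultrafilter ι) (C : ι → Set G) (x : G) :
    ∀ᶠ n in (𝒰 : Filter ι), x ∈ C n ↔ x ∈ {x | ∀ᶠ n in (𝒰 : Filter ι), x ∈ C n} := by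
  by_cases h : ∀ᶠ n in (𝒰 : Filter ι), x ∈ C n
  · exact h.mono fun n hn => ⟨fun _ => h, fun _ => hn⟩
  · exact (Ultrafilter.eventually_not.2 h).mono fun n hn => ⟨fun k => absurd k hn, fun k => absurd k h⟩

theorem limit_db {ι : Type} (𝒰 : Ultrafilter ι) {C : ι → Set G} {ξ : G → ℝ} {i : G × Bool}
    {α : ℝ} {ρ : ℕ} (h : ∀ᶠ n in (𝒰 : Filter ι), w.DB ξ (w.Γ.bd (C n)) i α ρ) :
    w.DB ξ (w.Γ.bd {x | ∀ᶠ n in (𝒰 : Filter ι), x ∈ C n}) i α ρ := by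
  rintro x ⟨s, hs, hx⟩ hp
  obtain ⟨n, h1, h2, h3⟩ := (h.and ((limit_iff 𝒰 C x).and (limit_iff 𝒰 C (x * s)))).exists
  exact h1 x ⟨s, hs, by rw [h2, h3]; exact hx⟩ hp

theorem limit_unif {ι : Type} (𝒰 : Ultrafilter ι) {C : ι → Set G}
    {ξ : G → ℝ} (hDB : ∀ (i : G × Bool) (α : ℝ), 0 < α →
      ∃ ρ : ℕ, ∀ᶠ n in (𝒰 : Filter ι), w.DB ξ (w.Γ.bd (C n)) i α ρ) (x : G) {ε : ℝ}
    (hε : 0 < ε) : ∃ T : ℕ,
      w.Γ.P^[T] (w.Γ.hit (w.Γ.bd {x | ∀ᶠ n in (𝒰 : Filter ι), x ∈ C n})) x ≤ ε ∧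
      ∀ᶠ n in (𝒰 : Filter ι), w.Γ.P^[T] (w.Γ.hit (w.Γ.bd (C n))) x ≤ ε := by
  obtain ⟨I, hI, h⟩ := w.unif_thin ξ x hε
  choose ρ hρ using fun i => hDB i (1 / 10) (by norm_num)
  obtain ⟨m, hm⟩ := (hI.image ρ).bddAbove
  obtain ⟨T, hT⟩ := h m
  have h1 : ∀ i ∈ I, ∀ᶠ n in (𝒰 : Filter ι), w.DB ξ (w.Γ.bd (C n)) i (1 / 10) m := fun i hi =>
    (hρ i).mono fun n hn y hy hp => (hn y hy hp).trans (hm ⟨i, hi, rfl⟩)
  exact ⟨T, hT _ fun i hi => w.limit_db 𝒰 (h1 i hi),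
    ((eventually_all_finite hI).2 h1).mono fun n hn => hT _ hn⟩

/-- Limit lemma. -/
theorem limit {ι : Type} (𝒰 : Ultrafilter ι) {C : ι → Set G} (hC : ∀ n, w.Γ.SC (C n))
    {ξ : G → ℝ} (hDB : ∀ (i : G × Bool) (α : ℝ), 0 < α →
      ∃ ρ : ℕ, ∀ᶠ n in (𝒰 : Filter ι), w.DB ξ (w.Γ.bd (C n)) i α ρ) :
    w.Γ.SC {x | ∀ᶠ n in (𝒰 : Filter ι), x ∈ C n} ∧ w.PC {x | ∀ᶠ n in (𝒰 : Filter ι), x ∈ C n} ξ ∧
      ∀ x, Tendsto (fun n => w.Γ.hm (C n) x) 𝒰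
        (𝓝 (w.Γ.hm {x | ∀ᶠ n in (𝒰 : Filter ι), x ∈ C n} x)) := by
  have hiff := limit_iff 𝒰 C
  have hu := w.limit_unif 𝒰 hDB
  have hdb : ∀ (i : G × Bool) (α : ℝ), 0 < α →
      ∃ ρ, w.DB ξ (w.Γ.bd {x | ∀ᶠ n in (𝒰 : Filter ι), x ∈ C n}) i α ρ := fun i α hα =>
    (hDB i α hα).imp fun ρ h => w.limit_db 𝒰 h
  generalize {x | ∀ᶠ n in (𝒰 : Filter ι), x ∈ C n} = B at hiff hu hdb ⊢
  have hB : w.Γ.Reg B := Gen.thin_of_at (x := 1) fun ε hε => (hu 1 hε).imp fun _ h => h.1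
  have ht : ∀ x, Tendsto (fun n => w.Γ.hm (C n) x) 𝒰 (𝓝 (w.Γ.hm B x)) := by
    intro x
    refine Metric.tendsto_nhds.2 fun ε hε => ?_
    obtain ⟨T, h1, h2⟩ := hu x (ε := ε / 3) (by positivity)
    have h3 := (eventually_all_finite (w.Γ.ball_finite x T)).2 fun y _ => hiff y
    filter_upwards [h2, h3] with n hn hn'
    have h4 := (hC n).1.abs_hm_sub_iter_le T x
    have h5 := hB.abs_hm_sub_iter_le T x
    have h6 : w.Γ.P^[T] ((C n).indicator 1) x = w.Γ.P^[T] (B.indicator 1) x :=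
      w.Γ.iter_congr T fun y hy => by
        by_cases hy' : y ∈ B
        · rw [indicator_of_mem hy', indicator_of_mem ((hn' y hy).2 hy')]
        · rw [indicator_of_notMem hy', indicator_of_notMem fun k => hy' ((hn' y hy).1 k)]
    rw [h6, abs_le] at h4
    rw [abs_le] at h5
    rw [Real.dist_eq, abs_lt]
    constructor <;> linarith [h4.1, h4.2, h5.1, h5.2]
  refine ⟨⟨hB, fun x hx => ?_, fun x hx => ?_⟩, w.pc_of_bd hB fun i α hα => ?_, ht⟩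
  · exact ge_of_tendsto (ht x) ((hiff x).mono fun n hn => (hC n).2.1 x (hn.2 hx))
  · exact le_of_tendsto (ht x) ((hiff x).mono fun n hn => (hC n).2.2 x fun k => hx (hn.1 k))
  · obtain ⟨ρ, hρ⟩ := hdb i α hα
    exact (w.Γ.ball_finite i.1 ρ).subset fun y hy => hρ y hy.1 hy.2

end Wd

end Vale.Agent.P239
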