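import Vale.Agent.P239.UC
import Vale.Agent.P239.Level
import Vale.Agent.P239.Limit

/-! Uncountably many balanced primes: the contradiction. -/

namespace Vale.Agent.P239

open Filter Topology Set
open scoped Pointwise

namespace Wd

variable {G : Type} [Group G] (w : Wd G)

theorem bal_half (hU : w.UC) (u : Ultrafilter G) (hu : (u : Filter G) ≤ cofinite) (b : Bool)
    (h1 : {x | w.ph (1, b) x = 1} ∈ u) : ∃ q, ∀ Z : Set G, w.Γ.Reg Z → Z ∈ u →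
      (w.Γ.bd Z ∩ w.U (1, b) (5 / 8)).Finite → 1 / 2 ≤ w.Γ.hm Z q := by
  obtain ⟨R, hR⟩ := hU (1 / 16) (by norm_num)
  obtain ⟨q, hq, hK⟩ := (w.conn_U (1, b) (3 / 4)).exists_comp_mem (w.Γ.ball_finite 1 R) u hu
    (mem_of_superset h1 fun x hx => by
      show 3 / 4 < w.ph (1, b) x
      rw [show w.ph (1, b) x = 1 from hx]
      norm_num)
  refine ⟨q, fun Z hZ hZu hf => ?_⟩
  obtain ⟨f1, f2⟩ := w.bd_nat_fin (show (0 : ℝ) < 1 / 16 by norm_num) hZ hf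
  have hs := w.Γ.comp_subset 1 (w.U (1, b) (3 / 4) \ w.Γ.ball 1 R) q
  rcases (w.Γ.conn_comp _ q).subset_or (B := w.Γ.nat Z) (disjoint_left.2 fun x hx hx' =>
    (hs hx).2 (hR _ (1, b) (5 / 8 + 1 / 16) hZ.nat.1
      (f1.subset fun y hy => ⟨hy.1, LT.lt.le (b := w.ph _ y) hy.2⟩) x hx' (by
        have : 3 / 4 < w.ph (1, b) x := (hs hx).1
        linarith))) with h | h
  · exact h (w.Γ.mem_comp_self hq)
  · refine absurd (f2.subset fun x hx => ⟨Or.inl ⟨hx.2, h hx.1⟩, ?_⟩) (uc_inf hu (inter_mem hK hZu))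
    have : 3 / 4 < w.ph (1, b) x := (hs hx.1).1
    show 5 / 8 + 1 / 16 ≤ w.ph (1, b) x
    linarith

theorem balanced (hU : w.UC) (𝔭 𝔮 : Ultrafilter G) (hp : (𝔭 : Filter G) ≤ cofinite)
    (hq : (𝔮 : Filter G) ≤ cofinite) (hp0 : {x | w.β.φ x = 0} ∈ 𝔭) (hq1 : {x | w.β.φ x = 1} ∈ 𝔮) :
    ∃ δ : ℝ, 0 < δ ∧ ∀ Z : Set G, w.Γ.Reg Z → Z ∉ 𝔭 → Z ∈ 𝔮 →
      (∀ b, (w.Γ.bd Z ∩ w.U (1, b) (5 / 8)).Finite) → (1 : G) ∈ w.Γ.W δ Z := by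
  obtain ⟨q, h1⟩ := w.bal_half hU 𝔮 hq true (mem_of_superset hq1 fun x hx => by simpa [ph] using hx)
  obtain ⟨p, h0⟩ := w.bal_half hU 𝔭 hp false
    (mem_of_superset hp0 fun x hx => by simpa [ph] using hx)
  have hc : (0 : ℝ) < (w.Γ.S.card : ℝ) ^ (w.Γ.d 1 q + w.Γ.d 1 p) := pow_pos w.Γ.card_pos' _
  refine ⟨1 / 2 / (w.Γ.S.card : ℝ) ^ (w.Γ.d 1 q + w.Γ.d 1 p), by positivity,
    fun Z hZ hZp hZq hf => ⟨?_, ?_⟩⟩
  · rw [div_le_iff₀' hc]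
    exact (h1 Z hZ hZq (hf true)).trans (hZ.harnack_hm (Nat.le_add_right _ _)).1
  · have := h0 Zᶜ hZ.compl (Ultrafilter.compl_mem_iff_notMem.2 hZp) (by simpa using hf false)
    rw [hZ.hm_compl] at this
    rw [le_sub_comm, div_le_iff₀' hc]
    exact this.trans (hZ.harnack_hm (Nat.le_add_left _ _)).2

theorem fin_wall {Z D A : Set G} {ξ' : G → ℝ} (hZ : w.Γ.Reg Z) (hD : w.Γ.SC D) (hPD : w.PC D ξ')
    {i : G × Bool} {t α : ℝ} (hα : 0 < α) (ht : t + 2 * α ≤ xs ξ' i)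
    (hA : A ⊆ (w.U i t)ᶜ ∩ D) (hf : (w.Γ.bd Z \ A).Finite) :
    (Dᶜ ∩ w.Γ.bd (w.Γ.nat Z)).Finite := by
  have hδ := w.Γ.δ0_pos
  have f1 := w.cap.finite_hit hf (half_pos hδ)
  have f2 := (w.bd_nat_fin hα hZ (i := i) (t := t)
    (hf.subset fun x hx => ⟨hx.1, fun h => (hA h).1 hx.2⟩)).1
  have f3 := hPD.W_fin_low (show 0 < w.Γ.δ0 / 4 by linarith) i hα
  refine ((f1.union f2).union f3).subset fun x ⟨hx, hx'⟩ => ?_
  by_contra hn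
  simp only [mem_union, mem_inter_iff, mem_setOf_eq, not_or, not_and, not_le] at hn
  obtain ⟨⟨n1, n2⟩, n3⟩ := hn
  have h1 : w.Γ.δ0 ≤ w.Γ.hit (w.Γ.bd Z) x := hZ.W_subset _ (by
    have := hZ.nat.1.bd_subset hx'
    rwa [Gen.W, hZ.nat.2] at this)
  have h2 := (w.Γ.hit_mono (show w.Γ.bd Z ⊆ (w.Γ.bd Z \ A) ∪ A from
    fun y hy => (em (y ∈ A)).elim Or.inr fun h => Or.inl ⟨hy, h⟩) x).trans
      (w.Γ.hit_union_le _ _ x)
  have h3 := w.Γ.mul_hit_le hD.1.hm_nonneg (fun y => (hD.1.P_hm y).le)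
    (fun y (hy : y ∈ A) => hD.2.1 y (hA hy).2) x
  have h4 := hD.2.2 x hx
  have h5 := w.Γ.δ0_le
  have := n3 ⟨by linarith, by linarith⟩
  linarith [n2 hx']

theorem fin_half {ι : Type} (𝒰 : Ultrafilter ι) {C : ι → Set G} (hC : ∀ n, w.Γ.SC (C n))
    {E D : Set G} {ξ ξ' : G → ℝ} (hE : w.Γ.SC E) (hPE : w.PC E ξ) (hD : w.Γ.SC D)
    (hPD : w.PC D ξ') (hne : ξ' ≠ ξ)
    (hlim : ∀ x, Tendsto (fun n => w.Γ.hm (C n) x) 𝒰 (𝓝 (w.Γ.hm E x)))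
    {i : G × Bool} {α : ℝ} (hα : 0 < α) (hi : xs ξ i + 3 * α ≤ xs ξ' i) {ρ1 : ℕ}
    (h1 : ∀ᶠ n in (𝒰 : Filter ι), w.DB ξ (w.Γ.bd (C n)) i α ρ1)
    (h2 : ∀ᶠ n in (𝒰 : Filter ι), (Dᶜ ∩ w.Γ.bd (C n)).Finite) : (w.Γ.bd E \ D).Finite := by
  have hδ := w.Γ.δ0_pos
  obtain ⟨ρg, hg⟩ := w.grad w.R hα
  obtain ⟨ρ2, hρ2⟩ := (w.Γ.finite_iff_ball i.1).1 (hPD.bd_fin_low hD i hα)
  obtain ⟨ρ', hn⟩ := w.neck (ρ1 + ρg + ρ2 + w.R)
  by_contra hinf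
  obtain ⟨a, ⟨ha, ha1⟩, ha2⟩ := ((Set.Infinite.diff hinf
    (hPE.shallow_fin hE (hPD.compl hD.1) hD.compl hne (show 0 < w.Γ.δ0 / 8 by linarith))).diff
      (w.cap.finite_hit (w.Γ.ball_finite i.1 ρ') (half_pos hδ))).nonempty
  have ha1 : w.Γ.hm D a ≤ w.Γ.δ0 / 8 := by
    have := not_lt.1 fun h => ha1 ⟨ha, h⟩
    rw [hD.1.hm_compl] at this
    linarith
  have ha2 : w.Γ.hit (w.Γ.ball i.1 ρ') a < w.Γ.δ0 / 2 := not_le.1 ha2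
  have haΩ : a ∈ Dᶜ \ w.Γ.ball i.1 ρ' := ⟨ha.2, fun h => by
    rw [w.Γ.hit_of_mem h] at ha2
    linarith [w.Γ.δ0_le]⟩
  obtain ⟨⟨p, hp, hp'⟩, q, hq, hq'⟩ := hE.1.two_points (hE.bd_subset ha.1) haΩ (by
    have h3 := (w.Γ.hit_mono (show (Dᶜ \ w.Γ.ball i.1 ρ')ᶜ ⊆ D ∪ w.Γ.ball i.1 ρ' from
      fun y hy => (not_and_or.1 hy).imp not_not.1 not_not.1) a).trans (w.Γ.hit_union_le _ _ a)
    have h4 := w.Γ.mul_hit_le hD.1.hm_nonneg (fun y => (hD.1.P_hm y).le) hD.2.1 a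
    linarith)
  obtain ⟨n, n1, n2, n3, n4⟩ := (h1.and (h2.and (((hlim p).eventually (lt_mem_nhds hp')).and
    ((hlim q).eventually (gt_mem_nhds hq'))))).exists
  refine hn (C n) Dᶜ i.1 p q (hC n) (fun v hv => ?_) n2 (w.Γ.comp_subset _ _ _ hp)
    (hp.2.symm.trans hq.2) n3 n4
  obtain ⟨hv1, y, hy, hd⟩ := w.Γ.Sp_subset_nb _ _ _ hv
  rw [Gen.bd_compl] at hy
  by_contra hfar
  have hfar : ρ1 + ρg + ρ2 + w.R < w.Γ.d i.1 v := not_le.1 hfar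
  have h5 := not_le.1 (mt (n1 v hv1) (by omega))
  have h6 := abs_le.1 (hg i v y (by omega) hd)
  have h7 : w.Γ.d i.1 y ≤ ρ2 := hρ2 ⟨hy, by linarith [h6.1]⟩
  have := w.Γ.d_tri i.1 y v
  rw [w.Γ.d_comm y v] at this
  omega

theorem fin_sp {A B D : Set G} (hA : (w.Γ.Sp w.R A B).Finite) (hD : (w.Γ.bd D ∩ A).Finite) :
    (w.Γ.Sp w.R (A ∩ D) B).Finite := by
  refine (hA.union (w.Γ.nb_finite w.R hD)).subset fun v hv => ?_
  obtain ⟨h1, ⟨x, hx, hx'⟩, y, hy, hy'⟩ := hv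
  by_cases h : ∃ y ∈ w.Γ.ball v w.R, y ∉ A
  · exact Or.inl ⟨h1, ⟨x, hx, hx'.1⟩, h⟩
  · push Not at h
    obtain ⟨-, z, hz, hd⟩ := w.Γ.Sp_subset_nb w.R D B
      ⟨h1, ⟨x, hx, hx'.2⟩, y, hy, fun k => hy' ⟨h y hy, k⟩⟩
    exact Or.inr ⟨z, ⟨hz, h z hd⟩, hd⟩

theorem exists_prime (hU : w.UC) : ∃ δ : ℝ, 0 < δ ∧ ∀ s ∈ Icc (2 / 5 : ℝ) (3 / 5), w.GenLev s →
    ∃ Z, w.Pr Z ∧ w.xi Z 1 = s ∧ (1 : G) ∈ w.Γ.W δ Z := by
  obtain ⟨𝔭, hp, hp0⟩ := uc_ultra w.β.inf0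
  obtain ⟨𝔮, hq, hq1⟩ := uc_ultra w.β.inf1
  obtain ⟨δ, hδ, hbal⟩ := w.balanced hU 𝔭 𝔮 hp hq hp0 hq1
  refine ⟨δ, hδ, fun s hs ⟨hB, hgen⟩ => ?_⟩
  have hfB := fun η (hη : 0 < η) => w.bd_U_fin (1, true) s hη
  set B := w.U (1, true) s with hBd
  obtain ⟨𝔢, he⟩ := w.exists_ultra (B := B) 𝔭 𝔮 hp hq
    (Ultrafilter.compl_mem_iff_notMem.1 (mem_of_superset hp0 fun x hx h => by
      have h1 : w.β.φ x = 0 := hx
      have h2 : s < w.β.φ x := by simpa [hBd, U, ph] using h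
      linarith [hs.1]))
    (mem_of_superset hq1 fun x hx => by
      have h1 : w.β.φ x = 1 := hx
      have h2 : s < w.β.φ x := by linarith [hs.2]
      simpa [hBd, U, ph] using h2)
  obtain ⟨ξ, hξ⟩ := w.exists_lim 𝔢 id
  have hG : ∀ (i : G × Bool) (a : ℝ), 0 < a → ∃ t ∈ Ioo (xs ξ i) (xs ξ i + a),
      (w.Γ.Sp w.R (w.U i t)ᶜ B).Finite ∧ (w.U i t)ᶜ ∈ 𝔢 := fun i a ha => by
    obtain ⟨t, ht, hf⟩ := hgen i _ _ (lt_add_of_pos_right (xs ξ i) ha)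
    exact ⟨t, ht, by simpa using hf,
      mem_of_superset ((hξ i).eventually (ge_mem_nhds ht.1)) fun x (hx : w.ph i x ≤ t) =>
        not_lt.2 hx⟩
  have hI : ∀ A ∈ 𝔢, (w.Γ.Sp w.R A B).Finite → (A ∩ w.Γ.bd B).Infinite := fun A hA hf hf' => by
    obtain ⟨Z, z1, z2, z3⟩ := he A hA hf
    rcases w.oneEnd Z ((z3.union hf').subset fun x hx =>
      (em (x ∈ A ∩ w.Γ.bd B)).elim Or.inr fun h => Or.inl ⟨hx, h⟩) with h | h
    · exact uc_inf hq z2 h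
    · exact uc_inf hp (Ultrafilter.compl_mem_iff_notMem.2 z1) h
  have hn : ∀ x, w.ph (1, false) x = 1 - w.ph (1, true) x := w.ph_not (1, true)
  have hs1 : ξ 1 = s := by
    rcases lt_trichotomy (ξ 1) s with h | h | h
    · obtain ⟨t, ht, h1, h2⟩ := hG (1, true) _ (half_pos (sub_pos.2 h))
      refine absurd ((hfB _ (half_pos (sub_pos.2 h))).subset fun x hx => ⟨hx.2, ?_⟩) (hI _ h2 h1)
      have h3 : w.ph (1, true) x ≤ t := not_lt.1 hx.1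
      have h4 : t < ξ 1 + (s - ξ 1) / 2 := ht.2
      exact le_abs.2 (Or.inr (by linarith))
    · exact h
    · obtain ⟨t, ht, h1, h2⟩ := hG (1, false) _ (half_pos (sub_pos.2 h))
      refine absurd ((hfB _ (half_pos (sub_pos.2 h))).subset fun x hx => ⟨hx.2, ?_⟩) (hI _ h2 h1)
      have h3 : w.ph (1, false) x ≤ t := not_lt.1 hx.1
      have h4 : t < 1 - ξ 1 + (ξ 1 - s) / 2 := ht.2
      exact le_abs.2 (Or.inl (by linarith [hn x]))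
  let J := {A : Set G // (w.Γ.Sp w.R A B).Finite ∧ A ∈ 𝔢}
  haveI : Nonempty J := ⟨⟨univ, finite_empty.subset fun x hx => hx.2.2.elim fun _ h => h.2 trivial,
    univ_mem⟩⟩
  haveI : IsCodirectedOrder J := ⟨fun a b => ⟨⟨a.1 ∩ b.1, w.sp_inter_finite a.2.1 b.2.1,
    inter_mem a.2.2 b.2.2⟩, inter_subset_left, inter_subset_right⟩⟩
  obtain ⟨𝒰, h𝒰⟩ := Ultrafilter.exists_le (atBot : Filter J)
  have hsub : ∀ A ∈ 𝔢, (w.Γ.Sp w.R A B).Finite → ∀ᶠ n in (𝒰 : Filter J), n.1 ⊆ A :=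
    fun A h1 h2 => h𝒰 (eventually_le_atBot (⟨A, h2, h1⟩ : J))
  choose Z z1 z2 z3 using fun n : J => he n.1 n.2.2 n.2.1
  have hZ : ∀ n, w.Γ.Reg (Z n) := fun n => ((w.cap.thin_finite (z3 n)).union hB).mono
    fun x hx => (em (x ∈ n.1 ∩ w.Γ.bd B)).elim (fun h => Or.inr h.2) fun h => Or.inl ⟨hx, h⟩
  have hDB : ∀ (i : G × Bool) (α : ℝ), 0 < α →
      ∃ ρ : ℕ, ∀ᶠ n in (𝒰 : Filter J), w.DB ξ (w.Γ.bd (w.Γ.nat (Z n))) i α ρ := by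
    intro i α hα
    have hα3 : 0 < α / 3 := by linarith
    obtain ⟨t, ht, h1, h2⟩ := hG i _ hα3
    obtain ⟨R, hR⟩ := hU _ hα3
    refine ⟨R, (hsub _ h2 h1).mono fun n hn x hx hx' => hR _ i (t + α / 3) (hZ n).nat.1
      ((w.bd_nat_fin hα3 (hZ n) (i := i) (t := t) ((z3 n).subset fun y hy =>
        ⟨hy.1, fun h => hn h.1 hy.2⟩)).1.subset fun y hy =>
        ⟨hy.1, LT.lt.le (b := w.ph _ y) hy.2⟩) x hx
      (by linarith [ht.2])⟩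
  obtain ⟨hE, hPE, hlim⟩ := w.limit 𝒰 (fun n => (hZ n).nat.1) hDB
  set E := {x | ∀ᶠ n in (𝒰 : Filter J), x ∈ w.Γ.nat (Z n)}
  have hW : ∀ n, (1 : G) ∈ w.Γ.W δ (w.Γ.nat (Z n)) := fun n => by
    rw [Gen.W, (hZ n).nat.2]
    refine hbal _ (hZ n) (z1 n) (z2 n) fun b => ((z3 n).union
      (hfB (1 / 40) (by norm_num))).subset fun x hx =>
        (em (x ∈ n.1 ∩ w.Γ.bd B)).elim (fun h => Or.inr ⟨h.2, ?_⟩) fun h => Or.inl ⟨hx.1, h⟩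
    have h1 : 5 / 8 < w.ph (1, b) x := hx.2
    cases b
    · exact le_abs.2 (Or.inr (by linarith [hn x, hs.1]))
    · exact le_abs.2 (Or.inl (by linarith [hs.2]))
  have hWE : (1 : G) ∈ w.Γ.W δ E :=
    ⟨ge_of_tendsto' (hlim 1) fun n => (hW n).1, le_of_tendsto' (hlim 1) fun n => (hW n).2⟩
  have hP : w.Prime E ξ := by
    refine w.prime_of_bd hE.1 (Gen.nontriv_of_W hδ hWE) hPE fun D ξ' hD hPD hne => ?_
    obtain ⟨i, hi⟩ := exists_index hne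
    set α := (xs ξ' i - xs ξ i) / 3 with hαd
    have hα : 0 < α := by linarith
    obtain ⟨t, ht, h1, h2⟩ := hG i _ hα
    obtain ⟨ρ1, hρ1⟩ := hDB i α hα
    have half : ∀ D, w.Γ.SC D → w.PC D ξ' → D ∈ 𝔢 → (w.Γ.bd E \ D).Finite := fun D hD hPD hDe =>
      w.fin_half 𝒰 (fun n => (hZ n).nat.1) hE hPE hD hPD hne hlim hα (by linarith) hρ1
        ((hsub _ (inter_mem h2 hDe) (w.fin_sp h1 ((hPD.bd_fin_low hD i hα).subset fun x hx =>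
          ⟨hx.1, (not_lt.1 (show ¬ t < w.ph i x from hx.2)).trans (by linarith [ht.2])⟩))).mono fun n hn =>
          w.fin_wall (hZ n) hD hPD hα (by linarith [ht.2]) hn
            ((z3 n).subset fun x hx => ⟨hx.1, fun h => hx.2 h.1⟩))
    rcases 𝔢.mem_or_compl_mem D with h | h
    · exact Or.inr (half D hD hPD h)
    · exact Or.inl (by simpa using half Dᶜ hD.compl (hPD.compl hD.1) h)
  exact ⟨E, ⟨ξ, hP⟩, by rw [hP.xi_eq, hs1], hWE⟩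

include w in
theorem false : False := by
  obtain ⟨δ, hδ, h⟩ := w.exists_prime w.uc
  obtain ⟨𝒯, h1, h2⟩ := w.finite_points hδ
  refine w.infinite_genLev ((h1.image fun B => w.xi B 1).subset fun s hs => ?_)
  obtain ⟨Z, hZ, rfl, hW⟩ := h s hs.1 hs.2
  obtain ⟨B', hB', hs'⟩ := h2 Z hZ hW
  exact ⟨B', hB', by rw [hs'.2.2.1]⟩

end Wd

/-- Groups with vanishing compactly supported mod 2 cohomology in degrees 1, 2, 3 carry no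
nonconstant harmonic Dirichlet functions. -/
theorem Gen.Hyp.const {G : Type} [Group G] {Γ : Gen G} (h : Γ.Hyp) {u : G → ℝ} (hu : Γ.Dir u)
    (hh : ∀ x, Γ.P u x = u x) (a b : G) : u a = u b := by
  by_contra hab
  obtain ⟨β⟩ := Gen.exists_base hu hh hab
  obtain ⟨w⟩ := h.exists_wd β
  exact w.false

end Vale.Agent.P239
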