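import Vale.Agent.P239.Word

/-! Components of sets with finitely many types; local finiteness of stabilisers of limit cuts. -/

namespace Vale.Agent.P239

open Filter Topology Set
open scoped Pointwise

namespace Gen

variable {G : Type} [Group G] {Γ : Gen G}

theorem gpd_ch {Ω : Type} [MulAction G Ω] {T : Set Ω} {ω : Ω} {R : ℕ} {g x y : G}
    (hg : g • ω = ω) (h : Γ.Ch R {x | x⁻¹ • ω ∈ T} x y) :
    Γ.Ch R {x | x⁻¹ • ω ∈ T} (g * x) (g * y) :=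
  (h.smul g).mono le_rfl (by
    rintro _ ⟨a, ha, rfl⟩
    change (g * a)⁻¹ • ω ∈ T
    rw [mul_inv_rev, mul_smul, inv_smul_eq_iff.2 hg.symm]
    exact ha)

theorem exists_gpd {Ω : Type} [MulAction G Ω] {T : Set Ω} (hT : T.Finite) {ω : Ω} (hω : ω ∈ T)
    (R : ℕ) : ∃ Λ Q : Set G, Λ.Finite ∧ Q.Finite ∧ (∀ g ∈ Λ, g • ω = ω) ∧
      (Subgroup.closure Λ : Set G) ⊆ Γ.comp R {x | x⁻¹ • ω ∈ T} 1 ∧
      Γ.comp R {x | x⁻¹ • ω ∈ T} 1 ⊆ (Subgroup.closure Λ : Set G) * Q := by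
  classical
  set Sg : Set G := {x | x⁻¹ • ω ∈ T} with hSg
  have h1 : (1 : G) ∈ Sg := by simpa [hSg] using hω
  have hq : ∀ t : Ω, ∃ q : G, (∃ x, Γ.Ch R Sg 1 x ∧ x⁻¹ • ω = t) → Γ.Ch R Sg 1 q ∧ q⁻¹ • ω = t :=
    fun t => by
      by_cases h : ∃ x, Γ.Ch R Sg 1 x ∧ x⁻¹ • ω = t
      · obtain ⟨x, hx⟩ := h
        exact ⟨x, fun _ => hx⟩
      · exact ⟨1, fun k => absurd k h⟩
  choose q hq using hq
  let H : Subgroup G :=
    { carrier := {g | g • ω = ω ∧ Γ.Ch R Sg 1 g}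
      one_mem' := ⟨one_smul _ _, Ch.refl _ _ _⟩
      mul_mem' := fun {a b} ha hb => ⟨by rw [mul_smul, hb.1, ha.1],
        ha.2.trans (by simpa using gpd_ch ha.1 hb.2)⟩
      inv_mem' := fun {a} ha => ⟨inv_smul_eq_iff.2 ha.1.symm,
        by simpa using (gpd_ch (inv_smul_eq_iff.2 ha.1.symm) ha.2).symm⟩ }
  have key : ∀ g x, g • ω = ω → Γ.Ch R Sg 1 x → Γ.Ch R Sg 1 (g * x) → g ∈ H :=
    fun g x hg hx hgx => ⟨hg, hgx.trans (by simpa using (gpd_ch hg hx).symm)⟩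
  have hQ : (q '' T).Finite := hT.image q
  let Λ : Set G := (H : Set G) ∩ (q '' T * Γ.ball 1 R * (q '' T)⁻¹ ∪ (q '' T)⁻¹)
  have hΛH : Subgroup.closure Λ ≤ H := (Subgroup.closure_le H).2 inter_subset_left
  refine ⟨Λ, q '' T, ((((hQ.mul (Γ.ball_finite 1 R)).mul hQ.inv).union hQ.inv)).inter_of_right _,
    hQ, fun g hg => hg.1.1, fun g hg => ⟨h1, (hΛH hg).2⟩, fun x hx => ?_⟩
  have main : ∃ g ∈ Subgroup.closure Λ, x = g * q (x⁻¹ • ω) := by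
    refine hx.2.ind (p := fun x => ∃ g ∈ Subgroup.closure Λ, x = g * q (x⁻¹ • ω)) ?_ ?_
    · rw [inv_one, one_smul]
      have h0 := hq ω ⟨1, Ch.refl _ _ _, by simp⟩
      refine ⟨(q ω)⁻¹, Subgroup.subset_closure ⟨key _ _ h0.2 h0.1 ?_, Or.inr ?_⟩, by simp⟩
      · rw [inv_mul_cancel]; exact Ch.refl _ _ _
      · exact Set.inv_mem_inv.2 ⟨ω, hω, rfl⟩
    · rintro a b hca ha hb hd ⟨g, hg, hga⟩
      have hcb : Γ.Ch R Sg 1 b := hca.tail ha hb hd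
      have h0 := hq (b⁻¹ • ω) ⟨b, hcb, rfl⟩
      have hgH := hΛH hg
      have hgi := H.inv_mem hgH
      refine ⟨g * (g⁻¹ * b * (q (b⁻¹ • ω))⁻¹), Subgroup.mul_mem _ hg
        (Subgroup.subset_closure ⟨key _ _ ?_ h0.1 ?_, Or.inl ?_⟩), by group⟩
      · rw [mul_smul, h0.2, mul_smul, smul_inv_smul, hgi.1]
      · rw [inv_mul_cancel_right]
        exact hgi.2.trans (by simpa using gpd_ch hgi.1 hcb)
      · refine Set.mul_mem_mul (s := q '' T * Γ.ball 1 R) ?_ (Set.inv_mem_inv.2 ⟨_, hb, rfl⟩)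
        have e : g⁻¹ * b = q (a⁻¹ • ω) * (a⁻¹ * b) := by
          rw [← mul_assoc]
          congr 1
          rw [eq_mul_inv_iff_mul_eq, inv_mul_eq_iff_eq_mul]
          exact hga
        rw [e]
        exact Set.mul_mem_mul ⟨_, ha, rfl⟩ (by rwa [mem_ball, ← d_eq_d_one])
  obtain ⟨g, hg, e⟩ := main
  rw [e]
  exact Set.mul_mem_mul hg ⟨_, hx.2.mem h1, rfl⟩

theorem exists_gen_closure {Λ : Set G} (hΛ : Λ.Finite) :
    Nonempty (Gen (Subgroup.closure Λ)) := by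
  classical
  have hfin : {s : Subgroup.closure Λ | (s : G) ∈ Λ ∪ Λ⁻¹ ∪ {1}}.Finite :=
    ((hΛ.union hΛ.inv).union (finite_singleton 1)).preimage Subtype.val_injective.injOn
  have hinv : ∀ s ∈ hfin.toFinset, s⁻¹ ∈ hfin.toFinset := fun s hs => by
    rw [Finite.mem_toFinset] at hs ⊢
    rcases hs with (hs | hs) | hs
    · exact Or.inl (Or.inr (by simpa using hs))
    · exact Or.inl (Or.inl (by simpa using hs))
    · exact Or.inr (by simpa using hs)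
  refine ⟨⟨hfin.toFinset, by simp, hinv, fun ⟨x, hx⟩ => ?_⟩⟩
  induction hx using Subgroup.closure_induction with
  | mem x hx =>
    exact ⟨[⟨x, Subgroup.subset_closure hx⟩], by simp [hx], by simp⟩
  | one => exact ⟨[], by simp, rfl⟩
  | mul x y hx hy ihx ihy =>
    obtain ⟨l, h1, h2⟩ := ihx
    obtain ⟨m, k1, k2⟩ := ihy
    refine ⟨l ++ m, fun s hs => ?_, by rw [List.prod_append, h2, k2]; rfl⟩
    rcases List.mem_append.1 hs with h | h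
    exacts [h1 s h, k1 s h]
  | inv x hx ih =>
    obtain ⟨l, h1, h2⟩ := ih
    refine ⟨(l.map fun s => s⁻¹).reverse, fun s hs => ?_,
      by rw [← List.prod_inv_reverse, h2]; rfl⟩
    obtain ⟨t, ht, rfl⟩ := List.mem_map.1 (List.mem_reverse.1 hs)
    exact hinv t (h1 t ht)

theorem NF.chain {𝒩 : Set (Set G)} (h : Γ.NF 𝒩) {M M' : Set G} (hM : M ∈ 𝒩) (hM' : M' ∈ 𝒩)
    {l u : G} (hl : l ∈ M) (hl' : l ∈ M') (hu : u ∉ M) (hu' : u ∉ M') : M ⊆ M' ∨ M' ⊆ M := by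
  rcases h.nested M hM M' hM' with k | k | k | k
  · exact Or.inl k
  · exact absurd hl' (k hl)
  · exact absurd (k hu) hu'
  · exact Or.inr (compl_subset_compl.1 k)

theorem gpd_eq_of_subset {N U : Set G} {x z g : G} (hx : x ∈ N) (hz : z ∉ U)
    (hP : {p : G × G | p.1 ∈ N ∧ p.2 ∉ U ∧ Γ.d p.1 p.2 ≤ Γ.d x z}.Finite) (hU : g • U = U)
    (hN : g • N ⊆ N) : g • N = N := by
  have h1 : ∀ n : ℕ, g ^ n • N ⊆ N := fun n => by
    induction n with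
    | zero => simp
    | succ n ih => rw [pow_succ', mul_smul]; exact (smul_set_mono ih).trans hN
  have h2 : ∀ n : ℕ, g ^ n • U = U := fun n => by
    induction n with
    | zero => simp
    | succ n ih => rw [pow_succ', mul_smul, ih, hU]
  obtain ⟨m, n, hmn, e⟩ := Set.Finite.exists_lt_map_eq_of_forall_mem
    (f := fun n : ℕ => (g ^ n * x, g ^ n * z)) (fun n => (⟨h1 n (smul_mem_smul_set hx), by
      intro k
      rw [← h2 n] at k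
      exact hz (smul_mem_smul_set_iff.1 k), by simp⟩ :
        (g ^ n * x, g ^ n * z) ∈ {p : G × G | p.1 ∈ N ∧ p.2 ∉ U ∧ Γ.d p.1 p.2 ≤ Γ.d x z})) hP
  obtain ⟨k, rfl⟩ := Nat.exists_eq_add_of_lt hmn
  have e1 : g ^ m = g ^ (m + k + 1) := mul_right_cancel (congrArg Prod.fst e)
  rw [add_assoc, pow_add, left_eq_mul, pow_succ'] at e1
  refine hN.antisymm ?_
  have := smul_set_mono (a := g) (h1 k)
  rwa [← mul_smul, e1, one_smul] at this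

/-- Stabilisers of proper unions of chains without maximum are locally finite. -/
theorem NF.locFin {𝒩 : Set (Set G)} (h : Γ.NF 𝒩) {𝒟 : Set (Set G)} (h𝒟 : 𝒟 ⊆ 𝒩)
    (hne : 𝒟.Nonempty) (hch : IsChain (· ⊆ ·) 𝒟) (hmax : ∀ M ∈ 𝒟, ∃ M' ∈ 𝒟, M ⊂ M')
    (hu : ⋃₀ 𝒟 ≠ univ) {Λ : Set G} (hΛ : Λ.Finite) (hfix : ∀ g ∈ Λ, g • ⋃₀ 𝒟 = ⋃₀ 𝒟) :
    (Subgroup.closure Λ : Set G).Finite := by
  obtain ⟨N0, hN0⟩ := hne
  obtain ⟨K, hK, -, hKi⟩ := h.esc N0 (h𝒟 hN0)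
  obtain ⟨x, hxK⟩ := hKi.nonempty
  obtain ⟨z, hz⟩ := (ne_univ_iff_exists_notMem _).1 hu
  have hP : ∀ N ∈ 𝒟, {p : G × G | p.1 ∈ N ∧ p.2 ∉ ⋃₀ 𝒟 ∧ Γ.d p.1 p.2 ≤ Γ.d x z}.Finite := by
    intro N hN
    choose! nx hnx1 hnx2 using hmax
    have hm : ∀ i, nx^[i] N ∈ 𝒟 := fun i => by
      induction i with
      | zero => exact hN
      | succ i ih => rw [Function.iterate_succ_apply']; exact hnx1 _ ih
    refine (h.tight (fun i => nx^[i] N) (fun i _ => h𝒟 (hm i)) (fun i _ => ?_)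
      (Γ.d x z)).subset fun p hp => ⟨hp.1, fun k => hp.2.1 ⟨_, hm 6, k⟩, hp.2.2⟩
    rw [Function.iterate_succ_apply']
    exact hnx2 _ (hm i)
  have hall : ∀ F : Set G, F.Finite → F ⊆ ⋃₀ 𝒟 → ∃ N ∈ 𝒟, x ∈ N ∧ F ⊆ N := by
    intro F hF
    induction F, hF using Set.Finite.induction_on with
    | empty => exact fun _ => ⟨N0, hN0, hK hxK, empty_subset _⟩
    | @insert a s _ _ ih =>
      intro hs
      obtain ⟨N, hN, hxN, hsN⟩ := ih ((subset_insert _ _).trans hs)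
      obtain ⟨M, hM, haM⟩ := hs (mem_insert _ _)
      rcases hch.total hN hM with k | k
      · exact ⟨M, hM, k hxN, insert_subset haM (hsN.trans k)⟩
      · exact ⟨N, hN, hxN, insert_subset (k haM) hsN⟩
  obtain ⟨N, hN, hxN, hF⟩ := hall ((· * x) '' Λ) (hΛ.image _) (by
    rintro _ ⟨g, hg, rfl⟩
    rw [← hfix g hg]
    exact smul_mem_smul_set (a := g) ⟨N0, hN0, hK hxK⟩)
  have hzN : z ∉ N := fun k => hz ⟨N, hN, k⟩
  have hfixN : ∀ g ∈ Λ, g • N = N := fun g hg => by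
    have hz' : z ∉ g • N := fun k => hz (by
      rw [← hfix g hg]
      exact smul_set_mono (subset_sUnion_of_mem hN) k)
    rcases h.chain (h.smul g N (h𝒟 hN)) (h𝒟 hN) (smul_mem_smul_set (a := g) hxN)
      (hF ⟨g, hg, rfl⟩) hz' hzN with k | k
    · exact gpd_eq_of_subset hxN hz (hP N hN) (hfix g hg) k
    · have := gpd_eq_of_subset (g := g⁻¹) hxN hz (hP N hN) (inv_smul_eq_iff.2 (hfix g hg).symm)
        (by simpa using smul_set_mono (a := g⁻¹) k)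
      exact (inv_smul_eq_iff.1 this).symm
  have hcl : Subgroup.closure Λ ≤ MulAction.stabilizer G N ⊓ MulAction.stabilizer G (⋃₀ 𝒟) :=
    (Subgroup.closure_le _).2 fun g hg => ⟨hfixN g hg, hfix g hg⟩
  refine ((hP N hN).preimage (f := fun g : G => (g * x, g * z))
    fun a _ b _ hab => mul_right_cancel (congrArg Prod.fst hab)).subset fun g hg => ?_
  obtain ⟨h1, h2⟩ := hcl hg
  refine ⟨?_, fun k => hz ?_, by simp⟩
  · rw [← show g • N = N from h1]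
    exact smul_mem_smul_set hxN
  · rw [← show g • ⋃₀ 𝒟 = ⋃₀ 𝒟 from h2] at k
    exact smul_mem_smul_set_iff.1 k

/-- The first limit cut above the median of a triple. -/
def lamb (𝒩 : Set (Set G)) (x y z : G) : Set G :=
  {v | {N | N ∈ 𝒩 ∧ x ∈ N ∧ y ∈ N ∧ z ∉ N ∧ v ∉ N}.Finite}

theorem NF.gpd_smul_lamb {𝒩 : Set (Set G)} (h : Γ.NF 𝒩) (g : G) {x y z v : G}
    (hv : v ∈ lamb 𝒩 x y z) : g * v ∈ lamb 𝒩 (g * x) (g * y) (g * z) := by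
  refine (Set.Finite.preimage (f := fun N : Set G => g⁻¹ • N)
    (MulAction.injective g⁻¹).injOn hv).subset fun N hN => ?_
  simp only [mem_preimage, mem_ofPred_eq, mem_inv_smul_set_iff, smul_eq_mul]
  exact ⟨h.smul _ _ hN.1, hN.2⟩

theorem NF.smul_lamb {𝒩 : Set (Set G)} (h : Γ.NF 𝒩) (g x y z : G) :
    g • lamb 𝒩 x y z = lamb 𝒩 (g * x) (g * y) (g * z) := by
  ext v
  rw [mem_smul_set_iff_inv_smul_mem, smul_eq_mul]
  exact ⟨fun k => by simpa using h.gpd_smul_lamb g k, fun k => by simpa using h.gpd_smul_lamb g⁻¹ k⟩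

theorem NF.locFin_lamb {𝒩 : Set (Set G)} (h : Γ.NF 𝒩) {x y z : G}
    (hinf : {N | N ∈ 𝒩 ∧ x ∈ N ∧ y ∈ N ∧ z ∉ N}.Infinite) {Λ : Set G} (hΛ : Λ.Finite)
    (hfix : ∀ g ∈ Λ, g • lamb 𝒩 x y z = lamb 𝒩 x y z) :
    (Subgroup.closure Λ : Set G).Finite := by
  set K := {N | N ∈ 𝒩 ∧ x ∈ N ∧ y ∈ N ∧ z ∉ N} with hK
  have tot : ∀ N ∈ K, ∀ N' ∈ K, N ⊆ N' ∨ N' ⊆ N := fun N hN N' hN' =>
    h.chain hN.1 hN'.1 hN.2.1 hN'.2.1 hN.2.2.2 hN'.2.2.2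
  have hl : ∀ v, v ∈ lamb 𝒩 x y z ↔ {N | N ∈ K ∧ v ∉ N}.Finite := fun v => by
    simp only [lamb, hK, mem_ofPred_eq, and_assoc]
  let D0 : Set (Set G) := {N | N ∈ K ∧ {N' | N' ∈ K ∧ N' ⊆ N}.Finite}
  by_cases hD : D0.Finite
  · have e : ⋃₀ ((fun N : Set G => Nᶜ) '' (K \ D0)) = (lamb 𝒩 x y z)ᶜ := by
      ext v
      rw [mem_compl_iff, hl]
      constructor
      · rintro ⟨_, ⟨N, hN, rfl⟩, hv⟩ hf
        exact hN.2 ⟨hN.1, hf.subset fun N' hN' => ⟨hN'.1, fun k => hv (hN'.2 k)⟩⟩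
      · intro hv
        obtain ⟨N, hN, hN'⟩ := Set.Infinite.exists_notMem_finite hv hD
        exact ⟨Nᶜ, ⟨N, ⟨hN.1, hN'⟩, rfl⟩, hN.2⟩
    refine h.locFin (𝒟 := (fun N : Set G => Nᶜ) '' (K \ D0)) ?_ ((hinf.sdiff hD).nonempty.image _) ?_ ?_ ?_ hΛ ?_
    · rintro _ ⟨N, hN, rfl⟩
      exact h.compl N hN.1.1
    · rintro _ ⟨N, hN, rfl⟩ _ ⟨N', hN', rfl⟩ -
      simpa only [compl_subset_compl, or_comm] using tot N hN.1 N' hN'.1
    · rintro _ ⟨N, hN, rfl⟩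
      have hi : {N' | N' ∈ K ∧ N' ⊆ N}.Infinite := fun k => hN.2 ⟨hN.1, k⟩
      obtain ⟨N', hN', hN''⟩ := hi.exists_notMem_finite (hD.insert N)
      rw [mem_insert_iff, not_or] at hN''
      exact ⟨N'ᶜ, ⟨N', ⟨hN'.1, hN''.2⟩, rfl⟩,
        compl_lt_compl_iff_lt.2 (lt_of_le_of_ne hN'.2 hN''.1)⟩
    · refine (ne_univ_iff_exists_notMem _).2 ⟨x, ?_⟩
      rintro ⟨_, ⟨N, hN, rfl⟩, hv⟩
      exact hv hN.1.2.1
    · intro g hg
      rw [e, smul_set_compl, hfix g hg]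
  · have hD' : D0.Infinite := hD
    have e : ⋃₀ D0 = lamb 𝒩 x y z := by
      ext v
      rw [hl]
      constructor
      · rintro ⟨N, hN, hv⟩
        exact hN.2.subset fun N' hN' =>
          ⟨hN'.1, (tot N' hN'.1 N hN.1).resolve_right fun k => hN'.2 (k hv)⟩
      · intro hv
        obtain ⟨N, hN, hN'⟩ := hD'.exists_notMem_finite hv
        exact ⟨N, hN, not_not.1 fun k => hN' ⟨hN.1, k⟩⟩
    refine h.locFin (𝒟 := D0) (fun N hN => hN.1.1) hD'.nonempty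
      (fun N hN N' hN' _ => tot N hN.1 N' hN'.1) (fun M hM => ?_) ?_ hΛ
      (fun g hg => by rw [e, hfix g hg])
    · obtain ⟨N, hN, hN'⟩ := hD'.exists_notMem_finite hM.2
      have k : ¬ N ⊆ M := fun k => hN' ⟨hN.1, k⟩
      exact ⟨N, hN, (tot N hN.1 M hM.1).resolve_left k, k⟩
    · refine (ne_univ_iff_exists_notMem _).2 ⟨z, ?_⟩
      rintro ⟨N, hN, hv⟩
      exact hN.1.2.2.2 hv

/-- Clusters with a common limit cut are uniformly bounded. -/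
theorem NF.cluster {𝒩 : Set (Set G)} (h : Γ.NF 𝒩) (L R : ℕ) : ∃ D : ℕ,
    ∀ (Λ : Set G) (v v' : G), Γ.Ch R {a | ∃ x ∈ Γ.ball a L, ∃ y ∈ Γ.ball a L, ∃ z ∈ Γ.ball a L,
        {N | N ∈ 𝒩 ∧ x ∈ N ∧ y ∈ N ∧ z ∉ N}.Infinite ∧ lamb 𝒩 x y z = Λ} v v' →
      Γ.d v v' ≤ D := by
  let T : Set (Set G) := {ω | ∃ x ∈ Γ.ball 1 L, ∃ y ∈ Γ.ball 1 L, ∃ z ∈ Γ.ball 1 L,
    {N | N ∈ 𝒩 ∧ x ∈ N ∧ y ∈ N ∧ z ∉ N}.Infinite ∧ lamb 𝒩 x y z = ω}
  have hb := Γ.ball_finite 1 L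
  have hT : T.Finite := by
    refine ((hb.prod (hb.prod hb)).image fun p => lamb 𝒩 p.1 p.2.1 p.2.2).subset ?_
    rintro _ ⟨x, hx, y, hy, z, hz, -, rfl⟩
    exact ⟨(x, y, z), ⟨hx, hy, hz⟩, rfl⟩
  have hfin : (⋃ ω ∈ T, Γ.comp R {a | a⁻¹ • ω ∈ T} 1).Finite := by
    refine hT.biUnion fun ω hω => ?_
    obtain ⟨Λ, Q, hΛ, hQ, h1, -, h2⟩ := exists_gpd (Γ := Γ) hT hω R
    obtain ⟨x, -, y, -, z, -, hi, rfl⟩ := hω
    exact ((h.locFin_lamb hi hΛ h1).mul hQ).subset h2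
  obtain ⟨D, hD⟩ := (Γ.finite_iff_ball 1).1 hfin
  refine ⟨D, fun Λ v v' hc => ?_⟩
  set A := {a | ∃ x ∈ Γ.ball a L, ∃ y ∈ Γ.ball a L, ∃ z ∈ Γ.ball a L,
    {N | N ∈ 𝒩 ∧ x ∈ N ∧ y ∈ N ∧ z ∉ N}.Infinite ∧ lamb 𝒩 x y z = Λ} with hA
  have hAT : ∀ a ∈ A, a⁻¹ • Λ ∈ T := by
    rintro a ⟨x, hx, y, hy, z, hz, hi, rfl⟩
    refine ⟨a⁻¹ * x, by rwa [mem_ball, ← d_eq_d_one], a⁻¹ * y, by rwa [mem_ball, ← d_eq_d_one],
      a⁻¹ * z, by rwa [mem_ball, ← d_eq_d_one], ?_, (h.smul_lamb _ _ _ _).symm⟩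
    refine (hi.image (f := fun N : Set G => a⁻¹ • N) (MulAction.injective a⁻¹).injOn).mono ?_
    rintro _ ⟨N, hN, rfl⟩
    exact ⟨h.smul _ _ hN.1, smul_mem_smul_set hN.2.1, smul_mem_smul_set hN.2.2.1,
      fun k => hN.2.2.2 (smul_mem_smul_set_iff.1 k)⟩
  rcases hc.cases_head with rfl | ⟨c, hvc, -⟩
  · simp
  · have hv : v ∈ A := hvc.1
    have h2 : Γ.Ch R {a | a⁻¹ • v⁻¹ • Λ ∈ T} 1 (v⁻¹ * v') := by
      have := (Ch.smul hc v⁻¹).mono le_rfl (A' := {a | a⁻¹ • v⁻¹ • Λ ∈ T}) (by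
        rintro _ ⟨a, ha, rfl⟩
        change (v⁻¹ * a)⁻¹ • v⁻¹ • Λ ∈ T
        rw [mul_inv_rev, inv_inv, mul_smul, smul_inv_smul]
        exact hAT a ha)
      rwa [inv_mul_cancel] at this
    rw [d_eq_d_one]
    exact hD (mem_biUnion (hAT v hv) ⟨by simpa using hAT v hv, h2⟩)

end Gen

end Vale.Agent.P239
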