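import Vale.Agent.P239.Pot1

/-! Consequences of positive capacity: Green function, maximal inequality. -/

namespace Vale.Agent.P239

open Filter Topology Set
open scoped Pointwise

namespace Gen

variable {G : Type} [Group G] {Γ : Gen G}

/-- Truncated Green function of the walk started at `x` and killed outside `K`. -/
noncomputable def greenG (Γ : Gen G) (K : Set G) (x : G) : ℕ → G → ℝ
  | 0 => fun _ => 0
  | n + 1 => fun y => ({x} : Set G).indicator 1 y + K.indicator (Γ.P (greenG Γ K x n)) y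

theorem green_fin (K : Set G) (x : G) (n : ℕ) : (Function.support (Γ.greenG K x n)).Finite := by
  induction n with
  | zero => simp [greenG]
  | succ n ih =>
    refine ((finite_singleton x).union (Γ.support_P ih)).subset fun y hy => ?_
    by_contra hc
    simp only [mem_union, Function.mem_support, not_or, not_not] at hc
    exact hy (by simp [greenG, indicator, hc.2, show y ≠ x from hc.1])

theorem green_q (K : Set G) (x : G) (n : ℕ) (y : G) :
    0 ≤ Γ.greenG K x (n + 1) y - Γ.greenG K x n y ∧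
      Γ.greenG K x (n + 1) y - Γ.greenG K x n y ≤ Γ.P^[n] (({x} : Set G).indicator 1) y := by
  induction n generalizing y with
  | zero => simp [greenG, P_const, indicator_nonneg]
  | succ n ih =>
    have h1 := Γ.P_mono (fun y => sub_nonneg.1 (ih y).1) y
    have h2 := Γ.P_mono (f := Γ.greenG K x (n + 1) - Γ.greenG K x n) (fun y => (ih y).2) y
    rw [P_sub, Pi.sub_apply] at h2
    have e : ∀ m, Γ.greenG K x (m + 1) y =
      ({x} : Set G).indicator 1 y + K.indicator (Γ.P (Γ.greenG K x m)) y := fun _ => rfl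
    rw [Function.iterate_succ_apply', e, e n]
    by_cases hy : y ∈ K
    · simp only [indicator_of_mem hy]
      constructor <;> linarith
    · simp only [indicator_of_notMem hy]
      constructor <;> linarith

theorem green_mono (K : Set G) (x y : G) : Monotone fun n => Γ.greenG K x n y :=
  monotone_nat_of_le_succ fun n => sub_nonneg.1 (green_q K x n y).1

theorem green_nonneg (K : Set G) (x : G) (n : ℕ) (y : G) : 0 ≤ Γ.greenG K x n y :=
  green_mono K x y (Nat.zero_le n)

theorem green_off {K : Set G} {x y : G} (hx : x ∈ K) (hy : y ∉ K) (n : ℕ) :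
    Γ.greenG K x n y = 0 := by
  cases n with
  | zero => rfl
  | succ n => simp [greenG, hy, show y ≠ x from fun h => hy (h ▸ hx)]

theorem green_on {K : Set G} (x : G) {y : G} (hy : y ∈ K) (n : ℕ) :
    Γ.P (Γ.greenG K x n) y = Γ.greenG K x (n + 1) y - ({x} : Set G).indicator 1 y := by
  simp [greenG, hy]

theorem green_iter_fin {f : G → ℝ} (hf : (Function.support f).Finite) (n : ℕ) :
    (Function.support (Γ.P^[n] f)).Finite := by
  induction n with
  | zero => exact hf
  | succ n ih => rw [Function.iterate_succ_apply']; exact Γ.support_P ih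

theorem green_delta_fin (x : G) : (Function.support (({x} : Set G).indicator (1 : G → ℝ))).Finite :=
  (finite_singleton x).subset support_indicator_subset

theorem green_adj (x : G) (n : ℕ) (h : G → ℝ) :
    ∑ᶠ y, Γ.P^[n] (({x} : Set G).indicator 1) y * h y = Γ.P^[n] h x := by
  induction n generalizing h with
  | zero => rw [finsum_eq_single _ x fun y hy => by simp [hy]]; simp
  | succ n ih =>
    rw [Function.iterate_succ_apply', ← Γ.sum_mul_P h (green_iter_fin (green_delta_fin x) n), ih,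
      Function.iterate_succ_apply]

theorem green_fin_mul {f : G → ℝ} (hf : (Function.support f).Finite) (h : G → ℝ) :
    (Function.support fun y => f y * h y).Finite :=
  hf.subset (Function.support_mul_subset_left _ _)

theorem green_en {g ρ : G → ℝ} (hg : (Function.support g).Finite)
    (h : ∀ y, (g y - Γ.P g y) * g y ≤ ρ y * g y) : Γ.En g ≤ 2 * Γ.S.card * ∑ᶠ y, ρ y * g y := by
  have h1 := Γ.green_identity g hg
  simp only [← sq] at h1
  rw [Γ.En_eq_finsum hg]
  refine h1.le.trans (mul_le_mul_of_nonneg_left (finsum_le_finsum' ?_ ?_ h) (by positivity)) <;>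
    exact hg.subset (Function.support_mul_subset_right _ _)

theorem Cap.green_K (hC : Γ.Cap) : ∃ K : ℝ, 0 ≤ K ∧
    ∀ f : G → ℝ, (Function.support f).Finite → ∀ x, f x ^ 2 ≤ K * Γ.En f := by
  obtain ⟨K, hK⟩ := hC
  exact ⟨max K 0, le_max_right _ _, fun f hf x => (hK f hf x).trans
    (mul_le_mul_of_nonneg_right (le_max_left _ _) (Γ.En_nonneg f))⟩

theorem Cap.green_bound (hC : Γ.Cap) : ∃ C : ℝ, 0 ≤ C ∧ ∀ (K : Set G), ∀ x ∈ K, ∀ n,
    Γ.greenG K x n x ≤ C ∧ Γ.En (Γ.greenG K x n) ≤ C := by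
  obtain ⟨C, hC0, hC⟩ := hC.green_K
  have hc := Γ.one_le_card'
  refine ⟨2 * Γ.S.card * (C * (2 * Γ.S.card)), by positivity, fun K x hx n => ?_⟩
  have h1 : Γ.En (Γ.greenG K x n) ≤ 2 * Γ.S.card * Γ.greenG K x n x := by
    refine (green_en (ρ := ({x} : Set G).indicator 1) (green_fin K x n) fun y => ?_).trans_eq
      (congrArg _ (green_adj (Γ := Γ) x 0 _))
    by_cases hy : y ∈ K
    · refine mul_le_mul_of_nonneg_right ?_ (green_nonneg K x n y)
      linarith [green_on (Γ := Γ) x hy n, (green_q (Γ := Γ) K x n y).1]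
    · simp only [green_off hx hy, mul_zero, le_refl]
  have h2 := (hC _ (green_fin K x n) x).trans (mul_le_mul_of_nonneg_left h1 hC0)
  have h3 : Γ.greenG K x n x ≤ C * (2 * Γ.S.card) := by
    rcases (green_nonneg (Γ := Γ) K x n x).eq_or_lt with h | h
    · rw [← h]
      positivity
    · exact le_of_mul_le_mul_right (by linarith) h
  refine ⟨h3.trans (le_mul_of_one_le_left (by positivity) (by linarith)), h1.trans ?_⟩
  exact mul_le_mul_of_nonneg_left h3 (by positivity)

theorem green_tendsto_iter {f : ℕ → G → ℝ} {g : G → ℝ}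
    (h : ∀ x, Tendsto (f · x) atTop (𝓝 (g x))) (m : ℕ) (x : G) :
    Tendsto (fun n => Γ.P^[m] (f n) x) atTop (𝓝 (Γ.P^[m] g x)) := by
  induction m generalizing x with
  | zero => exact h x
  | succ m ih => simpa only [Function.iterate_succ_apply'] using Γ.pot1_tendsto_P ih x

theorem green_hitN (Z : Set G) (x : G) : Tendsto (Γ.hitN Z · x) atTop (𝓝 (Γ.hit Z x)) := by
  have h1 : ∀ n x, Γ.hitN Z n x ≤ Γ.hitN Z (n + 1) x := fun n => by
    induction n with
    | zero => exact fun x => le_max_left _ _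
    | succ n ih => exact fun x => max_le_max le_rfl (Γ.P_mono ih x)
  exact tendsto_atTop_ciSup (monotone_nat_of_le_succ (h1 · x))
    ⟨1, by rintro _ ⟨n, rfl⟩; exact (Γ.pot1_hitN Z n x).2⟩

/-- Uniform transience. -/
theorem Cap.green_main (hC : Γ.Cap) {ε : ℝ} (hε : 0 < ε) :
    ∃ M : ℕ, ∀ x y, Γ.P^[M] (Γ.hit {y}) x ≤ ε := by
  obtain ⟨C, hC0, hCb⟩ := hC.green_bound
  obtain ⟨K, hK0, hK⟩ := hC.green_K
  set g := Γ.greenG univ 1 with hg
  have hc := Γ.card_pos'
  have h1 : ∀ M N, Γ.P^[M] (g N) = g (N + M) - g M := fun M N => by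
    induction M with
    | zero => exact (sub_zero _).symm
    | succ M ih =>
      ext y
      rw [Function.iterate_succ_apply', ih, P_sub, Pi.sub_apply, green_on 1 (mem_univ y),
        green_on 1 (mem_univ y), Pi.sub_apply, add_assoc]
      ring
  have hb : BddAbove (range fun n => g n 1) :=
    ⟨C, by rintro _ ⟨n, rfl⟩; exact (hCb univ 1 (mem_univ _) n).1⟩
  have h2 := ((tendsto_atTop_ciSup (green_mono (Γ := Γ) univ 1 1) hb).const_sub
    (⨆ n, g n 1)).const_mul (K * (2 * Γ.S.card))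
  rw [sub_self, mul_zero] at h2
  obtain ⟨M, hM⟩ := (h2.eventually (ge_mem_nhds (pow_pos hε 2))).exists
  have h3 : ∀ N x, Γ.P^[M] (g N) x ≤ ε := fun N x => by
    have hf := green_iter_fin (Γ := Γ) (green_fin (Γ := Γ) univ 1 N) M
    refine (abs_le_of_sq_le_sq' ?_ hε.le).2
    refine (hK _ hf x).trans (le_trans ?_ hM)
    rw [mul_assoc]
    refine mul_le_mul_of_nonneg_left ((green_en (ρ := Γ.P^[M] (({1} : Set G).indicator 1)) hf
      fun y => mul_le_mul_of_nonneg_right ?_
        (Γ.pot1_iter_nonneg M (green_nonneg univ 1 N) y)).trans ?_) hK0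
    · rw [← Function.iterate_succ_apply' Γ.P, Function.iterate_succ_apply, ← Pi.sub_apply,
        ← iter_sub]
      refine Γ.iter_mono M (fun z => ?_) y
      rw [Pi.sub_apply, green_on 1 (mem_univ z)]
      linarith [(green_q (Γ := Γ) univ 1 N z).1]
    · rw [green_adj, ← Function.iterate_add_apply, h1, Pi.sub_apply]
      exact mul_le_mul_of_nonneg_left (sub_le_sub (le_ciSup hb _)
        (green_mono univ 1 1 (Nat.le_add_left M M))) (by positivity)
  have h4 : ∀ N x, Γ.hitN {1} N x ≤ g (N + 1) x := fun N => by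
    induction N with
    | zero => exact fun x => by simp [hg, greenG, hitN, P_const]
    | succ N ih =>
      intro x
      have h5 := Γ.pot1_iter_nonneg 1 (green_nonneg (Γ := Γ) univ 1 (N + 1)) x
      have h6 := green_on (Γ := Γ) 1 (mem_univ x) (N + 1)
      have h7 := Γ.P_mono ih x
      have h8 : 0 ≤ ({1} : Set G).indicator (1 : G → ℝ) x :=
        indicator_nonneg (fun _ _ => zero_le_one) x
      rw [Function.iterate_one] at h5
      exact max_le (by linarith) (by linarith)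
  refine ⟨M, fun x y => ?_⟩
  have e : Γ.hit {y} = fun x => Γ.hit {1} (y⁻¹ * x) := by
    ext z
    rw [← Γ.hit_smul y {1}, mul_inv_cancel_left, smul_set_singleton, smul_eq_mul, mul_one]
  rw [e, iter_shift]
  exact le_of_tendsto' (green_tendsto_iter (green_hitN {1}) M _) fun N =>
    (Γ.iter_mono M (h4 N) _).trans (h3 _ _)

theorem green_iter_hit {Z : Set G} {x : G} {n : ℕ} (h : ∀ z ∈ Z, n ≤ Γ.d x z) :
    Γ.P^[n] (Γ.hit Z) x = Γ.hit Z x := by
  induction n with
  | zero => rfl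
  | succ n ih =>
    rw [Function.iterate_succ_apply, ← ih fun z hz => (Nat.le_succ n).trans (h z hz)]
    exact Γ.iter_congr n fun y hy => Γ.P_hit_eq fun hz => Nat.not_succ_le_self n ((h y hz).trans hy)

theorem Cap.infinite (hC : Γ.Cap) : Infinite G := by
  by_contra h
  rw [not_infinite_iff_finite] at h
  obtain ⟨K, hK⟩ := hC
  have := hK (fun _ => 1) (toFinite _) 1
  norm_num [En, gr] at this

theorem Cap.hit_single (hC : Γ.Cap) {ε : ℝ} (hε : 0 < ε) :
    ∃ D : ℕ, ∀ x y, D ≤ Γ.d x y → Γ.hit {y} x ≤ ε := by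
  obtain ⟨M, hM⟩ := hC.green_main hε
  refine ⟨M, fun x y h => ?_⟩
  rw [← green_iter_hit (n := M) (by simpa using h)]
  exact hM x y

theorem Cap.thin_finite (hC : Γ.Cap) {Z : Set G} (hZ : Z.Finite) : Γ.Thin Z := by
  induction Z, hZ using Set.Finite.induction_on with
  | empty => exact thin_empty
  | @insert a s _ _ ih =>
    refine Thin.union (Z := {a}) (thin_of_at (x := 1) fun ε hε => ?_) ih
    obtain ⟨M, hM⟩ := hC.green_main hε
    exact ⟨M, hM 1 a⟩

theorem Cap.hit_card (hC : Γ.Cap) (b : ℕ) {ε : ℝ} (hε : 0 < ε) :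
    ∃ D : ℕ, ∀ (Z : Set G) (x : G), Z.Finite → Z.ncard ≤ b → (∀ z ∈ Z, D ≤ Γ.d x z) →
      Γ.hit Z x ≤ ε := by
  obtain ⟨D, hD⟩ := hC.hit_single (ε := ε / (b + 1)) (by positivity)
  refine ⟨D, fun Z x hZ hb h => (Γ.hit_le_sum hZ x).trans ?_⟩
  refine (Finset.sum_le_card_nsmul _ _ _ fun z hz => hD x z (h z (hZ.mem_toFinset.1 hz))).trans ?_
  rw [← ncard_eq_toFinset_card Z hZ, nsmul_eq_mul, ← mul_div_assoc, div_le_iff₀ (by positivity),
    mul_comm]
  exact mul_le_mul_of_nonneg_left (by exact_mod_cast hb.trans (Nat.le_succ b)) hε.le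

theorem Cap.hit_ball (hC : Γ.Cap) (ρ : ℕ) {ε : ℝ} (hε : 0 < ε) :
    ∃ D : ℕ, ∀ c x, D ≤ Γ.d c x → Γ.hit (Γ.ball c ρ) x ≤ ε := by
  obtain ⟨D, hD⟩ := hC.hit_card (Γ.ball 1 ρ).ncard hε
  refine ⟨D + ρ, fun c x h => hD _ x (Γ.ball_finite c ρ) (Γ.ncard_ball c ρ).le fun z hz => ?_⟩
  have h1 := Γ.d_tri c z x
  rw [mem_ball] at hz
  rw [Γ.d_comm z x] at h1
  omega

theorem Cap.finite_hit (hC : Γ.Cap) {Z : Set G} (hZ : Z.Finite) {ε : ℝ} (hε : 0 < ε) :
    {x | ε ≤ Γ.hit Z x}.Finite := by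
  obtain ⟨D, hD⟩ := hC.hit_card Z.ncard (half_pos hε)
  refine (Γ.nb_finite D hZ).subset fun x hx => by_contra fun h => ?_
  have := hD Z x hZ le_rfl fun z hz => (not_le.1 fun h2 => h ⟨z, hz, h2⟩).le
  exact not_le.2 (half_lt_self hε) (le_trans hx this)

/-- The capacity bound extends to Dirichlet functions vanishing at infinity. -/
theorem Cap.c0 (hC : Γ.Cap) : ∃ K : ℝ, 0 ≤ K ∧ ∀ f : G → ℝ, Γ.Dir f →
    Tendsto f cofinite (𝓝 0) → ∀ x, f x ^ 2 ≤ K * Γ.En f := by
  obtain ⟨K, hK0, hK⟩ := hC.green_K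
  refine ⟨K, hK0, fun f hf h0 x => ?_⟩
  have h1 : Tendsto (fun ε : ℝ => max (|f x| - ε) 0 ^ 2) (𝓝[>] 0) (𝓝 (f x ^ 2)) := by
    refine tendsto_nhdsWithin_of_tendsto_nhds (Continuous.tendsto' (by fun_prop) _ _ ?_)
    simp
  refine le_of_tendsto h1 (eventually_mem_nhdsWithin.mono fun ε (hε : 0 < ε) => ?_)
  refine (hK (fun y => max (|f y| - ε) 0) ?_ x).trans (mul_le_mul_of_nonneg_left
    (hf.of_le fun y s _ => (abs_max_sub_max_le_abs _ _ _).trans ?_).2 hK0)
  · refine (eventually_cofinite.1 (h0.abs.eventually (ge_mem_nhds (by simpa using hε)))).subset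
      fun y hy h => hy (max_eq_right (sub_nonpos.2 h))
  · rw [sub_sub_sub_cancel_right]
    exact abs_abs_sub_abs_le _ _

theorem Dir.grad_small {f : G → ℝ} (hf : Γ.Dir f) (k : ℕ) {η : ℝ} (hη : 0 < η) :
    ∃ R : ℕ, ∀ x y, R ≤ Γ.d 1 x → Γ.d x y ≤ k → |f x - f y| ≤ η := by
  induction k generalizing η with
  | zero => exact ⟨0, fun x y _ h => by simp [Γ.d_eq_zero.1 (Nat.le_zero.1 h), hη.le]⟩
  | succ k ih =>
    obtain ⟨R, hR⟩ := ih (half_pos hη)
    obtain ⟨n, hn⟩ := (Γ.finite_iff_ball 1).1 (eventually_cofinite.1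
      (hf.tendsto_cofinite_zero.eventually (ge_mem_nhds (pow_pos (half_pos hη) 2))))
    refine ⟨R + n + 1, fun x y hx hd => ?_⟩
    rcases hd.eq_or_lt with h | h
    · obtain ⟨s, hs, h2⟩ := Γ.d_succ h
      have h3 := Γ.d_tri 1 (x * s) x
      have h4 := (Γ.d_comm _ _).trans_le (Γ.d_step x hs)
      have h5 : Γ.gr f x ≤ (η / 2) ^ 2 := by
        by_contra hc
        have := hn hc
        rw [mem_ball] at this
        omega
      have h6 := abs_le_of_sq_le_sq' ((Finset.single_le_sum (f := fun s => (f x - f (x * s)) ^ 2)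
        (fun _ _ => sq_nonneg _) hs).trans h5) (half_pos hη).le
      have h7 := abs_le.1 (hR (x * s) y (by omega) h2.le)
      rw [abs_le]
      constructor <;> linarith [h6.1, h6.2, h7.1, h7.2]
    · exact (hR x y (by omega) (by omega)).trans (half_lt_self hη).le

theorem green_cs {g : G → ℝ} (hg : (Function.support g).Finite) (w : G → ℝ) {t : ℝ}
    (ht : 0 < t) : -(2 * Γ.S.card * ∑ᶠ y, (g y - Γ.P g y) * w y) ≤
      t * Γ.En g + t⁻¹ * ∑ y ∈ (Γ.pot1_gr_fin hg).toFinset, Γ.gr w y := by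
  rw [← Γ.green_identity w hg, Γ.En_eq_finsum hg, finsum_eq_sum _ (Γ.pot1_gr_fin hg),
    finsum_eq_sum_of_support_subset _ (s := (Γ.pot1_gr_fin hg).toFinset) fun y hy => ?_,
    Finset.mul_sum, Finset.mul_sum, ← Finset.sum_add_distrib, ← Finset.sum_neg_distrib]
  · refine Finset.sum_le_sum fun y _ => ?_
    rw [gr, gr, Finset.mul_sum, Finset.mul_sum, ← Finset.sum_add_distrib, ← Finset.sum_neg_distrib]
    refine Finset.sum_le_sum fun s _ => le_of_mul_le_mul_left ?_ ht
    rw [mul_add, mul_inv_cancel_left₀ ht.ne']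
    nlinarith [sq_nonneg (2 * t * (g y - g (y * s)) + (w y - w (y * s))),
      sq_nonneg (w y - w (y * s))]
  · rw [Finite.coe_toFinset]
    refine fun h => hy (Finset.sum_eq_zero fun s hs => ?_)
    rw [pow_eq_zero_iff two_ne_zero |>.1
      ((Finset.sum_eq_zero_iff_of_nonneg fun _ _ => sq_nonneg _).1 h s hs), zero_mul]

theorem green_kill {K Z A : Set G} {x : G} (hx : x ∈ K) (hZ : ∀ y ∈ K, y ∉ Z) {w : G → ℝ}
    (h0 : ∀ y, 0 ≤ w y) (h1 : ∀ y ∉ K, y ∈ A ∨ 1 ≤ w y) (n : ℕ) :
    Γ.hit Z x ≤ Γ.hit A x + w x + Γ.P^[n] (Γ.hit Z) x -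
      ∑ᶠ y, (Γ.greenG K x n y - Γ.P (Γ.greenG K x n) y) * w y := by
  set g := Γ.greenG K x n with hg
  have f1 : (Function.support g).Finite := green_fin K x n
  have f2 := Γ.support_P f1
  have f3 : (Function.support fun y => g y - Γ.P g y).Finite :=
    (f1.union f2).subset (Function.support_sub _ _)
  have e1 := green_adj (Γ := Γ) x 0 (Γ.hit Z - Γ.hit A - w)
  have e2 := green_adj (Γ := Γ) x n (Γ.hit Z)
  have e3 := Γ.sum_mul_P (Γ.hit Z - Γ.hit A) f1
  have a1 := green_fin_mul (green_delta_fin x) (Γ.hit Z - Γ.hit A - w)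
  have a2 := green_fin_mul (green_iter_fin (Γ := Γ) (green_delta_fin x) n) (Γ.hit Z)
  have a3 := green_fin_mul f1 (Γ.P (Γ.hit Z - Γ.hit A))
  have a4 := green_fin_mul f2 (Γ.hit Z - Γ.hit A)
  have a5 := green_fin_mul f3 w
  have key := finsum_le_finsum' (((a1.union a4).subset (Function.support_add _ _)))
    ((((a2.union a5).subset (Function.support_sub _ _)).union a3).subset
      (Function.support_add _ _)) fun y => ?_
  · rw [finsum_add_distrib a1 a4, finsum_add_distrib ((a2.union a5).subset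
      (Function.support_sub _ _)) a3, finsum_sub_distrib a2 a5, e2, e3] at key
    simp only [Function.iterate_zero, id, Pi.sub_apply] at e1 key
    linarith
  have b1 := Γ.hit_nonneg Z y
  have b2 := Γ.hit_nonneg A y
  have b3 := h0 y
  simp only [P_sub, Pi.sub_apply]
  by_cases hy : y ∈ K
  · have c1 := green_q (Γ := Γ) K x n y
    have c2 := mul_nonneg (green_nonneg (Γ := Γ) K x n y) (sub_nonneg.2 (Γ.P_hit_le A y))
    rw [Γ.P_hit_eq (hZ y hy), hg, green_on x hy]
    nlinarith [mul_nonneg c1.1 b2, mul_nonneg c1.1 b3, mul_le_mul_of_nonneg_right c1.2 b1]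
  · have c1 := Γ.pot1_iter_nonneg 1 (green_nonneg (Γ := Γ) K x n) y
    have c2 := Γ.pot1_iter_nonneg n (f := ({x} : Set G).indicator 1)
      (indicator_nonneg fun _ _ => zero_le_one) y
    have c3 : Γ.hit Z y ≤ Γ.hit A y + w y := (Γ.hit_le_one Z y).trans <| by
      rcases h1 y hy with h | h
      · linarith [Γ.hit_of_mem h]
      · linarith
    rw [Function.iterate_one, ← hg] at c1
    rw [show g y = 0 from green_off hx hy n,
      indicator_of_notMem (show y ∉ ({x} : Set G) from fun h => hy (h ▸ hx))]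
    nlinarith [mul_nonneg c2 b1, mul_le_mul_of_nonneg_left c3 c1]

/-- Maximal inequality. -/
theorem Cap.max_ineq (hC : Γ.Cap) {f : G → ℝ} (hf : Γ.Dir f) {η ε : ℝ} (hη : 0 < η)
    (hε : 0 < ε) : ∃ R : ℕ, ∀ x, R ≤ Γ.d 1 x → Γ.hit {y | η ≤ |f y - f x|} x ≤ ε := by
  obtain ⟨C, hC0, hCb⟩ := hC.green_bound
  have hε4 : 0 < ε / 4 := by positivity
  obtain ⟨t, ht, htC⟩ : ∃ t : ℝ, 0 < t ∧ t * C ≤ ε / 4 :=
    ⟨ε / 4 / (C + 1), by positivity, by
      rw [div_mul_eq_mul_div, div_le_iff₀ (by positivity)]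
      nlinarith⟩
  obtain ⟨F, hF⟩ := hf.vanishing (Iio_mem_nhds (show 0 < t * (η ^ 2 * (ε / 4)) by positivity))
  obtain ⟨R, hR⟩ := (Γ.finite_iff_ball 1).1
    (hC.finite_hit (Γ.nb_finite 1 F.finite_toSet) (lt_min hε4 one_pos))
  refine ⟨R + 1, fun x hx => Γ.hit_le_of_ball fun m => ?_⟩
  have hA : Γ.hit (Γ.nb 1 F) x < min (ε / 4) 1 := not_le.1 fun h => by
    have := hR h
    rw [mem_ball] at this
    omega
  obtain ⟨n, hn⟩ := ((hC.thin_finite ((Γ.ball_finite x m).inter_of_right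
    {y | η ≤ |f y - f x|}) x).eventually (ge_mem_nhds hε4)).exists
  have hxK : x ∈ {y | y ∉ Γ.nb 1 F ∧ |f y - f x| < η} :=
    ⟨fun h => (hA.trans_le (min_le_right _ _)).ne (Γ.hit_of_mem h), by simpa using hη⟩
  have h1 := green_kill (Γ := Γ) (A := Γ.nb 1 F) (Z := {y | η ≤ |f y - f x|} ∩ Γ.ball x m) hxK
    (fun y hy h => not_le.2 hy.2 h.1) (w := fun y => |f y - f x| / η) (fun y => by positivity)
    (fun y hy => by
      rw [one_le_div hη]
      by_contra! hc
      exact hy hc) n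
  have h2 := green_cs (Γ := Γ) (green_fin (Γ := Γ) {y | y ∉ Γ.nb 1 F ∧ |f y - f x| < η} x n)
    (fun y => |f y - f x| / η) ht
  have h3 := mul_le_mul_of_nonneg_left (hCb _ x hxK n).2 ht.le
  have h4 : ∀ T : Finset G, Disjoint T F →
      t⁻¹ * ∑ y ∈ T, Γ.gr (fun y => |f y - f x| / η) y ≤ ε / 4 := fun T hT => by
    rw [inv_mul_le_iff₀ ht]
    refine le_of_mul_le_mul_left ?_ (pow_pos hη 2)
    rw [mul_left_comm, Finset.mul_sum]
    refine (Finset.sum_le_sum fun y _ => ?_).trans (hF T hT).le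
    rw [gr, gr, Finset.mul_sum]
    refine Finset.sum_le_sum fun s _ => ?_
    rw [← sub_div, ← mul_pow, mul_div_cancel₀ _ hη.ne', sq_le_sq]
    exact (abs_abs_sub_abs_le _ _).trans_eq (by rw [sub_sub_sub_cancel_right])
  have h5 := h4 _ (Finset.disjoint_left.2 fun y hy hyF => (Γ.pot1_gr_fin (green_fin (Γ := Γ)
    {y | y ∉ Γ.nb 1 F ∧ |f y - f x| < η} x n)).mem_toFinset.1 hy
      (Finset.sum_eq_zero fun s hs => by
        rw [green_off hxK fun h => h.1 (Γ.subset_nb 1 _ hyF), green_off hxK fun h =>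
          h.1 ⟨y, hyF, (Γ.d_comm _ _).trans_le (Γ.d_step y hs)⟩]
        norm_num))
  have h6 := hA.trans_le (min_le_left _ _)
  have hc := Γ.one_le_card'
  simp only [sub_self, abs_zero, zero_div, add_zero] at h1
  nlinarith

end Gen

end Vale.Agent.P239
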