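import Mathlib

/-! Projections and powers of `1 - T* T` in Hilbert spaces. -/

namespace Vale.Agent.P239.HilbAux

open Filter Topology Set ContinuousLinearMap

variable {E F : Type*} [NormedAddCommGroup E] [InnerProductSpace ℂ E] [CompleteSpace E]
  [NormedAddCommGroup F] [InnerProductSpace ℂ F] [CompleteSpace F] {V W : Submodule ℂ E} {v x : E}

/-- The projection on the closure. -/
noncomputable abbrev pr (V : Submodule ℂ E) : E →L[ℂ] E := V.topologicalClosure.starProjection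

theorem pr_mem (hV : IsClosed (V : Set E)) (v : E) : pr V v ∈ V :=
  V.topologicalClosure_minimal le_rfl hV (V.topologicalClosure.starProjection_apply_mem v)

theorem sub_pr (V : Submodule ℂ E) (v : E) : v - pr V v ∈ Vᗮ :=
  Submodule.orthogonal_le V.le_topologicalClosure (Submodule.sub_starProjection_mem_orthogonal v)

theorem pr_eq (hx : x ∈ V) (h : v - x ∈ Vᗮ) : pr V v = x :=
  Submodule.eq_starProjection_of_mem_orthogonal (V.le_topologicalClosure hx)
    (by rwa [Submodule.orthogonal_closure])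

theorem norm_pr_le (V : Submodule ℂ E) (v : E) : ‖pr V v‖ ≤ ‖v‖ :=
  Submodule.norm_starProjection_apply_le _ v

theorem pr_self (hx : x ∈ V) : pr V x = x := pr_eq hx (by simp)

theorem mem_orth (h : pr V v = 0) : v ∈ Vᗮ := by simpa [h] using sub_pr V v

theorem orth_orth (hV : IsClosed (V : Set E)) : Vᗮᗮ = V := by
  rw [Submodule.orthogonal_orthogonal_eq_closure, hV.submodule_topologicalClosure_eq]

theorem inner_pr (hV : IsClosed (V : Set E)) (v : E) : (inner ℂ v (pr V v)).re = ‖pr V v‖ ^ 2 := by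
  have := Submodule.inner_left_of_mem_orthogonal (pr_mem hV v) (sub_pr V v)
  rw [inner_sub_left, sub_eq_zero] at this
  rw [this, ← @inner_self_eq_norm_sq ℂ]; rfl

theorem pr_sub (hV : IsClosed (V : Set E)) (hW : IsClosed (W : Set E)) (h : V ≤ W) (v : E) :
    ‖pr (W ⊓ Vᗮ) v‖ ^ 2 = ‖pr W v‖ ^ 2 - ‖pr V v‖ ^ 2 := by
  have m : pr W v - pr V v ∈ Vᗮ := by
    simpa using Vᗮ.sub_mem (sub_pr V v) (Submodule.orthogonal_le h (sub_pr W v))
  have e : pr (W ⊓ Vᗮ) v = pr W v - pr V v :=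
    pr_eq ⟨W.sub_mem (pr_mem hW v) (h (pr_mem hV v)), m⟩ (by
      rw [sub_sub_eq_add_sub, add_sub_right_comm]
      exact add_mem (Submodule.orthogonal_le inf_le_left (sub_pr W v))
        (Submodule.orthogonal_le inf_le_right (V.le_orthogonal_orthogonal (pr_mem hV v))))
  have := norm_add_sq_eq_norm_sq_add_norm_sq_of_inner_eq_zero _ _
    (Submodule.inner_right_of_mem_orthogonal (pr_mem hV v) m)
  rw [add_sub_cancel] at this
  rw [e]; linarith

theorem norm_le_pr {B : E →L[ℂ] F} (hV : IsClosed (V : Set E)) (hB : ∀ v, ‖B v‖ ≤ ‖v‖)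
    (h0 : ∀ v ∈ V, B v = 0) (v : E) : ‖B v‖ ≤ ‖pr Vᗮ v‖ := by
  have := h0 _ ((orth_orth hV).le (sub_pr Vᗮ v))
  rw [map_sub, sub_eq_zero] at this
  exact this ▸ hB _

theorem tendsto_pr {V : ℕ → Submodule ℂ E} (h : ∀ n, IsClosed (V n : Set E)) (ha : Antitone V)
    (v : E) : Tendsto (fun n => pr (V n) v) atTop (𝓝 (pr (⨅ n, V n) v)) := by
  have := (Submodule.starProjection_tendsto_closure_iSup (fun n => (V n)ᗮ)
    (fun _ _ hn => Submodule.orthogonal_le (ha hn)) v).const_sub v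
  have e : pr (⨅ n, V n) v = v - pr (⨆ n, (V n)ᗮ) v := pr_eq (by
      have := sub_pr (⨆ n, (V n)ᗮ) v
      rwa [← Submodule.iInf_orthogonal, iInf_congr fun n => orth_orth (h n)] at this) (by
      rw [sub_sub_cancel]
      exact Submodule.topologicalClosure_minimal _
        (iSup_le fun n => Submodule.orthogonal_le (iInf_le V n)) (Submodule.isClosed_orthogonal _)
        (Submodule.starProjection_apply_mem _ v))
  rw [e]
  refine this.congr fun n => (pr_eq ?_ ?_).symm
  · exact (orth_orth (h n)).le (Submodule.sub_starProjection_mem_orthogonal v)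
  · rw [sub_sub_cancel]; exact Submodule.starProjection_apply_mem _ v

/-- The operator `1 - T* T`. -/
noncomputable def rs (T : E →L[ℂ] F) : E →L[ℂ] E := 1 - adjoint T ∘L T

theorem rs_apply (T : E →L[ℂ] F) (v : E) : rs T v = v - adjoint T (T v) := rfl

theorem rs_norm {T : E →L[ℂ] F} (hT : ‖T‖ ≤ 1) (v : E) : ‖rs T v‖ ^ 2 ≤ ‖v‖ ^ 2 - ‖T v‖ ^ 2 := by
  have h1 : ‖adjoint T (T v)‖ ≤ ‖T v‖ := by
    simpa using (adjoint T).le_of_opNorm_le (c := 1) (by simpa using hT) (T v)
  rw [rs_apply, @norm_sub_sq ℂ, adjoint_inner_right, inner_self_eq_norm_sq]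
  nlinarith [norm_nonneg (adjoint T (T v))]

theorem rs_pow_norm {T : E →L[ℂ] F} (hT : ‖T‖ ≤ 1) (n : ℕ) (v : E) : ‖(rs T ^ n) v‖ ≤ ‖v‖ := by
  induction n with
  | zero => simp
  | succ n ih =>
    rw [pow_succ', ContinuousLinearMap.mul_apply]
    exact (le_of_sq_le_sq ((rs_norm hT _).trans (sub_le_self _ (sq_nonneg _))) (norm_nonneg _)).trans ih

theorem rs_pow_adj (T : E →L[ℂ] F) (n : ℕ) (w : F) :
    (rs T ^ n) (adjoint T w) = adjoint T ((rs (adjoint T) ^ n) w) := by
  induction n with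
  | zero => simp
  | succ n ih => simp [pow_succ', ih, rs_apply]

theorem rs_pow_ker {T : E →L[ℂ] F} (h : T v = 0) (n : ℕ) : (rs T ^ n) v = v := by
  induction n with
  | zero => simp
  | succ n ih => simp [pow_succ', ih, rs_apply, h]

theorem tendsto_rs0 {T : E →L[ℂ] F} (hT : ‖T‖ ≤ 1) (v : E) :
    Tendsto (fun n => T ((rs T ^ n) v)) atTop (𝓝 0) := by
  have k : ∀ n, ∑ m ∈ Finset.range n, ‖T ((rs T ^ m) v)‖ ^ 2 ≤ ‖v‖ ^ 2 - ‖(rs T ^ n) v‖ ^ 2 := by
    intro n
    induction n with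
    | zero => simp
    | succ n ih =>
      rw [Finset.sum_range_succ, pow_succ' (rs T), ContinuousLinearMap.mul_apply]
      linarith [rs_norm hT ((rs T ^ n) v)]
  have := (summable_of_sum_range_le (fun _ => sq_nonneg _) fun n =>
    (k n).trans (sub_le_self _ (sq_nonneg _))).tendsto_atTop_zero.sqrt
  rw [tendsto_zero_iff_norm_tendsto_zero]
  simpa using this

theorem tendsto_rs {T : E →L[ℂ] F} (hT : ‖T‖ ≤ 1) (v : E) :
    Tendsto (fun n => v - (rs T ^ n) v) atTop (𝓝 (pr T.kerᗮ v)) := by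
  obtain ⟨x, hx⟩ : ∃ x, x = pr T.kerᗮ v := ⟨_, rfl⟩
  have h1 : T (v - x) = 0 := hx ▸ (orth_orth T.isClosed_ker).le (sub_pr T.kerᗮ v)
  have h2 : x ∈ (adjoint T).range.topologicalClosure :=
    T.orthogonal_ker.le (hx ▸ pr_mem (Submodule.isClosed_orthogonal _) v)
  have h3 : Tendsto (fun n => (rs T ^ n) x) atTop (𝓝 0) := by
    refine NormedAddGroup.tendsto_nhds_zero.2 fun ε hε => ?_
    obtain ⟨_, ⟨w, rfl⟩, hw⟩ := Metric.mem_closure_iff.1 h2 _ (half_pos hε)
    filter_upwards [NormedAddGroup.tendsto_nhds_zero.1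
      (tendsto_rs0 (T := adjoint T) (by simpa using hT) w) _ (half_pos hε)] with n hn
    rw [← rs_pow_adj] at hn
    have := rs_pow_norm hT n (x - adjoint T w)
    rw [map_sub] at this
    rw [dist_eq_norm] at hw
    linarith [norm_le_norm_sub_add ((rs T ^ n) x) ((rs T ^ n) (adjoint T w)), show ‖x - adjoint T w‖ < ε / 2 from hw]
  have := h3.const_sub x
  rw [sub_zero] at this
  rw [← hx]
  refine this.congr fun n => ?_
  have e := rs_pow_ker h1 n
  rw [map_sub, sub_eq_iff_eq_add] at e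
  rw [e]; abel

end Vale.Agent.P239.HilbAux
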