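import Vale.Agent.P239.VDefs
import Vale.Agent.P239.HilbAux

/-! Dimension theory of Hilbert modules. -/

namespace Vale.Agent.P239

open Filter Topology Set HilbAux

variable {Γ : Type} [Group Γ] {ι ι' κ : Type} [Fintype ι] [Fintype ι'] [Fintype κ]

theorem rho_apply (g : Γ) (v : HM Γ ι) (i : ι) (x : Γ) : rho g v i x = v i (x * g) := rfl

theorem rho_add (g : Γ) (v w : HM Γ ι) : rho g (v + w) = rho g v + rho g w := rfl

theorem rho_sub (g : Γ) (v w : HM Γ ι) : rho g (v - w) = rho g v - rho g w := rfl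

theorem rho_smul (g : Γ) (c : ℂ) (v : HM Γ ι) : rho g (c • v) = c • rho g v := rfl

theorem rho_zero (g : Γ) : rho g (0 : HM Γ ι) = 0 := rfl

theorem inner_rho (g : Γ) (v w : HM Γ ι) : inner ℂ (rho g v) w = inner ℂ v (rho g⁻¹ w) := by
  simp only [PiLp.inner_apply, lp.inner_eq_tsum, rho_apply]
  refine Finset.sum_congr rfl fun i _ => ?_
  rw [← (Equiv.mulRight g).tsum_eq fun x => inner ℂ (v i x) (w i (x * g⁻¹))]
  simp

theorem inner_delta (i : ι) (v : HM Γ ι) : inner ℂ (delta Γ i) v = v i 1 := by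
  classical
  rw [PiLp.inner_apply, Finset.sum_eq_single i (fun j _ hj => by simp [delta, hj]) (by simp)]
  simp [delta, lp.inner_single_left]

theorem hdim_nonneg (V : Submodule ℂ (HM Γ ι)) : 0 ≤ hdim V :=
  Finset.sum_nonneg fun _ _ => sq_nonneg _

theorem CI.hdim_pos {V : Submodule ℂ (HM Γ ι)} (h : CI V) (hV : V ≠ ⊥) : 0 < hdim V := by
  refine (hdim_nonneg V).lt_of_ne fun e => hV ((Submodule.eq_bot_iff V).2 fun v hv => ?_)
  have z := (Finset.sum_eq_zero_iff_of_nonneg fun _ _ => sq_nonneg _).1 e.symm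
  ext i x
  have := Submodule.inner_left_of_mem_orthogonal (h.inv x v hv)
    (mem_orth (norm_eq_zero.1 (pow_eq_zero_iff two_ne_zero |>.1 (z i (Finset.mem_univ i)))))
  simpa [inner_delta, rho_apply] using this

theorem CI.orth {V : Submodule ℂ (HM Γ ι)} (h : CI V) : CI Vᗮ :=
  ⟨V.isClosed_orthogonal, fun g v hv => (V.mem_orthogonal' _).2 fun u hu => by
    rw [inner_rho]; exact Submodule.inner_left_of_mem_orthogonal (h.inv _ u hu) hv⟩

theorem CI.inf {V W : Submodule ℂ (HM Γ ι)} (h : CI V) (h' : CI W) : CI (V ⊓ W) :=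
  ⟨h.closed.inter h'.closed, fun g v hv => ⟨h.inv g v hv.1, h'.inv g v hv.2⟩⟩

theorem Eqv.adjoint {T : HM Γ ι →L[ℂ] HM Γ κ} (h : Eqv T) :
    Eqv (ContinuousLinearMap.adjoint T) := fun g v => ext_inner_right ℂ fun w => by
  rw [ContinuousLinearMap.adjoint_inner_left, inner_rho, inner_rho,
    ContinuousLinearMap.adjoint_inner_left, h]

theorem Eqv.ci_ker {T : HM Γ ι →L[ℂ] HM Γ κ} (h : Eqv T) : CI T.ker :=
  ⟨T.isClosed_ker, fun g v hv => (h g v).trans (by rw [show T v = 0 from hv, rho_zero])⟩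

theorem CI.eqv_proj {V : Submodule ℂ (HM Γ ι)} (h : CI V) :
    Eqv V.topologicalClosure.starProjection := fun g v =>
  pr_eq (h.inv g _ (pr_mem h.closed v)) (rho_sub g v _ ▸ h.orth.inv g _ (sub_pr V v))

theorem Eqv.comp {T : HM Γ ι →L[ℂ] HM Γ κ} {S : HM Γ ι' →L[ℂ] HM Γ ι} (h : Eqv T) (h' : Eqv S) :
    Eqv (T ∘L S) := fun g v => (congrArg T (h' g v)).trans (h g _)

theorem Eqv.add {T S : HM Γ ι →L[ℂ] HM Γ κ} (h : Eqv T) (h' : Eqv S) : Eqv (T + S) := fun g v => by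
  simp only [ContinuousLinearMap.add_apply, h g v, h' g v, rho_add]

theorem Eqv.smul {T : HM Γ ι →L[ℂ] HM Γ κ} (h : Eqv T) (c : ℂ) : Eqv (c • T) := fun g v => by
  simp only [ContinuousLinearMap.smul_apply, h g v, rho_smul]

theorem Eqv.rs_pow {T : HM Γ ι →L[ℂ] HM Γ κ} (h : Eqv T) (n : ℕ) : Eqv (rs T ^ n) := by
  induction n with
  | zero => exact fun _ _ => rfl
  | succ n ih =>
    intro g v
    rw [pow_succ', ContinuousLinearMap.mul_apply, ContinuousLinearMap.mul_apply, ih g v, rs_apply,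
      rs_apply, h g, h.adjoint g, rho_sub]

theorem CI.hdim_sub {V W : Submodule ℂ (HM Γ ι)} (h : CI V) (h' : CI W) (hle : V ≤ W) :
    hdim (W ⊓ Vᗮ) = hdim W - hdim V := by
  simp only [hdim, pr_sub h.closed h'.closed hle, Finset.sum_sub_distrib]

theorem tendsto_hdim {V : ℕ → Submodule ℂ (HM Γ ι)} (h : ∀ n, CI (V n)) (ha : Antitone V) :
    Tendsto (fun n => hdim (V n)) atTop (𝓝 (hdim (⨅ n, V n))) :=
  tendsto_finset_sum _ fun _ _ => (tendsto_pr (fun n => (h n).closed) ha _).norm.pow 2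

theorem Eqv.coef {A : HM Γ ι →L[ℂ] HM Γ κ} (h : Eqv A) (i : ι) (k : κ) (x : Γ) :
    A (delta Γ i) k x = starRingEnd ℂ (ContinuousLinearMap.adjoint A (delta Γ k) i x⁻¹) := by
  have e : ∀ (v : HM Γ κ), v k x = inner ℂ (rho x⁻¹ (delta Γ k)) v := fun v => by
    rw [inner_rho, inner_delta, rho_apply]; simp
  rw [e, ← ContinuousLinearMap.adjoint_inner_left, h.adjoint, ← inner_conj_symm, inner_delta,
    rho_apply, one_mul]

theorem Eqv.trace {A B : HM Γ ι →L[ℂ] HM Γ κ} (hA : Eqv A) (hB : Eqv B) :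
    ∑ i, inner ℂ (delta Γ i) (ContinuousLinearMap.adjoint A (B (delta Γ i))) =
      ∑ k, inner ℂ (delta Γ k) (B (ContinuousLinearMap.adjoint A (delta Γ k))) := by
  simp only [ContinuousLinearMap.adjoint_inner_right]
  conv_rhs => simp only [← ContinuousLinearMap.adjoint_inner_left B]
  simp only [PiLp.inner_apply, lp.inner_eq_tsum, hA.coef, hB.coef]
  rw [Finset.sum_comm]
  refine Finset.sum_congr rfl fun k _ => Finset.sum_congr rfl fun i _ => ?_
  rw [← (Equiv.inv Γ).tsum_eq]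
  simp [mul_comm]

theorem Eqv.trace_rs {T : HM Γ ι →L[ℂ] HM Γ κ} (h : Eqv T) (n : ℕ) :
    ∑ i, inner ℂ (delta Γ i) (delta Γ i - (rs T ^ n) (delta Γ i)) =
      ∑ k, inner ℂ (delta Γ k) (delta Γ k - (rs (ContinuousLinearMap.adjoint T) ^ n) (delta Γ k)) := by
  induction n with
  | zero => simp
  | succ n ih =>
    have := h.trace (h.comp (h.rs_pow n))
    simp only [ContinuousLinearMap.comp_apply, rs_pow_adj] at this
    simp only [pow_succ', ContinuousLinearMap.mul_apply, rs_apply, sub_sub_eq_add_sub,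
      add_sub_right_comm, inner_add_right, Finset.sum_add_distrib, ih, this,
      ContinuousLinearMap.adjoint_adjoint]

theorem hdim_lim {T : HM Γ ι →L[ℂ] HM Γ κ} (hT : ‖T‖ ≤ 1) :
    Tendsto (fun n => (∑ i, inner ℂ (delta Γ i) (delta Γ i - (rs T ^ n) (delta Γ i))).re) atTop
      (𝓝 (hdim T.kerᗮ)) := by
  simp only [Complex.re_sum, hdim, ← inner_pr (Submodule.isClosed_orthogonal _)]
  exact tendsto_finset_sum _ fun i _ => (Complex.continuous_re.tendsto _).comp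
    (tendsto_const_nhds.inner (tendsto_rs hT _))

theorem Eqv.hdim_ker {T : HM Γ ι →L[ℂ] HM Γ κ} (h : Eqv T) :
    hdim T.kerᗮ = hdim (ContinuousLinearMap.adjoint T).kerᗮ := by
  obtain ⟨c, c0, hc⟩ : ∃ c : ℂ, c ≠ 0 ∧ ‖c • T‖ ≤ 1 := by
    have p : 0 < ‖T‖ + 1 := by positivity
    refine ⟨((‖T‖ + 1)⁻¹ : ℝ), by exact_mod_cast (inv_pos.2 p).ne', ?_⟩
    rw [norm_smul, Complex.norm_of_nonneg (inv_pos.2 p).le, inv_mul_le_iff₀ p]; linarith
  have e1 : (c • T).ker = T.ker := by ext v; simp [c0]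
  have e2 : (ContinuousLinearMap.adjoint (c • T)).ker = (ContinuousLinearMap.adjoint T).ker := by
    ext v; simp [map_smulₛₗ, c0]
  rw [← e1, ← e2]
  refine tendsto_nhds_unique (hdim_lim hc) ?_
  simp only [(h.smul c).trace_rs]
  exact hdim_lim (by simpa using hc)

theorem CI.hdim_mono {V W : Submodule ℂ (HM Γ ι)} (h : CI V) (h' : CI W) (hle : V ≤ W) :
    hdim V ≤ hdim W := by
  linarith [h.hdim_sub h' hle, hdim_nonneg (W ⊓ Vᗮ)]

/-- Restriction of the index set. -/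
noncomputable def hilbRes (f : ι → κ) : HM Γ κ →L[ℂ] HM Γ ι :=
  (PiLp.continuousLinearEquiv 2 ℂ fun _ : ι => L2 Γ).symm.toContinuousLinearMap ∘L
    ContinuousLinearMap.pi fun i => PiLp.proj 2 (fun _ : κ => L2 Γ) (f i)

omit [Group Γ] in
theorem hilbRes_apply (f : ι → κ) (v : HM Γ κ) (i : ι) : hilbRes f v i = v (f i) := rfl

theorem eqv_hilbRes (f : ι → κ) : Eqv (hilbRes (Γ := Γ) f) := fun _ _ => rfl

theorem hilbRes_delta {f : ι → κ} (hf : Function.Injective f) (i : ι) :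
    hilbRes f (delta Γ (f i)) = delta Γ i := by
  classical
  refine PiLp.ext fun j => ?_
  simp [hilbRes_apply, delta, Pi.single_apply, hf.eq_iff]

omit [Group Γ] in
theorem norm_hilbRes {f : ι → κ} (hf : Function.Injective f) (v : HM Γ κ) : ‖hilbRes f v‖ ≤ ‖v‖ := by
  classical
  refine le_of_sq_le_sq ?_ (norm_nonneg _)
  simp only [PiLp.norm_sq_eq_of_L2, hilbRes_apply]
  rw [← Finset.sum_image (f := fun k => ‖v k‖ ^ 2) hf.injOn]
  exact Finset.sum_le_univ_sum_of_nonneg fun _ => sq_nonneg _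

theorem hdim_le_res {f : ι → κ} (hf : Function.Injective f) {V : Submodule ℂ (HM Γ ι)}
    {K : Submodule ℂ (HM Γ κ)} (hK : IsClosed (K : Set (HM Γ κ)))
    (h : ∀ v ∈ K, pr V (hilbRes f v) = 0) : hdim V ≤ ∑ i, ‖pr Kᗮ (delta Γ (f i))‖ ^ 2 :=
  Finset.sum_le_sum fun i _ => pow_le_pow_left₀ (norm_nonneg _) (by
    have := norm_le_pr (B := pr V ∘L hilbRes f) hK
      (fun v => (norm_pr_le _ _).trans (norm_hilbRes hf v)) h (delta Γ (f i))
    rwa [ContinuousLinearMap.comp_apply, hilbRes_delta hf] at this) 2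

/-- An injective equivariant operator does not decrease the dimension. -/
theorem hdim_add_le {V : Submodule ℂ (HM Γ ι)} {V' : Submodule ℂ (HM Γ ι')}
    {W : Submodule ℂ (HM Γ κ)} (hV : CI V) (hV' : CI V') (hW : CI W)
    {T : HM Γ ι →L[ℂ] HM Γ κ} {T' : HM Γ ι' →L[ℂ] HM Γ κ} (hT : Eqv T) (hT' : Eqv T')
    (h1 : ∀ v ∈ V, T v ∈ W) (h2 : ∀ v ∈ V', T' v ∈ W)
    (hinj : ∀ v ∈ V, ∀ v' ∈ V', T v + T' v' = 0 → v = 0 ∧ v' = 0) :
    hdim V + hdim V' ≤ hdim W := by
  obtain ⟨U, hU, e⟩ : ∃ U : HM Γ (ι ⊕ ι') →L[ℂ] HM Γ κ, Eqv U ∧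
      ∀ v, U v = T (pr V (hilbRes Sum.inl v)) + T' (pr V' (hilbRes Sum.inr v)) :=
    ⟨_, (hT.comp (hV.eqv_proj.comp (eqv_hilbRes Sum.inl))).add
      (hT'.comp (hV'.eqv_proj.comp (eqv_hilbRes Sum.inr))), fun _ => rfl⟩
  have k : ∀ v ∈ U.ker, pr V (hilbRes Sum.inl v) = 0 ∧ pr V' (hilbRes Sum.inr v) = 0 := fun v hv =>
    hinj _ (pr_mem hV.closed _) _ (pr_mem hV'.closed _) ((e v).symm.trans hv)
  have a1 : hdim V + hdim V' ≤ hdim U.kerᗮ := by
    rw [hdim.eq_1 U.kerᗮ, Fintype.sum_sum_type]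
    exact add_le_add (hdim_le_res Sum.inl_injective U.isClosed_ker fun v hv => (k v hv).1)
      (hdim_le_res Sum.inr_injective U.isClosed_ker fun v hv => (k v hv).2)
  refine a1.trans (hU.hdim_ker.trans_le (hU.adjoint.ci_ker.orth.hdim_mono hW ?_))
  refine (Submodule.orthogonal_le fun w hw => ?_).trans (orth_orth hW.closed).le
  refine ext_inner_left ℂ fun v => ?_
  rw [inner_zero_right, ContinuousLinearMap.coe_coe, ContinuousLinearMap.adjoint_inner_right, e]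
  exact Submodule.inner_right_of_mem_orthogonal
    (add_mem (h1 _ (pr_mem hV.closed _)) (h2 _ (pr_mem hV'.closed _))) hw

theorem adjoint_mem_orth {T : HM Γ ι →L[ℂ] HM Γ κ} (y : HM Γ κ) :
    ContinuousLinearMap.adjoint T y ∈ T.kerᗮ := fun u hu => by
  rw [ContinuousLinearMap.adjoint_inner_right, show T u = 0 from hu, inner_zero_left]

/-- Essential density: a vector of `A` whose image under `Z` lies in the range of some
adjoint of `T n`. -/
theorem exists_vec {A : Submodule ℂ (HM Γ ι)} (hA : CI A) (hA0 : A ≠ ⊥)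
    {Z : HM Γ κ →L[ℂ] HM Γ ι} (hZ : Eqv Z) {T : ∀ n : ℕ, HM Γ κ →L[ℂ] HM Γ (Fin n)}
    (hT : ∀ n, Eqv (T n)) (ha : Antitone fun n => (T n).ker)
    (hk : ∀ v, (∀ n, T n v = 0) → Z v = 0) :
    ∃ n, ∃ u ∈ A, u ≠ 0 ∧ ∃ y, ContinuousLinearMap.adjoint Z u =
      ContinuousLinearMap.adjoint (T n) y := by
  have cV : CI (⨅ n, (T n).ker) := ⟨by
    rw [Submodule.coe_iInf]; exact isClosed_iInter fun n => (T n).isClosed_ker,
    fun g v hv => (Submodule.mem_iInf _).2 fun n => (hT n).ci_ker.inv g v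
      ((Submodule.mem_iInf _).1 hv n)⟩
  obtain ⟨n, hn⟩ := ((tendsto_hdim (fun n => (hT n).ci_ker) ha).eventually
    (gt_mem_nhds (lt_add_of_pos_right _ (hA.hdim_pos hA0)))).exists
  have cK := (hT n).ci_ker
  have eB := cK.eqv_proj.comp hZ.adjoint
  have c0 := hA.inf eB.ci_ker
  have le : (⨅ n, (T n).ker) ≤ (T n).ker := iInf_le _ n
  have n0 : A ⊓ (pr (T n).ker ∘L ContinuousLinearMap.adjoint Z).ker ≠ ⊥ := fun h0 => by
    have := hdim_add_le (T' := (0 : HM Γ ι →L[ℂ] HM Γ κ)) hA (V' := ⊥)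
      ⟨by simp, fun g v hv => by rw [(Submodule.mem_bot ℂ).1 hv]; rfl⟩ (cK.inf cV.orth) eB
      (fun _ _ => rfl) (fun v _ => ⟨pr_mem cK.closed _, ?_⟩) (fun _ _ => zero_mem _)
      fun v hv v' hv' e => ⟨(Submodule.eq_bot_iff _).1 h0 v ⟨hv, by simpa using e⟩, hv'⟩
    · linarith [cV.hdim_sub cK le, hdim_nonneg (⊥ : Submodule ℂ (HM Γ ι))]
    · have m1 : ContinuousLinearMap.adjoint Z v ∈ (⨅ n, (T n).ker)ᗮ :=
        Submodule.orthogonal_le (fun w hw => hk w ((Submodule.mem_iInf _).1 hw)) (adjoint_mem_orth v)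
      simpa using sub_mem m1 (Submodule.orthogonal_le le (sub_pr _ (ContinuousLinearMap.adjoint Z v)))
  by_contra hc
  push Not at hc
  have := hdim_add_le c0 (hT n).adjoint.ci_ker.orth cK.orth hZ.adjoint ((hT n).adjoint.smul (-1))
    (fun v hv => mem_orth hv.2) (fun v _ => Submodule.smul_mem _ _ (adjoint_mem_orth v))
    fun v hv y hy e => by
      have e' : ContinuousLinearMap.adjoint Z v = ContinuousLinearMap.adjoint (T n) y := by
        simpa [add_neg_eq_zero] using e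
      obtain rfl : v = 0 := by_contra fun h => hc n v hv.1 h y e'
      rw [map_zero] at e'
      exact ⟨rfl, inner_self_eq_zero.1 (hy y e'.symm)⟩
  linarith [(hT n).hdim_ker, c0.hdim_pos n0]

end Vale.Agent.P239
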