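import Vale.Agent.P239.Sing

/-! Homotopy invariance and acyclicity of contractible spaces. -/

namespace Vale.Agent.P239

open Filter Topology Set

variable {R : Type} [Ring R] {X Y : Type} [TopologicalSpace X] [TopologicalSpace Y]

section bridge

open CategoryTheory Limits AlgebraicTopology
open scoped Simplicial

variable {n : ℕ}

abbrev htpyRR (R : Type) [Ring R] : ModuleCat.{0} R := ModuleCat.of R R

noncomputable abbrev htpyCC (R : Type) [Ring R] :
    TopCat.{0} ⥤ ChainComplex (ModuleCat.{0} R) ℕ :=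
  (singularChainComplexFunctor (ModuleCat.{0} R)).obj (htpyRR R)

noncomputable def htpyCh (R : Type) [Ring R] (σ : C(Sx n, X)) :
    htpyRR R ⟶ ((htpyCC R).obj (TopCat.of X)).X n :=
  (TopCat.toSSet.obj (TopCat.of X)).ιChainComplex (R := htpyRR R)
    (((TopCat.of X).toSSetObjEquiv (Opposite.op ⦋n⦌)).symm σ)

theorem htpyCh_d (σ : C(Sx (n + 1), X)) :
    htpyCh R σ ≫ ((htpyCC R).obj (TopCat.of X)).d (n + 1) n =
      ∑ i : Fin (n + 2), (-1) ^ i.val • htpyCh R (σ.comp (face i)) :=
  SSet.ιChainComplex_d _ _ _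

theorem htpyCh_map (g : C(X, Y)) (σ : C(Sx n, X)) :
    htpyCh R σ ≫ ((htpyCC R).map (TopCat.ofHom g)).f n = htpyCh R (g.comp σ) :=
  SSet.ι_chainComplexMap_f _ _ (TopCat.toSSet.map (TopCat.ofHom g)) (htpyRR R) _

theorem htpyCh_ext {T : ModuleCat.{0} R} {a b : ((htpyCC R).obj (TopCat.of X)).X n ⟶ T}
    (h : ∀ σ, htpyCh R σ ≫ a = htpyCh R σ ≫ b) : a = b :=
  SSet.chainComplex_hom_ext (X := TopCat.toSSet.obj (TopCat.of X)) fun x => by
    have := h ((TopCat.of X).toSSetObjEquiv _ x)
    rwa [htpyCh, Equiv.symm_apply_apply] at this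

noncomputable def htpyFrom (R : Type) [Ring R] (X : Type) [TopologicalSpace X] (n : ℕ) :
    ((htpyCC R).obj (TopCat.of X)).X n ⟶ ModuleCat.of R (Sch R X n) :=
  Sigma.desc fun x : (TopCat.toSSet.obj (TopCat.of X)) _⦋n⦌ =>
    ModuleCat.ofHom (Finsupp.lsingle ((TopCat.of X).toSSetObjEquiv _ x))

theorem htpyCh_from (σ : C(Sx n, X)) :
    htpyCh R σ ≫ htpyFrom R X n = ModuleCat.ofHom (Finsupp.lsingle σ) :=
  (Sigma.ι_desc _ _).trans (by rw [Equiv.apply_symm_apply])

noncomputable def htpyTo (R : Type) [Ring R] (X : Type) [TopologicalSpace X] (n : ℕ) :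
    Sch R X n →ₗ[R] ((htpyCC R).obj (TopCat.of X)).X n :=
  Finsupp.lsum ℕ fun σ => (htpyCh R σ).hom

theorem htpyTo_single (σ : C(Sx n, X)) (a : R) :
    htpyTo R X n (Finsupp.single σ a) = (htpyCh R σ).hom a := by
  simp [htpyTo]

theorem htpyTo_d (z : Sch R X (n + 1)) :
    (((htpyCC R).obj (TopCat.of X)).d (n + 1) n).hom (htpyTo R X (n + 1) z) =
      htpyTo R X n (bd0 R X n z) := by
  induction z using Finsupp.induction_linear with
  | zero => simp only [map_zero]
  | add f g hf hg => simp only [map_add, hf, hg]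
  | single σ a =>
    rw [bd0_single, map_sum, htpyTo_single]
    have := congrArg (fun u => ModuleCat.Hom.hom u a) (htpyCh_d (R := R) σ)
    simp only [ModuleCat.hom_comp, LinearMap.comp_apply, ModuleCat.hom_sum, LinearMap.sum_apply,
      ModuleCat.hom_zsmul, LinearMap.smul_apply] at this
    rw [this]
    simp only [map_zsmul, htpyTo_single]

theorem htpyFrom_d (c : ((htpyCC R).obj (TopCat.of X)).X (n + 1)) :
    (htpyFrom R X n).hom ((((htpyCC R).obj (TopCat.of X)).d (n + 1) n).hom c) =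
      bd0 R X n ((htpyFrom R X (n + 1)).hom c) := by
  have : ((htpyCC R).obj (TopCat.of X)).d (n + 1) n ≫ htpyFrom R X n =
      htpyFrom R X (n + 1) ≫ ModuleCat.ofHom (bd0 R X n) := by
    refine htpyCh_ext fun σ => ?_
    rw [← Category.assoc, ← Category.assoc, htpyCh_d, htpyCh_from, Preadditive.sum_comp]
    simp only [Preadditive.zsmul_comp, htpyCh_from]
    refine ModuleCat.hom_ext (LinearMap.ext fun a => ?_)
    simp only [ModuleCat.hom_comp, LinearMap.comp_apply, ModuleCat.hom_sum, LinearMap.sum_apply,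
      ModuleCat.hom_zsmul, LinearMap.smul_apply, ModuleCat.hom_ofHom, Finsupp.lsingle_apply,
      bd0_single]
  exact congrArg (fun u => ModuleCat.Hom.hom u c) this

theorem htpyFrom_map (g : C(X, Y)) (z : Sch R X n) :
    (htpyFrom R Y n).hom ((((htpyCC R).map (TopCat.ofHom g)).f n).hom (htpyTo R X n z)) =
      push R g n z := by
  induction z using Finsupp.induction_linear with
  | zero => simp only [map_zero]
  | add f g hf hg => simp only [map_add, hf, hg]
  | single σ a =>
    rw [htpyTo_single, push_single]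
    have h1 := congrArg (fun u => ModuleCat.Hom.hom u a) (htpyCh_map (R := R) g σ)
    have h2 := congrArg (fun u => ModuleCat.Hom.hom u a) (htpyCh_from (R := R) (g.comp σ))
    simp only [ModuleCat.hom_comp, LinearMap.comp_apply, ModuleCat.hom_ofHom,
      Finsupp.lsingle_apply] at h1 h2
    rw [h1, h2]

end bridge

theorem exists_prism {f g : C(X, Y)} (H : f.Homotopy g) :
    ∃ h : ∀ n, Sch R X n →ₗ[R] Sch R Y (n + 1),
      (∀ z, bd0 R Y 0 (h 0 z) = push R g 0 z - push R f 0 z) ∧
      ∀ n z, bd0 R Y (n + 1) (h (n + 1) z) + h n (bd0 R X n z) =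
        push R g (n + 1) z - push R f (n + 1) z := by
  have K := TopCat.Homotopy.singularChainComplexFunctorObjMap
    (f := TopCat.ofHom g) (g := TopCat.ofHom f) H.symm (htpyRR R)
  refine ⟨fun n => (htpyFrom R Y (n + 1)).hom ∘ₗ (K.hom n (n + 1)).hom ∘ₗ htpyTo R X n,
    fun z => ?_, fun n z => ?_⟩
  · have h := K.comm 0
    rw [Homotopy.dNext_zero_chainComplex, Homotopy.prevD_chainComplex, zero_add] at h
    have h1 := congrArg (fun u => (htpyFrom R Y 0).hom (ModuleCat.Hom.hom u (htpyTo R X 0 z))) h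
    simp only [ModuleCat.hom_add, ModuleCat.hom_comp, LinearMap.add_apply, LinearMap.comp_apply,
      map_add] at h1
    rw [htpyFrom_map, htpyFrom_map, htpyFrom_d] at h1
    rw [h1]
    simp only [LinearMap.comp_apply, add_sub_cancel_right]
  · have h := K.comm (n + 1)
    rw [Homotopy.dNext_succ_chainComplex, Homotopy.prevD_chainComplex] at h
    have h1 := congrArg
      (fun u => (htpyFrom R Y (n + 1)).hom (ModuleCat.Hom.hom u (htpyTo R X (n + 1) z))) h
    simp only [ModuleCat.hom_add, ModuleCat.hom_comp, LinearMap.add_apply, LinearMap.comp_apply,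
      map_add] at h1
    rw [htpyFrom_map, htpyFrom_map, htpyFrom_d, htpyTo_d] at h1
    rw [h1]
    simp only [LinearMap.comp_apply, add_sub_cancel_right]
    exact add_comm _ _

theorem htpy_push_const (x : Y) {n : ℕ} (z : Sch R X n) :
    push R (ContinuousMap.const X x) n z =
      Finsupp.single (ContinuousMap.const (Sx n) x)
        (Finsupp.linearCombination R (fun _ => (1 : R)) z) := by
  induction z using Finsupp.induction_linear with
  | zero => simp only [map_zero, Finsupp.single_zero]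
  | add f g hf hg => simp only [map_add, hf, hg, Finsupp.single_add]
  | single σ a =>
    rw [push_single, Finsupp.linearCombination_single, smul_eq_mul, mul_one]
    rfl

theorem htpy_bd0_const (x : X) (n : ℕ) (a : R) :
    bd0 R X n (Finsupp.single (ContinuousMap.const (Sx (n + 1)) x) a) =
      if Even n then 0 else Finsupp.single (ContinuousMap.const (Sx n) x) a := by
  rw [bd0_single]
  have : ∀ i : Fin (n + 2), (ContinuousMap.const (Sx (n + 1)) x).comp (face i) =
      ContinuousMap.const (Sx n) x := fun _ => rfl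
  simp only [this]
  rw [← Finset.sum_smul, Fin.sum_univ_eq_sum_range (fun i => (-1 : ℤ) ^ i), neg_one_geom_sum]
  by_cases h : Even n
  · rw [if_pos h, if_pos (by simpa [Nat.even_add] using h), zero_smul]
  · rw [if_neg h, if_neg (by simpa [Nat.even_add] using h), one_smul]

theorem acyclic [ContractibleSpace X] {n : ℕ} (z : Sch R X (n + 1)) (hz : bd0 R X n z = 0) :
    ∃ y, bd0 R X (n + 1) y = z := by
  obtain ⟨x, ⟨H⟩⟩ := id_nullhomotopic X
  obtain ⟨h, -, h1⟩ := exists_prism (R := R) H.symm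
  have h2 := h1 n z
  rw [hz, map_zero, add_zero, push_id] at h2
  have h3 := bd0_push (ContinuousMap.const X x) z
  rw [hz, map_zero, htpy_push_const, htpy_bd0_const] at h3
  rw [htpy_push_const] at h2
  generalize Finsupp.linearCombination R (fun _ => (1 : R)) z = a at h2 h3
  by_cases he : Even n
  · refine ⟨h (n + 1) z + Finsupp.single (ContinuousMap.const _ x) a, ?_⟩
    rw [map_add, h2, htpy_bd0_const, if_neg (by simpa [Nat.even_add_one] using he),
      sub_add_cancel]
  · rw [if_neg he, Finsupp.single_eq_zero] at h3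
    exact ⟨h (n + 1) z, by rw [h2, h3, Finsupp.single_zero, sub_zero]⟩

theorem acyclic_zero [ContractibleSpace X] (z : Sch R X 0) (hz : aug R X z = 0) :
    ∃ y, bd0 R X 0 y = z := by
  obtain ⟨x, ⟨H⟩⟩ := id_nullhomotopic X
  obtain ⟨h, h1, -⟩ := exists_prism (R := R) H.symm
  refine ⟨h 0 z, ?_⟩
  have hz' : Finsupp.linearCombination R (fun _ => (1 : R)) z = 0 := hz
  rw [h1, push_id, htpy_push_const, hz', Finsupp.single_zero, sub_zero]

theorem acyclic_On {U : Set X} [ContractibleSpace U] {n : ℕ} {z : Sch R X (n + 1)}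
    (hU : z ∈ On R U (n + 1)) (hz : bd0 R X n z = 0) :
    ∃ y ∈ On R U (n + 2), bd0 R X (n + 1) y = z := by
  obtain ⟨z', rfl⟩ := mem_On_iff_incl.1 hU
  rw [bd0_push, ← map_zero (push R (incl U) n)] at hz
  obtain ⟨y, rfl⟩ := acyclic z' (push_injective Subtype.val_injective hz)
  exact ⟨_, mem_On_iff_incl.2 ⟨y, rfl⟩, bd0_push _ _⟩

theorem acyclic_On_zero {U : Set X} [ContractibleSpace U] {z : Sch R X 0}
    (hU : z ∈ On R U 0) (hz : aug R X z = 0) : ∃ y ∈ On R U 1, bd0 R X 0 y = z := by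
  obtain ⟨z', rfl⟩ := mem_On_iff_incl.1 hU
  rw [aug_push] at hz
  obtain ⟨y, rfl⟩ := acyclic_zero z' hz
  exact ⟨_, mem_On_iff_incl.2 ⟨y, rfl⟩, bd0_push _ _⟩

/-- A deformation `H` of `U` inside `V` moves cycles of `U` to homologous cycles in `W`. -/
theorem deform {U V W : Set X} (H : C(unitInterval × U, X)) (h0 : ∀ x : U, H (0, x) = x)
    (hV : ∀ p, H p ∈ V) (h1 : ∀ x : U, H (1, x) ∈ W) {n : ℕ} {z : Sch R X (n + 1)}
    (hU : z ∈ On R U (n + 1)) (hz : bd0 R X n z = 0) :
    ∃ y ∈ On R V (n + 2), z - bd0 R X (n + 1) y ∈ On R W (n + 1) := by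
  obtain ⟨z', rfl⟩ := mem_On_iff_incl.1 hU
  rw [bd0_push, ← map_zero (push R (incl U) n)] at hz
  have hz' : bd0 R U n z' = 0 := push_injective Subtype.val_injective hz
  let f0 : C(U, V) := ⟨fun x => ⟨H (0, x), hV _⟩, by fun_prop⟩
  let f1 : C(U, V) := ⟨fun x => ⟨H (1, x), hV _⟩, by fun_prop⟩
  let K : f0.Homotopy f1 := ⟨⟨fun p => ⟨H p, hV _⟩, by fun_prop⟩, fun _ => rfl, fun _ => rfl⟩
  obtain ⟨h, -, h2⟩ := exists_prism (R := R) K.symm
  have h3 := h2 n z'
  rw [hz', map_zero, add_zero] at h3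
  refine ⟨_, mem_On_iff_incl.2 ⟨h (n + 1) z', rfl⟩, ?_⟩
  have e : (incl V).comp f0 = incl U := ContinuousMap.ext h0
  rw [bd0_push, h3, map_sub, push_push, push_push, e, sub_sub_cancel]
  refine push_mem_On (U := univ) _ (fun x _ => h1 x) ?_
  rw [On_univ]
  trivial

end Vale.Agent.P239
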