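import Vale.Agent.P239.MKey
import Vale.Agent.P239.Word

/-! From harmonic Dirichlet functions to modules over the von Neumann algebra. -/

namespace Vale.Agent.P239

open Filter Topology Set
open scoped Pointwise

variable {Γ : Type} [Group Γ]

namespace KeyAux

open Finsupp

/-- The boundary of one-chains. -/
noncomputable def bdL (S : Finset Γ) : (Γ → (Γ →₀ ℤ)) →ₗ[ℤ] (Γ →₀ ℤ) :=
  ∑ s ∈ S, (lmapDomain ℤ ℤ (fun g => g * s) - LinearMap.id) ∘ₗ LinearMap.proj s

theorem bdL_apply (S : Finset Γ) (r : Γ → (Γ →₀ ℤ)) :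
    bdL S r = ∑ s ∈ S, (mapDomain (fun g => g * s) (r s) - r s) := by
  simp [bdL, LinearMap.sum_apply]

/-- The pairing of a form with one-chains. -/
noncomputable def prL (S : Finset Γ) (V : Γ → Γ → ℂ) : (Γ → (Γ →₀ ℤ)) →ₗ[ℤ] ℂ :=
  ∑ s ∈ S, linearCombination ℤ (V s) ∘ₗ LinearMap.proj s

omit [Group Γ] in
theorem prL_apply (S : Finset Γ) (V : Γ → Γ → ℂ) (r : Γ → (Γ →₀ ℤ)) :
    prL S V r = ∑ s ∈ S, (r s).sum fun g k => k • V s g := by
  simp only [prL, LinearMap.sum_apply, LinearMap.comp_apply, LinearMap.proj_apply,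
    linearCombination_apply]

theorem exists_edge {S : Finset Γ} (V : Γ → Γ → ℂ) (x : Γ) {a : Γ} (ha : a ∈ S) :
    ∃ e, bdL S e = single (x * a) 1 - single x 1 ∧ prL S V e = V a x := by
  classical
  refine ⟨Pi.single a (single x 1), ?_, ?_⟩
  · rw [bdL_apply, Finset.sum_eq_single a (fun b _ hb => by simp [hb]) (fun h => absurd ha h)]
    simp
  · rw [prL_apply, Finset.sum_eq_single a (fun b _ hb => by simp [hb]) (fun h => absurd ha h)]
    simp

theorem exists_path {S : Finset Γ} (l : List Γ) (hl : ∀ s ∈ l, s ∈ S) (x : Γ) :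
    ∃ p, bdL S p = single (x * l.prod) 1 - single x 1 := by
  induction l generalizing x with
  | nil => exact ⟨0, by simp⟩
  | cons a l ih =>
    obtain ⟨p, hp⟩ := ih (fun s hs => hl s (by simp [hs])) (x * a)
    obtain ⟨e, he, -⟩ := exists_edge (fun _ _ => 0) x (hl a (by simp))
    exact ⟨p + e, by simp [hp, he, mul_assoc]⟩

theorem const_zero [Infinite Γ] {f : L2 Γ} (h : ∀ x, ‖f x‖ = ‖f 1‖) : f = 0 := by
  have := (lp.memℓp f).summable (by norm_num)
  simp only [h, summable_const_iff] at this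
  ext x
  simpa [← h x] using this

section ring

variable {N : Type} [Ring N]

theorem lc_right {ι : Γ → N} (h : ∀ g k, ι (g * k) = ι g * ι k) (S : Finset Γ) (r : Γ → (Γ →₀ ℤ)) :
    ∑ s ∈ S, linearCombination ℤ ι (r s) * (ι s - 1) = linearCombination ℤ ι (bdL S r) := by
  rw [bdL_apply, map_sum]
  refine Finset.sum_congr rfl fun s _ => ?_
  rw [map_sub, linearCombination_mapDomain, mul_sub, mul_one, linearCombination_apply,
    linearCombination_apply, Finsupp.sum_mul]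
  simp [h, mul_assoc]

theorem lc_coc {ι κ : Γ → N} (h : ∀ g k, κ (g * k) = κ g + κ k * ι g) (S : Finset Γ)
    (r : Γ → (Γ →₀ ℤ)) :
    ∑ s ∈ S, κ s * linearCombination ℤ ι (r s) = linearCombination ℤ κ (bdL S r) := by
  rw [bdL_apply, map_sum]
  refine Finset.sum_congr rfl fun s _ => ?_
  rw [map_sub, linearCombination_mapDomain, linearCombination_apply, linearCombination_apply,
    linearCombination_apply, Finsupp.mul_sum, ← Finsupp.sum_sub]
  refine Finsupp.sum_congr fun g _ => ?_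
  rw [Function.comp, h, smul_add, add_sub_cancel_left, mul_smul_comm]

theorem coc_ext {ι κ : Γ → N} (h1 : ι 1 = 1) (hι : ∀ g k, ι (g * k) = ι k * ι g)
    (h : ∀ g k, κ (g * k) = κ g + κ k * ι g) {x b : N} (l : List Γ)
    (hl : ∀ s ∈ l, x * κ s = b * (ι s - 1)) : x * κ l.prod = b * (ι l.prod - 1) := by
  induction l with
  | nil =>
    have := h 1 1
    rw [mul_one, h1, mul_one, left_eq_add] at this
    simp [this, h1]
  | cons a l ih =>
    rw [List.prod_cons, h, hι, mul_add, ← mul_assoc, hl a (by simp),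
      ih fun s hs => hl s (by simp [hs])]
    noncomm_ring

theorem tw_mul {lm : Γ → N} (h : ∀ g k, lm (g * k) = lm g * lm k) (w : Γ →* ℤˣ) (g k : Γ) :
    (w (g * k) : ℤ) • lm (g * k)⁻¹ = ((w k : ℤ) • lm k⁻¹) * ((w g : ℤ) • lm g⁻¹) := by
  rw [mul_inv_rev, h, smul_mul_smul_comm, map_mul, Units.val_mul, mul_comm]

end ring

/-- Evaluation on a vector. -/
noncomputable def evv (u : L2 Γ) : NG Γ →+ L2 Γ where
  toFun a := a.1 u
  map_zero' := rfl
  map_add' _ _ := rfl

theorem sum_apply0 {S : Finset Γ} {a b : Γ → NG Γ} (h : ∑ s ∈ S, a s * b s = 0) (u : L2 Γ) :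
    ∑ k : S, (a k).1 ((b k).1 u) = 0 := by
  have := congrArg (evv u) h
  rw [map_sum, map_zero] at this
  exact (Finset.sum_coe_sort S fun s => evv u (a s * b s)).trans this

theorem lc_apply (ι : Γ → NG Γ) (r : Γ →₀ ℤ) (u : L2 Γ) :
    (linearCombination ℤ ι r).1 u = r.sum fun g k => k • (ι g).1 u :=
  (map_finsuppSum (evv u) r _).trans (Finsupp.sum_congr fun _ _ => map_zsmul (evv u) _ _)

theorem summable_inv (f : L2 Γ) : Summable fun y => ‖f y⁻¹‖ ^ 2 := by
  simpa [Function.comp_def] using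
    (Equiv.inv Γ).summable_iff.2 ((lp.memℓp f).summable (by norm_num))

omit [Group Γ] in
theorem exists_ext {S : Finset Γ} {A : Type} [Zero A] (v : S → A) : ∃ v' : Γ → A, ∀ k : S, v' k = v k :=
  ⟨Function.extend Subtype.val v 0, Subtype.val_injective.extend_apply _ _⟩

omit [Group Γ] in
theorem inner_single [DecidableEq Γ] (x : Γ) (f : L2 Γ) : inner ℂ (lp.single 2 x 1 : L2 Γ) f = f x := by
  simp [lp.inner_single_left]

end KeyAux

open KeyAux

/-- Square summable, closed and coclosed one forms vanish. -/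
theorem core (S : Gen Γ)
    (hHD : ∀ u : Γ → ℝ, S.Dir u → (∀ x, S.P u x = u x) → ∀ x y, u x = u y)
    (V : Γ → Γ → ℂ) (hV : ∀ s ∈ S.S, Summable fun y => ‖V s y‖ ^ 2)
    (hc : ∀ r : Γ → (Γ →₀ ℤ),
      ∑ s ∈ S.S, (Finsupp.mapDomain (fun g => g * s) (r s) - r s) = 0 →
      ∑ s ∈ S.S, ((r s).sum fun g k => k • V s g) = 0)
    (hd : ∀ y, ∑ s ∈ S.S, (V s (y * s⁻¹) - V s y) = 0) : ∀ s ∈ S.S, ∀ y, V s y = 0 := by
  simp only [← bdL_apply, ← prL_apply] at hc
  choose p hp using fun y : Γ => show ∃ p, bdL S.S p = Finsupp.single y 1 - Finsupp.single 1 1 by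
    obtain ⟨l, hl, rfl⟩ := S.gen y
    simpa using exists_path l hl 1
  obtain ⟨U, hU⟩ : ∃ U : Γ → ℂ, ∀ s ∈ S.S, ∀ y, V s y = U (y * s) - U y :=
    ⟨fun y => prL S.S V (p y), fun s hs y => by
      obtain ⟨e, h1, h2⟩ := exists_edge V y hs
      have := hc (p (y * s) - p y - e) (by simp [hp, h1])
      rwa [map_sub, map_sub, h2, sub_eq_zero, eq_comm] at this⟩
  have har : ∀ y, ∑ s ∈ S.S, U (y * s) = S.S.card * U y := fun y => by
    have e : ∑ s ∈ S.S, U (y * s⁻¹) = ∑ s ∈ S.S, U (y * s) :=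
      Finset.sum_nbij' (fun s => s⁻¹) (fun s => s⁻¹) S.inv_mem S.inv_mem (by simp) (by simp) (by simp)
    have := hd y
    rw [Finset.sum_congr rfl fun s hs => by rw [hU s hs, hU s hs, inv_mul_cancel_right]] at this
    simp only [Finset.sum_sub_distrib, e, Finset.sum_const, nsmul_eq_mul] at this
    linear_combination (-1 / 2) * this
  have k : ∀ φ : ℂ →ₗ[ℝ] ℝ, (∀ z, |φ z| ≤ ‖z‖) → ∀ s ∈ S.S, ∀ y, φ (V s y) = 0 := fun φ hφ s hs y => by
    rw [hU s hs, map_sub, sub_eq_zero]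
    refine hHD (fun y => φ (U y)) (Summable.of_nonneg_of_le
      (fun x => Finset.sum_nonneg fun _ _ => sq_nonneg _) (fun x => Finset.sum_le_sum fun t ht => ?_)
      (summable_sum hV)) (fun x => ?_) _ _
    · rw [← map_sub, hU t ht, norm_sub_rev, sq_le_sq, abs_norm]; exact hφ _
    · rw [Gen.P, ← map_sum, har, div_eq_iff S.card_pos'.ne', ← nsmul_eq_mul, map_nsmul, nsmul_eq_mul,
        mul_comm]
  exact fun s hs y => Complex.ext (k Complex.reLm Complex.abs_re_le_norm s hs y)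
    (k Complex.imLm Complex.abs_im_le_norm s hs y)

theorem key (S : Gen Γ)
    (hHD : ∀ u : Γ → ℝ, S.Dir u → (∀ x, S.P u x = u x) → ∀ x y, u x = u y)
    (z : Γ → NG Γ) (hz : ∑ s ∈ S.S, z s * (lam s - 1) = 0) (a : NG Γ) (ha : a ≠ 0) :
    ∃ x : NG Γ, x * a ≠ 0 ∧ ∃ (n : ℕ) (y : Fin n → NG Γ) (r : Fin n → Γ → (Γ →₀ ℤ)),
      (∀ j, ∑ s ∈ S.S, (Finsupp.mapDomain (fun g => g * s) (r j s) - r j s) = 0) ∧
      ∀ s ∈ S.S, x * z s = ∑ j, y j * (r j s).sum fun g k => k • lam g := by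
  classical
  have := S.countable
  obtain ⟨r, hr, hs⟩ : ∃ r : ℕ → Γ → (Γ →₀ ℤ), (∀ j, bdL S.S (r j) = 0) ∧
      ∀ r', bdL S.S r' = 0 → ∃ j, ∀ k : S.S, r j k = r' k := by
    have : Nonempty {ρ : S.S → (Γ →₀ ℤ) // ∃ r, bdL S.S r = 0 ∧ ∀ k : S.S, r k = ρ k} :=
      ⟨⟨0, 0, map_zero _, fun _ => rfl⟩⟩
    obtain ⟨e, he⟩ := exists_surjective_nat
      {ρ : S.S → (Γ →₀ ℤ) // ∃ r, bdL S.S r = 0 ∧ ∀ k : S.S, r k = ρ k}
    choose r h1 h2 using fun j => (e j).2
    refine ⟨r, h1, fun r' hr' => ?_⟩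
    obtain ⟨j, hj⟩ := he ⟨fun k => r' k, r', hr', fun _ => rfl⟩
    exact ⟨j, fun k => by rw [h2, hj]⟩
  obtain ⟨x, hx, n, y, e⟩ := mkey (fun k : S.S => z k)
    (fun j k => Finsupp.linearCombination ℤ lam (r j k))
    (row_zero (Set.range fun (u : L2 Γ) (k : S.S) => (lam (k : Γ) - 1 : NG Γ).1 u) _ _
      (by
        rintro j _ ⟨u, rfl⟩
        exact sum_apply0 (a := fun s => Finsupp.linearCombination ℤ lam (r j s))
          (b := fun s => lam s - 1) ((lc_right lam_mul _ _).trans (by rw [hr, map_zero])) u)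
      (by rintro _ ⟨u, rfl⟩; exact sum_apply0 (b := fun s => lam s - 1) hz u)
      fun v h1 h2 => by
        obtain ⟨v', hv⟩ := exists_ext v
        have := core S hHD (fun s y => v' s y⁻¹) (fun s _ => summable_inv _) (fun r' hr' => ?_)
          fun y => ?_
        · ext k x
          simpa [hv] using this k k.2 x⁻¹
        · obtain ⟨j, hj⟩ := hs r' ((bdL_apply _ _).trans hr')
          have := congrArg (inner ℂ (lp.single 2 (1 : Γ) (1 : ℂ) : L2 Γ)) (h1 j)
          rw [← Finset.sum_coe_sort]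
          simpa [inner_sum, lc_apply, Finsupp.sum, hj, hv, inner_single, lam_apply] using this
        · have := h2 _ ⟨lp.single 2 y⁻¹ 1, rfl⟩
          rw [← Finset.sum_coe_sort]
          simpa [inner_sub_left, inner_lam, inner_single, lam_apply, hv] using this) a ha
  exact ⟨x, hx, n, y, fun j => r j, fun j => (bdL_apply _ _).symm.trans (hr j),
    fun s hs => e ⟨s, hs⟩⟩

theorem key0 [Infinite Γ] [Countable Γ] (b a : NG Γ) (ha : a ≠ 0) :
    ∃ x : NG Γ, x * a ≠ 0 ∧ ∃ (n : ℕ) (y : Fin n → NG Γ) (g : Fin n → Γ),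
      x * b = ∑ j, y j * (lam (g j) - 1) := by
  obtain ⟨g, hg⟩ := exists_surjective_nat Γ
  obtain ⟨x, hx, n, y, e⟩ := mkey (fun _ : Unit => b) (fun j _ => lam (g j) - 1) (fun v hv => by
    have : v () = 0 := const_zero fun x => by
      obtain ⟨j, hj⟩ := hg x⁻¹
      have := congrArg (fun f : L2 Γ => f 1) (hv j)
      simp only [Finset.univ_unique, Finset.sum_singleton, hj] at this
      have e : v () (x⁻¹⁻¹ * 1) - v () 1 = 0 := this
      rw [inv_inv, mul_one, sub_eq_zero] at e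
      rw [e]
    simp [this]) a ha
  exact ⟨x, hx, n, y, fun j => g j, e ()⟩

theorem key3 (S : Gen Γ)
    (hHD : ∀ u : Γ → ℝ, S.Dir u → (∀ x, S.P u x = u x) → ∀ x y, u x = u y)
    (w : Γ →* ℤˣ) (κ : Γ → NG Γ) (hκ : ∀ g k, κ (g * k) = κ g + κ k * ((w g : ℤ) • lam g⁻¹))
    (a : NG Γ) (ha : a ≠ 0) :
    ∃ x b : NG Γ, x * a ≠ 0 ∧ ∀ g, x * κ g = b * ((w g : ℤ) • lam g⁻¹ - 1) := by
  classical
  obtain ⟨ι, hι⟩ : ∃ ι : Γ → NG Γ, ∀ g, ι g = (w g : ℤ) • lam g⁻¹ := ⟨_, fun _ => rfl⟩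
  have i1 : ι 1 = 1 := by rw [hι, map_one, inv_one, lam_one, Units.val_one, one_smul]
  have i2 : ∀ g k, ι (g * k) = ι k * ι g := fun g k => by rw [hι, hι, hι, tw_mul lam_mul]
  have i3 : ∀ g (u : L2 Γ), (ι g).1 u = (w g : ℤ) • (lam g⁻¹).1 u := fun g u => by rw [hι]; rfl
  have nw : ∀ g (c : ℂ), ‖(w g : ℤ) • c‖ = ‖c‖ := fun g c => by
    rcases Int.units_eq_one_or (w g) with h | h <;> simp [h]
  simp only [← hι] at hκ ⊢
  obtain ⟨x, hx, n, y, e⟩ := mkey (fun k : S.S => κ k) (fun _ k => ι k - 1)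
    (row_zero {f | ∃ (r : Γ → (Γ →₀ ℤ)) (u : L2 Γ), bdL S.S r = 0 ∧
        f = fun k : S.S => (Finsupp.linearCombination ℤ ι (r k)).1 u} _ _
      (by
        rintro j _ ⟨r, u, hr, rfl⟩
        refine sum_apply0 (a := fun s => ι s - 1) (b := fun s => Finsupp.linearCombination ℤ ι (r s))
          ((lc_coc (κ := fun s => ι s - 1) (fun g k => ?_) _ _).trans (by rw [hr, map_zero])) u
        rw [i2, sub_mul, one_mul, sub_add_sub_cancel'])
      (by
        rintro _ ⟨r, u, hr, rfl⟩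
        exact sum_apply0 (b := fun s => Finsupp.linearCombination ℤ ι (r s))
          ((lc_coc hκ _ _).trans (by rw [hr, map_zero])) u)
      fun v h1 h2 => by
        obtain ⟨v', hv⟩ := exists_ext v
        have := core S hHD (fun s y => (w y : ℤ) • v' s y⁻¹)
          (fun s _ => by simpa only [nw] using summable_inv _) (fun r' hr' => ?_) fun y => ?_
        · ext k x
          have := congrArg norm (this k k.2 x⁻¹)
          rw [nw] at this
          simpa [hv] using this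
        · have := h2 _ ⟨r', lp.single 2 (1 : Γ) (1 : ℂ), (bdL_apply _ _).trans hr', rfl⟩
          rw [← Finset.sum_coe_sort]
          simpa [sum_inner, lc_apply, Finsupp.sum, hv, i3, ← Int.cast_smul_eq_zsmul ℂ,
            inner_smul_left, inner_lam, inner_single, lam_apply, mul_comm, mul_left_comm] using this
        · have := congrArg (fun f => (w y : ℤ) • inner ℂ (lp.single 2 y⁻¹ (1 : ℂ) : L2 Γ) f) (h1 0)
          rw [← Finset.sum_coe_sort]
          simpa [inner_sum, i3, inner_single, lam_apply, hv, Int.units_inv_eq_self, mul_sub,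
            Finset.mul_sum, mul_assoc] using this) a ha
  refine ⟨x, ∑ j, y j, hx, fun g => ?_⟩
  obtain ⟨l, hl, rfl⟩ := S.gen g
  exact coc_ext i1 i2 hκ l fun s hs => (e ⟨s, hl s hs⟩).trans (Finset.sum_mul _ _ _).symm

theorem key4 [Infinite Γ] (w : Γ →* ℤˣ) (b : NG Γ) (hb : ∀ g, b * ((w g : ℤ) • lam g⁻¹) = b) :
    b = 0 := by
  classical
  have e : ∀ g : Γ, permOp (Equiv.mulRight g) (lp.single 2 1 1) = lp.single 2 g⁻¹ (1 : ℂ) := fun g => by
    ext x
    change (lp.single 2 1 1 : L2 Γ) (x * g) = _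
    simp [lp.single_apply, Pi.single_apply, mul_eq_one_iff_eq_inv]
  have e' : ∀ g : Γ, (lam g⁻¹).1 (lp.single 2 1 1) = lp.single 2 g⁻¹ (1 : ℂ) := fun g => by
    ext x
    simp [lam_apply, lp.single_apply, Pi.single_apply, mul_eq_one_iff_eq_inv']
  have h0 : b.1 (lp.single 2 1 1) = 0 := const_zero fun g => by
    have : b.1 ((w g : ℤ) • (lam g⁻¹).1 (lp.single 2 1 1)) = b.1 (lp.single 2 1 1) :=
      congrArg (fun T : NG Γ => T.1 (lp.single 2 1 1)) (hb g)
    rw [map_zsmul, e', ← e, NG.comm] at this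
    have h2 : (w g : ℤ) • b.1 (lp.single 2 1 1) (1 * g) = b.1 (lp.single 2 1 1) 1 :=
      congrArg (fun f : L2 Γ => f 1) this
    rw [← h2, one_mul]
    rcases Int.units_eq_one_or (w g) with h | h <;> simp [h]
  refine Subtype.ext (lp.ext_continuousLinearMap (by norm_num) fun g => ?_)
  refine ContinuousLinearMap.ext_ring ?_
  change b.1 (lp.single 2 g 1) = 0
  rw [← inv_inv g, ← e, NG.comm, h0, map_zero]

end Vale.Agent.P239
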