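import Vale.Agent.P239.Pot3

/-! The neck lemma. -/

namespace Vale.Agent.P239

open Filter Topology Set
open scoped Pointwise

namespace Wd

variable {G : Type} [Group G] (w : Wd G)

theorem neck_max {Γ : Gen G} {A C Z : Set G} {c : G} {r : ℕ} (hC : Γ.SC C) (hZ : Z.Finite)
    (hcut : ∀ x, r < Γ.d c x → Γ.CutAt A C Z x) {x : G} (hxZ : x ∈ Z) (hxC : x ∈ C)
    (hx : r < Γ.d c x) : Γ.hm C x - 1 / 2 ≤ Γ.hit (Γ.ball c r) x := by
  have hK : ((Z ∩ C) \ Γ.ball c r).Finite := hZ.subset fun y hy => hy.1.1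
  have hKc : (Z ∩ C) \ Γ.ball c r ≠ univ := fun h => by
    have : c ∈ (Z ∩ C) \ Γ.ball c r := h ▸ mem_univ c
    exact this.2 (Γ.mem_ball_self c r)
  have key := Γ.max_principle hK hKc
    (g := Γ.hm C - (fun _ => (1 / 2 : ℝ)) - Γ.hit (Γ.ball c r)) ?_ ?_ x
    ⟨⟨hxZ, hxC⟩, fun h => absurd (Γ.mem_ball.1 h) (not_le.2 hx)⟩
  · simp only [Pi.sub_apply] at key
    linarith
  · intro y hy
    rw [Γ.P_sub, Γ.P_sub, Γ.P_const]
    simp only [Pi.sub_apply]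
    rw [hC.1.P_hm, Γ.P_hit_eq hy.2]
  · intro y hy s hs hys
    simp only [Pi.sub_apply]
    have h0 := Γ.hit_nonneg (Γ.ball c r) (y * s)
    have h1 := hC.1.hm_le_one (y * s)
    by_cases hb : y * s ∈ Γ.ball c r
    · rw [Γ.hit_of_mem hb]
      linarith
    by_cases hc : y * s ∈ C
    · have hz : y * s ∉ Z := fun h => hys ⟨⟨h, hc⟩, hb⟩
      have h2 := (hcut y (not_le.1 hy.2) s hs).1 ⟨fun _ => hz, fun _ => hy.1.1⟩
      exact absurd hc (h2.2.1 hy.1.2)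
    · have := hC.2.2 _ hc
      linarith

theorem neck_fin {Γ : Gen G} {A C Z : Set G} {c p q : G} {r r' : ℕ} (hC : Γ.SC C)
    (hZ : Z.Finite) (hcut : ∀ x, r < Γ.d c x → Γ.CutAt A C Z x) (hr : r ≤ r')
    (hh : ∀ x, r' < Γ.d c x → Γ.hit (Γ.ball c r) x ≤ 1 / 8) (hp : p ∈ A \ Γ.ball c r')
    (hch : Γ.Ch 1 (A \ Γ.ball c r') p q) (h1 : 3 / 4 < Γ.hm C p) (h2 : Γ.hm C q < 1 / 4) :
    False := by
  have hq := hch.mem hp
  have hp' : r' < Γ.d c p := not_le.1 hp.2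
  have hq' : r' < Γ.d c q := not_le.1 hq.2
  have hpC : p ∈ C := hC.mem_of_gt (by linarith)
  have hqC : q ∉ C := hC.notMem_of_lt (by linarith)
  have key : (q ∈ Z ↔ q ∈ C) ↔ (p ∈ Z ↔ p ∈ C) := by
    refine hch.ind_one (p := fun y => (y ∈ Z ↔ y ∈ C) ↔ (p ∈ Z ↔ p ∈ C)) Iff.rfl
      fun a ha s hs _ ih => ?_
    have ha' : r' < Γ.d c a := not_le.1 ha.2
    have h3 := hcut a (by omega) s hs
    have h4 := ha.1
    grind
  by_cases hpZ : p ∈ Z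
  · have := neck_max hC hZ hcut hpZ hpC (by omega)
    have := hh p hp'
    linarith
  · have hqZ : q ∈ Z := by grind
    have hcut' : ∀ x, r < Γ.d c x → Γ.CutAt A Cᶜ Z x := fun x hx s hs => by
      have := hcut x hx s hs
      simp only [mem_compl_iff]
      grind
    have h3 := neck_max hC.compl hZ hcut' hqZ hqC (by omega)
    rw [hC.1.hm_compl] at h3
    have := hh q hq'
    linarith

theorem neck (ρ : ℕ) : ∃ ρ' : ℕ, ∀ (C A : Set G) (c p q : G), w.Γ.SC C →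
    w.Γ.Sp w.R A C ⊆ w.Γ.ball c ρ → (A ∩ w.Γ.bd C).Finite → p ∈ A \ w.Γ.ball c ρ' →
    w.Γ.Ch 1 (A \ w.Γ.ball c ρ') p q → 3 / 4 < w.Γ.hm C p → w.Γ.hm C q < 1 / 4 → False := by
  obtain ⟨r, hr⟩ := w.split.ball ρ
  obtain ⟨D, hD⟩ := w.cap.hit_ball r (ε := 1 / 8) (by norm_num)
  refine ⟨max r D, fun C A c p q hC hS hA hp hch h1 h2 => ?_⟩
  obtain ⟨Z, hZ⟩ := hr A C c hS
  have hh : ∀ x, max r D < w.Γ.d c x → w.Γ.hit (w.Γ.ball c r) x ≤ 1 / 8 := fun x hx =>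
    hD c x ((le_max_right r D).trans hx.le)
  have hb : (w.Γ.bd Z).Finite := by
    refine ((w.Γ.ball_finite c r).union hA).subset ?_
    rintro x ⟨s, hs, h⟩
    by_cases hx : w.Γ.d c x ≤ r
    · exact Or.inl hx
    · have := (hZ x (not_le.1 hx) s hs).1 h
      exact Or.inr ⟨this.1, s, hs, this.2⟩
  rcases w.oneEnd Z hb with hf | hf
  · exact neck_fin hC hf hZ (le_max_left r D) hh hp hch h1 h2
  · exact neck_fin hC hf (fun x hx => (hZ x hx).compl) (le_max_left r D) hh hp hch h1 h2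

end Wd

end Vale.Agent.P239
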