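import Vale.Agent.P239.Dev
import Vale.Agent.P239.Neck

/-! Matched walls are uniformly bounded. -/

namespace Vale.Agent.P239

open Filter Topology Set
open scoped Pointwise

namespace Wd

variable {G : Type} [Group G] (w : Wd G)

theorem lemN_bd {B C : Set G} {y x : G} {ρ : ℕ} (h : ∀ x ∈ w.Γ.ball y ρ, x ∈ B ↔ x ∈ C)
    (hx : w.Γ.d y x + 1 ≤ ρ) : x ∈ w.Γ.bd B ↔ x ∈ w.Γ.bd C := by
  refine exists_congr fun s => and_congr_right fun hs => ?_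
  have h1 := w.Γ.d_tri y x (x * s)
  have h2 := w.Γ.d_step x hs
  rw [h x (w.Γ.mem_ball.2 (by omega)), h (x * s) (w.Γ.mem_ball.2 (by omega))]

theorem lemN_sig {B B' : Set G} (h : w.Same B B') (hB : w.Γ.SC B') {x : G}
    (hx : x ∈ w.Γ.bd B') : x ∈ w.Sig B := ⟨B', h, hB.bd_subset hx⟩

theorem same_of_near (R1 : ℕ) : ∃ ρ0 : ℕ, ∀ (C B B' : Set G) (y y' : G), y ∈ w.Γ.bd C →
    w.Γ.d y y' ≤ R1 → w.Pr B → w.Γ.SC B → w.Pr B' → w.Γ.SC B' →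
    (∀ x ∈ w.Γ.ball y ρ0, x ∈ B ↔ x ∈ C) → (∀ x ∈ w.Γ.ball y' ρ0, x ∈ B' ↔ x ∈ C) →
    w.Same B B' := by
  obtain ⟨ρs, hs⟩ := w.sig_inter_unif
  obtain ⟨L, hL⟩ := w.lobes w.Γ.δ0_pos
  obtain ⟨ρ', hn⟩ := w.neck 0
  obtain ⟨a, ha1, ha2⟩ : ∃ a, L ≤ a ∧ ρs + w.R + 1 ≤ a := ⟨_, le_max_left _ _, le_max_right _ _⟩
  refine ⟨a + w.R + R1 + 2, fun C B B' y y' hy hd hB hS hB' hS' hBC hBC' => by_contra fun hne => ?_⟩
  have h1 : ∀ x ∈ w.Γ.bd B, w.Γ.d y x ≤ a + w.R → x ∈ w.Sig B ∩ w.Sig B' := fun x hx hxd => by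
    have := w.Γ.d_tri y' y x
    rw [w.Γ.d_comm y' y] at this
    exact ⟨w.lemN_sig hB.same hS hx, w.lemN_sig hB'.same hS' ((w.lemN_bd hBC' (by omega)).2
      ((w.lemN_bd hBC (by omega)).1 hx))⟩
  have hyB : y ∈ w.Γ.bd B := (w.lemN_bd hBC (by simp)).2 hy
  have h2 := hs B B' y hB hB' hne (h1 y hyB (by simp))
  obtain ⟨⟨p, hp, hp'⟩, q, hq, hq'⟩ := hL B y hB (hS.bd_subset hyB)
  have := w.infinite
  obtain ⟨c, -, hc⟩ := w.Γ.exists_far infinite_univ y (a + ρ')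
  have h3 : w.Γ.ball y a ⊆ w.Γ.ball y a \ w.Γ.ball c ρ' := fun x hx => ⟨hx, fun hx' => by
    have := w.Γ.d_tri y x c
    rw [w.Γ.d_comm x c] at this
    rw [Gen.mem_ball] at hx hx'
    omega⟩
  refine hn B (w.Γ.ball y a) c p q hS ?_ ((w.Γ.ball_finite y a).inter_of_left _)
    (h3 (w.Γ.ball_mono y ha1 hp)) ((w.Γ.conn_ball y a p (w.Γ.ball_mono y ha1 hp) q
      (w.Γ.ball_mono y ha1 hq)).mono le_rfl h3) (by linarith) (by linarith)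
  rintro v ⟨hv, ⟨x, hx, hxA⟩, z, hz, hzA⟩
  have e1 := w.Γ.d_tri y x v
  have e2 := w.Γ.d_tri y v z
  rw [w.Γ.d_comm x v] at e1
  rw [Gen.mem_ball] at hx hxA hz hzA
  have e3 := w.Γ.mem_ball.1 (h2 (h1 v hv (by omega)))
  omega

theorem lemN : ∃ ρ0 : ℕ, ∀ α : ℝ, 0 < α → ∀ ρ : ℕ, ∃ F : ℕ,
    ∀ (C : Set G) (i : G × Bool) (t : ℝ), w.Γ.SC C → (w.Γ.bd C ∩ {x | t ≤ w.ph i x}).Finite →
      (∀ y ∈ w.Γ.bd C, t ≤ w.ph i y → ρ ≤ w.Γ.d i.1 y → w.Matched ρ0 C y) →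
      ∀ y ∈ w.Γ.bd C, t + α ≤ w.ph i y → w.Γ.d i.1 y ≤ F := by
  obtain ⟨L, hL⟩ := w.lobes w.Γ.δ0_pos
  obtain ⟨r, hr1, hr2⟩ : ∃ r, w.R ≤ r ∧ L ≤ r := ⟨_, le_max_left _ _, le_max_right _ _⟩
  obtain ⟨ρn, hsame⟩ := w.same_of_near (2 * r)
  refine ⟨ρn + L + 1, fun α hα ρ => ?_⟩
  obtain ⟨ρd, hdev⟩ := w.dev (η := α / 4) (by positivity)
  obtain ⟨ρg, hgr⟩ := w.grad (2 * r) (η := α / 4) (by positivity)
  obtain ⟨ρ', hn⟩ := w.neck (ρ + ρd + ρg)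
  refine ⟨ρ + ρd + ρg + ρ' + L, fun C i t hC hfin hM y hy hyt => not_lt.1 fun hfar => ?_⟩
  let X : Set G := {x | x ∈ w.Γ.bd C ∧ t ≤ w.ph i x ∧ ρ + ρd + ρg ≤ w.Γ.d i.1 x}
  have hyX : y ∈ X := ⟨hy, by linarith, by omega⟩
  have hsub := Gen.comp_subset (Γ := w.Γ) (2 * r) X y
  have hG : (w.Γ.comp (2 * r) X y).Finite := hfin.subset fun x hx => ⟨(hsub hx).1, (hsub hx).2.1⟩
  obtain ⟨B, hB, hS, hBC⟩ := hM y hy hyX.2.1 (by omega)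
  have h1 : ∀ z ∈ w.Γ.comp (2 * r) X y, z ∈ w.Sig B := fun z hz => by
    obtain ⟨B', -, hS', hB'C, hsm⟩ : ∃ B', w.Pr B' ∧ w.Γ.SC B' ∧
        (∀ x ∈ w.Γ.ball z (ρn + L + 1), x ∈ B' ↔ x ∈ C) ∧ w.Same B B' := by
      refine hz.2.ind (p := fun z => ∃ B', w.Pr B' ∧ w.Γ.SC B' ∧
        (∀ x ∈ w.Γ.ball z (ρn + L + 1), x ∈ B' ↔ x ∈ C) ∧ w.Same B B')
        ⟨B, hB, hS, fun x hx => (hBC x hx).1, hB.same⟩ ?_
      rintro a b - ha hb hab ⟨B1, p1, s1, c1, m1⟩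
      obtain ⟨B2, p2, s2, c2⟩ := hM b hb.1 hb.2.1 (le_trans (by omega) hb.2.2)
      exact ⟨B2, p2, s2, fun x hx => (c2 x hx).1, m1.trans (hsame C B1 B2 a b ha.1 hab p1 s1 p2 s2
        (fun x hx => c1 x (w.Γ.ball_mono a (by omega) hx))
        fun x hx => (c2 x (w.Γ.ball_mono b (by omega) hx)).1)⟩
    exact w.lemN_sig hsm hS' ((w.lemN_bd hB'C (by simp)).2 (hsub hz).1)
  have h2 : ∀ z ∈ w.Γ.comp (2 * r) X y, t + α / 2 ≤ w.ph i z := fun z hz => by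
    have e1 := abs_le.1 (hdev B i z hB (h1 z hz) (le_trans (by omega) (hsub hz).2.2))
    have e2 := abs_le.1 (hdev B i y hB (h1 y (Gen.mem_comp_self hyX)) (by omega))
    linarith [e1.1, e2.2]
  obtain ⟨⟨p, hp, hp'⟩, q, hq, hq'⟩ :=
    hL B y hB (hS.bd_subset ((w.lemN_bd (fun x hx => (hBC x hx).1) (by simp)).2 hy))
  have h3 : w.Γ.ball y L ⊆ w.Γ.nb r (w.Γ.comp (2 * r) X y) \ w.Γ.ball i.1 ρ' := fun x hx => by
    have := w.Γ.d_tri i.1 x y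
    rw [Gen.mem_ball, w.Γ.d_comm] at hx
    exact ⟨⟨y, Gen.mem_comp_self hyX, hx.trans hr2⟩, fun hx' => by
      rw [Gen.mem_ball] at hx'; omega⟩
  have e1 := abs_le.1 (hBC p (w.Γ.ball_mono y (by omega) hp)).2
  have e2 := abs_le.1 (hBC q (w.Γ.ball_mono y (by omega) hq)).2
  refine hn C (w.Γ.nb r (w.Γ.comp (2 * r) X y)) i.1 p q hC ?_
    ((w.Γ.nb_finite r hG).inter_of_left _) (h3 hp) ((w.Γ.conn_ball y L p hp q hq).mono le_rfl h3)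
    (by linarith [e1.2]) (by linarith [e2.1])
  rintro v ⟨hv, ⟨x, hx, z, hz, hxz⟩, u, hu, huA⟩
  by_contra hvb
  rw [Gen.mem_ball] at hx hu hvb
  have e3 := w.Γ.d_tri v x z
  rw [w.Γ.d_comm v z] at e3
  have e4 := abs_le.1 (hgr i z v (le_trans (by omega) (hsub hz).2.2) (by omega))
  have e5 := h2 z hz
  refine huA ⟨v, Gen.mem_comp_of_near hz ⟨hv, by linarith [e4.2], by omega⟩ (by omega), ?_⟩
  rw [w.Γ.d_comm]
  omega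

end Wd

end Vale.Agent.P239
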