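import Vale.Agent.P239.Hilb

/-! Essential density for rows over the von Neumann algebra. -/

namespace Vale.Agent.P239

open Filter Topology Set HilbAux
open scoped Pointwise

variable {Γ : Type} [Group Γ]

theorem lam_mul (g h : Γ) : lam (g * h) = lam g * lam h :=
  Subtype.ext (ContinuousLinearMap.ext fun f => lp.ext (funext fun x =>
    congrArg f (show (g * h)⁻¹ * x = h⁻¹ * (g⁻¹ * x) by rw [mul_inv_rev, mul_assoc])))

theorem lam_one : lam (1 : Γ) = 1 :=
  Subtype.ext (ContinuousLinearMap.ext fun f => lp.ext (funext fun x =>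
    congrArg f (show (1 : Γ)⁻¹ * x = x by rw [inv_one, one_mul])))

theorem lam_apply (g : Γ) (v : L2 Γ) (x : Γ) : (lam g).1 v x = v (g⁻¹ * x) := rfl

theorem inner_lam (g : Γ) (u v : L2 Γ) : inner ℂ ((lam g).1 u) v = inner ℂ u ((lam g⁻¹).1 v) := by
  simp only [lp.inner_eq_tsum, lam_apply]
  rw [← (Equiv.mulLeft g).tsum_eq]
  simp

theorem vnTr_zero : vnTr (0 : NG Γ) = 0 := by simp [vnTr]

theorem NG.comm (a : NG Γ) (g : Γ) (f : L2 Γ) :
    a.1 (permOp (Equiv.mulRight g) f) = permOp (Equiv.mulRight g) (a.1 f) :=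
  (congrArg (fun T : L2 Γ →L[ℂ] L2 Γ => T f) (a.2 _ ⟨g, rfl⟩)).symm

section op

variable {ι κ : Type} [Fintype ι] [Fintype κ]

/-- The operator of a matrix. -/
noncomputable def mkOp (m : ι → κ → NG Γ) : HM Γ κ →L[ℂ] HM Γ ι :=
  (PiLp.continuousLinearEquiv 2 ℂ fun _ : ι => L2 Γ).symm.toContinuousLinearMap ∘L
    ContinuousLinearMap.pi fun i => ∑ k, (m i k).1 ∘L PiLp.proj 2 (fun _ : κ => L2 Γ) k

theorem mkOp_apply (m : ι → κ → NG Γ) (v : HM Γ κ) (i : ι) : mkOp m v i = ∑ k, (m i k).1 (v k) := by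
  simp [mkOp]

theorem eqv_mkOp (m : ι → κ → NG Γ) : Eqv (mkOp m) := fun g v => PiLp.ext fun i => by
  change _ = permOp (Equiv.mulRight g) (mkOp m v i)
  simp only [mkOp_apply, map_sum, ← NG.comm]
  rfl

open Classical in
/-- The inclusion of a coordinate. -/
noncomputable def mkInj (k : κ) : L2 Γ →L[ℂ] HM Γ κ :=
  (PiLp.continuousLinearEquiv 2 ℂ fun _ : κ => L2 Γ).symm.toContinuousLinearMap ∘L
    ContinuousLinearMap.single ℂ (fun _ : κ => L2 Γ) k

omit [Group Γ] in
open Classical in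
theorem mkInj_apply (k : κ) (f : L2 Γ) (j : κ) : mkInj k f j = if j = k then f else 0 := by
  simp [mkInj, Pi.single_apply]

omit [Group Γ] in
theorem sum_mkInj (v : HM Γ κ) : ∑ k, mkInj k (v k) = v := PiLp.ext fun j => by
  rw [WithLp.ofLp_sum, Finset.sum_apply, Finset.sum_eq_single j
    (fun k _ hk => (mkInj_apply _ _ _).trans (if_neg hk.symm)) (by simp), mkInj_apply, if_pos rfl]

omit [Group Γ] in
theorem inner_mkInj (k : κ) (f : L2 Γ) (v : HM Γ κ) : inner ℂ (mkInj k f) v = inner ℂ f (v k) := by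
  rw [PiLp.inner_apply, Finset.sum_eq_single k
    (fun j _ hj => by rw [mkInj_apply, if_neg hj, inner_zero_left]) (by simp), mkInj_apply, if_pos rfl]

theorem mkOp_mkInj (m : ι → κ → NG Γ) (k : κ) (f : L2 Γ) (i : ι) :
    mkOp m (mkInj k f) i = (m i k).1 f := by
  classical
  simp [mkOp_apply, mkInj_apply, apply_ite (m i _).1]

theorem exists_ent {Q : HM Γ κ →L[ℂ] HM Γ ι} (hQ : Eqv Q) :
    ∃ m : ι → κ → NG Γ, ∀ i k f, (m i k).1 f = Q (mkInj k f) i := by
  refine ⟨fun i k => ⟨PiLp.proj 2 (fun _ : ι => L2 Γ) i ∘L Q ∘L mkInj k, ?_⟩, fun _ _ _ => rfl⟩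
  rintro _ ⟨g, rfl⟩
  ext1 f
  have : mkInj k (permOp (Equiv.mulRight g) f) = rho g (mkInj k f) := PiLp.ext fun j => by
    change _ = permOp (Equiv.mulRight g) (mkInj k f j)
    simp only [mkInj_apply]
    split_ifs <;> simp
  change rho g (Q (mkInj k f)) i = Q (mkInj k (permOp (Equiv.mulRight g) f)) i
  rw [this, hQ]

end op

/-- If the common kernel of the rows `t j` lies in the kernel of the row `z`, then `z` is
essentially a combination of finitely many `t j`. -/
theorem mkey {κ : Type} [Fintype κ] (z : κ → NG Γ) (t : ℕ → κ → NG Γ)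
    (h : ∀ v : κ → L2 Γ, (∀ j, ∑ k, (t j k).1 (v k) = 0) → ∑ k, (z k).1 (v k) = 0)
    (a : NG Γ) (ha : a ≠ 0) : ∃ x : NG Γ, x * a ≠ 0 ∧ ∃ (n : ℕ) (y : Fin n → NG Γ),
      ∀ k, x * z k = ∑ j, y j * t j k := by
  obtain ⟨f0, hf0⟩ : ∃ f, a.1 f ≠ 0 := by
    by_contra hc
    push Not at hc
    exact ha (Subtype.ext (ContinuousLinearMap.ext hc))
  have eA := (ContinuousLinearMap.adjoint (mkOp fun (_ _ : Unit) => a)).orthogonal_ker
  rw [ContinuousLinearMap.adjoint_adjoint] at eA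
  obtain ⟨n, u, hu, u0, y, e⟩ := exists_vec (eqv_mkOp fun (_ _ : Unit) => a).adjoint.ci_ker.orth
    (fun h0 => hf0 (by
      have : mkOp (fun (_ _ : Unit) => a) (mkInj () f0) = 0 := (Submodule.eq_bot_iff _).1 h0 _
        (eA.ge (Submodule.le_topologicalClosure _ ⟨_, rfl⟩))
      rw [← mkOp_mkInj (fun (_ _ : Unit) => a) () f0 (), this]; rfl))
    (eqv_mkOp fun (_ : Unit) => z) (T := fun n => mkOp fun j : Fin n => t j) (fun n => eqv_mkOp _)
    (fun n n' hn v hv => PiLp.ext fun j => (mkOp_apply _ _ _).trans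
      ((mkOp_apply (fun j : Fin n' => t j) v (j.castLE hn)).symm.trans
        (congrArg (fun w : HM Γ (Fin n') => w (j.castLE hn)) hv)))
    fun v hv => PiLp.ext fun _ => (mkOp_apply _ _ _).trans (h v fun j =>
      (mkOp_apply (fun i : Fin (j + 1) => t i) v (Fin.last j)).symm.trans
        (congrArg (fun w : HM Γ (Fin (j + 1)) => w (Fin.last j)) (hv (j + 1))))
  obtain ⟨R, hR, r1, r2⟩ : ∃ R : HM Γ κ →L[ℂ] HM Γ (Option (Fin n)), Eqv R ∧
      (∀ v, R v none = mkOp (fun (_ : Unit) => z) v ()) ∧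
      ∀ v j, R v (some j) = mkOp (fun j : Fin n => t j) v j :=
    ⟨mkOp fun o => o.elim z fun j => t j, eqv_mkOp _, fun v => by simp [mkOp_apply],
      fun v j => by simp [mkOp_apply]⟩
  have cK := hR.adjoint.ci_ker
  obtain ⟨m, hm⟩ := exists_ent cK.eqv_proj
  have hp : WithLp.toLp 2 (fun o : Option (Fin n) => o.elim (u ()) fun j => -y j) ∈
      (ContinuousLinearMap.adjoint R).ker := ext_inner_left ℂ fun v => by
    have := congrArg (inner ℂ v) e
    rw [ContinuousLinearMap.adjoint_inner_right, ContinuousLinearMap.adjoint_inner_right,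
      PiLp.inner_apply, PiLp.inner_apply, Fintype.sum_unique] at this
    rw [ContinuousLinearMap.coe_coe, ContinuousLinearMap.adjoint_inner_right, PiLp.inner_apply,
      Fintype.sum_option, inner_zero_right]
    simp [r1, r2, this]
  refine ⟨m none none, fun h0 => u0 ?_, n, fun j => -m none (some j), fun k => ?_⟩
  · have k1 : u ∈ (mkOp fun (_ _ : Unit) => m none none).ker :=
      Submodule.topologicalClosure_minimal _ (by
        rintro _ ⟨v, rfl⟩
        refine PiLp.ext fun _ => ?_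
        simpa [mkOp_apply] using congrArg (fun T : NG Γ => T.1 (v ())) h0)
        (ContinuousLinearMap.isClosed_ker _) (eA.le hu)
    have k2 : (m none none).1 (u ()) = 0 := by
      simpa [mkOp_apply] using congrArg (fun w : HM Γ Unit => w ()) k1
    have k3 := inner_pr cK.closed (mkInj none (u ()))
    rw [inner_mkInj, ← hm, k2, inner_zero_right, Complex.zero_re, eq_comm, sq_eq_zero_iff,
      norm_eq_zero] at k3
    have k4 := Submodule.inner_left_of_mem_orthogonal hp (mem_orth k3)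
    rw [inner_mkInj] at k4
    exact PiLp.ext fun _ => inner_self_eq_zero.1 k4
  · refine Subtype.ext (ContinuousLinearMap.ext fun f => ?_)
    have k1 : pr (ContinuousLinearMap.adjoint R).ker (R (mkInj k f)) = 0 := pr_eq (zero_mem _) (by
      simpa using adjoint_mem_orth (T := ContinuousLinearMap.adjoint R) (mkInj k f))
    rw [← sum_mkInj (R _), map_sum] at k1
    have k2 := congrArg (fun w : HM Γ (Option (Fin n)) => w none) k1
    simp only [WithLp.ofLp_sum, Finset.sum_apply, ← hm, Fintype.sum_option, r1, r2, mkOp_mkInj] at k2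
    simpa [eq_neg_iff_add_eq_zero, hm] using k2

/-- Orthogonal decomposition: a row killing a family of vectors kills every vector whose
component orthogonal to the family must vanish. -/
theorem row_zero {κ : Type} [Fintype κ] (𝒱 : Set (κ → L2 Γ)) {J : Type} (t : J → κ → NG Γ)
    (z : κ → NG Γ) (ht : ∀ j, ∀ u ∈ 𝒱, ∑ k, (t j k).1 (u k) = 0)
    (hz : ∀ u ∈ 𝒱, ∑ k, (z k).1 (u k) = 0)
    (h0 : ∀ v : κ → L2 Γ, (∀ j, ∑ k, (t j k).1 (v k) = 0) →
      (∀ u ∈ 𝒱, ∑ k, inner ℂ (u k) (v k) = 0) → v = 0)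
    (v : κ → L2 Γ) (hv : ∀ j, ∑ k, (t j k).1 (v k) = 0) : ∑ k, (z k).1 (v k) = 0 := by
  obtain ⟨W, hW⟩ : ∃ W : Submodule ℂ (HM Γ κ), W = Submodule.span ℂ (WithLp.toLp 2 '' 𝒱) := ⟨_, rfl⟩
  have k : ∀ s : κ → NG Γ, (∀ u ∈ 𝒱, ∑ k, (s k).1 (u k) = 0) → ∀ w : HM Γ κ,
      ∑ k, (s k).1 ((w - pr W w) k) = ∑ k, (s k).1 (w k) := fun s hs w => by
    have : pr W w ∈ (mkOp fun (_ : Unit) => s).ker := Submodule.topologicalClosure_minimal _ (by
      rw [hW, Submodule.span_le]
      rintro _ ⟨u, hu, rfl⟩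
      exact PiLp.ext fun _ => (mkOp_apply _ _ _).trans (hs u hu)) (ContinuousLinearMap.isClosed_ker _)
      (Submodule.starProjection_apply_mem _ w)
    rw [← mkOp_apply (fun (_ : Unit) => s) _ (), ← mkOp_apply (fun (_ : Unit) => s) _ (), map_sub,
      show mkOp (fun (_ : Unit) => s) (pr W w) = 0 from this, sub_zero]
  have := h0 _ (fun j => (k _ (ht j) (WithLp.toLp 2 v)).trans (hv j)) fun u hu =>
    (PiLp.inner_apply (WithLp.toLp 2 u) _).symm.trans
      (sub_pr W _ _ (hW ▸ Submodule.subset_span ⟨u, hu, rfl⟩))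
  refine (k z hz (WithLp.toLp 2 v)).symm.trans ?_
  simp only [this, Pi.zero_apply, map_zero, Finset.sum_const_zero]

end Vale.Agent.P239
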