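import Vale.Agent.P239.Res
import Vale.Agent.P239.Fund

/-! Mayer-Vietoris arguments in the tensored complex. -/

namespace Vale.Agent.P239

open Filter Topology Set
open scoped Pointwise

variable {Γ N : Type} [Group Γ] [Ring N] {ι : Γ → N} {X : Type} [MetricSpace X]
  [MulAction Γ X] [ContinuousConstSMul Γ X]

variable {res : Set X → ∀ n, Chn ι X n →ₗ[N] Sch N X n}

section sat

omit [MetricSpace X] [ContinuousConstSMul Γ X]

theorem sat_mono {A B : Set X} (h : A ⊆ B) : sat Γ A ⊆ sat Γ B := fun _ ⟨g, hg⟩ => ⟨g, h hg⟩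

theorem subset_sat (A : Set X) : A ⊆ sat Γ A := fun x hx => ⟨1, by rwa [one_smul]⟩

theorem smul_mem_sat {A : Set X} {x : X} (g : Γ) : g • x ∈ sat Γ A ↔ x ∈ sat Γ A :=
  ⟨fun ⟨k, hk⟩ => ⟨k * g, by rwa [mul_smul]⟩,
    fun ⟨k, hk⟩ => ⟨k * g⁻¹, by rwa [mul_smul, inv_smul_smul]⟩⟩

theorem sat_union (A B : Set X) : sat Γ (A ∪ B) = sat Γ A ∪ sat Γ B := by
  ext x
  simp only [sat, mem_setOf_eq, mem_union, exists_or]

theorem sat_inter_sat (A B : Set X) : sat Γ (A ∩ sat Γ B) = sat Γ A ∩ sat Γ B := by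
  ext x
  exact ⟨fun ⟨g, h1, h2⟩ => ⟨⟨g, h1⟩, (smul_mem_sat g).1 h2⟩,
    fun ⟨⟨g, h1⟩, h2⟩ => ⟨g, h1, (smul_mem_sat g).2 h2⟩⟩

theorem sat_singleton_subset {A : Set X} {x : X} (hx : x ∈ sat Γ A) : sat Γ {x} ⊆ sat Γ A := by
  rintro y ⟨g, hg⟩
  rw [← smul_mem_sat g, mem_singleton_iff.1 hg]
  exact hx

end sat

theorem mem_OnQ_univ {n : ℕ} (z : Chn ι X n) : z ∈ OnQ ι univ n := by
  obtain ⟨y, rfl⟩ := (rel ι X n).mkQ_surjective z
  exact ⟨y, by rw [On_univ]; trivial, rfl⟩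

theorem OnQ_sat_union {A B : Set X} {n : ℕ} {z : Chn ι X n} (h1 : z ∈ OnQ ι (sat Γ A)ᶜ n)
    (h2 : z ∈ OnQ ι (sat Γ B)ᶜ n) : z ∈ OnQ ι (sat Γ (A ∪ B))ᶜ n := by
  rw [sat_union, compl_union,
    OnQ_inter (V := (sat Γ B)ᶜ) fun g x hx h => hx ((smul_mem_sat g).1 h)]
  exact ⟨h1, h2⟩

theorem RelQ.mono {K K' : Set X} {n : ℕ} {z : Chn ι X (n + 1)} (h : RelQ ι K z) (hK : K' ⊆ K) :
    RelQ ι K' z := OnQ_mono (compl_subset_compl.2 (sat_mono hK)) n h

theorem IsRes.relG (hr : IsRes ι res) {K : Set X} (hK : IsCompact K) {n : ℕ}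
    {z : Chn ι X (n + 1)} (hz : RelQ ι K z) : RelG K (res K (n + 1) z) := by
  have := add_mem (hr.bd K hK n z) ((hr.ker K hK n _).2 hz)
  rwa [sub_add_cancel] at this

theorem IsRes.nulG_bdry (hr : IsRes ι res) {K : Set X} (hK : IsCompact K) {n : ℕ}
    (u : Chn ι X (n + 1)) : NulG K (res K n (bdry ι X n u)) :=
  ⟨res K (n + 1) u, by simpa using neg_mem (hr.bd K hK n u)⟩

theorem IsRes.nulG_OnQ (hr : IsRes ι res) {A : Set X} {x : X} (hx : x ∈ sat Γ A) {n : ℕ}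
    {v : Chn ι X n} (hv : v ∈ OnQ ι (sat Γ A)ᶜ n) : NulG {x} (res {x} n v) :=
  nulG_of_On ((hr.ker _ isCompact_singleton n v).2
    (OnQ_mono (compl_subset_compl.2 (sat_singleton_subset hx)) n hv))

/-- Local lifting of fillings. -/
theorem Geo.lift_fill (h : Geo Γ X) (hr : IsRes ι res) {K V : Set X} (hK : IsCompact K)
    (hV : IsOpen V) (hKV : K ⊆ V) (hd : ∀ g : Γ, g ≠ 1 → ∀ y ∈ V, g • y ∉ V) {n : ℕ}
    (z : Chn ι X (n + 1)) (y : Sch N X (n + 2))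
    (hy : res K (n + 1) z - bd0 N X (n + 1) y ∈ On N Kᶜ (n + 1)) :
    ∃ Y : Chn ι X (n + 2), z - bdry ι X (n + 1) Y ∈ OnQ ι (sat Γ K)ᶜ (n + 1) ∧
      NulG K (res K (n + 2) Y - y) := by
  have hcl := hK.isClosed.isOpen_compl
  have hloc : ∀ g : Γ, g ≠ 1 → ∀ x ∈ V, g • x ∉ K := fun g hg x hx h1 => hd g hg x hx (hKV h1)
  have h1 : bdry ι X n z ∈ OnQ ι (sat Γ K)ᶜ n := by
    rw [← hr.ker K hK]
    have h2 := bd0_mem_On hy
    rw [map_sub, bd0_bd0, sub_zero] at h2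
    have := sub_mem h2 (hr.bd K hK n z)
    rwa [sub_sub_cancel] at this
  let 𝒰 : Set (Set X) := insert (sat Γ K)ᶜ (range fun g : Γ => g • V)
  have hcov : ⋃₀ 𝒰 = univ := eq_univ_of_forall fun x => by
    by_cases hx : x ∈ sat Γ K
    · obtain ⟨g, hg⟩ := hx
      exact ⟨_, Or.inr ⟨g⁻¹, rfl⟩, mem_inv_smul_set_iff.2 (hKV hg)⟩
    · exact ⟨_, Or.inl rfl, hx⟩
  obtain ⟨u, -, h2⟩ := smallQ (𝒰 := 𝒰) (z := z) (by
      rintro _ (rfl | ⟨g, rfl⟩)
      · exact (h.isClosed_sat hK).isOpen_compl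
      · exact hV.smul g) (hcov ▸ mem_OnQ_univ z)
    (Submodule.map_mono (On_le_Sm (Or.inl rfl)) h1)
  have h3 := hr.sm K hK 𝒰 (by
    rintro g _ (rfl | ⟨k, rfl⟩)
    · refine Or.inl (Set.ext fun x => ?_)
      rw [mem_smul_set_iff_inv_smul_mem, mem_compl_iff, mem_compl_iff, smul_mem_sat]
    · exact Or.inr ⟨g * k, mul_smul g k V⟩) _ _ h2
  have h4 := Sm_mono (𝒱 := {V, Kᶜ}) (by
    rintro _ (rfl | ⟨g, rfl⟩)
    · exact ⟨_, Or.inr rfl, compl_subset_compl.2 (subset_sat K)⟩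
    · by_cases hg : g = 1
      · exact ⟨_, Or.inl rfl, by simp [hg]⟩
      · refine ⟨_, Or.inr rfl, ?_⟩
        rintro _ ⟨x, hx, rfl⟩
        exact hloc g hg x hx) h3
  rw [Sm_pair] at h4
  have h5 : res K (n + 1) (z - bdry ι X (n + 1) u) - bd0 N X (n + 1) (y - res K (n + 2) u) ∈
      On N Kᶜ (n + 1) := by
    have := add_mem hy (hr.bd K hK (n + 1) u)
    rw [map_sub, map_sub]
    refine (congrArg (· ∈ On N Kᶜ (n + 1)) ?_).mp this
    abel
  obtain ⟨y2, k2, y3, k3, v, -, k4⟩ := sph_small hV hcl (z := y - res K (n + 2) u) (by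
      rw [eq_univ_of_subset (union_subset_union_left _ hKV) (union_compl_self _), On_univ]
      trivial) (by simpa only [sub_sub_cancel] using sub_mem h4 (Submodule.mem_sup_right h5))
  have k5 : bd0 N X (n + 1) (y - res K (n + 2) u) =
      bd0 N X (n + 1) y2 + bd0 N X (n + 1) y3 := by
    rw [← map_add, ← sub_eq_zero, ← map_sub, ← k4, bd0_bd0]
  refine ⟨u + (rel ι X (n + 2)).mkQ y2, ?_, -v, ?_⟩
  · rw [← hr.ker K hK, map_add, ← sub_sub, map_sub, bdry_mk]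
    have := sub_mem (add_mem h5 (bd0_mem_On k3)) (hr.loc K V hK hloc _ _ (bd0_mem_On k2))
    rw [k5] at this
    refine (congrArg (· ∈ On N Kᶜ (n + 1)) ?_).mp this
    abel
  · have := sub_mem (hr.loc K V hK hloc _ _ k2) k3
    rw [map_neg, k4, map_add]
    refine (congrArg (· ∈ On N Kᶜ (n + 2)) ?_).mp this
    abel

theorem Geo.coreQ (h : Geo Γ X) {A B : Set X} (hA : IsCompact A) (hB : IsCompact B) {k : ℕ}
    {y : Chn ι X (k + 1)} (hy : NulQ ι (A ∩ sat Γ B) y)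
    (hb : bdry ι X k y ∈ OnQ ι (sat Γ A)ᶜ k ⊔ OnQ ι (sat Γ B)ᶜ k) :
    ∃ v1 ∈ OnQ ι (sat Γ A)ᶜ (k + 1), ∃ v2 ∈ OnQ ι (sat Γ B)ᶜ (k + 1), ∃ u,
      y = v1 + v2 + bdry ι X (k + 1) u := by
  obtain ⟨u, hu⟩ := hy
  rw [sat_inter_sat, compl_inter, ← sUnion_pair] at hu
  obtain ⟨u', -, h1⟩ := smallQ (by
    rintro _ (rfl | rfl)
    · exact (h.isClosed_sat hA).isOpen_compl
    · exact (h.isClosed_sat hB).isOpen_compl) hu (by rwa [SmQ_pair, map_sub, bdry_bdry, sub_zero])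
  rw [SmQ_pair] at h1
  obtain ⟨v1, h2, v2, h3, h4⟩ := Submodule.mem_sup.1 h1
  refine ⟨v1, h2, v2, h3, u + u', ?_⟩
  rw [map_add, h4]
  abel

theorem mvq_rel {A B : Set X} {k : ℕ} {y : Chn ι X (k + 1)}
    (hb : bdry ι X k y ∈ OnQ ι (sat Γ A)ᶜ k ⊔ OnQ ι (sat Γ B)ᶜ k) : RelQ ι (A ∩ sat Γ B) y := by
  rw [RelQ, sat_inter_sat]
  obtain ⟨a, ha, b, hb, h⟩ := Submodule.mem_sup.1 hb
  exact h ▸ add_mem (OnQ_mono (compl_subset_compl.2 inter_subset_left) k ha)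
    (OnQ_mono (compl_subset_compl.2 inter_subset_right) k hb)

/-- Classes that vanish at all points of `K` vanish. -/
def MvqGood (res : Set X → ∀ n, Chn ι X n →ₗ[N] Sch N X n) (K : Set X) : Prop :=
  ∀ q, 3 ≤ q → ∀ z : Chn ι X (q + 1), RelQ ι K z →
    (∀ x ∈ K, NulG {x} (res {x} (q + 1) z)) → NulQ ι K z

theorem Geo.mvq_point (h : Geo Γ X) (hr : IsRes ι res) {K : Set X} {q : ℕ} (hq : q ≠ 3)
    {z : Chn ι X (q + 1)} (hz : RelQ ι K z) {x : X} (hx : x ∈ K) :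
    NulG {x} (res {x} (q + 1) z) :=
  (fund_point h.chart x).van N q hq _
    (hr.relG isCompact_singleton (hz.mono (singleton_subset_iff.2 hx)))

theorem Geo.mvq_piece (h : Geo Γ X) (hr : IsRes ι res) {K V : Set X} (hK : IsCompact K)
    (hV : IsOpen V) (hKV : K ⊆ V) (hd : ∀ g : Γ, g ≠ 1 → ∀ y ∈ V, g • y ∉ V) :
    MvqGood res K := by
  intro q hq z hz h0
  obtain ⟨y, hy⟩ := fundGood h.chart hK q hq _ (hr.relG hK hz) fun x hx => by
    have := (nulG_of_On (hr.mono K {x} hK (singleton_subset_iff.2 hx) isCompact_singleton _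
      z)).add (h0 x hx)
    rwa [sub_add_cancel] at this
  obtain ⟨Y, h1, -⟩ := h.lift_fill hr hK hV hKV hd z y hy
  exact ⟨Y, h1⟩

theorem Geo.mvq_union (h : Geo Γ X) (hr : IsRes ι res) {A B : Set X} (hA : IsCompact A)
    (hB : IsCompact B) (h1 : MvqGood res A) (h2 : MvqGood res B)
    (h3 : MvqGood res (A ∩ sat Γ B)) : MvqGood res (A ∪ B) := by
  intro q hq z hz h0
  obtain ⟨y1, k1⟩ := h1 q hq z (hz.mono subset_union_left) fun x hx => h0 x (Or.inl hx)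
  obtain ⟨y2, k2⟩ := h2 q hq z (hz.mono subset_union_right) fun x hx => h0 x (Or.inr hx)
  have e : bdry ι X (q + 1) (y1 - y2) =
      -(z - bdry ι X (q + 1) y1) + (z - bdry ι X (q + 1) y2) := by
    rw [map_sub]
    abel
  have k0 := e ▸ Submodule.add_mem_sup (neg_mem k1) k2
  have k3 := mvq_rel k0
  obtain ⟨v1, k4, v2, k5, u, k6⟩ := h.coreQ hA hB (h3 (q + 1) (by omega) _ k3 fun x hx =>
    h.mvq_point hr (by omega) k3 hx) k0
  refine ⟨y1 - v1, OnQ_sat_union ?_ ?_⟩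
  · rw [map_sub, ← sub_add]
    exact add_mem k1 (bdry_mem_OnQ k4)
  · have : y1 - v1 = y2 + v2 + bdry ι X (q + 2) u := by
      rw [eq_add_of_sub_eq k6]
      abel
    rw [this, map_add, bdry_bdry, add_zero, map_add, ← sub_sub]
    exact sub_mem k2 (bdry_mem_OnQ k5)

theorem Geo.mvq_good (h : Geo Γ X) (hr : IsRes ι res) {K : Set X} (hK : IsCompact K) :
    MvqGood res K := by
  classical
  choose e he hd using h.exists_chart
  obtain ⟨T, -, t2⟩ := hK.elim_nhds_subcover (fun x => (e x).source)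
    fun x _ => (e x).open_source.mem_nhds (he x)
  obtain ⟨A, k1, k2, rfl⟩ := hK.finite_compact_cover T _ (fun x _ => (e x).open_source) t2
  clear t2 hK
  induction T using Finset.induction with
  | empty =>
    simpa using h.mvq_piece hr isCompact_empty isOpen_empty Subset.rfl fun _ _ _ h => h.elim
  | insert a T ha ih =>
    have hB : IsCompact (⋃ i ∈ T, A i) := T.isCompact_biUnion fun i _ => k1 i
    rw [Finset.set_biUnion_insert]
    exact h.mvq_union hr (k1 a) hB (h.mvq_piece hr (k1 a) (e a).open_source (k2 a) (hd a)) ih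
      (h.mvq_piece hr ((k1 a).inter_right (h.isClosed_sat hB)) (e a).open_source
        (inter_subset_left.trans (k2 a)) (hd a))

theorem Geo.hiQ (h : Geo Γ X) (hr : IsRes ι res) {K : Set X} (hK : IsCompact K) {q : ℕ}
    (hq : 4 ≤ q) {z : Chn ι X (q + 1)} (hz : RelQ ι K z) : NulQ ι K z := by
  exact h.mvq_good hr hK q (by omega) z hz fun x hx => h.mvq_point hr (by omega) hz hx

theorem Geo.injQ (h : Geo Γ X) (hr : IsRes ι res) {K : Set X} (hK : IsCompact K)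
    {z : Chn ι X 4} (hz : RelQ ι K z) (h0 : ∀ x ∈ K, NulG {x} (res {x} 4 z)) : NulQ ι K z := by
  exact h.mvq_good hr hK 3 le_rfl z hz h0

theorem Geo.glue (h : Geo Γ X) (hr : IsRes ι res) {F : Type} (T : Finset F) {A : F → Set X}
    (hA : ∀ i, IsCompact (A i)) (z : Chn ι X 3) (Y : F → Chn ι X 4)
    (hY : ∀ i ∈ T, z - bdry ι X 3 (Y i) ∈ OnQ ι (sat Γ (A i))ᶜ 3)
    (hc : ∀ i ∈ T, ∀ j ∈ T, ∀ x ∈ sat Γ (A i) ∩ sat Γ (A j), NulG {x} (res {x} 4 (Y i - Y j))) :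
    NulQ ι (⋃ i ∈ T, A i) z := by
  classical
  suffices H : ∃ Y0 : Chn ι X 4, z - bdry ι X 3 Y0 ∈ OnQ ι (sat Γ (⋃ i ∈ T, A i))ᶜ 3 ∧
      ∀ i ∈ T, ∀ x ∈ sat Γ (A i), NulG {x} (res {x} 4 (Y0 - Y i)) from
    ⟨H.choose, H.choose_spec.1⟩
  induction T using Finset.induction with
  | empty =>
    refine ⟨0, OnQ_mono (fun x _ ⟨g, hg⟩ => ?_) 3 (mem_OnQ_univ _), fun i hi => by simp at hi⟩
    simp at hg
  | insert a T ha ih =>
    have m := Finset.mem_insert_self a T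
    obtain ⟨Y0, h1, h2⟩ := ih (fun i hi => hY i (Finset.mem_insert_of_mem hi))
      fun i hi j hj => hc i (Finset.mem_insert_of_mem hi) j (Finset.mem_insert_of_mem hj)
    have hB : IsCompact (⋃ i ∈ T, A i) := T.isCompact_biUnion fun i _ => hA i
    have e : bdry ι X 3 (Y0 - Y a) = (z - bdry ι X 3 (Y a)) + -(z - bdry ι X 3 Y0) := by
      rw [map_sub]
      abel
    have k0 := e ▸ Submodule.add_mem_sup (hY a m) (neg_mem h1)
    obtain ⟨v1, k4, v2, k5, u, k6⟩ := h.coreQ (hA a) hB (h.injQ hr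
      ((hA a).inter_right (h.isClosed_sat hB)) (mvq_rel k0) (by
        rintro x ⟨hx, g, hg⟩
        obtain ⟨i, hi, hg⟩ := mem_iUnion₂.1 hg
        have := (h2 i hi x ⟨g, hg⟩).add
          (hc i (Finset.mem_insert_of_mem hi) a m x ⟨⟨g, hg⟩, subset_sat _ hx⟩)
        rwa [← map_add, sub_add_sub_cancel] at this)) k0
    have e' : Y0 - v2 = Y a + v1 + bdry ι X 4 u := by
      rw [eq_add_of_sub_eq k6]
      abel
    rw [Finset.set_biUnion_insert]
    refine ⟨Y0 - v2, OnQ_sat_union ?_ ?_, fun i hi x hx => ?_⟩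
    · rw [e', map_add, bdry_bdry, add_zero, map_add, ← sub_sub]
      exact sub_mem (hY a m) (bdry_mem_OnQ k4)
    · rw [map_sub, ← sub_add]
      exact add_mem h1 (bdry_mem_OnQ k5)
    · rcases Finset.mem_insert.1 hi with rfl | hi
      · rw [e', add_assoc, add_sub_cancel_left, map_add]
        exact (hr.nulG_OnQ hx k4).add (hr.nulG_bdry isCompact_singleton u)
      · rw [sub_right_comm, map_sub]
        exact (h2 i hi x hx).sub (hr.nulG_OnQ
          (sat_mono (subset_iUnion₂ (s := fun i (_ : i ∈ T) => A i) i hi) hx) k5)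

end Vale.Agent.P239
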