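import Vale.Agent.P239.TDefs

/-! An invariant metric on the universal cover. -/

namespace Vale.Agent.P239

open Filter Topology Set

section Aux

variable {M X Γ : Type} [TopologicalSpace M] [TopologicalSpace X] [Group Γ] [MulAction Γ X]
  {p : X → M}

theorem mt_t2 [T2Space M] (hp : IsQuotientCoveringMap p Γ) : T2Space X := by
  refine ⟨fun x y hxy => ?_⟩
  by_cases h : p x = p y
  · exact hp.isCoveringMap.isSeparatedMap x y h hxy
  · exact separated_by_continuous hp.continuous h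

theorem mt_chart [ChartedSpace E4 M] (hp : IsQuotientCoveringMap p Γ) (x : X) :
    ∃ e : OpenPartialHomeomorph X E4, x ∈ e.source := by
  obtain ⟨e, hx, he⟩ := hp.isCoveringMap.isLocalHomeomorph x
  refine ⟨e.trans (chartAt E4 (p x)), hx, ?_⟩
  change e x ∈ (chartAt E4 (p x)).source
  rw [← he]
  exact mem_chart_source _ _

theorem mt_ball {e : OpenPartialHomeomorph X E4} {x : X} (hx : x ∈ e.source) {U : Set X}
    (hU : U ∈ 𝓝 x) : ∃ r : ℝ, 0 < r ∧ Metric.closedBall (e x) r ⊆ e.target ∧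
      e.symm '' Metric.closedBall (e x) r ⊆ U ∧ e.symm '' Metric.closedBall (e x) r ∈ 𝓝 x := by
  have h1 : e.symm ⁻¹' U ∈ 𝓝 (e x) :=
    (e.continuousAt_symm (e.map_source hx)).preimage_mem_nhds (by rwa [e.left_inv hx])
  obtain ⟨r, hr, hb⟩ := Metric.nhds_basis_closedBall.mem_iff.1
    (inter_mem (e.open_target.mem_nhds (e.map_source hx)) h1)
  refine ⟨r, hr, fun z hz => (hb hz).1, ?_, ?_⟩
  · rintro _ ⟨z, hz, rfl⟩
    exact (hb hz).2
  · have h2 := e.symm.image_mem_nhds (e.map_source hx) (Metric.closedBall_mem_nhds (e x) hr)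
    rwa [e.left_inv hx] at h2

theorem mt_wlc (h : ∀ x : X, ∃ e : OpenPartialHomeomorph X E4, x ∈ e.source) :
    WeaklyLocallyCompactSpace X := by
  refine ⟨fun x => ?_⟩
  obtain ⟨e, hx⟩ := h x
  obtain ⟨r, -, h1, -, h2⟩ := mt_ball hx univ_mem
  exact ⟨_, (isCompact_closedBall _ _).image_of_continuousOn (e.continuousOn_symm.mono h1), h2⟩

theorem mt_pair [T2Space M] (hp : IsQuotientCoveringMap p Γ) (x y : X) :
    ∃ U ∈ 𝓝 x, ∃ V ∈ 𝓝 y, {g : Γ | ∃ z ∈ U, g • z ∈ V}.Finite := by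
  by_cases h : p y = p x
  · obtain ⟨g0, rfl⟩ := hp.apply_eq_iff_mem_orbit.1 h
    obtain ⟨U, hU, hd⟩ := hp.disjoint x
    refine ⟨U, hU, (fun z => g0⁻¹ • z) ⁻¹' U, (hp.continuous_const_smul g0⁻¹).continuousAt
      (by simpa using hU), (finite_singleton g0).subset ?_⟩
    rintro g ⟨z, hz, hz'⟩
    have h1 := hd (g0⁻¹ * g) ⟨_, ⟨z, hz, rfl⟩, by simpa [mul_smul] using hz'⟩
    exact (inv_mul_eq_one.1 h1).symm
  · obtain ⟨V, U, hV, hU, hy, hx, hd⟩ := t2_separation h
    refine ⟨p ⁻¹' U, (hU.preimage hp.continuous).mem_nhds hx, p ⁻¹' V,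
      (hV.preimage hp.continuous).mem_nhds hy, finite_empty.subset ?_⟩
    rintro g ⟨z, hz, hz'⟩
    rw [mem_preimage, hp.map_smul] at hz'
    exact disjoint_left.1 hd hz' hz

theorem mt_loc [T2Space M] (hp : IsQuotientCoveringMap p Γ) {K : Set X} (hK : IsCompact K)
    (x : X) : ∃ U ∈ 𝓝 x, {g : Γ | ∃ z ∈ U, g • z ∈ K}.Finite := by
  refine hK.induction_on (p := fun K => ∃ U ∈ 𝓝 x, {g : Γ | ∃ z ∈ U, g • z ∈ K}.Finite)
    ⟨univ, univ_mem, by simp⟩ ?_ ?_ ?_
  · rintro s t hst ⟨U, hU, h⟩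
    exact ⟨U, hU, h.subset fun g ⟨z, h1, h2⟩ => ⟨z, h1, hst h2⟩⟩
  · rintro s t ⟨U, hU, h⟩ ⟨U', hU', h'⟩
    refine ⟨U ∩ U', inter_mem hU hU', (h.union h').subset ?_⟩
    rintro g ⟨z, h1, h2 | h2⟩
    exacts [Or.inl ⟨z, h1.1, h2⟩, Or.inr ⟨z, h1.2, h2⟩]
  · intro y _
    obtain ⟨U, hU, V, hV, h⟩ := mt_pair hp x y
    exact ⟨V, mem_nhdsWithin_of_mem_nhds hV, U, hU, h⟩

theorem mt_prop [T2Space M] (hp : IsQuotientCoveringMap p Γ) {K K' : Set X} (hK : IsCompact K)
    (hK' : IsCompact K') : {g : Γ | ∃ z ∈ K', g • z ∈ K}.Finite := by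
  refine hK'.induction_on (p := fun U => {g : Γ | ∃ z ∈ U, g • z ∈ K}.Finite) (by simp) ?_ ?_ ?_
  · exact fun s t hst h => h.subset fun g ⟨z, h1, h2⟩ => ⟨z, hst h1, h2⟩
  · intro s t h h'
    refine (h.union h').subset ?_
    rintro g ⟨z, h1 | h1, h2⟩
    exacts [Or.inl ⟨z, h1, h2⟩, Or.inr ⟨z, h1, h2⟩]
  · intro y _
    obtain ⟨U, hU, h⟩ := mt_loc hp hK y
    exact ⟨U, mem_nhdsWithin_of_mem_nhds hU, h⟩

theorem mt_bump [T2Space X] [LocallyCompactSpace X] {e : OpenPartialHomeomorph X E4} {x : X}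
    (hx : x ∈ e.source) : ∃ (K V : Set X) (F : X → ℝ × E4), IsCompact K ∧ V ∈ 𝓝 x ∧
      Continuous F ∧ (∀ y ∉ K, F y = 0) ∧ (∀ z ∈ V, (F z).1 = 2) ∧
      ∀ z ∈ V, ∀ W ∈ 𝓝 z, ∃ ε > 0, ∀ y, dist (F y) (F z) < ε → y ∈ W := by
  obtain ⟨K, hK, hxK, hKs⟩ := exists_compact_subset e.open_source hx
  obtain ⟨V, hV, hxV, hVK⟩ := exists_compact_subset isOpen_interior hxK
  obtain ⟨ψ, h1, h0, -, -⟩ := exists_continuous_one_zero_of_isCompact hV
    isOpen_interior.isClosed_compl (disjoint_compl_right_iff_subset.2 hVK)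
  have hz : ∀ y ∉ K, ψ y = 0 := fun y hy => h0 fun h => hy (interior_subset h)
  refine ⟨K, V, fun y => (2 * ψ y, ψ y • e y), hK, mem_interior_iff_mem_nhds.1 hxV,
    (continuous_const.mul ψ.continuous).prodMk (continuous_iff_continuousAt.2 fun y => ?_),
    fun y hy => by simp [hz y hy], fun z hz => by simp [h1 hz], fun z hzV W hW => ?_⟩
  · by_cases hy : y ∈ K
    · exact ψ.continuous.continuousAt.smul (e.continuousAt (hKs hy))
    · refine (continuousAt_const (y := (0 : E4))).congr ?_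
      filter_upwards [hK.isClosed.isOpen_compl.mem_nhds hy] with w hw
      simp [hz w hw]
  · have hzs : z ∈ e.source := hKs (interior_subset (hVK hzV))
    have hψ : ψ z = 1 := h1 hzV
    have h2 : ContinuousAt (fun a : ℝ × E4 => (2 / a.1) • a.2) (2, e z) :=
      (continuousAt_const.div continuousAt_fst two_ne_zero).smul continuousAt_snd
    have h3 : ContinuousAt (fun a : ℝ × E4 => e.symm ((2 / a.1) • a.2)) (2, e z) :=
      ContinuousAt.comp (by simpa using e.continuousAt_symm (e.map_source hzs)) h2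
    have h4 : ∀ᶠ a : ℝ × E4 in 𝓝 (2, e z), a.1 ≠ 0 :=
      continuousAt_fst.eventually_ne two_ne_zero
    obtain ⟨ε, hε, hb⟩ := Metric.mem_nhds_iff.1 (inter_mem h4 (h3.preimage_mem_nhds
      (t := W) (by simpa [e.left_inv hzs] using hW)))
    refine ⟨ε, hε, fun y hy => ?_⟩
    simp only [hψ, mul_one, one_smul] at hy
    obtain ⟨h5, h6⟩ := hb hy
    have h7 : ψ y ≠ 0 := fun h => h5 (by simp [h])
    have h8 : y ∈ e.source := hKs (by_contra fun h => h7 (hz y h))
    have h9 : (2 / (2 * ψ y)) • ψ y • e y = e y := by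
      rw [smul_smul, show 2 / (2 * ψ y) * ψ y = 1 by field_simp, one_smul]
    simpa only [mem_preimage, h9, e.left_inv h8] using h6

end Aux

theorem exists_geo {M X Γ : Type} [TopologicalSpace M] [T2Space M] [CompactSpace M]
    [ChartedSpace E4 M] [tX : TopologicalSpace X] [Group Γ] [MulAction Γ X] {p : X → M}
    (hp : IsQuotientCoveringMap p Γ) [ContractibleSpace X] :
    ∃ m : MetricSpace X, m.toPseudoMetricSpace.toUniformSpace.toTopologicalSpace = tX ∧
      @Geo Γ X _ m _ := by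
  haveI := mt_t2 hp
  haveI := mt_wlc (mt_chart hp)
  haveI := hp.toContinuousConstSMul
  choose s hs using hp.surjective
  choose e he using mt_chart hp
  choose K V F hK hV hF h0 h2 hi using fun m : M => mt_bump (he (s m))
  obtain ⟨t, -, ht⟩ := isCompact_univ.elim_nhds_subcover (fun m => p '' V m) fun m _ => by
    simpa only [hs] using hp.isOpenQuotientMap.isOpenMap.image_mem_nhds (hV m)
  have hcov : ∀ y : X, ∃ (i : t) (g : Γ), g • y ∈ V i := fun y => by
    obtain ⟨m, hm, v, hv, hvy⟩ := mem_iUnion₂.1 (ht (mem_univ (p y)))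
    obtain ⟨g, rfl⟩ := hp.apply_eq_iff_mem_orbit.1 hvy
    exact ⟨⟨m, hm⟩, g, hv⟩
  have hKc : IsCompact (⋃ i : t, K i) := isCompact_iUnion fun i => hK i
  obtain ⟨C, hC⟩ : ∃ C, ∀ (i : t) (y : X), ‖F i y‖ ≤ C := by
    choose C hC using fun i : t => (hK i).exists_bound_of_continuousOn (hF i).continuousOn
    obtain ⟨B, hB⟩ := Finite.exists_le C
    refine ⟨max B 0, fun i y => ?_⟩
    by_cases hy : y ∈ K i
    · exact ((hC i y hy).trans (hB i)).trans (le_max_left _ _)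
    · simp [h0 i y hy]
  letI : TopologicalSpace (Γ × t) := ⊥
  haveI : DiscreteTopology (Γ × t) := ⟨rfl⟩
  let J : X → BoundedContinuousFunction (Γ × t) (ℝ × E4) := fun x =>
    BoundedContinuousFunction.ofNormedAddCommGroupDiscrete (fun a => F a.2 (a.1 • x)) C
      fun a => hC _ _
  have hJ : ∀ x (g : Γ) (i : t), J x (g, i) = F i (g • x) := fun _ _ _ => rfl
  have hJc : Continuous J := by
    refine continuous_iff_continuousAt.2 fun x => Metric.tendsto_nhds.2 fun ε hε => ?_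
    obtain ⟨U, hU, hfin⟩ := mt_loc hp hKc x
    have h1 : ∀ᶠ y in 𝓝 x, ∀ g ∈ {g : Γ | ∃ z ∈ U, g • z ∈ ⋃ i : t, K i}, ∀ i : t,
        dist (F i (g • y)) (F i (g • x)) < ε / 2 :=
      (eventually_all_finite hfin).2 fun g _ => eventually_all.2 fun i =>
        Metric.tendsto_nhds.1 ((hF i).comp (continuous_const_smul g)).continuousAt _
          (half_pos hε)
    filter_upwards [h1, hU] with y hy hyU
    refine lt_of_le_of_lt ((BoundedContinuousFunction.dist_le (half_pos hε).le).2 ?_)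
      (half_lt_self hε)
    rintro ⟨g, i⟩
    rw [hJ, hJ]
    by_cases hg : g ∈ {g : Γ | ∃ z ∈ U, g • z ∈ ⋃ i : t, K i}
    · exact (hy g hg i).le
    · rw [h0 i _ fun h => hg ⟨y, hyU, mem_iUnion.2 ⟨i, h⟩⟩,
        h0 i _ fun h => hg ⟨x, mem_of_mem_nhds hU, mem_iUnion.2 ⟨i, h⟩⟩, dist_self]
      exact (half_pos hε).le
  have hJi : IsInducing J := by
    refine isInducing_iff_nhds.2 fun x => le_antisymm hJc.continuousAt.le_comap fun W hW => ?_
    obtain ⟨i, g, hg⟩ := hcov x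
    obtain ⟨ε, hε, hb⟩ := hi i _ hg ((fun z => g⁻¹ • z) ⁻¹' W)
      ((continuous_const_smul g⁻¹).continuousAt (by simpa using hW))
    refine ⟨Metric.ball (J x) ε, Metric.ball_mem_nhds _ hε, fun y hy => ?_⟩
    simpa using hb (g • y)
      ((BoundedContinuousFunction.dist_coe_le_dist (f := J y) (g := J x) (g, i)).trans_lt hy)
  have hle : ∀ (g : Γ) (x y : X), dist (J (g • x)) (J (g • y)) ≤ dist (J x) (J y) := by
    intro g x y
    refine (BoundedContinuousFunction.dist_le dist_nonneg).2 ?_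
    rintro ⟨h, i⟩
    rw [hJ, hJ, smul_smul, smul_smul]
    exact BoundedContinuousFunction.dist_coe_le_dist (f := J x) (g := J y) (h * g, i)
  have hcpt : ∀ x, IsCompact {y | dist (J y) (J x) ≤ 1} := fun x => by
    obtain ⟨i, g, hg⟩ := hcov x
    refine ((Homeomorph.smul g).isCompact_preimage.2 (hK i)).of_isClosed_subset
      (isClosed_le (hJc.dist continuous_const) continuous_const) fun y hy => ?_
    by_contra hn
    have h3 := (BoundedContinuousFunction.dist_coe_le_dist (f := J y) (g := J x) (g, i)).trans hy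
    rw [hJ, hJ, h0 i (g • y) hn] at h3
    have h4 := (le_max_left _ _).trans h3
    rw [h2 i _ hg] at h4
    norm_num [Real.dist_eq] at h4
  refine ⟨hJi.isEmbedding.comapMetricSpace J, rfl, ?_⟩
  refine @Geo.mk Γ X _ (hJi.isEmbedding.comapMetricSpace J) _ (fun g x y => ?_) hcpt
    ⟨_, hKc, fun x => ?_⟩ (fun L hL => mt_prop hp hL hL) (fun g x h => ?_)
    (fun x => ⟨e x, he x⟩) ‹_›
  · refine le_antisymm (hle g x y) ?_
    have h3 := hle g⁻¹ (g • x) (g • y)
    rw [inv_smul_smul, inv_smul_smul] at h3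
    exact h3
  · obtain ⟨i, g, hg⟩ := hcov x
    refine ⟨g, mem_iUnion.2 ⟨i, by_contra fun hn => ?_⟩⟩
    simpa [h0 i _ hn] using h2 i _ hg
  · obtain ⟨U, hU, hd⟩ := hp.disjoint x
    exact hd g ⟨x, ⟨x, mem_of_mem_nhds hU, h⟩, mem_of_mem_nhds hU⟩

theorem Geo.chart_ball {Γ X : Type} [Group Γ] [MetricSpace X] [MulAction Γ X] (h : Geo Γ X)
    {ε : ℝ} (hε : 0 < ε) : ∃ δ : ℝ, 0 < δ ∧ ∀ x : X, ∃ (e : OpenPartialHomeomorph X E4)
      (D : Set E4), IsCompact D ∧ Convex ℝ D ∧ D.Nonempty ∧ D ⊆ e.target ∧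
        Metric.closedBall x δ ⊆ e.symm '' D ∧ e.symm '' D ⊆ Metric.ball x ε := by
  obtain ⟨K, hK, hcoc⟩ := h.coc
  choose e he using h.chart
  choose r hr h1 h2 h3 using fun x => mt_ball (he x) (Metric.ball_mem_nhds x (half_pos hε))
  obtain ⟨δ, hδ, hb⟩ := lebesgue_number_lemma_of_metric hK
    (c := fun x => interior ((e x).symm '' Metric.closedBall (e x x) (r x)))
    (fun _ => isOpen_interior) fun x _ => mem_iUnion.2 ⟨x, mem_interior_iff_mem_nhds.2 (h3 x)⟩
  refine ⟨δ / 2, half_pos hδ, fun x => ?_⟩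
  obtain ⟨g, hg⟩ := hcoc x
  obtain ⟨y, hy⟩ := hb _ hg
  let φ : X ≃ᵢ X := ⟨MulAction.toPerm g, Isometry.of_dist_eq (h.isom g)⟩
  refine ⟨φ.toHomeomorph.transOpenPartialHomeomorph (e y), Metric.closedBall (e y y) (r y),
    isCompact_closedBall _ _, convex_closedBall _ _, ⟨_, Metric.mem_closedBall_self (hr y).le⟩,
    h1 y, fun z hz => ?_, ?_⟩
  · have h4 : g • z ∈ Metric.ball (g • x) δ := by
      rw [Metric.mem_ball, h.isom]
      exact lt_of_le_of_lt hz (half_lt_self hδ)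
    obtain ⟨w, hw, hw'⟩ := interior_subset (hy h4)
    refine ⟨w, hw, ?_⟩
    change g⁻¹ • (e y).symm w = z
    rw [hw', inv_smul_smul]
  · rintro _ ⟨w, hw, rfl⟩
    change dist (g⁻¹ • (e y).symm w) x < ε
    have h4 : dist ((e y).symm w) y < ε / 2 := h2 y ⟨w, hw, rfl⟩
    have h5 : dist (g • x) y < ε / 2 := h2 y (interior_subset (hy (Metric.mem_ball_self hδ)))
    rw [← h.isom g, smul_inv_smul]
    linarith [dist_triangle_right ((e y).symm w) (g • x) y]

end Vale.Agent.P239
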