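import Vale.Agent.P239.SingG

/-! Barycentric subdivision of chains of ordered tuples. -/

namespace Vale.Agent.P239

open Filter Topology Set

noncomputable section

/-- Integral chains on ordered tuples. -/
abbrev SmC (V : Type) (k : ℕ) : Type := (Fin k → V) →₀ ℤ

section comb

variable {V W : Type}

def smB (V : Type) (k : ℕ) : SmC V (k + 1) →ₗ[ℤ] SmC V k :=
  ∑ i : Fin (k + 1), (-1 : ℤ) ^ (i : ℕ) •
    Finsupp.lmapDomain ℤ ℤ fun t : Fin (k + 1) → V => t ∘ i.succAbove

def smCone (b : V) (k : ℕ) : SmC V k →ₗ[ℤ] SmC V (k + 1) :=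
  Finsupp.lmapDomain ℤ ℤ fun t : Fin k → V => (Fin.cons b t : Fin (k + 1) → V)

def smMap (f : V → W) (k : ℕ) : SmC V k →ₗ[ℤ] SmC W k :=
  Finsupp.lmapDomain ℤ ℤ fun t : Fin k → V => f ∘ t

theorem smB_single {k : ℕ} (v : Fin (k + 1) → V) (a : ℤ) : smB V k (Finsupp.single v a) =
    ∑ i : Fin (k + 1), (-1 : ℤ) ^ (i : ℕ) • Finsupp.single (v ∘ i.succAbove) a := by
  simp only [smB, LinearMap.sum_apply, LinearMap.smul_apply, Finsupp.lmapDomain_apply,
    Finsupp.mapDomain_single]

theorem smCone_single (b : V) {k : ℕ} (v : Fin k → V) (a : ℤ) :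
    smCone b k (Finsupp.single v a) = Finsupp.single (Fin.cons b v : Fin (k + 1) → V) a := by
  simp only [smCone, Finsupp.lmapDomain_apply, Finsupp.mapDomain_single]

theorem smMap_single (f : V → W) {k : ℕ} (v : Fin k → V) (a : ℤ) :
    smMap f k (Finsupp.single v a) = Finsupp.single (f ∘ v) a := by
  simp only [smMap, Finsupp.lmapDomain_apply, Finsupp.mapDomain_single]

theorem smB_cone_zero (b : V) (t : SmC V 0) : smB V 0 (smCone b 0 t) = t := by
  induction t using Finsupp.induction_linear with
  | zero => simp only [map_zero]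
  | add f g hf hg => simp only [map_add, hf, hg]
  | single v a =>
    rw [smCone_single, smB_single, Fin.sum_univ_one]
    simp only [Fin.val_zero, pow_zero, one_smul]
    congr 1

theorem smB_cone (b : V) {k : ℕ} (t : SmC V (k + 1)) :
    smB V (k + 1) (smCone b (k + 1) t) = t - smCone b k (smB V k t) := by
  induction t using Finsupp.induction_linear with
  | zero => simp only [map_zero, sub_zero]
  | add f g hf hg => simp only [map_add, hf, hg, add_sub_add_comm]
  | single v a =>
    rw [smCone_single, smB_single, smB_single, Fin.sum_univ_succ, map_sum, sub_eq_add_neg,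
      ← Finset.sum_neg_distrib]
    congr 1
    · simp only [Fin.val_zero, pow_zero, one_smul]
      rfl
    · refine Finset.sum_congr rfl fun i _ => ?_
      rw [map_zsmul, smCone_single, Fin.val_succ, pow_succ, mul_neg_one, neg_smul]
      congr 3
      funext j
      refine Fin.cases ?_ (fun j => ?_) j
      · simp
      · simp

theorem smB_smB : ∀ (k : ℕ) (t : SmC V (k + 2)), smB V k (smB V (k + 1) t) = 0 := by
  intro k
  induction k with
  | zero =>
    intro t
    induction t using Finsupp.induction_linear with
    | zero => simp only [map_zero]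
    | add f g hf hg => simp only [map_add, hf, hg, add_zero]
    | single v a =>
      rw [← Fin.cons_self_tail v, ← smCone_single, smB_cone, map_sub, smB_cone_zero, sub_self]
  | succ k ih =>
    intro t
    induction t using Finsupp.induction_linear with
    | zero => simp only [map_zero]
    | add f g hf hg => simp only [map_add, hf, hg, add_zero]
    | single v a =>
      rw [← Fin.cons_self_tail v, ← smCone_single, smB_cone, map_sub, smB_cone, ih, map_zero,
        sub_zero, sub_self]

theorem smMap_smB (f : V → W) {k : ℕ} (t : SmC V (k + 1)) :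
    smMap f k (smB V k t) = smB W k (smMap f (k + 1) t) := by
  induction t using Finsupp.induction_linear with
  | zero => simp only [map_zero]
  | add f g hf hg => simp only [map_add, hf, hg]
  | single v a =>
    rw [smMap_single, smB_single, smB_single, map_sum]
    simp only [map_zsmul, smMap_single, Function.comp_assoc]

theorem smMap_cone (f : V → W) (b : V) {k : ℕ} (t : SmC V k) :
    smMap f (k + 1) (smCone b k t) = smCone (f b) k (smMap f k t) := by
  induction t using Finsupp.induction_linear with
  | zero => simp only [map_zero]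
  | add f g hf hg => simp only [map_add, hf, hg]
  | single v a => rw [smCone_single, smMap_single, smMap_single, smCone_single, Fin.comp_cons]

variable (b : ∀ k, (Fin (k + 1) → V) → V)

/-- Subdivision. -/
def smS : ∀ k, SmC V k →ₗ[ℤ] SmC V k
  | 0 => LinearMap.id
  | k + 1 => Finsupp.linearCombination ℤ fun v =>
      smCone (b k v) k (smS k (smB V k (Finsupp.single v 1)))

/-- The chain homotopy from the identity to the subdivision. -/
def smT : ∀ k, SmC V k →ₗ[ℤ] SmC V (k + 1)
  | 0 => 0
  | k + 1 => Finsupp.linearCombination ℤ fun v =>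
      smCone (b k v) (k + 1) (Finsupp.single v 1 - smT k (smB V k (Finsupp.single v 1)))

theorem smS_single {k : ℕ} (v : Fin (k + 1) → V) (a : ℤ) : smS b (k + 1) (Finsupp.single v a) =
    smCone (b k v) k (smS b k (smB V k (Finsupp.single v a))) := by
  rw [smS, Finsupp.linearCombination_single, ← map_smul, ← map_smul, ← map_smul,
    Finsupp.smul_single, smul_eq_mul, mul_one]

theorem smT_single {k : ℕ} (v : Fin (k + 1) → V) (a : ℤ) : smT b (k + 1) (Finsupp.single v a) =
    smCone (b k v) (k + 1) (Finsupp.single v a - smT b k (smB V k (Finsupp.single v a))) := by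
  rw [smT, Finsupp.linearCombination_single, ← map_smul, smul_sub, ← map_smul, ← map_smul,
    Finsupp.smul_single, smul_eq_mul, mul_one]

theorem smB_smS : ∀ (k : ℕ) (t : SmC V (k + 1)),
    smB V k (smS b (k + 1) t) = smS b k (smB V k t) := by
  intro k
  induction k with
  | zero =>
    intro t
    induction t using Finsupp.induction_linear with
    | zero => simp only [map_zero]
    | add f g hf hg => simp only [map_add, hf, hg]
    | single v a => rw [smS_single, smB_cone_zero]
  | succ k ih =>
    intro t
    induction t using Finsupp.induction_linear with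
    | zero => simp only [map_zero]
    | add f g hf hg => simp only [map_add, hf, hg]
    | single v a => rw [smS_single, smB_cone, ih, smB_smB, map_zero, map_zero, sub_zero]

theorem smB_smT : ∀ (k : ℕ) (t : SmC V (k + 1)),
    smB V (k + 1) (smT b (k + 1) t) + smT b k (smB V k t) = t - smS b (k + 1) t := by
  intro k
  induction k with
  | zero =>
    intro t
    induction t using Finsupp.induction_linear with
    | zero => simp only [map_zero, add_zero, sub_zero]
    | add f g hf hg =>
      simp only [map_add]
      rw [add_add_add_comm, hf, hg, add_sub_add_comm]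
    | single v a =>
      rw [smT_single, smS_single, smB_cone]
      simp only [smT, smS, LinearMap.zero_apply, sub_zero, add_zero, LinearMap.id_apply]
  | succ k ih =>
    intro t
    induction t using Finsupp.induction_linear with
    | zero => simp only [map_zero, add_zero, sub_zero]
    | add f g hf hg =>
      simp only [map_add]
      rw [add_add_add_comm, hf, hg, add_sub_add_comm]
    | single v a =>
      have h := ih (smB V (k + 1) (Finsupp.single v a))
      rw [smB_smB, map_zero, add_zero] at h
      rw [smT_single, smS_single, smB_cone, map_sub, h, sub_sub_cancel]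
      abel

variable {b} {b' : ∀ k, (Fin (k + 1) → W) → W} {f : V → W}

theorem smMap_smS (hf : ∀ k v, f (b k v) = b' k (f ∘ v)) : ∀ (k : ℕ) (t : SmC V k),
    smMap f k (smS b k t) = smS b' k (smMap f k t) := by
  intro k
  induction k with
  | zero => intro t; rfl
  | succ k ih =>
    intro t
    induction t using Finsupp.induction_linear with
    | zero => simp only [map_zero]
    | add f g hf hg => simp only [map_add, hf, hg]
    | single v a =>
      rw [smS_single, smMap_cone, ih, smMap_smB, smMap_single, smS_single, hf]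

theorem smMap_smT (hf : ∀ k v, f (b k v) = b' k (f ∘ v)) : ∀ (k : ℕ) (t : SmC V k),
    smMap f (k + 1) (smT b k t) = smT b' k (smMap f k t) := by
  intro k
  induction k with
  | zero => intro t; simp only [smT, LinearMap.zero_apply, map_zero]
  | succ k ih =>
    intro t
    induction t using Finsupp.induction_linear with
    | zero => simp only [map_zero]
    | add f g hf hg => simp only [map_add, hf, hg]
    | single v a =>
      rw [smT_single, smMap_cone, map_sub, ih, smMap_smB, smMap_single, smT_single, hf]

end comb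

section lin

variable {n k l : ℕ}

/-- The linear simplex with given vertices. -/
def smLin (v : Fin (k + 1) → Sx n) : C(Sx k, Sx n) :=
  ⟨fun x => ⟨∑ i, x i • (v i).1, (convex_stdSimplex ℝ _).sum_mem (fun i _ => x.2.1 i) x.2.2
    fun i _ => (v i).2⟩, by
    refine Continuous.subtype_mk (continuous_finsetSum _ fun i _ => ?_) _
    exact ((continuous_apply i).comp continuous_subtype_val).smul continuous_const⟩

theorem smLin_val (v : Fin (k + 1) → Sx n) (x : Sx k) :
    (smLin v x).1 = ∑ i, x.1 i • (v i).1 := rfl

def smVx (n : ℕ) : Fin (n + 1) → Sx n := fun i => stdSimplex.vertex i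

theorem smLin_vx : smLin (smVx n) = ContinuousMap.id _ := by
  refine ContinuousMap.ext fun x => Subtype.ext ?_
  rw [smLin_val]
  funext j
  simp [smVx, Finset.sum_apply, Pi.single_apply]

theorem smLin_comp_vx (v : Fin (k + 1) → Sx n) : smLin v ∘ smVx k = v := by
  funext i
  refine Subtype.ext ?_
  rw [Function.comp_apply, smLin_val]
  simp [smVx, Pi.single_apply]

theorem smLin_comp (u : Fin (k + 1) → Sx n) (v : Fin (l + 1) → Sx k) :
    (smLin u).comp (smLin v) = smLin (smLin u ∘ v) := by
  refine ContinuousMap.ext fun x => Subtype.ext ?_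
  simp only [ContinuousMap.comp_apply, smLin_val, Function.comp_apply, Finset.sum_apply,
    Pi.smul_apply, Finset.sum_smul, Finset.smul_sum, smul_smul, smul_eq_mul]
  exact Finset.sum_comm

theorem smLin_face (v : Fin (k + 2) → Sx n) (i : Fin (k + 2)) :
    (smLin v).comp (face i) = smLin (v ∘ i.succAbove) := by
  refine ContinuousMap.ext fun x => Subtype.ext ?_
  have h : ∀ j, (face i x).1 j = ∑ l ∈ Finset.univ.filter fun l => i.succAbove l = j, x.1 l :=
    fun j => FunOnFinite.linearMap_apply_apply ..
  simp only [ContinuousMap.comp_apply, smLin_val, h, Finset.sum_smul]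
  rw [← Finset.sum_fiberwise Finset.univ i.succAbove]
  refine Finset.sum_congr rfl fun k _ => Finset.sum_congr rfl fun j hj => ?_
  rw [← (Finset.mem_filter.mp hj).2]
  rfl

theorem smLin_dist (v : Fin (k + 1) → Sx n) (x : Sx k) (p : Sx n) :
    dist (smLin v x) p ≤ ∑ i, x.1 i * dist (v i) p := by
  have h : (smLin v x).1 - p.1 = ∑ i, x.1 i • ((v i).1 - p.1) := by
    simp only [smul_sub, Finset.sum_sub_distrib, smLin_val]
    rw [← Finset.sum_smul, x.2.2, one_smul]
  rw [Subtype.dist_eq, dist_eq_norm, h]
  refine (norm_sum_le _ _).trans (Finset.sum_le_sum fun i _ => ?_)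
  rw [norm_smul, Real.norm_of_nonneg (x.2.1 i), Subtype.dist_eq, dist_eq_norm]

theorem smLin_dist_le {v : Fin (k + 1) → Sx n} {p : Sx n} {r : ℝ} (h : ∀ i, dist (v i) p ≤ r)
    (x : Sx k) : dist (smLin v x) p ≤ r := by
  refine (smLin_dist v x p).trans ?_
  calc ∑ i, x.1 i * dist (v i) p ≤ ∑ i, x.1 i * r :=
        Finset.sum_le_sum fun i _ => mul_le_mul_of_nonneg_left (h i) (x.2.1 i)
    _ = r := by rw [← Finset.sum_mul, x.2.2, one_mul]

/-- The barycentre of a tuple. -/
def smBar (n k : ℕ) (v : Fin (k + 1) → Sx n) : Sx n := smLin v stdSimplex.barycenter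

theorem smLin_bar (u : Fin (k + 1) → Sx n) (l : ℕ) (v : Fin (l + 1) → Sx k) :
    smLin u (smBar k l v) = smBar n l (smLin u ∘ v) :=
  DFunLike.congr_fun (smLin_comp u v) _

theorem smBar_dist {v : Fin (k + 1) → Sx n} {d : ℝ} (h : ∀ i j, dist (v i) (v j) ≤ d) {N : ℕ}
    (hN : k ≤ N) (i : Fin (k + 1)) : dist (v i) (smBar n k v) ≤ (1 - 1 / ((N : ℝ) + 1)) * d := by
  have hd : 0 ≤ d := dist_nonneg.trans (h i i)
  rw [dist_comm]
  refine (smLin_dist v _ (v i)).trans ?_
  have e : ∀ j, (stdSimplex.barycenter : Sx k).1 j = ((k : ℝ) + 1)⁻¹ := fun j => by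
    simp [stdSimplex.barycenter]
  simp only [e]
  rw [← Finset.mul_sum, Fin.sum_univ_succAbove _ i, dist_self, zero_add]
  have h1 : ∑ j : Fin k, dist (v (i.succAbove j)) (v i) ≤ k * d := by
    refine (Finset.sum_le_sum fun j _ => h _ _).trans ?_
    simp
  have h2 : 1 / ((N : ℝ) + 1) ≤ 1 / ((k : ℝ) + 1) :=
    one_div_le_one_div_of_le (by positivity) (by exact_mod_cast Nat.succ_le_succ hN)
  calc _ ≤ ((k : ℝ) + 1)⁻¹ * (k * d) := mul_le_mul_of_nonneg_left h1 (by positivity)
    _ = (1 - 1 / ((k : ℝ) + 1)) * d := by field_simp; ring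
    _ ≤ _ := mul_le_mul_of_nonneg_right (by linarith) hd

/-- Tuples in `C` of diameter at most `d`. -/
def smG (C : Set (Sx n)) (d : ℝ) (k : ℕ) : Set (Fin k → Sx n) :=
  {w | (∀ j, w j ∈ C) ∧ ∀ i j, dist (w i) (w j) ≤ d}

theorem smS_small (N : ℕ) (d : ℝ) : ∀ k ≤ N + 1, ∀ C : Set (Sx n),
    (∀ (l : ℕ) (v : Fin (l + 1) → Sx n) (x : Sx l), (∀ i, v i ∈ C) → smLin v x ∈ C) →
    ∀ t ∈ Finsupp.supported ℤ ℤ (smG C d k),
      smS (smBar n) k t ∈ Finsupp.supported ℤ ℤ (smG C ((1 - 1 / ((N : ℝ) + 1)) * d) k) := by
  intro k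
  induction k with
  | zero =>
    intro _ C _ t _
    refine Finsupp.supported_mono (s := univ)
      (fun w _ => And.intro (fun j => j.elim0) fun j => j.elim0) ?_
    rw [Finsupp.supported_univ]
    trivial
  | succ k ih =>
    intro hk C hC t ht
    refine sing_map_supported _ (fun v hv => ?_) ht
    rw [smS_single]
    have hb := smBar_dist hv.2 (Nat.le_of_succ_le_succ hk)
    set r := (1 - 1 / ((N : ℝ) + 1)) * d
    have h1 : smB (Sx n) k (Finsupp.single v 1) ∈
        Finsupp.supported ℤ ℤ (smG (C ∩ Metric.closedBall (smBar n k v) r) d k) := by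
      rw [smB_single]
      refine Submodule.sum_mem _ fun i _ => zsmul_mem (Finsupp.single_mem_supported ℤ 1 ?_) _
      exact ⟨fun j => ⟨hv.1 _, hb _⟩, fun j l => hv.2 _ _⟩
    have h2 := ih (Nat.le_of_succ_le hk) (C ∩ Metric.closedBall (smBar n k v) r) (fun l u x hu =>
      ⟨hC l u x fun i => (hu i).1, smLin_dist_le (fun i => (hu i).2) x⟩) _ h1
    refine sing_map_supported _ (fun w hw => ?_) h2
    rw [smCone_single]
    refine Finsupp.single_mem_supported ℤ 1 ⟨fun j => ?_, fun i j => ?_⟩
    · refine Fin.cases ?_ (fun j => ?_) j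
      · exact hC _ _ _ hv.1
      · exact (hw.1 j).1
    · refine Fin.cases ?_ (fun i => ?_) i <;> refine Fin.cases ?_ (fun j => ?_) j
      · exact (dist_self _).le.trans (dist_nonneg.trans (hb 0))
      · exact (dist_comm _ _).le.trans (hw.1 j).2
      · exact (hw.1 i).2
      · exact hw.2 i j

theorem smS_pow_small (m : ℕ) : (smS (smBar n) (n + 1) ^ m) (Finsupp.single (smVx n) 1) ∈
    Finsupp.supported ℤ ℤ (smG univ ((1 - 1 / ((n : ℝ) + 1)) ^ m) (n + 1)) := by
  induction m with
  | zero =>
    refine Finsupp.single_mem_supported ℤ 1 ⟨fun _ => trivial, fun i j => ?_⟩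
    rw [pow_zero]
    exact (Metric.dist_le_diam_of_mem (bounded_stdSimplex _) (smVx n i).2 (smVx n j).2).trans
      diam_stdSimplex_le
  | succ m ih =>
    rw [pow_succ', pow_succ', Module.End.mul_apply]
    exact smS_small n _ _ le_rfl univ (fun _ _ _ _ => trivial) _ ih

end lin

end

end Vale.Agent.P239
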