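import Vale.Agent.P239.SingG
import Vale.Agent.P239.SmallAux

/-! Small chains (barycentric subdivision). -/

namespace Vale.Agent.P239

open Filter Topology Set

variable {X : Type} [TopologicalSpace X]

section ops

variable {R : Type} [Ring R] {m k : ℕ}

/-- Linear chains. -/
noncomputable def smallL (m k : ℕ) : SmC (Sx m) (k + 1) →ₗ[ℤ] Sch ℤ (Sx m) k :=
  Finsupp.lmapDomain ℤ ℤ smLin

theorem smallL_single (v : Fin (k + 1) → Sx m) (a : ℤ) :
    smallL m k (Finsupp.single v a) = Finsupp.single (smLin v) a := by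
  simp only [smallL, Finsupp.lmapDomain_apply, Finsupp.mapDomain_single]

theorem bd0_smallL (t : SmC (Sx m) (k + 2)) :
    bd0 ℤ (Sx m) k (smallL m (k + 1) t) = smallL m k (smB (Sx m) (k + 1) t) := by
  induction t using Finsupp.induction_linear with
  | zero => simp only [map_zero]
  | add f g hf hg => simp only [map_add, hf, hg]
  | single v a =>
    rw [smallL_single, bd0_single, smB_single, map_sum]
    simp only [map_zsmul, smallL_single, smLin_face]

theorem push_smallL {l : ℕ} (u : Fin (l + 1) → Sx m) (t : SmC (Sx l) (k + 1)) :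
    push ℤ (smLin u) k (smallL l k t) = smallL m k (smMap (smLin u) (k + 1) t) := by
  induction t using Finsupp.induction_linear with
  | zero => simp only [map_zero]
  | add f g hf hg => simp only [map_add, hf, hg]
  | single v a => rw [smallL_single, push_single, smMap_single, smallL_single, smLin_comp]

/-- The image of a linear chain under a singular simplex. -/
noncomputable def smallE (a : R) (σ : C(Sx m, X)) (k : ℕ) (t : SmC (Sx m) (k + 1)) : Sch R X k :=
  tens a (push ℤ σ k (smallL m k t))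

theorem smallE_vx (a : R) (σ : C(Sx m, X)) :
    smallE a σ m (Finsupp.single (smVx m) 1) = Finsupp.single σ a := by
  rw [smallE, smallL_single, smLin_vx, push_single, tens_single, one_smul,
    ContinuousMap.comp_id]

theorem bd0_smallE (a : R) (σ : C(Sx m, X)) (t : SmC (Sx m) (k + 2)) :
    bd0 R X k (smallE a σ (k + 1) t) = smallE a σ k (smB (Sx m) (k + 1) t) := by
  rw [smallE, smallE, bd0_tens, bd0_push, bd0_smallL]

theorem opU_smallE {l : ℕ} (Φ : ∀ m, SmC (Sx m) (k + 1) →ₗ[ℤ] SmC (Sx m) (l + 1))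
    (hΦ : ∀ (v : Fin (k + 1) → Sx m) (t : SmC (Sx k) (k + 1)),
      smMap (smLin v) (l + 1) (Φ k t) = Φ m (smMap (smLin v) (k + 1) t))
    (a : R) (σ : C(Sx m, X)) (t : SmC (Sx m) (k + 1)) :
    opU R X (smallL k l (Φ k (Finsupp.single (smVx k) 1))) (smallE a σ k t) =
      smallE a σ l (Φ m t) := by
  induction t using Finsupp.induction_linear with
  | zero => simp only [smallE, map_zero]
  | add f g hf hg =>
    simp only [smallE, map_add] at hf hg ⊢
    rw [hf, hg]
  | single v c =>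
    rw [smallE, smallE, smallL_single, push_single, tens_single, opU_single, ← push_push,
      push_smallL, hΦ, smMap_single, smLin_comp_vx, ← tens_zsmul, ← map_smul, ← map_smul,
      ← map_smul, Finsupp.smul_single, smul_eq_mul, mul_one]

/-- Barycentric subdivision of singular chains. -/
noncomputable def smallS (R : Type) [Ring R] (X : Type) [TopologicalSpace X] (k : ℕ) :
    Sch R X k →ₗ[R] Sch R X k :=
  opU R X (smallL k k (smS (smBar k) (k + 1) (Finsupp.single (smVx k) 1)))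

noncomputable def smallT (R : Type) [Ring R] (X : Type) [TopologicalSpace X] (k : ℕ) :
    Sch R X k →ₗ[R] Sch R X (k + 1) :=
  opU R X (smallL k (k + 1) (smT (smBar k) (k + 1) (Finsupp.single (smVx k) 1)))

theorem smallS_E (a : R) (σ : C(Sx m, X)) (t : SmC (Sx m) (k + 1)) :
    smallS R X k (smallE a σ k t) = smallE a σ k (smS (smBar m) (k + 1) t) :=
  opU_smallE (fun m => smS (smBar m) (k + 1)) (fun v t => smMap_smS (smLin_bar v) _ t) a σ t

theorem smallT_E (a : R) (σ : C(Sx m, X)) (t : SmC (Sx m) (k + 1)) :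
    smallT R X k (smallE a σ k t) = smallE a σ (k + 1) (smT (smBar m) (k + 1) t) :=
  opU_smallE (fun m => smT (smBar m) (k + 1)) (fun v t => smMap_smT (smLin_bar v) _ t) a σ t

theorem bd0_smallS (z : Sch R X (k + 1)) :
    bd0 R X k (smallS R X (k + 1) z) = smallS R X k (bd0 R X k z) := by
  induction z using Finsupp.induction_linear with
  | zero => simp only [map_zero]
  | add f g hf hg => simp only [map_add, hf, hg]
  | single σ a => rw [← smallE_vx, smallS_E, bd0_smallE, bd0_smallE, smallS_E, smB_smS]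

theorem bd0_smallT (z : Sch R X (k + 1)) :
    bd0 R X (k + 1) (smallT R X (k + 1) z) + smallT R X k (bd0 R X k z) =
      z - smallS R X (k + 1) z := by
  induction z using Finsupp.induction_linear with
  | zero => simp only [map_zero, add_zero, sub_zero]
  | add f g hf hg =>
    simp only [map_add]
    rw [add_add_add_comm, hf, hg, add_sub_add_comm]
  | single σ a =>
    rw [← smallE_vx, smallT_E, bd0_smallE, bd0_smallE, smallT_E, smallS_E]
    simp only [smallE]
    rw [← map_add, ← map_add, ← map_add, smB_smT, map_sub, map_sub, map_sub]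

theorem smallS_pow_E (a : R) (σ : C(Sx m, X)) (t : SmC (Sx m) (k + 1)) (j : ℕ) :
    (smallS R X k ^ j) (smallE a σ k t) = smallE a σ k ((smS (smBar m) (k + 1) ^ j) t) := by
  induction j with
  | zero => rfl
  | succ j ih => rw [pow_succ', pow_succ', Module.End.mul_apply, Module.End.mul_apply, ih, smallS_E]

theorem small_eventually {𝒰 : Set (Set X)} (hU : ∀ U ∈ 𝒰, IsOpen U) {z : Sch R X k}
    (hz : z ∈ On R (⋃₀ 𝒰) k) : ∀ᶠ j in atTop, (smallS R X k ^ j) z ∈ Sm R 𝒰 k := by
  let M : Submodule R (Sch R X k) :=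
    { carrier := {z | ∀ᶠ j in atTop, (smallS R X k ^ j) z ∈ Sm R 𝒰 k}
      zero_mem' := Eventually.of_forall fun j => by rw [map_zero]; exact zero_mem _
      add_mem' := fun {a b} ha hb => by
        filter_upwards [ha, hb] with j h1 h2
        rw [map_add]
        exact add_mem h1 h2
      smul_mem' := fun c a ha => by
        filter_upwards [ha] with j h1
        rw [map_smul]
        exact Submodule.smul_mem _ c h1 }
  refine sing_map_supported (T := M) LinearMap.id (fun σ hσ => ?_) hz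
  obtain ⟨δ, hδ, h⟩ := lebesgue_number_lemma_of_metric (s := univ) (c := fun U : 𝒰 => σ ⁻¹' U)
    isCompact_univ (fun U => (hU U U.2).preimage σ.continuous) (fun x _ => by
      obtain ⟨U, hU, hx⟩ := hσ (mem_range_self x)
      exact mem_iUnion.2 ⟨⟨U, hU⟩, hx⟩)
  have h0 : (0 : ℝ) < 1 / ((k : ℝ) + 1) := by positivity
  have h1 : 1 / ((k : ℝ) + 1) ≤ 1 := by
    rw [div_le_one (by positivity)]
    linarith [(Nat.cast_nonneg k : (0 : ℝ) ≤ k)]
  have ht := tendsto_pow_atTop_nhds_zero_of_lt_one (r := 1 - 1 / ((k : ℝ) + 1)) (by linarith)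
    (by linarith)
  filter_upwards [ht.eventually (gt_mem_nhds hδ)] with j hj
  rw [LinearMap.id_apply, ← smallE_vx, smallS_pow_E]
  refine tens_mem_Sm _ (sing_map_supported (push ℤ σ k ∘ₗ smallL k k) (fun w hw => ?_)
    (smS_pow_small j))
  rw [LinearMap.comp_apply, smallL_single, push_single]
  obtain ⟨U, hU⟩ := h (w 0) trivial
  refine sing_single_Sm ⟨U, U.2, ?_⟩ _
  rintro _ ⟨x, rfl⟩
  exact hU ((smLin_dist_le (fun i => hw.2 i 0) x).trans_lt hj)

end ops

theorem smallG {R : Type} [Ring R] (J : ∀ n, Submodule R (Sch R X n))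
    (hJ : ∀ (n k : ℕ) (u : Sch ℤ (Sx n) k), ∀ z ∈ J n, opU R X u z ∈ J k)
    {𝒰 : Set (Set X)} (hU : ∀ U ∈ 𝒰, IsOpen U) {n : ℕ} {z : Sch R X (n + 1)}
    (hz : z ∈ On R (⋃₀ 𝒰) (n + 1)) (hb : bd0 R X n z ∈ Sm R 𝒰 n ⊔ J n) :
    ∃ y ∈ On R (⋃₀ 𝒰) (n + 2), z - bd0 R X (n + 1) y ∈ Sm R 𝒰 (n + 1) ⊔ J (n + 1) := by
  have st : ∀ (k l : ℕ) (u : Sch ℤ (Sx k) l), ∀ w ∈ Sm R 𝒰 k ⊔ J k,
      opU R X u w ∈ Sm R 𝒰 l ⊔ J l := fun k l u w hw => by
    obtain ⟨a, ha, b, hb, rfl⟩ := Submodule.mem_sup.1 hw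
    rw [map_add]
    exact Submodule.add_mem_sup (opU_mem_Sm u ha) (hJ _ _ u b hb)
  have key : ∀ j : ℕ, (smallS R X (n + 1) ^ j) z ∈ On R (⋃₀ 𝒰) (n + 1) ∧
      bd0 R X n ((smallS R X (n + 1) ^ j) z) ∈ Sm R 𝒰 n ⊔ J n ∧
      ∃ y ∈ On R (⋃₀ 𝒰) (n + 2), z - bd0 R X (n + 1) y - (smallS R X (n + 1) ^ j) z ∈
        Sm R 𝒰 (n + 1) ⊔ J (n + 1) := by
    intro j
    induction j with
    | zero => exact ⟨hz, hb, 0, zero_mem _, by simp⟩
    | succ j ih =>
      obtain ⟨h1, h2, y, h3, h4⟩ := ih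
      rw [pow_succ', Module.End.mul_apply]
      generalize (smallS R X (n + 1) ^ j) z = w at h1 h2 h4
      refine ⟨opU_mem_On _ h1, ?_, y + smallT R X (n + 1) w, add_mem h3 (opU_mem_On _ h1), ?_⟩
      · rw [bd0_smallS]
        exact st _ _ _ _ h2
      · have h5 : smallT R X n (bd0 R X n w) ∈ Sm R 𝒰 (n + 1) ⊔ J (n + 1) := st _ _ _ _ h2
        have h6 := add_mem h4 h5
        rw [eq_sub_of_add_eq' (bd0_smallT w)] at h6
        have e : z - bd0 R X (n + 1) (y + smallT R X (n + 1) w) - smallS R X (n + 1) w =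
            z - bd0 R X (n + 1) y - w + (w - smallS R X (n + 1) w -
              bd0 R X (n + 1) (smallT R X (n + 1) w)) := by
          rw [map_add]
          abel
        rwa [e]
  obtain ⟨j, hj⟩ := (small_eventually hU hz).exists
  obtain ⟨-, -, y, h3, h4⟩ := key j
  refine ⟨y, h3, ?_⟩
  have := add_mem h4 (Submodule.mem_sup_left hj)
  rwa [sub_add_cancel] at this

theorem smallR {R : Type} [Ring R] {𝒰 : Set (Set X)} (hU : ∀ U ∈ 𝒰, IsOpen U) {n : ℕ}
    {z : Sch R X (n + 1)} (hz : z ∈ On R (⋃₀ 𝒰) (n + 1)) (hb : bd0 R X n z ∈ Sm R 𝒰 n) :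
    ∃ y ∈ On R (⋃₀ 𝒰) (n + 2), z - bd0 R X (n + 1) y ∈ Sm R 𝒰 (n + 1) := by
  simpa using smallG (fun _ => ⊥) (fun _ _ _ z hz => by simp [(Submodule.mem_bot R).1 hz]) hU hz
    (by simpa using hb)

theorem small {𝒰 : Set (Set X)} (hU : ∀ U ∈ 𝒰, IsOpen U) {n : ℕ} {z : Sch F2 X (n + 1)}
    (hz : z ∈ On F2 (⋃₀ 𝒰) (n + 1)) (hb : bd0 F2 X n z ∈ Sm F2 𝒰 n) :
    ∃ y ∈ On F2 (⋃₀ 𝒰) (n + 2), z - bd0 F2 X (n + 1) y ∈ Sm F2 𝒰 (n + 1) := smallR hU hz hb

end Vale.Agent.P239
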