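import Vale.Agent.P239.Zig
import Vale.Agent.P239.Fund
import Vale.Agent.P239.Metric
import Vale.Agent.P239.Htpy
import Vale.Agent.P239.Small

/-! Poincare duality in the form of vanishing on the nerve of a fine net. -/

namespace Vale.Agent.P239

open Filter Topology Set Metric

open Classical in
theorem nerve_sum {X κ : Type} [TopologicalSpace X] {D : Set X} (h : Loc D) {x : X} (hx : x ∈ D)
    {z : κ → Sch F2 X 4} (hz : ∀ i, Rel D (z i)) (s : Finset κ) : Rel D (∑ i ∈ s, z i) ∧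
      (if Nul {x} (∑ i ∈ s, z i) then 0 else 1 : ZMod 2) =
        ∑ i ∈ s, if Nul {x} (z i) then 0 else 1 := by
  induction s using Finset.induction with
  | empty =>
    refine ⟨?_, if_pos (nul_of_On (zero_mem _))⟩
    rw [Finset.sum_empty, Rel, map_zero]
    exact zero_mem _
  | insert a s ha ih =>
    rw [Finset.sum_insert ha, Finset.sum_insert ha, ← ih.2, h.nul_add (hz a) ih.1 hx]
    refine ⟨(hz a).add ih.1, ?_⟩
    by_cases h1 : Nul {x} (z a) <;> by_cases h2 : Nul {x} (∑ i ∈ s, z i) <;> simp [h1, h2]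
    rfl

theorem nerve_On {X ι : Type} [TopologicalSpace X] {K : ι → Set X} {D : Set X} {p q : ℕ}
    {σ : Fin p → ι} (h : ∀ i, D ⊆ K (σ i)) : NN K σ q ≤ On F2 Dᶜ q :=
  iSup_le fun i => On_mono (compl_subset_compl.2 (h i))

theorem nerve_le {X ι : Type} [TopologicalSpace X] {K : ι → Set X} {D : Set X} {p q : ℕ}
    {σ : Fin p → ι} (i : Fin p) (h : K (σ i) ⊆ D) : On F2 Dᶜ q ≤ NN K σ q :=
  (On_mono (compl_subset_compl.2 h)).trans (le_iSup (fun j => On F2 (K (σ j))ᶜ q) i)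

variable {Γ X : Type} [Group Γ] [MetricSpace X] [MulAction Γ X]

theorem nerve_eps (h : Geo Γ X) : ∃ r : ℕ → ℝ, (∀ j, 0 < r j) ∧ r 0 = 1 / 4 ∧ Antitone r ∧
    ∀ j (x : X), ∃ D : Set X, Loc D ∧ ∀ y, dist x y ≤ r (j + 1) →
      closedBall y (r (j + 1)) ⊆ D ∧ D ⊆ closedBall y (r j) := by
  have h1 : ∀ ε : {ε : ℝ // 0 < ε}, ∃ δ : {ε : ℝ // 0 < ε}, δ.1 ≤ ε.1 ∧ ∀ x : X, ∃ D : Set X,
      Loc D ∧ ∀ y, dist x y ≤ δ → closedBall y δ ⊆ D ∧ D ⊆ closedBall y ε := fun ⟨ε, hε⟩ => by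
    obtain ⟨δ, hδ, H⟩ := h.chart_ball (half_pos hε)
    refine ⟨⟨min (δ / 2) (ε / 2), by positivity⟩, (min_le_right _ _).trans (half_le_self hε.le),
      fun x => ?_⟩
    obtain ⟨e, D, a1, a2, a3, a4, a5, a6⟩ := H x
    refine ⟨_, loc_chart e a1 a2 a3 a4, fun y hy => ⟨Subset.trans (closedBall_subset_closedBall' ?_)
      a5, a6.trans (ball_subset_closedBall.trans (closedBall_subset_closedBall' ?_))⟩⟩
    · rw [dist_comm]
      linarith [min_le_left (δ / 2) (ε / 2)]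
    · linarith [min_le_right (δ / 2) (ε / 2)]
  choose F h2 h3 using h1
  refine ⟨fun j => (F^[j] ⟨1 / 4, by norm_num⟩).1, fun j => Subtype.prop _, rfl,
    antitone_nat_of_succ_le fun j => ?_, fun j x => ?_⟩
  · rw [Function.iterate_succ_apply']
    exact h2 _
  · simp only [Function.iterate_succ_apply']
    exact h3 _ x

theorem nerve_mu (h : Geo Γ X) {A : Set X} (hA : IsCompact A) : ∃ μ : Sch F2 X 4, Rel A μ ∧
    (∀ x ∈ A, ¬ Nul {x} μ) ∧ μ ∈ Sm F2 (range fun x => ball x (1 / 8)) 4 := by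
  obtain ⟨μ, h1, h2⟩ := exists_fund h.chart hA
  obtain ⟨y, -, h3⟩ := small (𝒰 := insert Aᶜ (range fun x => ball x (1 / 8))) (z := μ)
    (by
      rintro _ (rfl | ⟨x, rfl⟩)
      · exact hA.isClosed.isOpen_compl
      · exact isOpen_ball)
    (mem_On.2 fun _ _ x _ => ⟨_, Or.inr ⟨x, rfl⟩, mem_ball_self (by norm_num)⟩)
    (On_le_Sm (mem_insert _ _) h1)
  have h4 : Sm F2 (insert Aᶜ (range fun x => ball x (1 / 8))) 4 ≤
      On F2 Aᶜ 4 ⊔ Sm F2 (range fun x => ball x (1 / 8)) 4 := by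
    refine (Finsupp.supported_mono ?_).trans (Finsupp.supported_union _ _).le
    rintro s ⟨_, rfl | hU, hs⟩
    · exact Or.inl hs
    · exact Or.inr ⟨_, hU, hs⟩
  obtain ⟨ν, h5, μ', h6, h7⟩ := Submodule.mem_sup.1 (h4 h3)
  refine ⟨μ', ?_, fun x hx h0 => h2 x hx ?_, h6⟩
  · rw [Rel, eq_sub_of_add_eq' h7, map_sub, map_sub, bd0_bd0, sub_zero]
    exact sub_mem h1 (bd0_mem_On h5)
  · rw [← sub_add_cancel μ (bd0 F2 X 4 y), ← h7]
    exact ((nul_of_On (On_mono (compl_subset_compl.2 (singleton_subset_iff.2 hx)) h5)).add h0).add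
      (nul_bd0 _ _)

theorem Geo.nerve {Γ X : Type} [Group Γ] [MetricSpace X] [MulAction Γ X] (h : Geo Γ X) :
    ∃ ε : ℝ, 0 < ε ∧ ∀ (ι : Type) (pt : ι → X), (∀ x, {a | dist x (pt a) ≤ 1}.Finite) →
      (∀ x, ∃ a, dist x (pt a) < ε) → ∀ k, 1 ≤ k → k ≤ 3 → ∀ c : (Fin (k + 1) → ι) → ZMod 2,
        (Function.support c).Finite →
        (∀ t : Fin (k + 2) → ι, (∀ i j, dist (pt (t i)) (pt (t j)) ≤ 1) → cob c t = 0) →
        ∃ b : (Fin k → ι) → ZMod 2, (Function.support b).Finite ∧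
          ∀ t : Fin (k + 1) → ι, (∃ x, ∀ i, dist x (pt (t i)) ≤ ε) → cob b t = c t := by
  classical
  obtain ⟨r, r0, r1, r2, r3⟩ := nerve_eps h
  refine ⟨r 4, r0 4, fun ι pt hf hc k k1 k3 c c1 c2 => ?_⟩
  have := h.contr
  have hA : IsCompact (⋃ τ ∈ Function.support c, ⋃ i, closedBall (pt (τ i)) (r 0)) :=
    c1.isCompact_biUnion fun τ _ => isCompact_iUnion fun i => (h.cpt _).of_isClosed_subset
      isClosed_closedBall (closedBall_subset_closedBall (by rw [r1]; norm_num))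
  obtain ⟨μ, m1, m2, m3⟩ := nerve_mu h hA
  have hm : ∀ {i j : ℕ}, i ≤ j → ∀ a, closedBall (pt a) (r j) ⊆ closedBall (pt a) (r i) :=
    fun hij a => closedBall_subset_closedBall (r2 hij)
  have H := zig (fun j a => closedBall (pt a) (r j)) (fun j => hm j.le_succ)
    (fun q s => ?_) (fun x => (hc x).imp fun a ha => ha.le.trans (r2 (Nat.zero_le _)))
    (fun j _ p σ q hq z hz => ?_) k 3 k3 le_rfl (fun σ => c σ • μ)
    (c1.subset fun σ hσ h0 => hσ ((congrArg (· • μ) h0).trans (zero_smul _ _))) (fun σ => ?_) fun σ => ?_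
  · obtain ⟨e, e1, e2, e3⟩ := H
    refine ⟨fun σ => if ∃ x, (∀ i, dist x (pt (σ i)) ≤ r 4) ∧ ¬ Nul {x} (e σ) then 1 else 0,
      e1.subset fun σ hσ h0 => hσ (if_neg fun ⟨x, _, hx⟩ => hx (h0 ▸ nul_of_On (zero_mem _))),
      fun t ⟨x, hx⟩ => ?_⟩
    obtain ⟨D, d1, d2⟩ := r3 3 x
    have hxD : x ∈ D := (d2 _ (hx 0)).1 (hx 0)
    have d3 : ∀ i : Fin (k + 1), Rel D (e (t ∘ i.succAbove)) := fun i =>
      nerve_On (K := fun a => closedBall (pt a) (r 3)) (σ := t ∘ i.succAbove)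
        (fun j => (d2 _ (hx _)).2) (zig_NN_mono (hm k3) _ (e3 _))
    have d4 := nul_of_On (On_mono (compl_subset_compl.2 (singleton_subset_iff.2 hxD))
      (nerve_On (K := fun a => closedBall (pt a) (r 3)) (σ := t) (fun j => (d2 _ (hx j)).2)
        (zig_NN_mono (hm k3) _ (e2 t))))
    refine (Finset.sum_congr rfl fun i _ => ?_).trans
      ((nerve_sum d1 hxD d3 Finset.univ).2.symm.trans ?_)
    · rw [← ite_not (Nul {x} _)]
      refine if_congr ⟨fun ⟨y, h1, h2⟩ h3 => h2 ?_, fun h1 => ⟨x, fun j => hx _, h1⟩⟩ rfl rfl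
      exact (d1.nul_iff (d3 i) ((d2 _ (hx _)).1 (h1 ⟨0, k1⟩))).2 ((d1.nul_iff (d3 i) hxD).1 h3)
    · rcases (by decide : ∀ u : ZMod 2, u = 0 ∨ u = 1) (c t) with h0 | h0
      · rw [h0, zero_smul, sub_zero] at d4
        rw [h0]
        exact if_pos d4
      · rw [h0, one_smul] at d4
        rw [h0]
        refine if_neg fun h1 => m2 x (mem_biUnion (x := t) (by rw [Function.mem_support, h0]; decide)
          (mem_iUnion.2 ⟨0, (hx 0).trans (r2 (Nat.zero_le _))⟩)) ?_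
        have h2 := h1.add d4
        rwa [← sub_eq_add_two, dC, sub_sub_cancel] at h2
  · obtain ⟨T, -, t1, t2⟩ := (isCompact_range s.continuous).finite_cover_balls (e := 1 / 2)
      (by norm_num)
    refine (t1.biUnion fun x _ => hf x).subset fun a ⟨y, h1, h2⟩ => ?_
    obtain ⟨x, h3, h4⟩ := mem_iUnion₂.1 (t2 h1)
    refine mem_biUnion h3 ((dist_triangle_left _ _ y).trans ?_)
    linarith [mem_ball.1 h4, mem_closedBall.1 h2]
  · by_cases h0 : ∃ x, ∀ i, dist x (pt (σ i)) ≤ r (j + 1)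
    · obtain ⟨x, hx⟩ := h0
      rcases p with - | p
      · rw [zig_NN_zero] at hz
        obtain ⟨y, hy⟩ := acyclic z hz
        exact ⟨y, by rw [hy, sub_self]; exact zero_mem _⟩
      · obtain ⟨D, d1, d2⟩ := r3 j x
        exact (d1.van q hq.ne z (nerve_On (fun i => (d2 _ (hx i)).2) hz)).imp fun y hy =>
          nerve_le 0 (d2 _ (hx 0)).1 hy
    · have h1 := zig_NN_mono (hm j.le_succ) σ hz
      rw [NN, ← Sm_range] at h1 ⊢
      obtain ⟨y, -, hy⟩ := small (forall_mem_range.2 fun i => isClosed_closedBall.isOpen_compl)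
        (mem_On.2 fun _ _ x _ => by
          obtain ⟨i, hi⟩ := not_forall.1 (not_exists.1 h0 x)
          exact ⟨_, ⟨i, rfl⟩, hi⟩) h1
      exact ⟨y, hy⟩
  · rw [dC, ← Finset.sum_smul]
    by_cases h0 : cob c σ = 0
    · rw [show ∑ i : Fin (k + 1 + 1), c (σ ∘ i.succAbove) = 0 from h0, zero_smul]
      exact zero_mem _
    · refine Submodule.smul_mem _ _ (zig_mem_NN.2 fun s hs => by_contra fun h1 => h0 (c2 σ ?_))
      obtain ⟨_, ⟨x, rfl⟩, h2⟩ := mem_Sm.1 m3 s (Finsupp.mem_support_iff.2 h1)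
      have h3 : ∀ i, dist (pt (σ i)) x ≤ 1 / 2 := fun i => by
        obtain ⟨y, a1, a2⟩ := hs i
        linarith [dist_triangle_left (pt (σ i)) x y, mem_ball.1 (h2 a1), mem_closedBall.1 a2]
      exact fun i j => (dist_triangle_right _ _ x).trans (by linarith [h3 i, h3 j])
  · by_cases h0 : c σ = 0
    · rw [h0, zero_smul, map_zero]
      exact zero_mem _
    · rw [map_smul]
      refine Submodule.smul_mem _ _ (nerve_le 0 (fun y hy => ?_) m1)
      exact mem_biUnion (x := σ) h0 (mem_iUnion.2 ⟨0, hy⟩)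

end Vale.Agent.P239
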