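import Vale.Agent.P239.Theta
import Vale.Agent.P239.Nerve

/-! The fundamental group of a closed aspherical four-manifold satisfies `Hyp`. -/

namespace Vale.Agent.P239

open Filter Topology Set

section chains

variable {V W : Type} {n : ℕ}

theorem rips_two (z : TC V n) : z + z = 0 := by
  rw [← two_smul F2 z, show (2 : F2) = 0 from rfl, zero_smul]

theorem rips_tb_single (t : Fin (n + 1) → V) (a : F2) :
    tb V n (Finsupp.single t a) = dC (fun ρ => Finsupp.single ρ a) t := by
  simp only [tb, dC, LinearMap.sum_apply, Finsupp.lmapDomain_apply, Finsupp.mapDomain_single]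

/-- evaluation of a cochain on a chain -/
noncomputable abbrev ripsEv {α : Type} (c : α → F2) : (α →₀ F2) →ₗ[F2] F2 :=
  Finsupp.linearCombination F2 c

theorem rips_ev_single {α : Type} (c : α → F2) (t : α) : ripsEv c (Finsupp.single t 1) = c t := by
  rw [Finsupp.linearCombination_single, one_smul]

theorem rips_ev_tb (c : (Fin n → V) → F2) (z : TC V (n + 1)) :
    ripsEv c (tb V n z) = ripsEv (cob c) z := by
  induction z using Finsupp.induction_linear with
  | zero => simp only [map_zero]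
  | add f g hf hg => simp only [map_add, hf, hg]
  | single t a =>
    simp only [rips_tb_single, dC, cob, map_sum, Finsupp.linearCombination_single, Finset.smul_sum]

theorem rips_ev_congr {α : Type} {c c' : α → F2} {z : α →₀ F2} (h : ∀ t ∈ z.support, c t = c' t) :
    ripsEv c z = ripsEv c' z := by
  rw [Finsupp.linearCombination_apply, Finsupp.linearCombination_apply]
  exact Finsupp.sum_congr fun t ht => by rw [h t ht]

theorem rips_ev_zero {α : Type} {c : α → F2} {z : α →₀ F2} (h : ∀ t ∈ z.support, c t = 0) :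
    ripsEv c z = 0 := by
  rw [rips_ev_congr (c' := 0) h, Finsupp.linearCombination_zero_apply]

/-- the chain map induced by a map of vertices -/
noncomputable abbrev ripsMap (φ : V → W) (n : ℕ) : TC V n →ₗ[F2] TC W n :=
  Finsupp.lmapDomain F2 F2 fun t i => φ (t i)

theorem rips_tb_map (φ : V → W) (z : TC V (n + 1)) :
    tb W n (ripsMap φ (n + 1) z) = ripsMap φ n (tb V n z) := by
  induction z using Finsupp.induction_linear with
  | zero => simp only [map_zero]
  | add f g hf hg => simp only [map_add, hf, hg]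
  | single t a =>
    simp only [rips_tb_single, dC, map_sum, Finsupp.lmapDomain_apply, Finsupp.mapDomain_single]
    rfl

/-- the cone with a given apex -/
noncomputable abbrev ripsCone (a : V) (n : ℕ) : TC V n →ₗ[F2] TC V (n + 1) :=
  Finsupp.lmapDomain F2 F2 fun t => (Fin.cons a t : Fin (n + 1) → V)

theorem rips_tb_cone (a : V) (z : TC V (n + 1)) :
    tb V (n + 1) (ripsCone a (n + 1) z) = z + ripsCone a n (tb V n z) := by
  induction z using Finsupp.induction_linear with
  | zero => simp only [map_zero, add_zero]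
  | add f g hf hg => simp only [map_add, hf, hg, add_add_add_comm]
  | single t c =>
    rw [Finsupp.lmapDomain_apply, Finsupp.mapDomain_single, rips_tb_single, zig_dC_cons,
      rips_tb_single, zig_map_dC]
    simp only [Finsupp.lmapDomain_apply, Finsupp.mapDomain_single]

theorem rips_map_cone (φ : V → W) (a : V) (z : TC V n) :
    ripsMap φ (n + 1) (ripsCone a n z) = ripsCone (φ a) n (ripsMap φ n z) := by
  simp only [Finsupp.lmapDomain_apply, ← Finsupp.mapDomain_comp]
  refine congrArg (Finsupp.mapDomain · z) (funext fun t => funext fun i => ?_)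
  refine Fin.cases rfl (fun _ => rfl) i

/-- the homotopy between a chain map and the identity -/
noncomputable def ripsH (P : ∀ n, (Fin n → V) → TC V n) : ∀ n, (Fin n → V) → TC V (n + 1)
  | 0, _ => 0
  | n + 1, t => ripsCone (t 0) (n + 1) (Finsupp.single t 1 + P (n + 1) t + dC (ripsH P n) t)

theorem rips_tb_H {P : ∀ n, (Fin n → V) → TC V n} (h0 : ∀ t, P 0 t = Finsupp.single t 1)
    (h1 : ∀ n t, tb V n (P (n + 1) t) = dC (P n) t) (n : ℕ) (t : Fin (n + 1) → V) :
    tb V (n + 1) (ripsH P (n + 1) t) = Finsupp.single t 1 + P (n + 1) t + dC (ripsH P n) t := by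
  induction n with
  | zero =>
    rw [ripsH, rips_tb_cone, map_add (tb V 0), map_add (tb V 0), rips_tb_single, h1,
      zig_map_dC (tb V 0)]
    simp only [zig_dC_zero, h0, rips_two, ripsH, map_zero, add_zero]
  | succ n ih =>
    rw [ripsH, rips_tb_cone, map_add (tb V _), map_add (tb V _), rips_tb_single, h1,
      zig_map_dC (tb V (n + 1))]
    simp only [ih, zig_dC_add, zig_dC_dC rips_two, add_zero, rips_two, map_zero]

theorem rips_map_H {P : ∀ n, (Fin n → V) → TC V n} {φ : V → V}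
    (h : ∀ n t, P n (fun i => φ (t i)) = ripsMap φ n (P n t)) (n : ℕ) (t : Fin n → V) :
    ripsH P n (fun i => φ (t i)) = ripsMap φ (n + 1) (ripsH P n t) := by
  induction n with
  | zero => exact (map_zero _).symm
  | succ n ih =>
    rw [ripsH, ripsH, rips_map_cone, map_add (ripsMap φ _), map_add (ripsMap φ _), h,
      zig_map_dC (ripsMap φ (n + 1)),
      Finsupp.lmapDomain_apply F2 F2 _ (Finsupp.single t 1), Finsupp.mapDomain_single]
    simp only [← ih]
    rfl

end chains

section bound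

variable {Γ α : Type} [Group Γ] (S : Gen Γ) {n : ℕ} {F : (Fin (n + 1) → Γ) → α →₀ F2}
  {a : Γ → α → α}

theorem rips_core (hF : ∀ g t, F (fun i => g * t i) = Finsupp.mapDomain (a g) (F t)) (R : ℕ) :
    ∃ W : Set α, W.Finite ∧ ∀ t, S.Small R t → ∀ x ∈ (F t).support, ∃ y ∈ W, a (t 0) y = x := by
  classical
  refine ⟨_, (Finite.pi' fun _ : Fin (n + 1) => S.ball_finite 1 R).biUnion
    fun t _ => (F t).support.finite_toSet, fun t ht x hx => ?_⟩
  have e := hF (t 0) fun i => (t 0)⁻¹ * t i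
  simp only [mul_inv_cancel_left] at e
  obtain ⟨y, hy, rfl⟩ := Finset.mem_image.1 (Finsupp.mapDomain_support (e ▸ hx))
  exact ⟨y, mem_biUnion (fun i => S.mem_ball.2 ((S.d_eq_d_one _ _).ge.trans (ht 0 i))) hy, rfl⟩

theorem rips_fin (hF : ∀ g t, F (fun i => g * t i) = Finsupp.mapDomain (a g) (F t)) (ψ : α → Γ)
    (hψ : ∀ g x, ψ (a g x) = g * ψ x) (R : ℕ) {c : α → F2} (hc : (Function.support c).Finite) :
    {t | S.Small R t ∧ ripsEv c (F t) ≠ 0}.Finite := by
  obtain ⟨W, h1, h2⟩ := rips_core S hF R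
  refine (Finite.pi' fun _ : Fin (n + 1) => (hc.image2 (fun x y => ψ x * (ψ y)⁻¹) h1).biUnion
    fun g _ => S.ball_finite g R).subset fun t ht i => ?_
  have h3 := mt rips_ev_zero ht.2
  push Not at h3
  obtain ⟨x, hx, h3⟩ := h3
  obtain ⟨y, hy, rfl⟩ := h2 t ht.1 x hx
  exact mem_biUnion (x := t 0) ⟨_, h3, y, hy, by simp only [hψ, mul_inv_cancel_right]⟩ (ht.1 0 i)

theorem rips_bound {k : ℕ} {F : (Fin (n + 1) → Γ) → TC Γ k}
    (hF : ∀ g t, F (fun i => g * t i) = ripsMap (g * ·) k (F t)) (R : ℕ) :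
    ∃ R', ∀ t, S.Small R t → ∀ x ∈ (F t).support, S.Small R' x := by
  obtain ⟨W, h1, h2⟩ := rips_core S hF R
  obtain ⟨R', h3⟩ := (h1.biUnion fun y _ =>
    finite_range fun p : Fin k × Fin k => S.d (y p.1) (y p.2)).bddAbove
  refine ⟨R', fun t ht x hx i j => ?_⟩
  obtain ⟨y, hy, rfl⟩ := h2 t ht x hx
  exact (S.d_mul_left _ _ _).trans_le (h3 (mem_biUnion hy ⟨(i, j), rfl⟩))

end bound

theorem Geo.hyp {Γ X : Type} [Group Γ] [MetricSpace X] [MulAction Γ X] (h : Geo Γ X)
    (S : Gen Γ) : S.Hyp := by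
  classical
  obtain ⟨ε, hε, N⟩ := h.nerve
  have hε' : 0 < min ε (1 / 2) := lt_min hε (by norm_num)
  obtain ⟨m, f, f1, f2, f3⟩ := h.exists_net (half_pos hε')
  obtain ⟨Θ, t1, t2, t3, t4⟩ := h.exists_theta hε' f f1
  obtain ⟨R1, hR1⟩ := (f3.image S.len).bddAbove
  have r1 : ∀ {n : ℕ} {R : ℕ} (τ : Fin n → Γ × Fin m), R1 ≤ R →
      (∀ i j, dist ((τ i).1 • f (τ i).2) ((τ j).1 • f (τ j).2) ≤ 1) →
      S.Small R fun i => (τ i).1 := fun τ hR hτ i j =>
    (hR1 ⟨_, ⟨(τ i).2, (τ j).2, by
      rw [← h.isom (τ i).1, smul_smul, mul_inv_cancel_left]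
      exact hτ i j⟩, rfl⟩).trans hR
  let P : ∀ n, (Fin n → Γ) → TC Γ n := fun n t => ripsMap Prod.fst n (Θ n t)
  have p0 : ∀ t, P 0 t = Finsupp.single t 1 := fun t => by
    simp only [P, t2, Finsupp.lmapDomain_apply, Finsupp.mapDomain_single]
    exact congrArg (Finsupp.single · 1) (Subsingleton.elim _ _)
  have p1 : ∀ n t, tb Γ n (P (n + 1) t) = dC (P n) t := fun n t => by
    simp only [P, rips_tb_map, t3, zig_map_dC]
  have p2 : ∀ (g : Γ) n t, P n (fun i => g * t i) = ripsMap (g * ·) n (P n t) := fun g n t => by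
    simp only [P, t1, Finsupp.lmapDomain_apply, ← Finsupp.mapDomain_comp]
    rfl
  have p3 : ∀ n (c : (Fin n → Γ) → F2) t,
      ripsEv c (P n t) = ripsEv (fun τ => c fun i => (τ i).1) (Θ n t) := fun n c t =>
    Finsupp.linearCombination_mapDomain _ _ _
  have key : ∀ n (c : (Fin (n + 1) → Γ) → F2) t, ripsEv (cob c) (ripsH P (n + 1) t) = 0 →
      ripsEv c (P (n + 1) t) + ripsEv c (dC (ripsH P n) t) = c t := fun n c t h0 => by
    rw [← rips_ev_tb, rips_tb_H p0 p1, map_add, map_add, rips_ev_single, add_assoc] at h0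
    exact (eq_neg_of_add_eq_zero_right h0).trans (ZMod.neg_eq_self_mod_two _)
  have van : ∀ k, k ≤ 2 → S.Van (k + 1) := fun k hk R => by
    obtain ⟨R2, hR2⟩ := rips_bound S (fun g => rips_map_H (p2 g) (k + 1 + 1)) R
    refine ⟨max R1 R2, fun c c1 c2 => ?_⟩
    obtain ⟨b, b1, b2⟩ := N (Γ × Fin m) (fun a => a.1 • f a.2) f2
      (fun x => (f1 x).imp fun a ha => ha.trans_le ((half_le_self hε'.le).trans (min_le_left _ _)))
      (k + 1) (by omega) (by omega) (fun τ => c fun i => (τ i).1)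
      ((Finite.pi' fun i => (c1.image fun t => t i).prod (finite_univ (α := Fin m))).subset
        fun τ hτ i => ⟨⟨_, hτ, rfl⟩, trivial⟩)
      fun τ hτ => c2 _ (r1 τ (le_max_left _ _) hτ)
    refine ⟨fun τ => if S.Small R τ then ripsEv b (Θ _ τ) + ripsEv c (ripsH P _ τ) else 0,
      ((rips_fin S (t1 (k + 1)) (fun τ => (τ 0).1) (fun _ _ => rfl) R b1).union
        (rips_fin S (fun g => rips_map_H (p2 g) (k + 1)) (fun τ => τ 0) (fun _ _ => rfl) R
          c1)).subset fun τ hτ => ?_, fun t ht => ?_⟩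
    · by_contra h0
      simp only [mem_union, mem_ofPred_eq, not_or, not_and, not_not] at h0
      refine hτ ?_
      beta_reduce
      split_ifs with h1
      · rw [h0.1 h1, h0.2 h1, add_zero]
      · rfl
    · rw [← key _ c t (rips_ev_zero fun x hx => c2 x fun i j =>
        (hR2 t ht x hx i j).trans (le_max_right _ _)), p3, ← rips_ev_congr fun τ hτ => b2 τ
          ((t4 _ t τ hτ).imp fun x hx i => (hx i).trans (min_le_left _ _)), ← rips_ev_tb, t3,
        zig_map_dC, zig_map_dC, ← zig_dC_add]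
      exact Finset.sum_congr rfl fun i _ => if_pos fun j l => ht _ _
  refine ⟨?_, van 0 (by omega), van 1 (by omega), van 2 le_rfl⟩
  obtain ⟨R2, hR2⟩ := rips_bound S (fun g => rips_map_H (p2 g) (1 + 1)) 1
  refine ⟨max R1 R2, fun c c2 => ⟨fun ρ => ripsEv c (P 2 (Fin.cons 1 ρ)) + ripsEv c (ripsH P 1 ρ),
    fun t ht => ?_⟩⟩
  have h0 : dC (fun ρ => ripsEv c (P 2 ρ)) (Fin.cons 1 t : Fin 3 → Γ) = 0 := by
    rw [← zig_map_dC, ← p1, rips_ev_tb, p3]
    refine rips_ev_zero fun τ hτ => c2 _ (r1 τ (le_max_left _ _) fun i j => ?_)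
    obtain ⟨x, hx⟩ := t4 _ _ τ hτ
    linarith [dist_triangle_left ((τ i).1 • f (τ i).2) ((τ j).1 • f (τ j).2) x, hx i, hx j,
      min_le_right ε (1 / 2)]
  rw [zig_dC_cons] at h0
  rw [← key _ c t (rips_ev_zero fun x hx => c2 x fun i j =>
    (hR2 t ht x hx i j).trans (le_max_right _ _)), zig_map_dC,
    (eq_neg_of_add_eq_zero_left h0).trans (ZMod.neg_eq_self_mod_two _)]
  exact zig_dC_add (fun ρ => ripsEv c (P 2 (Fin.cons 1 ρ))) (fun ρ => ripsEv c (ripsH P 1 ρ)) t

end Vale.Agent.P239
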