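import Vale.Agent.P239.Final
import Vale.Agent.P239.Rips
import Vale.Agent.P239.Key
import Vale.Agent.P239.Betti

/-! The first L2-Betti number of a closed aspherical four-manifold vanishes. -/

namespace Vale.Agent.P239

theorem b1_eq_zero {M X Γ : Type} [TopologicalSpace M] [T2Space M] [CompactSpace M]
    [ChartedSpace (EuclideanSpace ℝ (Fin 4)) M] [tX : TopologicalSpace X] [Group Γ] [MulAction Γ X]
    [ContinuousConstSMul Γ X] {p : X → M} (hp : IsQuotientCoveringMap p Γ) [ContractibleSpace X] :
    l2Betti Γ X 1 = 0 := by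
  obtain ⟨m, rfl, h⟩ := exists_geo hp
  obtain ⟨S⟩ := h.exists_gen
  exact extDim_eq_zero vnTr_zero fun m a ha => hml_tors h.free lam lam_one lam_mul S
    (key S fun _ hu hh => (h.hyp S).const hu hh) m a ha

end Vale.Agent.P239
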