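import Vale.Agent.P239.Cover

/-! Primes and points. -/

namespace Vale.Agent.P239

open Filter Topology Set
open scoped Pointwise

namespace Gen

variable {G : Type} [Group G] {Γ : Gen G}

theorem Col.mono {B D D' : Set G} (h : Γ.Col B D) (hle : ∀ x, Γ.hm D' x ≤ Γ.hm D x) :
    Γ.Col B D' :=
  fun δ hδ η hη => (h δ hδ η hη).subset fun x hx => ⟨hx.1, hx.2.trans (hle x)⟩

theorem col_compl_left {B : Set G} (hB : Γ.Reg B) (D : Set G) : Γ.Col Bᶜ D ↔ Γ.Col B D := by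
  simp only [Col, hB.W_compl]

theorem col_congr {B B' D D' : Set G} (h : Γ.hm B' = Γ.hm B) (h' : Γ.hm D' = Γ.hm D) :
    Γ.Col B' D' ↔ Γ.Col B D := by
  simp only [Col, W, h, h']

theorem col_smul (g : G) (B D : Set G) : Γ.Col (g • B) (g • D) ↔ Γ.Col B D := by
  have : ∀ δ η : ℝ, {x | x ∈ Γ.W δ (g • B) ∧ η ≤ Γ.hm (g • D) x} =
      g • {x | x ∈ Γ.W δ B ∧ η ≤ Γ.hm D x} := fun δ η => by
    ext x
    simp only [← smul_W, mem_smul_set_iff_inv_smul_mem, mem_ofPred_eq, smul_eq_mul, pot2_hm_smul]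
  simp only [Col, this, finite_smul_set]

end Gen

namespace Wd

variable {G : Type} [Group G] {w : Wd G}

theorem not_col_both {B D : Set G} (hB : w.Γ.Reg B) (hn : w.Γ.Nontriv B) (hD : w.Γ.Reg D)
    (h : w.Γ.Col B D) : ¬ w.Γ.Col B Dᶜ := fun h' => by
  refine hn.W_infinite w.cap w.oneEnd hB (((h _ w.Γ.δ0_pos _ one_half_pos).union
    (h' _ w.Γ.δ0_pos _ one_half_pos)).subset fun x hx => ?_)
  rcases le_total (1 / 2) (w.Γ.hm D x) with h1 | h1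
  · exact Or.inl ⟨hx, h1⟩
  · exact Or.inr ⟨hx, by rw [hD.hm_compl]; linarith⟩

theorem add_le_of_col {B D : Set G} (hB : w.Γ.Reg B) (hn : w.Γ.Nontriv B) (hD : w.Γ.Reg D)
    (h : w.Γ.Col B D) (h' : w.Γ.Col D B) (x : G) : w.Γ.hm B x + w.Γ.hm D x ≤ 1 := by
  have hR := hB.inter hD
  have h0 := w.Γ.δ0_pos
  by_cases h1 : ∃ y, w.Γ.hm (B ∩ D) y = 0
  · obtain ⟨y, hy⟩ := h1
    exact hB.add_le_one hD hy x
  obtain ⟨z, hz⟩ := hn.2
  refine (Gen.Nontriv.W_infinite w.cap w.oneEnd hR ⟨⟨1, fun h => h1 ⟨1, h⟩⟩, z, fun h => hz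
    (le_antisymm (hB.hm_le_one z) (h.ge.trans (hR.hm_mono hB inter_subset_left z)))⟩
    (((h _ (half_pos h0) _ h0).union (h' _ (half_pos h0) _ h0)).subset fun y hy => ?_)).elim
  have h2 := hy.1.trans (hR.hm_mono hB inter_subset_left y)
  have h3 := hy.1.trans (hR.hm_mono hD inter_subset_right y)
  have h4 := hB.hm_union_add_inter hD y
  have h5 := (hB.union hD).hm_le_one y
  have h6 := hy.2
  rcases le_total (w.Γ.hm B y) (w.Γ.hm D y) with h7 | h7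
  · exact Or.inl ⟨⟨by linarith, by linarith⟩, h3⟩
  · exact Or.inr ⟨⟨by linarith, by linarith⟩, h2⟩

theorem Pr.prime {B : Set G} (h : w.Pr B) : w.Prime B (w.xi B) := Classical.epsilon_spec h

theorem Pr.reg {B : Set G} (h : w.Pr B) : w.Γ.Reg B := h.prime.1

theorem Pr.nontriv {B : Set G} (h : w.Pr B) : w.Γ.Nontriv B := h.prime.2.1

theorem Pr.pc {B : Set G} (h : w.Pr B) : w.PC B (w.xi B) := h.prime.2.2.1

theorem Prime.xi_eq {B : Set G} {ξ : G → ℝ} (h : w.Prime B ξ) : w.xi B = ξ :=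
  (Pr.pc ⟨ξ, h⟩).unique h.2.2.1 h.1 h.2.1

theorem Pr.compl {B : Set G} (h : w.Pr B) : w.Pr Bᶜ ∧ w.xi Bᶜ = w.xi B := by
  have : w.Prime Bᶜ (w.xi B) := ⟨h.reg.compl, h.nontriv.compl h.reg, h.pc.compl h.reg, by
    simpa only [Gen.col_compl_left h.reg] using h.prime.2.2.2⟩
  exact ⟨⟨_, this⟩, this.xi_eq⟩

theorem Pr.smul {B : Set G} (h : w.Pr B) (g : G) :
    w.Pr (g • B) ∧ w.xi (g • B) = fun x => w.xi B (g⁻¹ * x) := by
  have : w.Prime (g • B) fun x => w.xi B (g⁻¹ * x) := by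
    refine ⟨h.reg.smul g, h.nontriv.smul g, h.pc.smul g, fun B' ξ' h1 h2 h3 => ?_⟩
    have := h.prime.2.2.2 _ _ (h1.smul g⁻¹) (h2.smul g⁻¹) fun h4 => h3 (by simp [← h4])
    rwa [← smul_set_compl, ← Gen.col_smul g, ← Gen.col_smul g B, smul_inv_smul,
      smul_inv_smul] at this
  exact ⟨⟨_, this⟩, this.xi_eq⟩

theorem Pr.congr {B B' : Set G} (h : w.Pr B) (hB' : w.Γ.Reg B') (he : w.Γ.hm B' = w.Γ.hm B) :
    w.Same B B' := by
  have : w.Prime B' (w.xi B) := ⟨hB', by simpa only [Gen.Nontriv, he] using h.nontriv,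
    h.pc.congr he, by simpa only [Gen.col_congr he rfl] using h.prime.2.2.2⟩
  exact ⟨h, ⟨_, this⟩, this.xi_eq.symm, fun E _ _ => (Gen.col_congr he rfl).symm⟩

theorem Pr.same {B : Set G} (h : w.Pr B) : w.Same B B := ⟨h, h, rfl, fun _ _ _ => Iff.rfl⟩

theorem Pr.same_compl {B : Set G} (h : w.Pr B) : w.Same B Bᶜ :=
  ⟨h, h.compl.1, h.compl.2.symm, fun E _ _ => (Gen.col_compl_left h.reg E).symm⟩

theorem Same.symm {B B' : Set G} (h : w.Same B B') : w.Same B' B :=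
  ⟨h.2.1, h.1, h.2.2.1.symm, fun E hE hn => (h.2.2.2 E hE (h.2.2.1 ▸ hn)).symm⟩

theorem Same.trans {B B' B'' : Set G} (h : w.Same B B') (h' : w.Same B' B'') : w.Same B B'' :=
  ⟨h.1, h'.2.1, h.2.2.1.trans h'.2.2.1, fun E hE hn =>
    (h.2.2.2 E hE hn).trans (h'.2.2.2 E hE (h.2.2.1 ▸ hn))⟩

theorem Same.smul {B B' : Set G} (h : w.Same B B') (g : G) : w.Same (g • B) (g • B') := by
  refine ⟨(h.1.smul g).1, (h.2.1.smul g).1, by rw [(h.1.smul g).2, (h.2.1.smul g).2, h.2.2.1],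
    fun E hE hn => ?_⟩
  have := h.2.2.2 _ (hE.smul g⁻¹).1 fun h4 => hn (by
    rw [(h.1.smul g).2, ← h4, (hE.smul g⁻¹).2]
    simp)
  rwa [← Gen.col_smul g, ← Gen.col_smul g B', smul_inv_smul] at this

/-- Two different points with the same `xi` are separated by a prime with another `xi`. -/
theorem exists_sep {B E : Set G} (hB : w.Pr B) (hE : w.Pr E) (hn : ¬ w.Same B E)
    (he : w.xi B = w.xi E) :
    ∃ E0, w.Pr E0 ∧ w.xi E0 ≠ w.xi B ∧ w.Γ.Col B E0 ∧ w.Γ.Col E E0ᶜ := by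
  obtain ⟨E0, h1, h2, h3⟩ : ∃ E0, w.Pr E0 ∧ w.xi E0 ≠ w.xi B ∧ ¬ (w.Γ.Col B E0 ↔ w.Γ.Col E E0) := by
    by_contra! hc
    exact hn ⟨hB, hE, he, hc⟩
  have h4 := hB.prime.2.2.2 _ _ h1.reg h1.pc h2
  have h5 := hE.prime.2.2.2 _ _ h1.reg h1.pc (he ▸ h2)
  by_cases h6 : w.Γ.Col B E0
  · exact ⟨E0, h1, h2, h6, by tauto⟩
  · exact ⟨E0ᶜ, h1.compl.1, h1.compl.2 ▸ h2, by tauto, by rw [compl_compl]; tauto⟩

theorem prime_side {E E0 : Set G} (hE : w.Pr E) (h0 : w.Pr E0) (hn : w.xi E ≠ w.xi E0)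
    (h : w.Γ.Col E E0ᶜ) :
    (∀ x, w.Γ.hm E x ≤ w.Γ.hm E0 x) ∨ ∀ x, w.Γ.hm Eᶜ x ≤ w.Γ.hm E0 x := by
  have key : ∀ C, w.Pr C → w.Γ.Col E0 C → w.Γ.Col C E0ᶜ → ∀ x, w.Γ.hm C x ≤ w.Γ.hm E0 x :=
    fun C h1 h2 h3 x => by
      have := add_le_of_col h1.reg h1.nontriv h0.reg.compl h3
        ((Gen.col_compl_left h0.reg C).2 h2) x
      rw [h0.reg.hm_compl] at this
      linarith
  exact (h0.prime.2.2.2 _ _ hE.reg hE.pc hn).imp (key E hE · h)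
    (key Eᶜ hE.compl.1 · ((Gen.col_compl_left hE.reg _).2 h))

theorem col_or {B E : Set G} (hB : w.Pr B) (hE : w.Pr E) (hn : ¬ w.Same B E) :
    w.Γ.Col B E ∨ w.Γ.Col B Eᶜ := by
  by_cases he : w.xi B = w.xi E
  · obtain ⟨E0, h1, h2, h3, h4⟩ := exists_sep hB hE hn he
    exact (prime_side hE h1 (he ▸ h2.symm) h4).imp h3.mono h3.mono
  · exact hB.prime.2.2.2 _ _ hE.reg hE.pc (Ne.symm he)

theorem Same.col_iff {B B' E : Set G} (h : w.Same B B') (hE : w.Pr E) (hn : ¬ w.Same B E) :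
    w.Γ.Col B E ↔ w.Γ.Col B' E := by
  by_cases he : w.xi B = w.xi E
  · obtain ⟨E0, h1, h2, h3, h4⟩ := exists_sep h.1 hE hn he
    have h5 := (h.2.2.2 E0 h1 h2).1 h3
    rcases prime_side hE h1 (he ▸ h2.symm) h4 with h6 | h6
    · exact iff_of_true (h3.mono h6) (h5.mono h6)
    · exact iff_of_false (fun h7 => not_col_both h.1.reg h.1.nontriv hE.reg h7 (h3.mono h6))
        fun h7 => not_col_both h.2.1.reg h.2.1.nontriv hE.reg h7 (h5.mono h6)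
  · exact h.2.2.2 E hE (Ne.symm he)

theorem smul_sig (g : G) (B : Set G) (hB : w.Pr B) : g • w.Sig B = w.Sig (g • B) := by
  ext x
  rw [mem_smul_set_iff_inv_smul_mem]
  constructor
  · rintro ⟨B', h1, h2⟩
    exact ⟨g • B', h1.smul g, by rwa [← Gen.smul_W, mem_smul_set_iff_inv_smul_mem]⟩
  · rintro ⟨B', h1, h2⟩
    exact ⟨g⁻¹ • B', by simpa using h1.smul g⁻¹, Gen.smul_W g⁻¹ _ B' ▸ smul_mem_smul_set h2⟩

theorem Same.sig_eq {B B' : Set G} (h : w.Same B B') : w.Sig B = w.Sig B' :=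
  Subset.antisymm (fun _ ⟨C, h1, h2⟩ => ⟨C, h.symm.trans h1, h2⟩)
    fun _ ⟨C, h1, h2⟩ => ⟨C, h.trans h1, h2⟩

end Wd

end Vale.Agent.P239
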