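import Vale.Agent.P239.Cover

/-! Small tools on ultrafilter limits. -/

namespace Vale.Agent.P239

open Filter Topology Set
open scoped Pointwise

theorem xs_not {G : Type} (ξ : G → ℝ) (i : G × Bool) : xs ξ (i.1, !i.2) = 1 - xs ξ i := by
  obtain ⟨h, b⟩ := i
  cases b <;> simp [xs]

namespace Gen

variable {G : Type} [Group G] (Γ : Gen G)

theorem exists_far_finset {P : Set G} (hP : P.Infinite) (r n : ℕ) :
    ∃ T : Finset G, (T : Set G) ⊆ P ∧ T.card = n ∧ ∀ a ∈ T, ∀ b ∈ T, Γ.d a b ≤ r → a = b := by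
  classical
  induction n with
  | zero => exact ⟨∅, by simp, rfl, by simp⟩
  | succ n ih =>
    obtain ⟨T, h1, h2, h3⟩ := ih
    obtain ⟨a, ha, ha'⟩ := (hP.diff (Γ.nb_finite r T.finite_toSet)).nonempty
    have hT : a ∉ T := fun h => ha' (Γ.subset_nb r _ h)
    refine ⟨insert a T, ?_, by rw [Finset.card_insert_of_notMem hT, h2], ?_⟩
    · rw [Finset.coe_insert]
      exact insert_subset ha h1
    · intro x hx y hy hd
      rcases Finset.mem_insert.1 hx with rfl | hx' <;>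
        rcases Finset.mem_insert.1 hy with rfl | hy'
      · rfl
      · exact absurd ⟨y, hy', hd⟩ ha'
      · exact absurd ⟨x, hx', by rwa [Γ.d_comm]⟩ ha'
      · exact h3 x hx' y hy' hd

theorem ev_mem_iff {ι : Type} (𝒰 : Ultrafilter ι) (C : ι → Set G) (x : G) :
    ∀ᶠ n in (𝒰 : Filter ι), (x ∈ {x | ∀ᶠ n in (𝒰 : Filter ι), x ∈ C n} ↔ x ∈ C n) := by
  rcases 𝒰.em fun n => x ∈ C n with h | h
  · exact h.mono fun n hn => iff_of_true h hn
  · exact h.mono fun n hn => iff_of_false (Ultrafilter.eventually_not.1 h) hn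

theorem ev_mem_bd {ι : Type} (𝒰 : Ultrafilter ι) (C : ι → Set G) (x : G) :
    ∀ᶠ n in (𝒰 : Filter ι),
      (x ∈ Γ.bd {x | ∀ᶠ n in (𝒰 : Filter ι), x ∈ C n} ↔ x ∈ Γ.bd (C n)) := by
  filter_upwards [ev_mem_iff 𝒰 C x,
    (eventually_all_finset Γ.S).2 fun s _ => ev_mem_iff 𝒰 C (x * s)] with n h1 h2
  exact exists_congr fun s => and_congr_right fun hs =>
    iff_congr h1 (not_congr (h2 s hs))

end Gen

namespace Wd

variable {G : Type} [Group G] (w : Wd G)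

theorem exists_lim {ι : Type} (𝒰 : Ultrafilter ι) (z : ι → G) :
    ∃ ξ : G → ℝ, ∀ j, Tendsto (fun n => w.ph j (z n)) 𝒰 (𝓝 (xs ξ j)) := by
  have h : ∀ h : G, ∃ a, Tendsto (fun n => w.β.φ (h⁻¹ * z n)) 𝒰 (𝓝 a) := fun h => by
    obtain ⟨a, -, ha⟩ := (isCompact_Icc (a := (0 : ℝ)) (b := 1)).ultrafilter_le_nhds
      (𝒰.map fun n => w.β.φ (h⁻¹ * z n))
      (by
        rw [le_principal_iff, Ultrafilter.coe_map, mem_map]
        exact univ_mem' fun n => ⟨w.β.nonneg _, w.β.le_one _⟩)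
    exact ⟨a, ha⟩
  choose ξ hξ using h
  refine ⟨ξ, fun ⟨h, b⟩ => ?_⟩
  cases b
  · simpa [ph, xs] using (hξ h).const_sub 1
  · simpa [ph, xs] using hξ h

/-- The wall of a point cut below the level of its point is finite. -/
theorem PC.bd_fin_low {w : Wd G} {B : Set G} {ξ : G → ℝ} (h : w.PC B ξ) (hB : w.Γ.SC B)
    (i : G × Bool) {α : ℝ} (hα : 0 < α) :
    {x | x ∈ w.Γ.bd B ∧ w.ph i x ≤ xs ξ i - α}.Finite :=
  (h.bd_fin hB (i.1, !i.2) hα).subset fun x hx => ⟨hx.1, by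
    rw [xs_not, w.ph_not]
    linarith [hx.2]⟩

theorem PC.W_fin_low {w : Wd G} {B : Set G} {ξ : G → ℝ} (h : w.PC B ξ) {δ : ℝ} (hδ : 0 < δ)
    (i : G × Bool) {α : ℝ} (hα : 0 < α) :
    {x | x ∈ w.Γ.W δ B ∧ w.ph i x ≤ xs ξ i - α}.Finite :=
  ((w.pc_iff B ξ).1 h δ hδ (i.1, !i.2) α hα).subset fun x hx => ⟨hx.1, by
    rw [xs_not, w.ph_not]
    linarith [hx.2]⟩

/-- Most wall points of `B` inside `D` are deep inside `D`. -/
theorem PC.shallow_fin {w : Wd G} {B D : Set G} {ξ ξ' : G → ℝ} (h : w.PC B ξ) (hB : w.Γ.SC B)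
    (h' : w.PC D ξ') (hD : w.Γ.SC D) (hne : ξ' ≠ ξ) {ε : ℝ} (hε : 0 < ε) :
    {a | a ∈ w.Γ.bd B ∩ D ∧ w.Γ.hm D a < 1 - ε}.Finite := by
  have hδ : 0 < min w.Γ.δ0 (min ε (1 / 2)) := lt_min w.Γ.δ0_pos (lt_min hε one_half_pos)
  refine (h.W_inter_finite h' hne hδ).subset fun a ha =>
    ⟨Gen.W_mono (min_le_left _ _) B (hB.bd_subset ha.1.1), ?_, ?_⟩
  · exact ((min_le_right _ _).trans (min_le_right _ _)).trans (hD.2.1 a ha.1.2)
  · have := (min_le_right w.Γ.δ0 _).trans (min_le_left ε (1 / 2))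
    linarith [ha.2]

end Wd

end Vale.Agent.P239
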