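import Vale.Agent.P239.MinCut
import Vale.Agent.P239.Prime
import Vale.Agent.P239.Limit
import Vale.Agent.P239.UAux

/-! Good wall points of minimal cuts are matched with primes. -/

namespace Vale.Agent.P239

open Filter Topology Set
open scoped Pointwise

namespace Wd

variable {G : Type} [Group G] (w : Wd G)

theorem match_few {η : ℝ} (hη : 0 < η) (𝒰 : Ultrafilter ℕ) (hU : (𝒰 : Filter ℕ) ≤ atTop)
    (c : ℕ → w.Cfg) (h2 : ∀ k, (c k).r + η ≤ w.ph (c k).i 1) (h3 : ∀ k, k ≤ w.Γ.d (c k).i.1 1)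
    {B D : Set G} (hb : ∀ a ∈ w.Γ.bd B, ∀ᶠ k in (𝒰 : Filter ℕ), a ∈ w.Γ.bd (c k).C)
    (hD : w.Γ.SC D) (hi : ∀ ε : ℝ, 0 < ε → {a | a ∈ w.Γ.bd B ∧ 1 - ε ≤ w.Γ.hm D a}.Infinite)
    {b : ℕ} (hc : ∀ᶠ k in (𝒰 : Filter ℕ),
      (w.cut (w.U (c k).i (c k).r) (c k).A ∩ D ×ˢ D).ncard ≤ b) : False := by
  obtain ⟨r, ρ, ε, hε, hn⟩ := w.near_cut b (half_pos hη)
  obtain ⟨T, hT, hcard, hfar⟩ := w.Γ.exists_far_finset (hi ε hε) (2 * r) (b + 1)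
  obtain ⟨L, hL⟩ := (w.Γ.finite_iff_ball 1).1 T.finite_toSet
  obtain ⟨ρ', hg⟩ := w.grad L (half_pos hη)
  obtain ⟨k, hk1, hk2, hk3⟩ := (hc.and (((eventually_all_finset T).2
    fun a ha => hb a (hT ha).1).and (hU (eventually_ge_atTop (ρ + L + ρ'))))).exists
  have hk3 : ρ + L + ρ' ≤ k := hk3
  have hp : ∀ a ∈ T, ∃ p ∈ w.cut (w.U (c k).i (c k).r) (c k).A ∩ D ×ˢ D, w.Γ.d a p.1 ≤ r := by
    intro a ha
    have hd : w.Γ.d 1 a ≤ L := hL ha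
    refine hn (c k) D a hD hk1 (hk2 a ha) ?_ ?_ (hT ha).2
    · have := abs_le.1 (hg (c k).i 1 a (by linarith [h3 k]) hd)
      linarith [h2 k, this.2]
    · have := w.Γ.d_tri (c k).i.1 a 1
      rw [w.Γ.d_comm a] at this
      linarith [h3 k]
  choose! p hp1 hp2 using hp
  have hle := Set.ncard_le_ncard_of_injOn (s := (T : Set G)) p (fun a ha => hp1 a ha)
    (fun a ha a' ha' he => hfar a ha a' ha' (by
      have := w.Γ.d_tri a (p a).1 a'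
      have h4 := hp2 a' ha'
      rw [← he, w.Γ.d_comm] at h4
      linarith [hp2 a ha])) ((c k).fin.subset inter_subset_left)
  rw [ncard_coe_finset, hcard] at hle
  omega

theorem match_one {η : ℝ} (hη : 0 < η) {α : ℕ → ℝ} (hα : ∀ m, 0 < α m)
    (hα0 : Tendsto α atTop (𝓝 0)) (F : ℕ → ℕ) (ρ0 : ℕ) : ∃ k : ℕ, ∀ (c : w.Cfg),
      1 ∈ w.Γ.bd c.C → c.r + η ≤ w.ph c.i 1 → k ≤ w.Γ.d c.i.1 1 →
      (∀ m ≤ k, ∀ j : G × Bool, w.Γ.d j.1 1 ≤ m → ∀ x ∈ w.Γ.bd c.C,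
        w.ph j c.i.1 + 2 * α m ≤ w.ph j x → w.Γ.d j.1 x ≤ F m) →
      w.Matched ρ0 c.C 1 := by
  by_contra! hcon
  choose c h1 h2 h3 h4 h5 using hcon
  have hU := Nat.hyperfilter_le_atTop
  set 𝒰 := hyperfilter ℕ
  obtain ⟨ξ, hξ⟩ := w.exists_lim 𝒰 fun k => (c k).i.1
  have hup : ∀ j (a : ℝ), 0 < a → ∀ᶠ k in (𝒰 : Filter ℕ), w.ph j (c k).i.1 ≤ xs ξ j + a :=
    fun j a ha => (hξ j).eventually (ge_mem_nhds (by linarith))
  have hDB : ∀ (j : G × Bool) (a : ℝ), 0 < a →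
      ∃ ρ : ℕ, ∀ᶠ k in (𝒰 : Filter ℕ), w.DB ξ (w.Γ.bd (c k).C) j a ρ := by
    intro j a ha
    obtain ⟨m, hm1, hm2⟩ := ((eventually_ge_atTop (w.Γ.d j.1 1)).and
      (hα0.eventually (ge_mem_nhds (show 0 < a / 3 by linarith)))).exists
    refine ⟨F m, ?_⟩
    filter_upwards [hup j (a / 3) (by linarith), hU (eventually_ge_atTop m)] with k hk1 hk2
    exact fun x hx hx' => h4 k m hk2 j hm1 x hx (by linarith)
  obtain ⟨hB, hPC, hlim⟩ := w.limit 𝒰 (fun k => (c k).sc) hDB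
  have hb := fun a => w.Γ.ev_mem_bd 𝒰 (fun k => (c k).C) a
  have hm := fun a => Gen.ev_mem_iff 𝒰 (fun k => (c k).C) a
  set B := {x | ∀ᶠ k in (𝒰 : Filter ℕ), x ∈ (c k).C}
  have hW : (1 : G) ∈ w.Γ.W w.Γ.δ0 B :=
    ⟨ge_of_tendsto' (hlim 1) fun k => ((c k).sc.bd_subset (h1 k)).1,
      le_of_tendsto' (hlim 1) fun k => ((c k).sc.bd_subset (h1 k)).2⟩
  have hP : w.Prime B ξ := by
    refine w.prime_of_bd hB.1 (Gen.nontriv_of_W w.Γ.δ0_pos hW) hPC fun D ξ' hD hPD hne => ?_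
    by_contra! hinf
    obtain ⟨j, hj⟩ := exists_index hne
    set β := (xs ξ' j - xs ξ j) / 4 with hβd
    have hβ : 0 < β := by linarith
    obtain ⟨ρ, hρ⟩ := hDB j β hβ
    obtain ⟨b, hnn⟩ := w.no_neck D j (xs ξ j + β) hβ
      ((hPD.bd_fin_low hD j hβ).subset fun x hx => ⟨hx.1, by
        have := hx.2
        simp only [mem_setOf_eq] at this
        linarith⟩) ρ
    obtain ⟨ρg, hg⟩ := w.grad 1 (show 0 < η / 4 by linarith)
    obtain ⟨ρ', -, hne'⟩ := w.nest (lt_min (half_pos hη) (half_pos hβ)) (w.Γ.d j.1 1) ρg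
    have hev : ∀ᶠ k in (𝒰 : Filter ℕ),
        (w.cut (w.U (c k).i (c k).r) (c k).A ∩ D ×ˢ D).ncard ≤ b ∨
          (w.cut (w.U (c k).i (c k).r) (c k).A ∩ Dᶜ ×ˢ Dᶜ).ncard ≤ b := by
      filter_upwards [hρ, hup j (β / 2) (half_pos hβ), hU (eventually_ge_atTop ρ')]
        with k hk1 hk2 hk3
      refine hnn (c k) (η / 2) (half_pos hη) (fun x hx => ?_)
        fun x hx => hk1 x hx.1 (le_of_lt hx.2)
      have := hne' (c k).i j ((c k).r + η / 2) (c k).i.1 1 x (Or.inl rfl)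
        (by linarith [min_le_left (η / 2) (β / 2), h2 k]) (le_trans hk3 (h3 k)) le_rfl
        (by linarith [min_le_right (η / 2) (β / 2)])
      refine ⟨this.1, fun y hy => ?_⟩
      have h6 := abs_le.1 (hg (c k).i x y this.2 hy)
      show (c k).r < w.ph (c k).i y
      linarith [h6.2, this.1]
    have key : ∀ D : Set G, w.Γ.SC D → w.PC D ξ' → (w.Γ.bd B ∩ D).Infinite →
        ∀ ε : ℝ, 0 < ε → {a | a ∈ w.Γ.bd B ∧ 1 - ε ≤ w.Γ.hm D a}.Infinite :=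
      fun D hD hPD hi ε hε => (hi.diff (hPC.shallow_fin hB hPD hD hne hε)).mono
        fun a ha => ⟨ha.1.1, not_lt.1 fun h => ha.2 ⟨ha.1, h⟩⟩
    have hb' : ∀ a ∈ w.Γ.bd B, ∀ᶠ k in (𝒰 : Filter ℕ), a ∈ w.Γ.bd (c k).C :=
      fun a ha => (hb a).mono fun k hk => hk.1 ha
    rcases Ultrafilter.eventually_or.1 hev with h | h
    · exact w.match_few hη 𝒰 hU c h2 h3 hb' hD (key D hD hPD hinf.1) h
    · exact w.match_few hη 𝒰 hU c h2 h3 hb' hD.compl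
        (key Dᶜ hD.compl (hPD.compl hD.1) hinf.2) h
  have hfin : ∀ᶠ k in (𝒰 : Filter ℕ), ∀ x ∈ w.Γ.ball 1 ρ0,
      (x ∈ B ↔ x ∈ (c k).C) ∧ |w.Γ.hm B x - w.Γ.hm (c k).C x| ≤ 1 / 8 := by
    refine (eventually_all_finite (w.Γ.ball_finite 1 ρ0)).2 fun x _ => (hm x).and ?_
    have := (hlim x).eventually (Metric.closedBall_mem_nhds _ (show (0 : ℝ) < 1 / 8 by norm_num))
    exact this.mono fun k hk => by
      rw [abs_sub_comm]
      exact hk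
  obtain ⟨k, hk⟩ := hfin.exists
  exact h5 k ⟨B, ⟨ξ, hP⟩, hB, hk⟩

theorem Matched.smul {w : Wd G} {ρ : ℕ} {C : Set G} {y : G} (h : w.Matched ρ C y) (g : G) :
    w.Matched ρ (g • C) (g * y) := by
  obtain ⟨B, h1, h2, h3⟩ := h
  refine ⟨g • B, (h1.smul g).1, h2.smul g, fun x hx => ?_⟩
  obtain ⟨x, rfl⟩ : ∃ x', x = g * x' := ⟨g⁻¹ * x, by simp⟩
  have := h3 x (by simpa [Gen.mem_ball] using hx)
  rw [Gen.hm_smul, Gen.hm_smul]
  exact ⟨by rw [← smul_eq_mul, smul_mem_smul_set_iff, smul_mem_smul_set_iff, this.1], this.2⟩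

theorem matched_of_good {η : ℝ} (hη : 0 < η) {α : ℕ → ℝ} (hα : ∀ m, 0 < α m)
    (hα0 : Tendsto α atTop (𝓝 0)) (F : ℕ → ℕ) (ρ0 : ℕ) : ∃ k : ℕ, ∀ (c : w.Cfg) (y : G),
      y ∈ w.Γ.bd c.C → c.r + η ≤ w.ph c.i y → k ≤ w.Γ.d c.i.1 y →
      (∀ m ≤ k, ∀ j : G × Bool, w.Γ.d j.1 y ≤ m → ∀ x ∈ w.Γ.bd c.C,
        w.ph j c.i.1 + 2 * α m ≤ w.ph j x → w.Γ.d j.1 x ≤ F m) →
      w.Matched ρ0 c.C y := by
  obtain ⟨k, hk⟩ := w.match_one hη hα hα0 F ρ0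
  refine ⟨k, fun c y h1 h2 h3 h4 => ?_⟩
  obtain ⟨c', e1, e2, -, e4⟩ := c.exists_smul y⁻¹
  have hm := hk c' (by
      rw [e4, ← w.Γ.smul_bd]
      exact ⟨y, h1, inv_mul_cancel y⟩)
    (by rw [e1, e2, ← inv_mul_cancel y, w.ph_mul]; exact h2)
    (by rw [e1, ← inv_mul_cancel y, w.Γ.d_mul_left]; exact h3) fun m hm j hj x hx hx' => by
      rw [e4, ← w.Γ.smul_bd, mem_smul_set_iff_inv_smul_mem, inv_inv, smul_eq_mul] at hx
      have := h4 m hm (y * j.1, j.2) (by rwa [← w.Γ.d_mul_left y, mul_one] at hj) _ hx (by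
        rw [w.ph_mul, ← mul_inv_cancel_left y c.i.1, w.ph_mul]
        rw [e1] at hx'
        exact hx')
      rwa [w.Γ.d_mul_left] at this
  have := hm.smul y
  rwa [e4, smul_inv_smul, mul_one] at this

end Wd

end Vale.Agent.P239
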