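import Vale.Agent.P239.Cover
import Vale.Agent.P239.Iso

/-! Minimal cuts have no necks. -/

namespace Vale.Agent.P239

open Filter Topology Set
open scoped Pointwise

theorem minCut_congr {G : Type} {u : Ultrafilter G} (hu : (u : Filter G) ≤ cofinite) {F : Set G}
    (hF : F.Finite) (A : Set G) : symmDiff A F ∈ u ↔ A ∈ u := by
  have h : Fᶜ ∈ (u : Filter G) := hu hF.compl_mem_cofinite
  refine Filter.congr_sets (f := (u : Filter G)) (mem_of_superset h fun x hx => ?_)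
  have hx' : x ∉ F := hx
  simp only [mem_ofPred_eq, mem_symmDiff]
  tauto

theorem minCut_symm {G : Type} (u : Ultrafilter G) (A B : Set G) :
    symmDiff A B ∈ u ↔ (A ∈ u ↔ B ∉ u) := by
  rw [Set.symmDiff_def, Ultrafilter.union_mem_iff, Set.sdiff_eq, Set.sdiff_eq]
  have h1 : A ∩ Bᶜ ∈ u ↔ A ∈ u ∧ Bᶜ ∈ u := inter_mem_iff (f := (u : Filter G))
  have h2 : B ∩ Aᶜ ∈ u ↔ B ∈ u ∧ Aᶜ ∈ u := inter_mem_iff (f := (u : Filter G))
  rw [h1, h2, Ultrafilter.compl_mem_iff_notMem, Ultrafilter.compl_mem_iff_notMem]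
  tauto

theorem minCut_p1 {α : Type} {Z A C D : Set α} {x y : α}
    (k : (x ∈ Z ↔ y ∉ Z) ↔ (x ∈ D ∧ (x ∈ C ↔ y ∉ C))) (h : x ∈ D ↔ y ∈ D) :
    (x ∈ symmDiff Z (symmDiff A C ∩ D) ↔ y ∉ symmDiff Z (symmDiff A C ∩ D)) ↔
      (x ∈ D ∧ y ∈ D ∧ (x ∈ A ↔ y ∉ A)) := by
  simp only [mem_symmDiff, mem_inter_iff]
  grind

theorem minCut_p2 {α : Type} {Z A C D : Set α} {x y : α}
    (k : (x ∈ Z ↔ y ∉ Z) ↔ (x ∈ D ∧ (x ∈ C ↔ y ∉ C))) (h : ¬ (x ∈ C ↔ y ∉ C))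
    (h1 : x ∉ symmDiff A C) (h2 : y ∉ symmDiff A C) :
    ¬ (x ∈ symmDiff Z (symmDiff A C ∩ D) ↔ y ∉ symmDiff Z (symmDiff A C ∩ D)) ∧
      ¬ (x ∈ A ↔ y ∉ A) := by
  simp only [mem_symmDiff, mem_inter_iff] at h1 h2 ⊢
  grind

theorem minCut_p3 {α : Type} {Z A D : Set α} {x y : α}
    (k : (x ∈ Z ↔ y ∉ Z) ↔ (x ∈ D ∧ y ∈ D ∧ (x ∈ A ↔ y ∉ A)))
    (k' : (x ∈ A ↔ y ∉ A) → (x ∈ D ↔ y ∈ D)) (h : x ∈ symmDiff A Z ↔ y ∉ symmDiff A Z) :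
    (x ∈ A ↔ y ∉ A) ∧ x ∉ D ∧ y ∉ D := by
  simp only [mem_symmDiff] at h
  grind

theorem minCut_p4 {G : Type} {u v : Ultrafilter G} {A Z : Set G} (h : A ∈ u ↔ A ∉ v)
    (h' : ¬ (Z ∈ u ↔ Z ∉ v)) : symmDiff A Z ∈ u ↔ symmDiff A Z ∉ v := by
  rw [minCut_symm, minCut_symm]
  tauto

theorem minCut_p5 {p q : Prop} (h : ¬ (p ↔ q)) : (p ↔ ¬ q) ∧ (q ↔ ¬ p) := by
  tauto

namespace Gen

variable {G : Type} [Group G] (Γ : Gen G)

/-- Oriented edges starting in `T`. -/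
def minCutOut (T : Set G) : Set (G × G) := {p | p.1 ∈ T ∧ Γ.d p.1 p.2 ≤ 1}

theorem minCutOut_spec {T : Set G} (hT : T.Finite) :
    (Γ.minCutOut T).Finite ∧ (Γ.minCutOut T).ncard ≤ T.ncard * Γ.S.card := by
  have h : Γ.minCutOut T ⊆ (fun q : G × G => (q.1, q.1 * q.2)) '' (T ×ˢ (Γ.S : Set G)) := by
    rintro ⟨x, y⟩ ⟨h1, h2⟩
    obtain ⟨s, hs, rfl⟩ := Γ.d_le_one.1 (show Γ.d x y ≤ 1 from h2)
    exact ⟨(x, s), ⟨h1, hs⟩, rfl⟩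
  have hf := hT.prod Γ.S.finite_toSet
  refine ⟨(hf.image _).subset h, (ncard_le_ncard h (hf.image _)).trans
    ((ncard_image_le hf).trans ?_)⟩
  rw [ncard_prod, ncard_coe_finset]

/-- Oriented edges with an end in `T`. -/
def minCutNear (T : Set G) : Set (G × G) := {p | (p.1 ∈ T ∨ p.2 ∈ T) ∧ Γ.d p.1 p.2 ≤ 1}

theorem minCutNear_spec {T : Set G} (hT : T.Finite) :
    (Γ.minCutNear T).Finite ∧ (Γ.minCutNear T).ncard ≤ 2 * (T.ncard * Γ.S.card) := by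
  obtain ⟨h1, h2⟩ := Γ.minCutOut_spec hT
  have h : Γ.minCutNear T ⊆ Γ.minCutOut T ∪ Prod.swap '' Γ.minCutOut T := by
    rintro ⟨x, y⟩ ⟨h | h, h'⟩
    · exact Or.inl ⟨h, h'⟩
    · exact Or.inr ⟨(y, x), ⟨h, by rwa [Γ.d_comm]⟩, rfl⟩
  have hf := h1.union (h1.image Prod.swap)
  refine ⟨hf.subset h, (ncard_le_ncard h hf).trans ((ncard_union_le _ _).trans ?_)⟩
  have := ncard_image_le (f := Prod.swap) h1
  omega

end Gen

namespace Wd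

variable {G : Type} [Group G] {w : Wd G}

theorem minCut_bd (w : Wd G) (S A : Set G) :
    w.Γ.bd (A ∩ S) ⊆ w.Γ.bd S ∪ Prod.fst '' w.cut S A := by
  rintro x ⟨s, hs, h⟩
  by_cases hx : x ∈ w.Γ.bd S
  · exact Or.inl hx
  · have h1 := w.Γ.iff_of_notMem_bd hx hs
    simp only [mem_inter_iff] at h
    exact Or.inr ⟨(x, x * s), ⟨by tauto, by tauto, w.Γ.d_step x hs, by tauto⟩, rfl⟩

theorem minCut_symmDiff (w : Wd G) (S A B : Set G) :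
    w.cut S (symmDiff A B) = symmDiff (w.cut S A) (w.cut S B) := by
  ext p
  simp only [cut, mem_symmDiff, mem_ofPred_eq]
  tauto

theorem minCut_smul (w : Wd G) (g : G) (S A : Set G) :
    w.cut (g • S) (g • A) = Prod.map (g * ·) (g * ·) '' w.cut S A := by
  ext ⟨x, y⟩
  constructor
  · rintro ⟨h1, h2, h3, h4⟩
    simp only [mem_smul_set_iff_inv_smul_mem, smul_eq_mul] at h1 h2 h4
    exact ⟨(g⁻¹ * x, g⁻¹ * y), ⟨h1, h2, by rwa [w.Γ.d_mul_left], h4⟩, by simp⟩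
  · rintro ⟨⟨a, b⟩, ⟨h1, h2, h3, h4⟩, e⟩
    obtain ⟨rfl, rfl⟩ := Prod.ext_iff.1 e
    refine ⟨smul_mem_smul_set h1, smul_mem_smul_set h2, by simpa using h3, ?_⟩
    simpa [mem_smul_set_iff_inv_smul_mem] using h4

theorem Cfg.reg_inter (c : w.Cfg) : w.Γ.Reg (c.A ∩ w.U c.i c.r) :=
  (Gen.Thin.union c.reg (w.cap.thin_finite (c.fin.image Prod.fst))).mono (w.minCut_bd _ _)

theorem Cfg.sc (c : w.Cfg) : w.Γ.SC c.C := c.reg_inter.nat.1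

theorem Cfg.fin_deep (c : w.Cfg) {η : ℝ} (hη : 0 < η) :
    (w.Γ.bd c.C ∩ {x | c.r + η ≤ w.ph c.i x}).Finite ∧
      (symmDiff c.A c.C ∩ {x | c.r + η ≤ w.ph c.i x}).Finite := by
  have h := w.bd_nat_fin (half_pos hη) c.reg_inter (i := c.i) (t := c.r + η / 2)
    (((w.bd_U_fin c.i c.r (half_pos hη)).union (c.fin.image Prod.fst)).subset (by
      rintro x ⟨h1, h2⟩
      have h3 : c.r + η / 2 < w.ph c.i x := h2
      rcases w.minCut_bd _ _ h1 with h | h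
      · exact Or.inl ⟨h, le_abs.2 (Or.inl (by linarith))⟩
      · exact Or.inr h))
  rw [add_assoc, add_halves] at h
  refine ⟨h.1, h.2.subset ?_⟩
  rintro x ⟨h1, h2⟩
  have h3 : c.r + η ≤ w.ph c.i x := h2
  have h4 : x ∈ w.U c.i c.r := show c.r < _ by linarith
  refine ⟨?_, h2⟩
  simp only [mem_symmDiff, mem_inter_iff, Cfg.C] at h1 ⊢
  tauto

theorem Cfg.exists_smul (c : w.Cfg) (g : G) :
    ∃ c' : w.Cfg, c'.i = (g * c.i.1, c.i.2) ∧ c'.r = c.r ∧ c'.A = g • c.A ∧ c'.C = g • c.C := by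
  have hinj : Function.Injective (Prod.map (g * ·) (g * ·) : G × G → G × G) :=
    (mul_right_injective g).prodMap (mul_right_injective g)
  have hm : ∀ (u : Ultrafilter G) (A : Set G), g • A ∈ u.map (g * ·) ↔ A ∈ u := by
    intro u A
    rw [Ultrafilter.mem_map]
    have : (g * ·) ⁻¹' (g • A) = A := by
      ext x
      simp [mem_smul_set_iff_inv_smul_mem]
    rw [this]
  refine ⟨⟨(g * c.i.1, c.i.2), c.r, g • c.A, c.u0.map (g * ·), c.u1.map (g * ·), ?_,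
    (mul_right_injective g).tendsto_cofinite.mono_left c.u0c,
    (mul_right_injective g).tendsto_cofinite.mono_left c.u1c, ?_, ?_, ?_⟩, rfl, rfl, rfl, ?_⟩
  · rw [← w.smul_U]
    exact c.reg.smul g
  · rw [hm, hm]
    exact c.sep
  · rw [← w.smul_U, w.minCut_smul]
    exact c.fin.image _
  · intro A' h1 h2
    obtain ⟨B, rfl⟩ : ∃ B, A' = g • B := ⟨g⁻¹ • A', (smul_inv_smul g A').symm⟩
    rw [hm, hm] at h1
    rw [← w.smul_U, w.minCut_smul] at h2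
    rw [← w.smul_U, w.minCut_smul, w.minCut_smul, ncard_image_of_injective _ hinj,
      ncard_image_of_injective _ hinj]
    exact c.min B h1 (h2.of_finite_image hinj.injOn)
  · simp only [Cfg.C]
    rw [← w.smul_U, ← smul_set_inter, Gen.smul_nat]

theorem Cfg.minCut_le (c : w.Cfg) {Y : Set G} (hY : Y.Finite)
    (hS : ∀ x ∈ Y, w.Γ.ball x 1 ⊆ w.U c.i c.r) :
    w.Γ.eb Y ≤ (w.cut (w.U c.i c.r) Y \ w.cut (w.U c.i c.r) c.A).ncard := by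
  set X := w.cut (w.U c.i c.r) c.A with hX
  set P := w.cut (w.U c.i c.r) Y with hP
  have fX : X.Finite := c.fin
  have fP : P.Finite := (w.Γ.minCutNear_spec hY).1.subset fun p hp =>
    ⟨by have := hp.2.2.2; tauto, hp.2.2.1⟩
  have h1 := c.min (symmDiff c.A Y)
    (by rw [minCut_congr c.u1c hY, minCut_congr c.u0c hY]; exact c.sep)
    (by rw [w.minCut_symmDiff]; exact (fX.union fP).subset symmDiff_subset_union)
  rw [w.minCut_symmDiff, ← hX, ← hP, Set.symmDiff_def] at h1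
  have h2 := ncard_union_le (X \ P) (P \ X)
  have h3 := ncard_inter_add_ncard_sdiff_eq_ncard X P fX
  have h4 := ncard_inter_add_ncard_sdiff_eq_ncard P X fP
  rw [inter_comm] at h4
  set E : Set (G × G) := {p | p.1 ∈ Y ∧ p.2 ∉ Y ∧ w.Γ.d p.1 p.2 ≤ 1} with hE
  have e1 : E ⊆ P := fun p hp =>
    ⟨hS _ hp.1 (w.Γ.mem_ball_self _ _), hS _ hp.1 hp.2.2, hp.2.2, by have := hp.1; have := hp.2.1; tauto⟩
  have e2 : Prod.swap '' E ⊆ P := by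
    rintro _ ⟨p, hp, rfl⟩
    exact ⟨hS _ hp.1 hp.2.2, hS _ hp.1 (w.Γ.mem_ball_self _ _),
      by simpa [w.Γ.d_comm] using hp.2.2, by
        have h1 := hp.1
        have h2 := hp.2.1
        simp only [Prod.fst_swap, Prod.snd_swap]
        tauto⟩
  have e3 : Disjoint E (Prod.swap '' E) := by
    rw [disjoint_left]
    rintro _ hp ⟨q, hq, rfl⟩
    exact hq.2.1 hp.1
  have e4 := ncard_le_ncard (union_subset e1 e2) fP
  rw [ncard_union_eq e3 (fP.subset e1) (fP.subset e2),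
    ncard_image_of_injective _ Prod.swap_injective] at e4
  change E.ncard ≤ _
  omega

/-- The difference between the minimal cut and its self consistent version is uniformly
bounded where the wall is. -/
theorem lmin (w : Wd G) {β : ℝ} (hβ : 0 < β) (ρ : ℕ) : ∃ m : ℕ,
    ∀ (c : w.Cfg) (j : G × Bool) (τ η : ℝ), 0 < η →
      (∀ x, τ < w.ph j x → c.r + η ≤ w.ph c.i x ∧ w.Γ.ball x 1 ⊆ w.U c.i c.r) →
      w.Γ.bd c.C ∩ w.U j τ ⊆ w.Γ.ball j.1 ρ →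
      (symmDiff c.A c.C ∩ {x | τ + β ≤ w.ph j x}).Finite ∧
        (symmDiff c.A c.C ∩ {x | τ + β ≤ w.ph j x}).ncard ≤ m := by
  obtain ⟨m, hm⟩ := w.iso.level_halving (w.Γ.En w.β.φ) hβ
    (2 * ((w.Γ.ball 1 ρ).ncard * w.Γ.S.card))
  refine ⟨m, fun c j τ η hη H Hb => ?_⟩
  have hfin : (symmDiff c.A c.C ∩ {x | τ < w.ph j x}).Finite :=
    (c.fin_deep hη).2.subset fun x hx => ⟨hx.1, (H x hx.2).1⟩
  refine ⟨hfin.subset fun x hx => ⟨hx.1, (lt_add_of_pos_right τ hβ).trans_le hx.2⟩,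
    hm (w.ph j) _ τ (w.dir_ph j).1 (w.dir_ph j).2.le hfin fun t ht => ?_⟩
  set Y := symmDiff c.A c.C with hY
  have hYt : (Y ∩ {x | t < w.ph j x}).Finite := hfin.subset fun x hx => ⟨hx.1, ht.1.trans hx.2⟩
  refine (c.minCut_le hYt fun x hx => (H x (ht.1.trans hx.2)).2).trans ?_
  have fd : (w.Γ.down (w.ph j) Y t).Finite :=
    (w.Γ.minCutOut_spec hYt).1.subset fun p hp => ⟨⟨hp.1, hp.2.1⟩, hp.2.2.2⟩
  obtain ⟨fb, cb⟩ := w.Γ.minCutNear_spec (w.Γ.ball_finite j.1 ρ)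
  rw [w.Γ.ncard_ball] at cb
  have key : ∀ x y, w.Γ.d x y ≤ 1 → x ∈ Y ∩ {x | t < w.ph j x} → y ∉ Y ∩ {x | t < w.ph j x} →
      ¬ (x ∈ c.A ↔ y ∉ c.A) → (x, y) ∈ w.Γ.down (w.ph j) Y t ∨ x ∈ w.Γ.ball j.1 ρ := by
    intro x y hd hx hy hA
    by_cases h : w.ph j y ≤ t
    · exact Or.inl ⟨hx.1, hx.2, h, hd⟩
    · have hy' : y ∉ Y := fun h' => hy ⟨h', not_le.1 h⟩
      have hx' := hx.1
      simp only [hY, mem_symmDiff] at hx' hy'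
      exact Or.inr (Hb ⟨w.Γ.mem_bd_iff.2 ⟨y, hd, by tauto⟩, ht.1.trans hx.2⟩)
  have hsub : w.cut (w.U c.i c.r) (Y ∩ {x | t < w.ph j x}) \ w.cut (w.U c.i c.r) c.A ⊆
      (w.Γ.down (w.ph j) Y t ∪ Prod.swap '' w.Γ.down (w.ph j) Y t) ∪
        w.Γ.minCutNear (w.Γ.ball j.1 ρ) := by
    rintro ⟨x, y⟩ ⟨⟨h1, h2, h3, h4⟩, h5⟩
    have h6 : ¬ (x ∈ c.A ↔ y ∉ c.A) := fun h => h5 ⟨h1, h2, h3, h⟩
    by_cases hx : x ∈ Y ∩ {x | t < w.ph j x}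
    · rcases key x y h3 hx (h4.1 hx) h6 with h | h
      · exact Or.inl (Or.inl h)
      · exact Or.inr ⟨Or.inl h, h3⟩
    · have hy : y ∈ Y ∩ {x | t < w.ph j x} := by
        by_contra hy
        exact hx (h4.2 hy)
      rcases key y x (by rwa [w.Γ.d_comm]) hy hx (by tauto) with h | h
      · exact Or.inl (Or.inr ⟨(y, x), h, rfl⟩)
      · exact Or.inr ⟨Or.inr h, h3⟩
  have l1 := ncard_le_ncard hsub ((fd.union (fd.image _)).union fb)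
  have l2 := ncard_union_le (w.Γ.down (w.ph j) Y t ∪ Prod.swap '' w.Γ.down (w.ph j) Y t)
    (w.Γ.minCutNear (w.Γ.ball j.1 ρ))
  have l3 := ncard_union_le (w.Γ.down (w.ph j) Y t) (Prod.swap '' w.Γ.down (w.ph j) Y t)
  have l4 := ncard_image_le (f := Prod.swap) fd
  omega

theorem no_neck (w : Wd G) (D : Set G) (j : G × Bool) (τ : ℝ) {β : ℝ} (hβ : 0 < β)
    (hD : (w.Γ.bd D ∩ {x | w.ph j x < τ + 2 * β}).Finite) (ρ : ℕ) : ∃ b : ℕ,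
    ∀ (c : w.Cfg) (η : ℝ), 0 < η →
      (∀ x, τ < w.ph j x → c.r + η ≤ w.ph c.i x ∧ w.Γ.ball x 1 ⊆ w.U c.i c.r) →
      w.Γ.bd c.C ∩ w.U j τ ⊆ w.Γ.ball j.1 ρ →
      (w.cut (w.U c.i c.r) c.A ∩ D ×ˢ D).ncard ≤ b ∨
        (w.cut (w.U c.i c.r) c.A ∩ Dᶜ ×ˢ Dᶜ).ncard ≤ b := by
  obtain ⟨m, hm⟩ := w.lmin hβ ρ
  obtain ⟨N0, hN0⟩ := (w.Γ.finite_iff_ball j.1).1 hD
  obtain ⟨ρg, hg⟩ := w.grad w.R hβ
  obtain ⟨ρ3, h3⟩ := w.split.ball (N0 + w.R + ρg + ρ)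
  refine ⟨2 * (((w.Γ.ball 1 (N0 + w.R + ρg + ρ + ρ3)).ncard +
    ((w.Γ.bd D ∩ {x | w.ph j x < τ + 2 * β}).ncard + m)) * w.Γ.S.card), fun c η hη H Hb => ?_⟩
  obtain ⟨fY, cY⟩ := hm c j τ η hη H Hb
  have hSp : w.Γ.Sp w.R D c.C ⊆ w.Γ.ball j.1 (N0 + w.R + ρg + ρ) := by
    intro v hv
    obtain ⟨h1, z, hz, hd⟩ := w.Γ.Sp_subset_nb _ _ _ hv
    rw [Gen.mem_ball]
    by_cases hz' : w.ph j z < τ + 2 * β
    · have a1 : w.Γ.d j.1 z ≤ N0 := hN0 ⟨hz, hz'⟩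
      have a2 := w.Γ.d_tri j.1 z v
      rw [w.Γ.d_comm z v] at a2
      omega
    · by_contra hh
      have a1 := abs_le.1 (hg j v z (by omega) hd)
      have a2 : w.Γ.d j.1 v ≤ ρ := Hb ⟨h1, show τ < _ by linarith [a1.1, not_lt.1 hz']⟩
      omega
  obtain ⟨Z, hZ⟩ := h3 D c.C j.1 hSp
  set Y := symmDiff c.A c.C with hY
  set T := w.Γ.ball j.1 (N0 + w.R + ρg + ρ + ρ3) ∪ ((w.Γ.bd D ∩ {x | w.ph j x < τ + 2 * β}) ∪
    (Y ∩ {x | τ + β ≤ w.ph j x})) with hT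
  have fT : T.Finite := (w.Γ.ball_finite _ _).union (hD.union fY)
  have cT : T.ncard ≤ (w.Γ.ball 1 (N0 + w.R + ρg + ρ + ρ3)).ncard +
      ((w.Γ.bd D ∩ {x | w.ph j x < τ + 2 * β}).ncard + m) := by
    refine (ncard_union_le _ _).trans (add_le_add (w.Γ.ncard_ball _ _).le
      ((ncard_union_le _ _).trans (add_le_add le_rfl cY)))
  obtain ⟨fB, cB⟩ := w.Γ.minCutNear_spec fT
  have cB' := cB.trans (Nat.mul_le_mul_left 2 (Nat.mul_le_mul_right w.Γ.S.card cT))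
  have hYT : ∀ x ∈ Y, x ∈ w.Γ.bd D → x ∈ T := by
    intro x hx hx'
    by_cases h : w.ph j x < τ + 2 * β
    · exact Or.inr (Or.inl ⟨hx', h⟩)
    · exact Or.inr (Or.inr ⟨hx, show τ + β ≤ _ by linarith [not_lt.1 h]⟩)
  set Z' := symmDiff Z (Y ∩ D) with hZ'
  have key : ∀ x y, w.Γ.d x y ≤ 1 → x ∉ T → y ∉ T →
      ((x ∈ Z' ↔ y ∉ Z') ↔ (x ∈ D ∧ y ∈ D ∧ (x ∈ c.A ↔ y ∉ c.A))) ∧
        ((x ∈ c.A ↔ y ∉ c.A) → (x ∈ D ↔ y ∈ D)) := by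
    intro x y hd hx hy
    have hx1 : ¬ w.Γ.d j.1 x ≤ N0 + w.R + ρg + ρ + ρ3 := fun h => hx (Or.inl h)
    obtain ⟨s, hs, rfl⟩ := w.Γ.d_le_one.1 hd
    have k1 := hZ x (by omega) s hs
    by_cases hxy : x ∈ D ↔ x * s ∈ D
    · exact ⟨minCut_p1 k1 hxy, fun _ => hxy⟩
    · have b1 : x ∈ w.Γ.bd D := ⟨s, hs, (minCut_p5 hxy).1⟩
      have b2 : x * s ∈ w.Γ.bd D :=
        w.Γ.mem_bd_iff.2 ⟨x, by rwa [w.Γ.d_comm], (minCut_p5 hxy).2⟩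
      have y1 : x ∉ Y := fun h => hx (hYT _ h b1)
      have y2 : x * s ∉ Y := fun h => hy (hYT _ h b2)
      have k2 : ¬ (x ∈ c.C ↔ x * s ∉ c.C) := by
        intro h
        have m1 : x ∈ w.Γ.ball x w.R := w.Γ.mem_ball_self _ _
        have m2 : x * s ∈ w.Γ.ball x w.R := hd.trans w.one_le_R
        have : x ∈ w.Γ.Sp w.R D c.C := by
          refine ⟨⟨s, hs, h⟩, ?_⟩
          by_cases hxD : x ∈ D
          · exact ⟨⟨x, m1, hxD⟩, x * s, m2, (minCut_p5 hxy).1.1 hxD⟩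
          · exact ⟨⟨x * s, m2, (minCut_p5 hxy).2.2 hxD⟩, x, m1, hxD⟩
        have : w.Γ.d j.1 x ≤ N0 + w.R + ρg + ρ := hSp this
        omega
      obtain ⟨k3, k4⟩ := minCut_p2 k1 k2 y1 y2
      exact ⟨iff_of_false k3 fun h => k4 h.2.2, fun h => (k4 h).elim⟩
  set X := w.cut (w.U c.i c.r) c.A with hX
  have fX : X.Finite := c.fin
  have s1 : w.cut (w.U c.i c.r) Z' ⊆ (X ∩ D ×ˢ D) ∪ w.Γ.minCutNear T := by
    rintro ⟨x, y⟩ ⟨h1, h2, h3, h4⟩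
    by_cases h : x ∈ T ∨ y ∈ T
    · exact Or.inr ⟨h, h3⟩
    · rw [not_or] at h
      obtain ⟨k1, k2, k3⟩ := (key x y h3 h.1 h.2).1.1 h4
      exact Or.inl ⟨⟨h1, h2, h3, k3⟩, k1, k2⟩
  have s2 : w.cut (w.U c.i c.r) (symmDiff c.A Z') ⊆ (X ∩ Dᶜ ×ˢ Dᶜ) ∪ w.Γ.minCutNear T := by
    rintro ⟨x, y⟩ ⟨h1, h2, h3, h4⟩
    by_cases h : x ∈ T ∨ y ∈ T
    · exact Or.inr ⟨h, h3⟩
    · rw [not_or] at h
      obtain ⟨k1, k2⟩ := key x y h3 h.1 h.2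
      have k3 := minCut_p3 k1 k2 h4
      exact Or.inl ⟨⟨h1, h2, h3, k3.1⟩, k3.2.1, k3.2.2⟩
  have f1 := (fX.inter_of_left (D ×ˢ D)).union fB
  have f2 := (fX.inter_of_left (Dᶜ ×ˢ Dᶜ)).union fB
  have l0 : (X ∩ D ×ˢ D).ncard + (X ∩ Dᶜ ×ˢ Dᶜ).ncard ≤ X.ncard := by
    rw [← ncard_union_eq (disjoint_left.2 fun p h h' => h'.2.1 h.2.1) (fX.inter_of_left _)
      (fX.inter_of_left _)]
    exact ncard_le_ncard (union_subset inter_subset_left inter_subset_left) fX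
  by_cases hsep : Z' ∈ c.u1 ↔ Z' ∉ c.u0
  · have l1 := (c.min Z' hsep (f1.subset s1)).trans
      ((ncard_le_ncard s1 f1).trans (ncard_union_le _ _))
    rw [← hX] at l1
    exact Or.inr (by omega)
  · have l1 := (c.min (symmDiff c.A Z') (minCut_p4 c.sep hsep) (f2.subset s2)).trans
      ((ncard_le_ncard s2 f2).trans (ncard_union_le _ _))
    rw [← hX] at l1
    exact Or.inl (by omega)

/-- Few cut edges inside `D` means few far apart wall points deep inside `D`. -/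
theorem near_cut (w : Wd G) (b : ℕ) {η : ℝ} (hη : 0 < η) : ∃ (r ρ : ℕ) (ε : ℝ), 0 < ε ∧
    ∀ (c : w.Cfg) (D : Set G) (a : G), w.Γ.SC D → (w.cut (w.U c.i c.r) c.A ∩ D ×ˢ D).ncard ≤ b →
      a ∈ w.Γ.bd c.C → c.r + η ≤ w.ph c.i a → ρ ≤ w.Γ.d c.i.1 a → 1 - ε ≤ w.Γ.hm D a →
      ∃ p ∈ w.cut (w.U c.i c.r) c.A ∩ D ×ˢ D, w.Γ.d a p.1 ≤ r := by
  have δ0 := w.Γ.δ0_pos
  have S0 := w.Γ.card_pos'
  obtain ⟨r, hr⟩ := w.cap.hit_card b (ε := w.Γ.δ0 / 4) (by positivity)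
  obtain ⟨ρ, hρ⟩ := w.hit_low hη (ε := w.Γ.δ0 / 4 / w.Γ.S.card) (by positivity)
  refine ⟨r, ρ, w.Γ.δ0 * (w.Γ.δ0 / 4), by positivity, fun c D a hD hb ha h1 h2 h3 => ?_⟩
  by_contra hcon
  push Not at hcon
  have fE := c.fin.inter_of_left (D ×ˢ D)
  have a1 := hr (Prod.fst '' (w.cut (w.U c.i c.r) c.A ∩ D ×ˢ D)) a (fE.image _)
    ((ncard_image_le fE).trans hb) (by
      rintro _ ⟨p, hp, rfl⟩
      exact (hcon p hp).le)
  have a2 : w.Γ.hit (w.Γ.nb 1 Dᶜ) a ≤ w.Γ.δ0 / 4 := by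
    have := hD.compl.hit_nb_le a
    rw [hD.1.hm_compl] at this
    exact le_of_mul_le_mul_left (by linarith) δ0
  have a3 : w.Γ.hit (w.Γ.nb 1 {y | w.ph c.i y ≤ c.r}) a ≤ w.Γ.δ0 / 4 := by
    refine (w.Γ.hit_nb_le 1 _ a).trans ?_
    rw [pow_one, mul_comm, ← le_div_iff₀ S0]
    exact hρ c.i c.r a h1 h2
  have a4 : w.Γ.δ0 ≤ w.Γ.hit (w.Γ.bd (c.A ∩ w.U c.i c.r)) a := by
    refine c.reg_inter.W_subset _ ?_
    have := c.sc.bd_subset ha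
    unfold Gen.W Cfg.C at this
    rwa [c.reg_inter.nat.2] at this
  have a5 : w.Γ.bd (c.A ∩ w.U c.i c.r) ⊆ (Prod.fst '' (w.cut (w.U c.i c.r) c.A ∩ D ×ˢ D) ∪
      w.Γ.nb 1 Dᶜ) ∪ w.Γ.nb 1 {y | w.ph c.i y ≤ c.r} := by
    intro x hx
    rcases w.minCut_bd _ _ hx with h | ⟨p, hp, rfl⟩
    · rw [← w.Γ.bd_compl] at h
      exact Or.inr (w.Γ.nb_mono le_rfl (show (w.U c.i c.r)ᶜ ⊆ {y | w.ph c.i y ≤ c.r} from
        fun y hy => not_lt.1 (show ¬ c.r < w.ph c.i y from hy)) (w.Γ.bd_subset_nb _ h))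
    · by_cases k1 : p.1 ∈ D
      · by_cases k2 : p.2 ∈ D
        · exact Or.inl (Or.inl ⟨p, ⟨hp, k1, k2⟩, rfl⟩)
        · exact Or.inl (Or.inr ⟨p.2, k2, hp.2.2.1⟩)
      · exact Or.inl (Or.inr (w.Γ.subset_nb 1 _ k1))
  have a6 := (w.Γ.hit_mono a5 a).trans (w.Γ.hit_union_le _ _ a)
  have a7 := w.Γ.hit_union_le (Prod.fst '' (w.cut (w.U c.i c.r) c.A ∩ D ×ˢ D)) (w.Γ.nb 1 Dᶜ) a
  linarith

end Wd

end Vale.Agent.P239
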