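import Vale.Agent.P239.Prime

/-! The nested family of directions. -/

namespace Vale.Agent.P239

open Filter Topology Set
open scoped Pointwise

namespace Wd

variable {G : Type} [Group G] {w : Wd G}

theorem Same.dirn_left {B B' : Set G} (h : w.Same B B') (E : Set G) :
    w.Dirn B E = w.Dirn B' E :=
  Subset.antisymm (fun _ hx C h1 => hx C (h.trans h1)) fun _ hx C h1 => hx C (h.symm.trans h1)

theorem Same.dirn_right {B E E' : Set G} (hB : w.Pr B) (h : w.Same E E') (hn : ¬ w.Same B E) :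
    w.Dirn B E = w.Dirn B E' := by
  ext x
  exact forall₂_congr fun C hC => imp_congr_left
    (h.col_iff hC.2.1 fun h1 => hn (hC.trans h1.symm))

theorem smul_dirn (g : G) {B E : Set G} : g • w.Dirn B E = w.Dirn (g • B) (g • E) := by
  have key : ∀ (g : G) (B E : Set G), g • w.Dirn B E ⊆ w.Dirn (g • B) (g • E) := by
    rintro g B E _ ⟨x, hx, rfl⟩ C h1 h2
    have := hx (g⁻¹ • C) (by simpa using h1.smul g⁻¹) (by rwa [← Gen.col_smul g, smul_inv_smul])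
    rwa [← smul_set_compl, ← Gen.smul_lex, mem_inv_smul_set_iff] at this
  refine (key g B E).antisymm fun x hx => ?_
  have := key g⁻¹ _ _ (smul_mem_smul_set hx)
  rwa [inv_smul_smul, inv_smul_smul, ← mem_smul_set_iff_inv_smul_mem] at this

theorem nest_lex {B D : Set G} (hB : w.Pr B) (hD : w.Pr D) (h : w.Γ.Col B D)
    (h' : w.Γ.Col D B) : w.Γ.lex B ⊆ w.Γ.lex Dᶜ :=
  Gen.lex_mono hB.reg hD.reg.compl fun x => by
    rw [hD.reg.hm_compl]
    linarith [add_le_of_col hB.reg hB.nontriv hD.reg h h' x]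

theorem lex_subset_dirn {B D : Set G} (hB : w.Pr B) (hD : w.Pr D) (hn : ¬ w.Same B D)
    (h : w.Γ.Col B D) : w.Γ.lex D ⊆ w.Dirn B D :=
  fun _ hx _ h1 h2 => nest_lex hD h1.2.1 h2 ((h1.col_iff hD hn).1 h) hx

theorem dirn_subset_lex {B E : Set G} (hB : w.Pr B) (h : w.Γ.Col E Bᶜ) :
    w.Dirn B E ⊆ w.Γ.lex B := fun x hx => by
  simpa only [compl_compl] using hx _ hB.same_compl h

theorem compl_dirn_subset {B B' : Set G} (hB : w.Pr B) (hB' : w.Pr B') (hn : ¬ w.Same B B') :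
    (w.Dirn B B')ᶜ ⊆ w.Dirn B' B := fun x hx => by
  simp only [Dirn, mem_compl_iff, mem_ofPred_eq, not_forall] at hx
  obtain ⟨C, h1, h2, h3⟩ := hx
  rw [h1.2.1.reg.lex_compl, notMem_compl_iff] at h3
  rw [h1.dirn_right hB' fun h => hn h.symm]
  exact lex_subset_dirn hB' h1.2.1 (fun h => hn (h1.trans h.symm)) h2 h3

theorem dirn_eq_or {B E E' : Set G} (hB : w.Pr B) (hE : w.Pr E) (hE' : w.Pr E')
    (hn : ¬ w.Same B E) (hn' : ¬ w.Same B E') :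
    w.Dirn B E = w.Dirn B E' ∨ ∃ C, w.Same B C ∧ w.Γ.Col E C ∧ w.Γ.Col E' Cᶜ := by
  refine or_iff_not_imp_right.2 fun hc => ?_
  ext x
  refine forall₂_congr fun C hC => imp_congr_left ⟨fun h => ?_, fun h => ?_⟩
  · exact (col_or hE' hC.2.1 fun h1 => hn' (hC.trans h1.symm)).resolve_right
      fun h1 => hc ⟨C, hC, h, h1⟩
  · exact (col_or hE hC.2.1 fun h1 => hn (hC.trans h1.symm)).resolve_right
      fun h1 => hc ⟨Cᶜ, hC.trans hC.2.1.same_compl, h1, by rwa [compl_compl]⟩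

theorem nest_side {B E : Set G} (hB : w.Pr B) (hE : w.Pr E) (hn : ¬ w.Same B E) :
    ∃ D, w.Same E D ∧ w.Γ.Col B D :=
  (col_or hB hE hn).elim (fun h => ⟨E, hE.same, h⟩) fun h => ⟨Eᶜ, hE.same_compl, h⟩

theorem nest_lex_esc {D M : Set G} (hD : w.Pr D) (h : w.Γ.lex D ⊆ M) :
    ∃ K ⊆ M, w.Γ.Conn K ∧ K.Infinite := by
  have := w.infinite
  obtain ⟨K, h1, h2, h3⟩ := hD.reg.exists_conn hD.nontriv.1 one_half_pos
  exact ⟨K, fun x hx => h (Or.inl (by linarith [h3 x hx])), h1, h2⟩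

theorem Assoc.esc {B M : Set G} (hB : w.Pr B) (h : w.Assoc B M) :
    (∃ K ⊆ M, w.Γ.Conn K ∧ K.Infinite) ∧ ∃ K ⊆ Mᶜ, w.Γ.Conn K ∧ K.Infinite := by
  obtain ⟨E, hE, hn, h⟩ := h
  have key : (∃ K ⊆ w.Dirn B E, w.Γ.Conn K ∧ K.Infinite) ∧
      ∃ K ⊆ (w.Dirn B E)ᶜ, w.Γ.Conn K ∧ K.Infinite := by
    obtain ⟨D, h1, h2⟩ := nest_side hB hE hn
    obtain ⟨C, h3, h4⟩ := nest_side hE hB fun h => hn h.symm
    refine ⟨nest_lex_esc h1.2.1 ?_, nest_lex_esc h3.2.1 fun x hx h5 => ?_⟩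
    · rw [h1.dirn_right hB hn]
      exact lex_subset_dirn hB h1.2.1 (fun h => hn (h.trans h1.symm)) h2
    · have := h5 C h3 h4
      rw [h3.2.1.reg.lex_compl] at this
      exact this hx
  rcases h with rfl | rfl
  · exact key
  · rw [compl_compl]
    exact key.symm

theorem Assoc.nest_ne {B M : Set G} (hB : w.Pr B) (h : w.Assoc B M) :
    (∃ x, x ∈ M) ∧ ∃ x, x ∉ M := by
  obtain ⟨⟨K, h1, -, h2⟩, K', h3, -, h4⟩ := h.esc hB
  exact ⟨h2.nonempty.mono h1, h4.nonempty.mono h3⟩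

theorem nest_sb {B B' M : Set G} (hB : w.Pr B) (hB' : w.Pr B') (hn : ¬ w.Same B B')
    (h : w.Assoc B M) : M ⊆ (w.Dirn B B')ᶜ ∨ w.Dirn B B' ⊆ M := by
  obtain ⟨E, hE, hn', h⟩ := h
  rcases dirn_eq_or hB hE hB' hn' hn with h1 | ⟨C, h1, h2, h3⟩
  · rw [← h1]
    exact h.symm.imp Eq.subset Eq.superset
  · have : w.Dirn B E ⊆ (w.Dirn B B')ᶜ := fun x hx hx' => by
      have h4 := hx' _ (h1.trans h1.2.1.same_compl) h3
      rw [h1.2.1.reg.compl.lex_compl] at h4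
      exact h4 (hx C h1 h2)
    rcases h with rfl | rfl
    exacts [Or.inl this, Or.inr (subset_compl_comm.1 this)]

theorem prec_or {B B' M M' : Set G} (hB : w.Pr B) (hB' : w.Pr B') (hn : ¬ w.Same B B')
    (h : w.Assoc B M) (h' : w.Assoc B' M') (hM : M ⊆ M') :
    w.Prec B M B' M' ∨ (M = M' ∧ w.Prec B' M' B M) := by
  have h1 := compl_dirn_subset hB hB' hn
  have h2 := compl_dirn_subset hB' hB fun h => hn h.symm
  rcases nest_sb hB hB' hn h with h3 | h3 <;>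
    rcases nest_sb hB' hB (fun h => hn h.symm) h' with h4 | h4
  · obtain ⟨x, hx⟩ := (h.nest_ne hB).1
    exact (h4 (hM hx) (h1 (h3 hx))).elim
  · exact Or.inl ⟨h3, h4⟩
  · exact Or.inr ⟨hM.antisymm (h4.trans (h2.trans h3)), h4, h3⟩
  · obtain ⟨x, hx⟩ := (h'.nest_ne hB').2
    exact (hx (h4 (h1 fun h5 => hx (hM (h3 h5))))).elim

theorem nest_mid {B0 B1 B2 M0 M1 M2 : Set G} (h0 : w.Pr B0) (h1 : w.Pr B1) (h2 : w.Pr B2)
    (n1 : ¬ w.Same B0 B1) (n2 : ¬ w.Same B1 B2) (p1 : w.Prec B0 M0 B1 M1)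
    (p2 : w.Prec B1 M1 B2 M2) : ∃ C, w.Same B1 C ∧ w.Γ.Col B0 C ∧ w.Γ.Col B2 Cᶜ ∧
      M0 ⊆ w.Γ.lex Cᶜ ∧ w.Γ.lex Cᶜ ⊆ M2 := by
  rcases dirn_eq_or h1 h0 h2 (fun h => n1 h.symm) n2 with h | ⟨C, c1, c2, c3⟩
  · obtain ⟨x, hx⟩ := (Assoc.nest_ne h1 ⟨B2, h2, n2, Or.inl rfl⟩).1
    exact (p2.1 (p1.2 (h ▸ hx)) hx).elim
  · refine ⟨C, c1, c2, c3, fun x hx => compl_dirn_subset h0 h1 n1 (p1.1 hx) C c1 c2,
      fun x hx => by_contra fun h => ?_⟩
    have := compl_dirn_subset h2 h1 (fun h => n2 h.symm) (fun h3 => h (p2.2 h3)) _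
      (c1.trans c1.2.1.same_compl) c3
    rw [c1.2.1.reg.compl.lex_compl] at this
    exact this hx

theorem nest_tight {B0 B1 B2 B3 M0 M1 M2 M3 : Set G} (h0 : w.Pr B0) (h1 : w.Pr B1) (h2 : w.Pr B2)
    (h3 : w.Pr B3) (n1 : ¬ w.Same B0 B1) (n2 : ¬ w.Same B1 B2) (n3 : ¬ w.Same B2 B3)
    (p1 : w.Prec B0 M0 B1 M1) (p2 : w.Prec B1 M1 B2 M2) (p3 : w.Prec B2 M2 B3 M3) (R : ℕ) :
    {p : G × G | p.1 ∈ M0 ∧ p.2 ∉ M3 ∧ w.Γ.d p.1 p.2 ≤ R}.Finite := by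
  obtain ⟨C, a1, -, a3, a4, -⟩ := nest_mid h0 h1 h2 n1 n2 p1 p2
  obtain ⟨D, b1, b2, -, -, b5⟩ := nest_mid h1 h2 h3 n2 n3 p2 p3
  have a1' := a1.trans a1.2.1.same_compl
  have c1 : w.Γ.Col Cᶜ D := (a1'.col_iff b1.2.1 fun h => n2 (h.trans b1.symm)).1 b2
  have c2 := nest_lex a1'.2.1 b1.2.1 c1
    ((b1.col_iff a1'.2.1 fun h => n2 (a1'.trans h.symm)).1 a3)
  have hc := pow_pos w.Γ.card_pos' R
  have hF := w.Γ.nb_finite R (c1 _ w.Γ.δ0_pos (1 / 2 / (w.Γ.S.card : ℝ) ^ R) (by positivity))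
  refine (hF.prod hF).subset ?_
  rintro ⟨x, z⟩ ⟨hx, hz, hd⟩
  simp only at hx hz hd
  have hz1 : z ∉ w.Γ.lex Dᶜ := fun h => hz (b5 h)
  obtain ⟨v, v1, -, v2⟩ := w.Γ.exists_bd_between (a4 hx) fun h => hz1 (c2 h)
  have v3 := a1'.2.1.reg.lex.1.bd_subset v1
  rw [Gen.W, a1'.2.1.reg.lex.2] at v3
  rw [b1.2.1.reg.lex_compl, notMem_compl_iff] at hz1
  have v4 := b1.2.1.reg.lex.1.2.1 z hz1
  rw [b1.2.1.reg.lex.2] at v4
  have v5 := w.Γ.d_comm v z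
  have v6 := (div_le_iff₀' hc).2 (v4.trans (b1.2.1.reg.harnack_hm (x := v) (y := z) (n := R)
    (by omega)).1)
  exact ⟨⟨v, ⟨v3, v6⟩, by simp only; omega⟩, v, ⟨v3, v6⟩, by simp only; omega⟩

theorem tight4 {B M : Fin 4 → Set G} (hB : ∀ i, w.Pr (B i))
    (hn : ∀ i : Fin 3, ¬ w.Same (B i.castSucc) (B i.succ))
    (hp : ∀ i : Fin 3, w.Prec (B i.castSucc) (M i.castSucc) (B i.succ) (M i.succ)) (R : ℕ) :
    {p : G × G | p.1 ∈ M 0 ∧ p.2 ∉ M 3 ∧ w.Γ.d p.1 p.2 ≤ R}.Finite :=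
  nest_tight (hB 0) (hB 1) (hB 2) (hB 3) (hn 0) (hn 1) (hn 2) (hp 0) (hp 1) (hp 2) R

theorem Same.nest_assoc {B B' M : Set G} (h : w.Same B B') (h' : w.Assoc B' M) : w.Assoc B M := by
  obtain ⟨E, hE, hn, h1⟩ := h'
  exact ⟨E, hE, fun h2 => hn (h.symm.trans h2), by rwa [h.dirn_left]⟩

theorem nest_step {B M : ℕ → Set G} {i : ℕ} (h : ∀ j ≤ i + 2, w.Pr (B j) ∧ w.Assoc (B j) (M j))
    (s1 : M i ⊂ M (i + 1)) (s2 : M (i + 1) ⊂ M (i + 2)) : ∃ j, i < j ∧ j ≤ i + 2 ∧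
      ¬ w.Same (B i) (B j) ∧ w.Prec (B i) (M i) (B j) (M j) := by
  have h0 := h i (by omega)
  have h1 := h (i + 1) (by omega)
  have h2 := h (i + 2) le_rfl
  by_cases n1 : w.Same (B i) (B (i + 1))
  · refine ⟨i + 2, by omega, le_rfl, ?_⟩
    have n2 : ¬ w.Same (B i) (B (i + 2)) := fun n2 => by
      obtain ⟨E, hE, hn, e | e⟩ := n1.nest_assoc h1.2
      · obtain ⟨x, hx⟩ := (h0.2.nest_ne h0.1).1
        rw [e] at s1
        exact (nest_sb h0.1 hE hn h0.2).elim (fun h => h hx (s1.1 hx)) s1.2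
      · obtain ⟨x, hx⟩ := (h2.2.nest_ne h2.1).2
        rw [e] at s2
        exact (nest_sb h0.1 hE hn (n2.nest_assoc h2.2)).elim s2.2
          fun h => hx (s2.1 fun h3 => hx (h h3))
    exact ⟨n2, (prec_or h0.1 h2.1 n2 h0.2 h2.2 (s1.trans s2).1).resolve_right
      fun h => (s1.trans s2).ne h.1⟩
  · exact ⟨i + 1, by omega, by omega, n1,
      (prec_or h0.1 h1.1 n1 h0.2 h1.2 s1.1).resolve_right fun h => s1.ne h.1⟩

theorem nf_fam (w : Wd G) : w.Γ.NF w.Fam := by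
  refine ⟨?_, ?_, ?_, fun M ⟨B, hB, h⟩ => (h.esc hB).1, fun M hM hs R => ?_,
    fun M hM hs hu R => ?_⟩
  · rintro M ⟨B, hB, E, hE, hn, h⟩
    exact ⟨B, hB, E, hE, hn, h.symm.imp (fun h => by rw [h, compl_compl]) fun h => by rw [h]⟩
  · rintro g M ⟨B, hB, E, hE, hn, h⟩
    refine ⟨g • B, (hB.smul g).1, g • E, (hE.smul g).1, fun h => hn (by simpa using h.smul g⁻¹), ?_⟩
    rw [← smul_dirn, ← smul_set_compl]
    exact h.imp (congrArg _) (congrArg _)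
  · rintro M ⟨B, hB, h⟩ M' ⟨B', hB', h'⟩
    by_cases hn : w.Same B B'
    · obtain ⟨E, hE, hn', rfl | rfl⟩ := hn.nest_assoc h'
      · exact (nest_sb hB hE hn' h).elim (fun h => Or.inr (Or.inl h))
          fun h => Or.inr (Or.inr (Or.inr (compl_subset_compl.2 h)))
      · exact (nest_sb hB hE hn' h).elim Or.inl
          fun h => Or.inr (Or.inr (Or.inl (compl_subset_compl.2 h)))
    · have h1 := compl_dirn_subset hB hB' hn
      rcases nest_sb hB hB' hn h with h3 | h3 <;>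
        rcases nest_sb hB' hB (fun h => hn h.symm) h' with h4 | h4
      · exact Or.inr (Or.inl ((h3.trans h1).trans (subset_compl_comm.1 h4)))
      · exact Or.inl ((h3.trans h1).trans h4)
      · exact Or.inr (Or.inr (Or.inr (((compl_subset_compl.2 h3).trans h1).trans
          (subset_compl_comm.1 h4))))
      · exact Or.inr (Or.inr (Or.inl (((compl_subset_compl.2 h3).trans h1).trans h4)))
  · choose! B hB using hM
    have st : ∀ i ≤ 4, ∃ j, i < j ∧ j ≤ i + 2 ∧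
        ¬ w.Same (B i) (B j) ∧ w.Prec (B i) (M i) (B j) (M j) := fun i hi =>
      nest_step (fun j hj => hB j (by omega)) (hs i (by omega)) (hs (i + 1) (by omega))
    obtain ⟨i, -, i2, i3, i4⟩ := st 0 (by omega)
    obtain ⟨j, -, j2, j3, j4⟩ := st i (by omega)
    obtain ⟨k, -, k2, k3, k4⟩ := st j (by omega)
    refine (nest_tight (hB 0 (by omega)).1 (hB i (by omega)).1 (hB j (by omega)).1
      (hB k (by omega)).1 i3 j3 k3 i4 j4 k4 R).subset fun p hp => ⟨hp.1, fun h => hp.2.1 ?_, hp.2.2⟩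
    exact Nat.decreasingInduction (motive := fun k _ => p.2 ∈ M k → p.2 ∈ M 6)
      (fun k hk ih h => ih ((hs k hk).1 h)) id (show k ≤ 6 by omega) h
  · choose B hB using hM
    have := w.infinite
    have st : ∀ i, ∃ j, i < j ∧ j ≤ i + 2 ∧
        ¬ w.Same (B i) (B j) ∧ w.Prec (B i) (M i) (B j) (M j) := fun i =>
      nest_step (fun j _ => hB j) (hs (by omega)) (hs (by omega))
    have h1 : ∀ k, ∃ C, w.Pr C ∧ M (4 * k) ⊆ w.Γ.lex C ∧ w.Γ.lex C ⊆ M (4 * (k + 1)) := fun k => by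
      obtain ⟨i, -, i2, i3, i4⟩ := st (4 * k)
      obtain ⟨j, -, j2, j3, j4⟩ := st i
      obtain ⟨C, c1, -, -, c2, c3⟩ := nest_mid (hB _).1 (hB _).1 (hB _).1 i3 j3 i4 j4
      exact ⟨Cᶜ, c1.2.1.compl.1, c2, c3.trans (hs.monotone (by omega))⟩
    choose C c1 c2 c3 using h1
    obtain ⟨u, hu⟩ := (ne_univ_iff_exists_notMem _).1 hu
    have hc := pow_pos w.Γ.card_pos' R
    obtain ⟨K, k1, k2, k3⟩ := Gen.sup_one (C := fun n => (C n)ᶜ) (fun n => (c1 n).reg.compl)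
      (fun n x => by
        have := (c1 n).reg.lex.1.1.hm_mono (c1 (n + 1)).reg.lex.1.1 ((c3 n).trans (c2 _)) x
        rw [(c1 n).reg.lex.2, (c1 _).reg.lex.2] at this
        rw [(c1 n).reg.hm_compl, (c1 _).reg.hm_compl]
        linarith) (x0 := u) one_half_pos (fun n => by
        have := (c1 n).reg.lex.1.2.2 u fun h => hu (mem_iUnion.2 ⟨_, c3 n h⟩)
        rw [(c1 n).reg.lex.2] at this
        rw [(c1 n).reg.hm_compl]
        linarith) (ε := 1 / 2 / (w.Γ.S.card : ℝ) ^ R) (by positivity)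
    refine ⟨K, k1, k2, fun x hx i y hy => not_le.1 fun hd => ?_⟩
    have h2 := (c1 i).reg.lex.1.2.1 y (c2 i (hs.monotone (by omega : i ≤ 4 * i) hy))
    have h3 := k3 x hx i
    rw [(c1 i).reg.lex.2] at h2
    rw [(c1 i).reg.hm_compl, sub_lt_sub_iff_left, lt_div_iff₀' hc] at h3
    linarith [((c1 i).reg.harnack_hm hd).1]

end Wd

end Vale.Agent.P239
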