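import Vale.Agent.P239.Word

/-! Markov operator, hitting probabilities, thin sets. -/

namespace Vale.Agent.P239

open Filter Topology Set
open scoped Pointwise

namespace Gen

variable {G : Type} [Group G] (Γ : Gen G)

theorem P_mono {f g : G → ℝ} (h : ∀ x, f x ≤ g x) (x : G) : Γ.P f x ≤ Γ.P g x :=
  div_le_div_of_nonneg_right (Finset.sum_le_sum fun _ _ => h _) Γ.card_pos'.le

theorem P_mono_at {f g : G → ℝ} {x : G} (h : ∀ s ∈ Γ.S, f (x * s) ≤ g (x * s)) :
    Γ.P f x ≤ Γ.P g x :=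
  div_le_div_of_nonneg_right (Finset.sum_le_sum h) Γ.card_pos'.le

theorem P_add (f g : G → ℝ) : Γ.P (f + g) = Γ.P f + Γ.P g := by
  ext x
  simp only [P, Pi.add_apply, Finset.sum_add_distrib, add_div]

theorem P_sub (f g : G → ℝ) : Γ.P (f - g) = Γ.P f - Γ.P g := by
  ext x
  simp only [P, Pi.sub_apply, Finset.sum_sub_distrib, sub_div]

theorem P_smul (c : ℝ) (f : G → ℝ) : Γ.P (c • f) = c • Γ.P f := by
  ext x
  simp only [P, Pi.smul_apply, smul_eq_mul, ← Finset.mul_sum, mul_div_assoc]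

theorem P_const (c : ℝ) : Γ.P (fun _ => c) = fun _ => c := by
  ext x
  have := Γ.card_pos'
  simp only [P, Finset.sum_const, nsmul_eq_mul]
  field_simp

theorem P_shift (g : G) (f : G → ℝ) : Γ.P (fun x => f (g * x)) = fun x => Γ.P f (g * x) := by
  ext x
  simp only [P, mul_assoc]

theorem iter_mono (n : ℕ) {f g : G → ℝ} (h : ∀ x, f x ≤ g x) (x : G) :
    Γ.P^[n] f x ≤ Γ.P^[n] g x := by
  induction n generalizing x with
  | zero => exact h x
  | succ n ih => simp only [Function.iterate_succ_apply']; exact Γ.P_mono ih x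

theorem iter_add (n : ℕ) (f g : G → ℝ) : Γ.P^[n] (f + g) = Γ.P^[n] f + Γ.P^[n] g := by
  induction n with
  | zero => rfl
  | succ n ih => simp only [Function.iterate_succ_apply', ih, P_add]

theorem iter_sub (n : ℕ) (f g : G → ℝ) : Γ.P^[n] (f - g) = Γ.P^[n] f - Γ.P^[n] g := by
  induction n with
  | zero => rfl
  | succ n ih => simp only [Function.iterate_succ_apply', ih, P_sub]

theorem iter_smul (n : ℕ) (c : ℝ) (f : G → ℝ) : Γ.P^[n] (c • f) = c • Γ.P^[n] f := by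
  induction n with
  | zero => rfl
  | succ n ih => simp only [Function.iterate_succ_apply', ih, P_smul]

theorem iter_const (n : ℕ) (c : ℝ) : Γ.P^[n] (fun _ => c) = fun _ => c := by
  induction n with
  | zero => rfl
  | succ n ih => simp only [Function.iterate_succ_apply', ih, P_const]

theorem iter_sum {ι : Type} (n : ℕ) (T : Finset ι) (f : ι → G → ℝ) :
    Γ.P^[n] (∑ i ∈ T, f i) = ∑ i ∈ T, Γ.P^[n] (f i) := by
  classical
  induction T using Finset.induction_on with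
  | empty => exact Γ.iter_const n 0
  | insert i T hi ih => rw [Finset.sum_insert hi, Finset.sum_insert hi, iter_add, ih]

theorem iter_shift (n : ℕ) (g : G) (f : G → ℝ) :
    Γ.P^[n] (fun x => f (g * x)) = fun x => Γ.P^[n] f (g * x) := by
  induction n with
  | zero => rfl
  | succ n ih => simp only [Function.iterate_succ_apply', ih, P_shift]

theorem iter_congr (n : ℕ) {f g : G → ℝ} {x : G} (h : ∀ y ∈ Γ.ball x n, f y = g y) :
    Γ.P^[n] f x = Γ.P^[n] g x := by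
  induction n generalizing x with
  | zero => exact h x (Γ.mem_ball_self x 0)
  | succ n ih =>
    simp only [Function.iterate_succ_apply', P]
    congr 1
    refine Finset.sum_congr rfl fun s hs => ih fun y hy => h y ?_
    have h1 := Γ.d_tri x (x * s) y
    have h2 := Γ.d_step x hs
    rw [mem_ball] at hy ⊢
    omega

theorem abs_iter_le (n : ℕ) (f : G → ℝ) (x : G) :
    |Γ.P^[n] f x| ≤ Γ.P^[n] (fun y => |f y|) x := by
  refine abs_le.2 ⟨?_, Γ.iter_mono n (fun y => le_abs_self _) x⟩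
  have h1 := Γ.iter_mono n (f := (-1 : ℝ) • f) (g := fun y => |f y|)
    (fun y => by simpa using neg_le_abs (f y)) x
  rw [iter_smul] at h1
  simp only [Pi.smul_apply, smul_eq_mul] at h1
  linarith

theorem iter_of_harm (n : ℕ) {f : G → ℝ} (h : ∀ x, Γ.P f x = f x) : Γ.P^[n] f = f :=
  Function.iterate_fixed (funext h) n

theorem iter_le_of_super (n : ℕ) {v : G → ℝ} (h : ∀ x, Γ.P v x ≤ v x) (x : G) :
    Γ.P^[n] v x ≤ v x := by
  induction n with
  | zero => exact le_rfl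
  | succ n ih => exact (Γ.iter_mono n h x).trans ih

theorem le_iter_of_sub (n : ℕ) {v : G → ℝ} (h : ∀ x, v x ≤ Γ.P v x) (x : G) :
    v x ≤ Γ.P^[n] v x := by
  induction n with
  | zero => exact le_rfl
  | succ n ih => exact ih.trans (Γ.iter_mono n h x)

theorem iter_antitone {v : G → ℝ} (h : ∀ x, Γ.P v x ≤ v x) (x : G) :
    Antitone fun n => Γ.P^[n] v x :=
  antitone_nat_of_succ_le fun n => Γ.iter_mono n h x

theorem pot1_sum_inv (F : G → ℝ) : ∑ s ∈ Γ.S, F s⁻¹ = ∑ s ∈ Γ.S, F s :=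
  Finset.sum_nbij' (fun s => s⁻¹) (fun s => s⁻¹) Γ.inv_mem Γ.inv_mem (fun _ _ => inv_inv _)
    (fun _ _ => inv_inv _) fun _ _ => rfl

theorem pot1_iter_nonneg (n : ℕ) {f : G → ℝ} (h : ∀ x, 0 ≤ f x) (x : G) : 0 ≤ Γ.P^[n] f x := by
  simpa only [iter_const] using Γ.iter_mono n (f := fun _ => 0) h x

theorem pot1_fin {f : G → ℝ} (hf : (Function.support f).Finite) (s : G) :
    (Function.support fun x => f (x * s)).Finite :=
  hf.preimage (f := fun x => x * s) (mul_left_injective s).injOn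

/-- The kernel of the walk is symmetric under inversion. -/
theorem iter_inv (n : ℕ) (f : G → ℝ) : Γ.P^[n] (fun x => f x⁻¹) 1 = Γ.P^[n] f 1 := by
  let Q : (G → ℝ) → G → ℝ := fun f x => (∑ s ∈ Γ.S, f (s * x)) / Γ.S.card
  have h1 : ∀ f : G → ℝ, Γ.P (fun x => f x⁻¹) = fun x => Q f x⁻¹ := fun f => by
    ext x
    simp only [P, Q, mul_inv_rev]
    rw [Γ.pot1_sum_inv (fun s => f (s * x⁻¹))]
  have h2 : ∀ f, Q (Γ.P f) = Γ.P (Q f) := fun f => by
    ext x
    simp only [P, Q, ← Finset.sum_div, mul_assoc]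
    rw [Finset.sum_comm]
  have h3 : ∀ n f, Γ.P^[n] (fun x => f x⁻¹) = fun x => Q^[n] f x⁻¹ := fun n f => by
    induction n with
    | zero => rfl
    | succ n ih => simp only [Function.iterate_succ_apply', ih, h1]
  simp only [h3, inv_one]
  induction n generalizing f with
  | zero => rfl
  | succ n ih =>
    have h4 : Q (Q^[n] f) 1 = Γ.P (Q^[n] f) 1 := by simp only [P, Q, mul_one, one_mul]
    rw [Function.iterate_succ_apply', h4, ← Function.Commute.iterate_left h2 n f, ih,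
      Function.iterate_succ_apply]

/-- Self adjointness of `P`. -/
theorem sum_mul_P {f : G → ℝ} (g : G → ℝ) (hf : (Function.support f).Finite) :
    ∑ᶠ x, f x * Γ.P g x = ∑ᶠ x, Γ.P f x * g x := by
  have h1 : ∀ s : G, (Function.support fun x => f x * g (x * s)).Finite := fun s =>
    hf.subset fun x hx h => hx (by simp only [h, zero_mul])
  have h2 : ∀ s : G, (Function.support fun x => f (x * s) * g x).Finite := fun s =>
    (pot1_fin hf s).subset fun x hx h => hx (by simp only at h ⊢; rw [h, zero_mul])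
  simp only [P, ← mul_div_assoc, div_mul_eq_mul_div]
  simp only [div_eq_mul_inv, ← finsum_mul]
  congr 1
  simp only [Finset.mul_sum, Finset.sum_mul]
  rw [finsum_sum_comm _ _ fun s _ => h1 s, finsum_sum_comm _ _ fun s _ => h2 s,
    ← Γ.pot1_sum_inv (fun s => ∑ᶠ x, f (x * s) * g x)]
  refine Finset.sum_congr rfl fun s _ => ?_
  rw [← finsum_comp_equiv (Equiv.mulRight s) (f := fun x => f (x * s⁻¹) * g x)]
  simp

theorem support_P {f : G → ℝ} (hf : (Function.support f).Finite) :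
    (Function.support (Γ.P f)).Finite := by
  refine (Γ.nb_finite 1 hf).subset fun x hx => ?_
  by_contra h
  refine hx ?_
  rw [P, Finset.sum_eq_zero fun s hs => ?_, zero_div]
  by_contra h2
  exact h ⟨x * s, h2, Γ.d_step x hs⟩

/-- Green identity for a finitely supported function. -/
theorem green_identity {f : G → ℝ} (g : G → ℝ) (hf : (Function.support f).Finite) :
    ∑ᶠ x, ∑ s ∈ Γ.S, (f x - f (x * s)) * (g x - g (x * s)) =
      2 * Γ.S.card * ∑ᶠ x, (f x - Γ.P f x) * g x := by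
  have hc := Γ.card_pos'.ne'
  have f1 : (Function.support fun x => f x * g x).Finite :=
    hf.subset fun x hx h => hx (by simp only [h, zero_mul])
  have f2 : (Function.support fun x => f x * Γ.P g x).Finite :=
    hf.subset fun x hx h => hx (by simp only [h, zero_mul])
  have f3 : (Function.support fun x => Γ.P f x * g x).Finite :=
    (Γ.support_P hf).subset fun x hx h => hx (by simp only [h, zero_mul])
  have f4 := Γ.support_P f1
  have e : ∀ x, ∑ s ∈ Γ.S, (f x - f (x * s)) * (g x - g (x * s)) =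
      Γ.S.card * ((f x * g x - f x * Γ.P g x) - (Γ.P f x * g x - Γ.P (fun y => f y * g y) x)) := by
    intro x
    simp only [P, sub_mul, mul_sub, Finset.sum_sub_distrib, Finset.sum_const, nsmul_eq_mul,
      ← Finset.mul_sum, ← Finset.sum_mul]
    field_simp
    ring
  have e2 := Γ.sum_mul_P (f := fun y => f y * g y) (fun _ => 1) f1
  simp only [P_const, mul_one] at e2
  simp only [e]
  simp only [← mul_finsum, sub_mul]
  rw [finsum_sub_distrib ((f1.union f2).subset (Function.support_sub _ _))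
    ((f3.union f4).subset (Function.support_sub _ _)), finsum_sub_distrib f1 f2,
    finsum_sub_distrib f3 f4, finsum_sub_distrib f1 f3, Γ.sum_mul_P g hf, ← e2]
  ring

theorem pot1_gr_fin {f : G → ℝ} (hf : (Function.support f).Finite) :
    (Function.support (Γ.gr f)).Finite := by
  refine (Γ.nb_finite 1 hf).subset fun x hx => ?_
  by_contra h
  have h1 : ∀ s ∈ Γ.S, f (x * s) = 0 := fun s hs => by
    by_contra h2
    exact h ⟨x * s, h2, Γ.d_step x hs⟩
  have h2 := h1 1 Γ.one_mem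
  rw [mul_one] at h2
  exact hx (Finset.sum_eq_zero fun s hs => by rw [h1 s hs, h2]; norm_num)

theorem gr_nonneg (f : G → ℝ) (x : G) : 0 ≤ Γ.gr f x :=
  Finset.sum_nonneg fun _ _ => sq_nonneg _

theorem En_nonneg (f : G → ℝ) : 0 ≤ Γ.En f := tsum_nonneg (Γ.gr_nonneg f)

theorem dir_of_finite {f : G → ℝ} (hf : (Function.support f).Finite) : Γ.Dir f :=
  summable_of_hasFiniteSupport (Γ.pot1_gr_fin hf)

theorem En_eq_finsum {f : G → ℝ} (hf : (Function.support f).Finite) :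
    Γ.En f = ∑ᶠ x, Γ.gr f x := tsum_eq_finsum (Γ.pot1_gr_fin hf)

/-- Contractions do not increase the energy. -/
theorem Dir.of_le {Γ : Gen G} {f g : G → ℝ} (hf : Γ.Dir f)
    (h : ∀ x, ∀ s ∈ Γ.S, |g x - g (x * s)| ≤ |f x - f (x * s)|) : Γ.Dir g ∧ Γ.En g ≤ Γ.En f := by
  have h1 : ∀ x, Γ.gr g x ≤ Γ.gr f x := fun x =>
    Finset.sum_le_sum fun s hs => sq_le_sq.2 (h x s hs)
  have h2 : Γ.Dir g := Summable.of_nonneg_of_le (Γ.gr_nonneg g) h1 hf
  exact ⟨h2, h2.tsum_le_tsum h1 hf⟩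

theorem Dir.shift {Γ : Gen G} {f : G → ℝ} (hf : Γ.Dir f) (g : G) :
    Γ.Dir (fun x => f (g * x)) ∧ Γ.En (fun x => f (g * x)) = Γ.En f := by
  have e : Γ.gr (fun x => f (g * x)) = Γ.gr f ∘ Equiv.mulLeft g := by
    ext x
    simp [gr, mul_assoc]
  rw [Dir, En, e]
  exact ⟨(Equiv.mulLeft g).summable_iff.2 hf, (Equiv.mulLeft g).tsum_eq (Γ.gr f)⟩

/-- Harnack inequality. -/
theorem harnack {v : G → ℝ} (h0 : ∀ x, 0 ≤ v x) (h : ∀ x, Γ.P v x ≤ v x) {x y : G} {n : ℕ}
    (hd : Γ.d x y ≤ n) : v y ≤ (Γ.S.card : ℝ) ^ n * v x := by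
  induction n generalizing x with
  | zero => rw [Γ.d_eq_zero.1 (Nat.le_zero.1 hd), pow_zero, one_mul]
  | succ n ih =>
    rcases Nat.lt_or_ge (Γ.d x y) (n + 1) with h1 | h1
    · refine (ih (Nat.lt_succ_iff.1 h1)).trans (mul_le_mul_of_nonneg_right ?_ (h0 x))
      exact pow_le_pow_right₀ Γ.one_le_card' (Nat.le_succ n)
    · obtain ⟨s, hs, h2⟩ := Γ.d_succ (le_antisymm hd h1)
      refine (ih h2.le).trans ?_
      rw [pow_succ, mul_assoc]
      refine mul_le_mul_of_nonneg_left ?_ (pow_nonneg Γ.card_pos'.le n)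
      have h3 := h x
      rw [P, div_le_iff₀' Γ.card_pos'] at h3
      exact (Finset.single_le_sum (f := fun s => v (x * s)) (fun _ _ => h0 _) hs).trans h3

/-- Maximum principle on a finite set. -/
theorem max_principle {K : Set G} (hK : K.Finite) (hKc : K ≠ univ) {g : G → ℝ}
    (hsub : ∀ x ∈ K, g x ≤ Γ.P g x) (hb : ∀ x ∈ K, ∀ s ∈ Γ.S, x * s ∉ K → g (x * s) ≤ 0) :
    ∀ x ∈ K, g x ≤ 0 := by
  intro x hx
  obtain ⟨z, hz, hmax⟩ := exists_max_image K g hK ⟨x, hx⟩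
  refine (hmax x hx).trans (not_lt.1 fun hpos => ?_)
  obtain ⟨y, hy⟩ := (ne_univ_iff_exists_notMem K).1 hKc
  refine hy ((Γ.conn_univ z (mem_univ _) y (mem_univ _)).ind_one
    (p := fun a => a ∈ K ∧ g a = g z) ⟨hz, rfl⟩ fun a _ s hs _ ⟨ha, hga⟩ => ?_).1
  have h1 : ∀ t ∈ Γ.S, g (a * t) ≤ g z := fun t ht => by
    by_cases h : a * t ∈ K
    exacts [hmax _ h, (hb a ha t ht h).trans hpos.le]
  have h2 : g (a * s) = g z := by
    by_contra h
    have h3 := Finset.sum_lt_sum h1 ⟨s, hs, lt_of_le_of_ne (h1 s hs) h⟩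
    have h4 := hsub a ha
    rw [P, le_div_iff₀ Γ.card_pos', hga] at h4
    rw [Finset.sum_const, nsmul_eq_mul] at h3
    linarith
  refine ⟨by_contra fun h => ?_, h2⟩
  have := hb a ha s hs h
  linarith

/-- Components of superlevel sets of subharmonic functions are infinite. -/
theorem comp_level_infinite [Infinite G] {h : G → ℝ} (hh : ∀ x, h x ≤ Γ.P h x) {a : ℝ} {x : G}
    (hx : a < h x) : (Γ.comp 1 {y | a < h y} x).Infinite := by
  intro hK
  have := Γ.max_principle hK (fun h => infinite_univ (h ▸ hK)) (g := h - fun _ => a)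
    (fun y _ => by simpa only [P_sub, P_const, Pi.sub_apply, sub_le_sub_iff_right] using hh y)
    (fun y hy s hs hys => sub_nonpos.2 (not_lt.1 fun h2 =>
      hys (mem_comp_of_near hy h2 (Γ.d_step y hs)))) x (mem_comp_self hx)
  exact not_le.2 hx (sub_nonpos.1 this)

theorem pot1_hitN (Z : Set G) (n : ℕ) (x : G) : 0 ≤ Γ.hitN Z n x ∧ Γ.hitN Z n x ≤ 1 := by
  have h1 : ∀ x, 0 ≤ Z.indicator (1 : G → ℝ) x ∧ Z.indicator (1 : G → ℝ) x ≤ 1 := fun x => by
    by_cases hx : x ∈ Z <;> simp [hx]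
  induction n generalizing x with
  | zero => exact h1 x
  | succ n ih =>
    refine ⟨le_max_of_le_left (h1 x).1, max_le (h1 x).2 ?_⟩
    simpa only [P_const] using Γ.P_mono (g := fun _ => 1) (fun y => (ih y).2) x

theorem pot1_le_hit (Z : Set G) (n : ℕ) (x : G) : Γ.hitN Z n x ≤ Γ.hit Z x :=
  le_ciSup (f := fun n => Γ.hitN Z n x) ⟨1, by rintro _ ⟨n, rfl⟩; exact (Γ.pot1_hitN Z n x).2⟩ n

theorem pot1_tendsto_P {f : ℕ → G → ℝ} {g : G → ℝ} (h : ∀ x, Tendsto (f · x) atTop (𝓝 (g x)))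
    (x : G) : Tendsto (fun n => Γ.P (f n) x) atTop (𝓝 (Γ.P g x)) :=
  (tendsto_finsetSum _ fun _ _ => h _).div_const _

theorem pot1_hit_eq (Z : Set G) (x : G) : Γ.hit Z x = max (Z.indicator 1 x) (Γ.P (Γ.hit Z) x) := by
  have h1 : ∀ n x, Γ.hitN Z n x ≤ Γ.hitN Z (n + 1) x := fun n => by
    induction n with
    | zero => exact fun x => le_max_left _ _
    | succ n ih => exact fun x => max_le_max le_rfl (Γ.P_mono ih x)
  have h2 : ∀ x, Tendsto (Γ.hitN Z · x) atTop (𝓝 (Γ.hit Z x)) := fun x =>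
    tendsto_atTop_ciSup (monotone_nat_of_le_succ (h1 · x))
      ⟨1, by rintro _ ⟨n, rfl⟩; exact (Γ.pot1_hitN Z n x).2⟩
  exact tendsto_nhds_unique ((h2 x).comp (tendsto_add_atTop_nat 1))
    (tendsto_const_nhds.max (Γ.pot1_tendsto_P h2 x))

theorem hit_nonneg (Z : Set G) (x : G) : 0 ≤ Γ.hit Z x :=
  (Γ.pot1_hitN Z 0 x).1.trans (Γ.pot1_le_hit Z 0 x)

theorem hit_le_one (Z : Set G) (x : G) : Γ.hit Z x ≤ 1 :=
  ciSup_le fun n => (Γ.pot1_hitN Z n x).2

theorem hit_of_mem {Z : Set G} {x : G} (hx : x ∈ Z) : Γ.hit Z x = 1 :=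
  le_antisymm (Γ.hit_le_one Z x) (by simpa [hitN, hx] using Γ.pot1_le_hit Z 0 x)

theorem indicator_le_hit (Z : Set G) (x : G) : Z.indicator 1 x ≤ Γ.hit Z x :=
  Γ.pot1_le_hit Z 0 x

theorem P_hit_le (Z : Set G) (x : G) : Γ.P (Γ.hit Z) x ≤ Γ.hit Z x := by
  rw [Γ.pot1_hit_eq Z x]
  exact le_max_right _ _

theorem P_hit_eq {Z : Set G} {x : G} (hx : x ∉ Z) : Γ.P (Γ.hit Z) x = Γ.hit Z x := by
  rw [Γ.pot1_hit_eq Z x, indicator_of_notMem hx, max_eq_right]
  simpa only [P_const] using Γ.P_mono (f := fun _ => 0) (Γ.hit_nonneg Z) x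

theorem hit_le_of_super {Z : Set G} {v : G → ℝ} (h0 : ∀ x, 0 ≤ v x)
    (h : ∀ x ∉ Z, Γ.P v x ≤ v x) (hZ : ∀ x ∈ Z, 1 ≤ v x) (x : G) : Γ.hit Z x ≤ v x := by
  refine ciSup_le fun n => ?_
  have h1 : ∀ x, Z.indicator 1 x ≤ v x := fun x => by
    by_cases hx : x ∈ Z
    · simpa [hx] using hZ x hx
    · simpa [hx] using h0 x
  induction n generalizing x with
  | zero => exact h1 x
  | succ n ih =>
    by_cases hx : x ∈ Z
    · exact (Γ.pot1_hitN Z _ x).2.trans (hZ x hx)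
    · exact max_le (h1 x) ((Γ.P_mono ih x).trans (h x hx))

/-- Markov type inequality: `c * hit Z ≤ v` if `c ≤ v` on `Z`. -/
theorem mul_hit_le {Z : Set G} {v : G → ℝ} {c : ℝ} (h0 : ∀ x, 0 ≤ v x)
    (h : ∀ x, Γ.P v x ≤ v x) (hZ : ∀ x ∈ Z, c ≤ v x) (x : G) : c * Γ.hit Z x ≤ v x := by
  rcases le_or_gt c 0 with hc | hc
  · exact (mul_nonpos_of_nonpos_of_nonneg hc (Γ.hit_nonneg Z x)).trans (h0 x)
  rw [← le_inv_mul_iff₀ hc]
  refine Γ.hit_le_of_super (v := c⁻¹ • v) (fun x => mul_nonneg (inv_pos.2 hc).le (h0 x))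
    (fun x _ => ?_) (fun x hx => ?_) x
  · rw [P_smul]
    exact mul_le_mul_of_nonneg_left (h x) (inv_pos.2 hc).le
  · simpa [le_inv_mul_iff₀ hc] using hZ x hx

theorem hit_mono {Z Z' : Set G} (h : Z ⊆ Z') (x : G) : Γ.hit Z x ≤ Γ.hit Z' x :=
  Γ.hit_le_of_super (Γ.hit_nonneg Z') (fun x _ => Γ.P_hit_le Z' x)
    (fun _ hx => (Γ.hit_of_mem (h hx)).ge) x

theorem hit_union_le (Z Z' : Set G) (x : G) : Γ.hit (Z ∪ Z') x ≤ Γ.hit Z x + Γ.hit Z' x := by
  refine Γ.hit_le_of_super (v := Γ.hit Z + Γ.hit Z')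
    (fun x => add_nonneg (Γ.hit_nonneg Z x) (Γ.hit_nonneg Z' x)) (fun x _ => ?_) (fun x hx => ?_) x
  · rw [P_add]
    exact add_le_add (Γ.P_hit_le Z x) (Γ.P_hit_le Z' x)
  · rcases hx with hx | hx
    · exact le_add_of_le_of_nonneg (Γ.hit_of_mem hx).ge (Γ.hit_nonneg Z' x)
    · exact le_add_of_nonneg_of_le (Γ.hit_nonneg Z x) (Γ.hit_of_mem hx).ge

theorem hit_empty (x : G) : Γ.hit ∅ x = 0 :=
  le_antisymm (Γ.hit_le_of_super (v := fun _ => 0) (fun _ => le_rfl)
    (fun x _ => by rw [P_const]) (fun _ h => h.elim) x) (Γ.hit_nonneg _ x)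

theorem hit_le_sum {Z : Set G} (hZ : Z.Finite) (x : G) :
    Γ.hit Z x ≤ ∑ z ∈ hZ.toFinset, Γ.hit {z} x := by
  classical
  have : ∀ T : Finset G, Γ.hit T x ≤ ∑ z ∈ T, Γ.hit {z} x := fun T => by
    induction T using Finset.induction_on with
    | empty => simp [hit_empty]
    | insert a T ha ih =>
      rw [Finset.sum_insert ha, Finset.coe_insert, insert_eq]
      exact (Γ.hit_union_le _ _ x).trans (add_le_add le_rfl ih)
  simpa using this hZ.toFinset

theorem hit_smul (g : G) (Z : Set G) (x : G) : Γ.hit (g • Z) (g * x) = Γ.hit Z x := by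
  have h1 : ∀ x, (g • Z).indicator (1 : G → ℝ) (g * x) = Z.indicator 1 x := fun x => by
    have : g * x ∈ g • Z ↔ x ∈ Z := smul_mem_smul_set_iff
    by_cases hx : x ∈ Z <;> simp [indicator, this, hx]
  refine iSup_congr fun n => ?_
  induction n generalizing x with
  | zero => exact h1 x
  | succ n ih => simp only [hitN, h1, P, mul_assoc, ih]

theorem hit_nb_le (R : ℕ) (Z : Set G) (x : G) :
    Γ.hit (Γ.nb R Z) x ≤ (Γ.S.card : ℝ) ^ R * Γ.hit Z x := by
  have hc := pow_pos Γ.card_pos' R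
  rw [← inv_mul_le_iff₀ hc]
  refine Γ.mul_hit_le (Γ.hit_nonneg Z) (Γ.P_hit_le Z) (fun y hy => ?_) x
  obtain ⟨z, hz, hd⟩ := hy
  have := Γ.harnack (Γ.hit_nonneg Z) (Γ.P_hit_le Z) hd
  rw [Γ.hit_of_mem hz] at this
  rwa [← mul_one (_)⁻¹, inv_mul_le_iff₀ hc]

theorem hit_compl_comp {Ω : Set G} {x : G} (hx : x ∈ Ω) :
    Γ.hit (Γ.comp 1 Ω x)ᶜ x ≤ Γ.hit Ωᶜ x := by
  classical
  have := Γ.hit_le_of_super (Z := (Γ.comp 1 Ω x)ᶜ)
    (v := fun y => if y ∈ Γ.comp 1 Ω x then Γ.hit Ωᶜ y else 1) (fun y => by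
      split_ifs
      exacts [Γ.hit_nonneg _ _, zero_le_one]) (fun y hy => ?_)
    (fun y hy => by rw [if_neg hy]) x
  · rwa [if_pos (mem_comp_self hx)] at this
  · rw [notMem_compl_iff] at hy
    rw [if_pos hy]
    refine (Γ.P_mono_at fun s hs => ?_).trans (Γ.P_hit_le _ y)
    split_ifs with h
    · exact le_rfl
    · exact (Γ.hit_of_mem (Z := Ωᶜ) (x := y * s) fun h2 =>
        h (mem_comp_of_near hy h2 (Γ.d_step y hs))).ge

theorem hit_le_of_ball {Z : Set G} {x : G} {c : ℝ} (h : ∀ m, Γ.hit (Z ∩ Γ.ball x m) x ≤ c) :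
    Γ.hit Z x ≤ c := by
  have key : ∀ (n : ℕ) (Z' : Set G) (y : G), Z ∩ Γ.ball y n ⊆ Z' → Γ.hitN Z n y ≤ Γ.hit Z' y := by
    intro n Z'
    have h1 : ∀ y n, Z ∩ Γ.ball y n ⊆ Z' → Z.indicator 1 y ≤ Γ.hit Z' y := fun y n hy => by
      by_cases h2 : y ∈ Z
      · rw [Γ.hit_of_mem (hy ⟨h2, Γ.mem_ball_self y n⟩), indicator_of_mem h2, Pi.one_apply]
      · rw [indicator_of_notMem h2]
        exact Γ.hit_nonneg _ _
    induction n with
    | zero => exact fun y => h1 y 0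
    | succ n ih =>
      refine fun y hy => max_le (h1 y _ hy) ((Γ.P_mono_at fun s hs => ih _ ?_).trans
        (Γ.P_hit_le _ y))
      refine fun z ⟨h2, h3⟩ => hy ⟨h2, ?_⟩
      have h4 := Γ.d_tri y (y * s) z
      have h5 := Γ.d_step y hs
      rw [mem_ball] at h3 ⊢
      omega
  exact ciSup_le fun n => (key n _ x subset_rfl).trans (h n)

theorem iter_indicator_le_hit (n : ℕ) (Z : Set G) (x : G) :
    Γ.P^[n] (Z.indicator 1) x ≤ Γ.hit Z x :=
  (Γ.iter_mono n (Γ.indicator_le_hit Z) x).trans (Γ.iter_le_of_super n (Γ.P_hit_le Z) x)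

variable {Γ}

theorem Thin.mono {Z Z' : Set G} (h : Γ.Thin Z) (h' : Z' ⊆ Z) : Γ.Thin Z' := fun x =>
  squeeze_zero (fun n => Γ.pot1_iter_nonneg n (Γ.hit_nonneg _) x)
    (fun n => Γ.iter_mono n (Γ.hit_mono h') x) (h x)

theorem Thin.union {Z Z' : Set G} (h : Γ.Thin Z) (h' : Γ.Thin Z') : Γ.Thin (Z ∪ Z') := fun x =>
  squeeze_zero (fun n => Γ.pot1_iter_nonneg n (Γ.hit_nonneg _) x)
    (fun n => (Γ.iter_mono n (g := Γ.hit Z + Γ.hit Z') (Γ.hit_union_le Z Z') x).trans_eq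
      (by rw [iter_add, Pi.add_apply])) (by simpa using (h x).add (h' x))

theorem thin_empty : Γ.Thin ∅ := fun x => by
  simp only [funext Γ.hit_empty, iter_const, tendsto_const_nhds]

theorem not_thin_univ : ¬ Γ.Thin univ := fun h => by
  have := h 1
  simp only [funext fun x => Γ.hit_of_mem (mem_univ x), iter_const] at this
  exact one_ne_zero (tendsto_nhds_unique tendsto_const_nhds this)

theorem Thin.smul {Z : Set G} (h : Γ.Thin Z) (g : G) : Γ.Thin (g • Z) := fun x => by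
  have e : Γ.hit (g • Z) = fun x => Γ.hit Z (g⁻¹ * x) := by
    ext y
    rw [← Γ.hit_smul g Z, mul_inv_cancel_left]
  simpa only [e, iter_shift] using h (g⁻¹ * x)

theorem Thin.nb {Z : Set G} (h : Γ.Thin Z) (R : ℕ) : Γ.Thin (Γ.nb R Z) := fun x =>
  squeeze_zero (fun n => Γ.pot1_iter_nonneg n (Γ.hit_nonneg _) x)
    (fun n => (Γ.iter_mono n (g := (Γ.S.card : ℝ) ^ R • Γ.hit Z) (Γ.hit_nb_le R Z) x).trans_eq
      (by rw [iter_smul, Pi.smul_apply, smul_eq_mul])) (by simpa using (h x).const_mul _)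

theorem Thin.level {Z : Set G} (h : Γ.Thin Z) {δ : ℝ} (hδ : 0 < δ) :
    Γ.Thin {x | δ ≤ Γ.hit Z x} := fun x =>
  squeeze_zero (fun n => Γ.pot1_iter_nonneg n (Γ.hit_nonneg _) x)
    (fun n => (Γ.iter_mono n (g := δ⁻¹ • Γ.hit Z) (fun y => (le_inv_mul_iff₀ hδ).2
      (Γ.mul_hit_le (Γ.hit_nonneg Z) (Γ.P_hit_le Z) (fun _ h => h) y)) x).trans_eq
      (by rw [iter_smul, Pi.smul_apply, smul_eq_mul])) (by simpa using (h x).const_mul _)

theorem thin_of_at {Z : Set G} {x : G}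
    (h : ∀ ε : ℝ, 0 < ε → ∃ n, Γ.P^[n] (Γ.hit Z) x ≤ ε) : Γ.Thin Z := fun y => by
  have h0 := fun n => Γ.pot1_iter_nonneg n (Γ.hit_nonneg Z)
  have h1 : Tendsto (fun n => Γ.P^[n] (Γ.hit Z) x) atTop (𝓝 0) := by
    refine tendsto_order.2 ⟨fun a ha => Eventually.of_forall fun n => ha.trans_le (h0 n x),
      fun a ha => ?_⟩
    obtain ⟨n, hn⟩ := h (a / 2) (half_pos ha)
    filter_upwards [eventually_ge_atTop n] with m hm
    exact ((Γ.iter_antitone (Γ.P_hit_le Z) x hm).trans hn).trans_lt (half_lt_self ha)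
  refine squeeze_zero (fun n => h0 n y) (fun n => Γ.harnack (h0 n) (fun z => ?_) (le_refl (Γ.d x y)))
    (by simpa using h1.const_mul _)
  rw [← Function.iterate_succ_apply' Γ.P]
  exact Γ.iter_antitone (Γ.P_hit_le Z) z (Nat.le_succ n)

theorem Thin.tendsto_indicator {Z : Set G} (h : Γ.Thin Z) (x : G) :
    Tendsto (fun n => Γ.P^[n] (Z.indicator 1) x) atTop (𝓝 0) :=
  squeeze_zero (fun n => Γ.pot1_iter_nonneg n (indicator_nonneg fun _ _ => zero_le_one) x)
    (fun n => Γ.iter_mono n (Γ.indicator_le_hit Z) x) (h x)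

end Gen

end Vale.Agent.P239
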