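import Vale.Agent.P239.GDefs

/-! Definitions for Poincare duality with coefficients in a ring over the group ring. -/

namespace Vale.Agent.P239

open Filter Topology Set
open scoped Pointwise

noncomputable section

variable {Γ N : Type} [Group Γ] [Ring N] (ι : Γ → N) {X : Type} [TopologicalSpace X]
  [MulAction Γ X] [ContinuousConstSMul Γ X]

/-- The twisted translation `a σ ↦ (a g⁻¹) (g σ)`; it acts trivially on `Chn`. -/
def act (g : Γ) (n : ℕ) : Sch N X n →ₗ[N] Sch N X n :=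
  Finsupp.linearCombination N fun σ : C(Sx n, X) => Finsupp.single (g • σ) (ι g⁻¹)

def OnQ (U : Set X) (n : ℕ) : Submodule N (Chn ι X n) := (On N U n).map (rel ι X n).mkQ

def SmQ (𝒰 : Set (Set X)) (n : ℕ) : Submodule N (Chn ι X n) := (Sm N 𝒰 n).map (rel ι X n).mkQ

/-- The saturation of a set. -/
def sat (Γ : Type) [Group Γ] {X : Type} [MulAction Γ X] (K : Set X) : Set X :=
  {x | ∃ g : Γ, g • x ∈ K}

def RelQ (K : Set X) {n : ℕ} (z : Chn ι X (n + 1)) : Prop :=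
  bdry ι X n z ∈ OnQ ι (sat Γ K)ᶜ n

def NulQ (K : Set X) {n : ℕ} (z : Chn ι X n) : Prop :=
  ∃ y : Chn ι X (n + 1), z - bdry ι X n y ∈ OnQ ι (sat Γ K)ᶜ n

/-- Restriction of equivariant locally finite chains to compact sets. -/
structure IsRes (res : Set X → ∀ n, Chn ι X n →ₗ[N] Sch N X n) : Prop where
  bd : ∀ K, IsCompact K → ∀ (n : ℕ) (z : Chn ι X (n + 1)),
    bd0 N X n (res K (n + 1) z) - res K n (bdry ι X n z) ∈ On N Kᶜ n
  mono : ∀ K K', IsCompact K → K' ⊆ K → IsCompact K' → ∀ (n : ℕ) (z : Chn ι X n),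
    res K n z - res K' n z ∈ On N K'ᶜ n
  eqv : ∀ K, IsCompact K → ∀ (g : Γ) (n : ℕ) (z : Chn ι X n),
    res (g • K) n z = act ι g n (res K n z)
  ker : ∀ K, IsCompact K → ∀ (n : ℕ) (z : Chn ι X n),
    res K n z ∈ On N Kᶜ n ↔ z ∈ OnQ ι (sat Γ K)ᶜ n
  loc : ∀ K V, IsCompact K → (∀ g : Γ, g ≠ 1 → ∀ x ∈ V, g • x ∉ K) → ∀ (n : ℕ),
    ∀ y ∈ On N V n, res K n ((rel ι X n).mkQ y) - y ∈ On N Kᶜ n
  sm : ∀ K, IsCompact K → ∀ 𝒰 : Set (Set X), (∀ (g : Γ), ∀ U ∈ 𝒰, g • U ∈ 𝒰) → ∀ (n : ℕ),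
    ∀ z ∈ SmQ ι 𝒰 n, res K n z ∈ Sm N 𝒰 n

/-- Local degrees with respect to an orientation, and the orientation character. -/
structure IsDeg (deg : X → Sch N X 4 → N) (w : Γ →* ℤˣ) : Prop where
  add : ∀ x (z z' : Sch N X 4), RelG {x} z → RelG {x} z' → deg x (z + z') = deg x z + deg x z'
  smul : ∀ x (c : N) (z : Sch N X 4), RelG {x} z → deg x (c • z) = c * deg x z
  nul : ∀ x (z : Sch N X 4), RelG {x} z → (deg x z = 0 ↔ NulG {x} z)
  lc : ∀ x (z : Sch N X 4), RelG {x} z → ∀ᶠ y in 𝓝 x, deg y z = deg x z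
  gen : ∀ (e : OpenPartialHomeomorph X E4) (D : Set E4), IsCompact D → Convex ℝ D → D.Nonempty →
    D ⊆ e.target → ∃ μ : Sch N X 4, RelG (e.symm '' D) μ ∧ ∀ x ∈ e.symm '' D, deg x μ = 1
  eqv : ∀ (g : Γ) x (z : Sch N X 4), RelG {x} z →
    deg (g • x) (act ι g 4 z) = deg x z * ((w g : ℤ) • ι g⁻¹)

end

end Vale.Agent.P239
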