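import Vale.Agent.P239.QDefs
import Vale.Agent.P239.Small

/-! Restriction maps and supports in the tensored complex. -/

namespace Vale.Agent.P239

open Filter Topology Set
open scoped Pointwise

variable {Γ N : Type} [Group Γ] [Ring N] {ι : Γ → N} {X : Type} [MetricSpace X]
  [MulAction Γ X] [ContinuousConstSMul Γ X]

theorem act_single (g : Γ) {n : ℕ} (σ : C(Sx n, X)) (a : N) :
    act ι g n (Finsupp.single σ a) = Finsupp.single (g • σ) (a * ι g⁻¹) := by
  rw [act, Finsupp.linearCombination_single, Finsupp.smul_single, smul_eq_mul]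

theorem bd0_act (g : Γ) {n : ℕ} (z : Sch N X (n + 1)) :
    bd0 N X n (act ι g (n + 1) z) = act ι g n (bd0 N X n z) := by
  induction z using Finsupp.induction_linear with
  | zero => simp only [map_zero]
  | add f g hf hg => simp only [map_add, hf, hg]
  | single σ a =>
    rw [act_single, bd0_single, bd0_single, map_sum]
    simp only [map_zsmul, act_single]
    rfl

theorem act_mem_On (g : Γ) {U : Set X} {n : ℕ} {z : Sch N X n} (h : z ∈ On N U n) :
    act ι g n z ∈ On N (g • U) n := by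
  refine sing_map_supported (act ι g n) (fun σ hσ => ?_) h
  rw [act_single]
  refine sing_single_On ?_ _
  rintro _ ⟨x, rfl⟩
  exact smul_mem_smul_set (hσ ⟨x, rfl⟩)

theorem RelG.act {D : Set X} {n : ℕ} {z : Sch N X (n + 1)} (h : RelG D z) (g : Γ) :
    RelG (g • D) (act ι g (n + 1) z) := by
  rw [RelG, bd0_act, ← smul_set_compl]
  exact act_mem_On g h

theorem NulG.act {D : Set X} {n : ℕ} {z : Sch N X n} (h : NulG D z) (g : Γ) :
    NulG (g • D) (act ι g n z) := by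
  obtain ⟨y, hy⟩ := h
  refine ⟨Vale.Agent.P239.act ι g (n + 1) y, ?_⟩
  rw [bd0_act, ← map_sub, ← smul_set_compl]
  exact act_mem_On g hy

theorem bdry_mk {n : ℕ} (y : Sch N X (n + 1)) :
    bdry ι X n ((rel ι X (n + 1)).mkQ y) = (rel ι X n).mkQ (bd0 N X n y) := by
  rfl

theorem bdry_bdry {n : ℕ} (z : Chn ι X (n + 2)) : bdry ι X n (bdry ι X (n + 1) z) = 0 := by
  obtain ⟨y, rfl⟩ := (rel ι X (n + 2)).mkQ_surjective z
  rw [bdry_mk, bdry_mk, bd0_bd0, map_zero]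

theorem OnQ_mono {U V : Set X} (h : U ⊆ V) (n : ℕ) : OnQ ι U n ≤ OnQ ι V n := by
  exact Submodule.map_mono (On_mono h)

theorem OnQ_empty (n : ℕ) : OnQ ι (∅ : Set X) n = ⊥ := by
  rw [OnQ, On_empty, Submodule.map_bot]

theorem res_ind {α M : Type} [AddCommGroup M] [Module N M] {S : Set α} {T : Submodule N M}
    (L : (α →₀ N) →ₗ[N] M) (h : ∀ σ ∈ S, L (Finsupp.single σ 1) ∈ T) {z : α →₀ N}
    (hz : z ∈ Finsupp.supported N N S) : L z ∈ T := by
  rw [Finsupp.supported_eq_span_single] at hz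
  have : Submodule.span N ((fun i => Finsupp.single i (1 : N)) '' S) ≤ T.comap L := by
    rw [Submodule.span_le]
    rintro _ ⟨σ, hσ, rfl⟩
    exact h σ hσ
  exact this hz

theorem res_ind' {α M : Type} [AddCommGroup M] [Module N M] {T : Submodule N M}
    (L : (α →₀ N) →ₗ[N] M) (h : ∀ σ, L (Finsupp.single σ 1) ∈ T) (z : α →₀ N) : L z ∈ T :=
  res_ind (S := univ) L (fun σ _ => h σ) (by rw [Finsupp.supported_univ]; trivial)

theorem res_rel {M : Type} [AddCommGroup M] [Module N M] {T : Submodule N M} {n : ℕ}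
    (L : Sch N X n →ₗ[N] M) (h : ∀ (g : Γ) (σ : C(Sx n, X)) (a : N),
      L (Finsupp.single (g • σ) a) - L (Finsupp.single σ (a * ι g)) ∈ T) {z : Sch N X n}
    (hz : z ∈ rel ι X n) : L z ∈ T := by
  have : rel ι X n ≤ T.comap L := by
    rw [rel, Submodule.span_le]
    rintro _ ⟨g, σ, a, rfl⟩
    rw [SetLike.mem_coe, Submodule.mem_comap, map_sub]
    exact h g σ a
  exact this hz

theorem res_mem_rel {n : ℕ} (g : Γ) (σ : C(Sx n, X)) (a : N) :
    Finsupp.single (g • σ) a - Finsupp.single σ (a * ι g) ∈ rel ι X n :=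
  Submodule.subset_span ⟨g, σ, a, rfl⟩

theorem res_mk_smul {n : ℕ} (g : Γ) (σ : C(Sx n, X)) (a : N) :
    (rel ι X n).mkQ (Finsupp.single (g • σ) a) = (rel ι X n).mkQ (Finsupp.single σ (a * ι g)) :=
  (Submodule.Quotient.eq _).2 (res_mem_rel g σ a)

theorem OnQ_inter {U V : Set X} (hV : ∀ (g : Γ), ∀ x ∈ V, g • x ∈ V) (n : ℕ) :
    OnQ ι (U ∩ V) n = OnQ ι U n ⊓ OnQ ι V n := by
  classical
  refine le_antisymm (le_inf (OnQ_mono inter_subset_left n) (OnQ_mono inter_subset_right n)) ?_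
  rintro _ ⟨⟨y, hy, rfl⟩, y', hy', h⟩
  let P : Sch N X n →ₗ[N] Sch N X n := Finsupp.linearCombination N fun σ =>
    if range σ ⊆ V then Finsupp.single σ 1 else 0
  have hP : ∀ σ a, P (Finsupp.single σ a) = if range σ ⊆ V then Finsupp.single σ a else 0 := by
    intro σ a
    rw [Finsupp.linearCombination_single]
    split_ifs <;> simp
  have h1 : P (y' - y) ∈ rel ι X n := by
    refine res_rel P (fun g σ a => ?_) ((Submodule.Quotient.eq _).1 h)
    have : range (g • σ) ⊆ V ↔ range σ ⊆ V := by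
      simp only [range_subset_iff]
      refine forall_congr' fun x => ⟨fun h => ?_, hV g _⟩
      simpa using hV g⁻¹ _ h
    rw [hP, hP]
    by_cases hσ : range σ ⊆ V
    · rw [if_pos hσ, if_pos (this.2 hσ)]
      exact res_mem_rel g σ a
    · rw [if_neg hσ, if_neg (mt this.1 hσ), sub_zero]
      exact zero_mem _
  have h2 : (P - LinearMap.id : Sch N X n →ₗ[N] Sch N X n) y' ∈
      (⊥ : Submodule N (Sch N X n)) := by
    refine res_ind _ (fun σ hσ => ?_) hy'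
    rw [LinearMap.sub_apply, hP, if_pos (show range σ ⊆ V from hσ), LinearMap.id_apply, sub_self]
    exact zero_mem _
  rw [Submodule.mem_bot, LinearMap.sub_apply, LinearMap.id_apply, sub_eq_zero] at h2
  refine ⟨P y, res_ind P (fun σ hσ => ?_) hy, ?_⟩
  · rw [hP]
    split_ifs with h3
    · exact sing_single_On (subset_inter hσ h3) _
    · exact zero_mem _
  · rw [map_sub, h2] at h1
    exact ((Submodule.Quotient.eq _).2 h1).symm.trans h

theorem SmQ_pair (U V : Set X) (n : ℕ) : SmQ ι {U, V} n = OnQ ι U n ⊔ OnQ ι V n := by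
  rw [SmQ, Sm_pair, Submodule.map_sup, OnQ, OnQ]

theorem bdry_mem_OnQ {U : Set X} {n : ℕ} {z : Chn ι X (n + 1)} (h : z ∈ OnQ ι U (n + 1)) :
    bdry ι X n z ∈ OnQ ι U n := by
  obtain ⟨y, hy, rfl⟩ := h
  exact ⟨_, bd0_mem_On hy, rfl⟩

theorem smallQ {𝒰 : Set (Set X)} (hU : ∀ U ∈ 𝒰, IsOpen U) {n : ℕ} {z : Chn ι X (n + 1)}
    (hz : z ∈ OnQ ι (⋃₀ 𝒰) (n + 1)) (hb : bdry ι X n z ∈ SmQ ι 𝒰 n) :
    ∃ y ∈ OnQ ι (⋃₀ 𝒰) (n + 2), z - bdry ι X (n + 1) y ∈ SmQ ι 𝒰 (n + 1) := by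
  obtain ⟨z, hz, rfl⟩ := hz
  have hb' : bd0 N X n z ∈ Sm N 𝒰 n ⊔ rel ι X n := by
    rw [sup_comm, ← Submodule.comap_map_mkQ]
    exact hb
  suffices hJ : ∀ (n k : ℕ) (u : Sch ℤ (Sx n) k), ∀ z ∈ rel ι X n, opU N X u z ∈ rel ι X k by
    obtain ⟨y, h1, h2⟩ := smallG (rel ι X) hJ hU hz hb'
    rw [sup_comm, ← Submodule.comap_map_mkQ] at h2
    exact ⟨_, ⟨y, h1, rfl⟩, h2⟩
  refine fun n k u z hz => res_rel _ (fun g σ a => ?_) hz
  · rw [opU_single, opU_single]
    induction u using Finsupp.induction_linear with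
    | zero => simp only [map_zero, sub_zero, zero_mem]
    | add f g hf hg =>
      simp only [map_add]
      rw [add_sub_add_comm]
      exact add_mem hf hg
    | single τ c =>
      rw [push_single, push_single, tens_single, tens_single, ← smul_mul_assoc]
      exact res_mem_rel g (σ.comp τ) _

theorem Geo.isClosed_sat (h : Geo Γ X) {K : Set X} (hK : IsCompact K) : IsClosed (sat Γ K) := by
  rw [← isOpen_compl_iff, isOpen_iff_mem_nhds]
  intro x hx
  have h1 := h.prop _ (hK.union (h.cpt x))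
  have h2 : IsClosed (⋃ g ∈ {g : Γ | ∃ y ∈ K ∪ Metric.closedBall x 1,
      g • y ∈ K ∪ Metric.closedBall x 1}, (fun y : X => g • y) ⁻¹' K) :=
    h1.isClosed_biUnion fun g _ => hK.isClosed.preimage (continuous_const_smul g)
  filter_upwards [h2.isOpen_compl.mem_nhds (fun h3 => by
    obtain ⟨g, -, hg⟩ := mem_iUnion₂.1 h3
    exact hx ⟨g, hg⟩), Metric.closedBall_mem_nhds x one_pos] with y h3 h4
  rintro ⟨g, hg⟩
  exact h3 (mem_iUnion₂.2 ⟨g, ⟨y, Or.inr h4, Or.inl hg⟩, hg⟩)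

theorem Geo.exists_chart (h : Geo Γ X) (x : X) : ∃ e : OpenPartialHomeomorph X E4,
    x ∈ e.source ∧ ∀ g : Γ, g ≠ 1 → ∀ y ∈ e.source, g • y ∉ e.source := by
  obtain ⟨e, he⟩ := h.chart x
  have h1 := h.prop _ (h.cpt x)
  have h2 : ∀ g : Γ, ∃ W ∈ 𝓝 x, g ≠ 1 → ∀ y ∈ W, g • y ∉ W := fun g => by
    by_cases hg : g = 1
    · exact ⟨univ, univ_mem, fun h => (h hg).elim⟩
    · have h3 : 0 < dist (g • x) x := dist_pos.2 fun h4 => hg (h.free g x h4)
      refine ⟨_, Metric.ball_mem_nhds x (half_pos h3), fun _ y hy hy' => ?_⟩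
      rw [Metric.mem_ball] at hy hy'
      have h5 := dist_triangle_left (g • x) x (g • y)
      rw [h.isom] at h5
      linarith
  choose W w1 w2 using h2
  obtain ⟨O, o1, o2, o3⟩ := mem_nhds_iff.1 (inter_mem (Metric.closedBall_mem_nhds x one_pos)
    ((biInter_mem h1).2 fun g _ => w1 g))
  refine ⟨e.restrOpen O o2, ⟨he, o3⟩, fun g hg y hy hy' => ?_⟩
  have h3 := o1 hy.2
  have h4 := o1 hy'.2
  exact w2 g hg y (mem_iInter₂.1 h3.2 g ⟨y, h3.1, h4.1⟩) (mem_iInter₂.1 h4.2 g ⟨y, h3.1, h4.1⟩)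

section res

variable (h : Geo Γ X) {K : Set X} (hK : IsCompact K) {n : ℕ}

include h hK in
theorem res_finite (σ : C(Sx n, X)) : {g : Γ | ∃ x, g • σ x ∈ K}.Finite :=
  (h.prop _ (hK.union (isCompact_range σ.continuous))).subset fun _ ⟨x, hx⟩ =>
    ⟨σ x, Or.inr ⟨x, rfl⟩, Or.inl hx⟩

noncomputable def resT (σ : C(Sx n, X)) : Finset Γ := (res_finite h hK σ).toFinset

theorem mem_resT {σ : C(Sx n, X)} {g : Γ} : g ∈ resT h hK σ ↔ ∃ x, g • σ x ∈ K :=
  Finite.mem_toFinset _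

noncomputable def resL (ι : Γ → N) (n : ℕ) : Sch N X n →ₗ[N] Sch N X n :=
  Finsupp.linearCombination N fun σ => ∑ g ∈ resT h hK σ, Finsupp.single (g • σ) (ι g⁻¹)

theorem resL_single (σ : C(Sx n, X)) (a : N) : resL h hK ι n (Finsupp.single σ a) =
    ∑ g ∈ resT h hK σ, Finsupp.single (g • σ) (a * ι g⁻¹) := by
  rw [resL, Finsupp.linearCombination_single, Finset.smul_sum]
  simp only [Finsupp.smul_single, smul_eq_mul]

theorem resL_rel (hmul : ∀ g k, ι (g * k) = ι g * ι k) :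
    rel ι X n ≤ LinearMap.ker (resL h hK ι n) := by
  intro z hz
  refine res_rel (T := ⊥) (resL h hK ι n) (fun k σ a => ?_) hz
  rw [Submodule.mem_bot, sub_eq_zero, resL_single, resL_single]
  refine Finset.sum_equiv (Equiv.mulRight k) (fun g => ?_) fun g _ => ?_
  · simp only [mem_resT, Equiv.coe_mulRight, mul_smul, ContinuousMap.smul_apply]
  · rw [Equiv.coe_mulRight, mul_smul, mul_assoc, ← hmul, mul_inv_rev, mul_inv_cancel_left]

theorem res_sdiff {s t : Finset Γ} (hst : s ⊆ t) {T : Submodule N (Sch N X n)} (f : Γ → Sch N X n)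
    (hf : ∀ g ∈ t, g ∉ s → f g ∈ T) : ∑ g ∈ t, f g - ∑ g ∈ s, f g ∈ T := by
  classical
  rw [← Finset.sum_sdiff hst, add_sub_cancel_right]
  exact Submodule.sum_mem _ fun g hg => hf g (Finset.mem_sdiff.1 hg).1 (Finset.mem_sdiff.1 hg).2

theorem res_not_mem {σ : C(Sx n, X)} {g : Γ} (hg : g ∉ resT h hK σ) (a : N) :
    Finsupp.single (g • σ) a ∈ On N Kᶜ n := by
  refine sing_single_On ?_ a
  rintro _ ⟨x, rfl⟩ hx
  exact hg ((mem_resT h hK).2 ⟨x, hx⟩)

theorem resL_bd (y : Sch N X (n + 1)) :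
    bd0 N X n (resL h hK ι (n + 1) y) - resL h hK ι n (bd0 N X n y) ∈ On N Kᶜ n := by
  refine res_ind' (bd0 N X n ∘ₗ resL h hK ι (n + 1) - resL h hK ι n ∘ₗ bd0 N X n)
    (fun σ => ?_) y
  simp only [LinearMap.sub_apply, LinearMap.comp_apply, resL_single, map_sum, bd0_single,
    map_zsmul]
  rw [Finset.sum_comm, ← Finset.sum_sub_distrib]
  refine Submodule.sum_mem _ fun i _ => ?_
  rw [← Finset.smul_sum, ← smul_sub]
  refine zsmul_mem (res_sdiff (fun g hg => ?_) _ fun g _ hg => res_not_mem h hK hg _) _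
  obtain ⟨x, hx⟩ := (mem_resT h hK).1 hg
  exact (mem_resT h hK).2 ⟨_, hx⟩

theorem resL_mono {K' : Set X} (hK' : IsCompact K') (hs : K' ⊆ K) (y : Sch N X n) :
    resL h hK ι n y - resL h hK' ι n y ∈ On N K'ᶜ n := by
  refine res_ind' (resL h hK ι n - resL h hK' ι n) (fun σ => ?_) y
  simp only [LinearMap.sub_apply, resL_single]
  refine res_sdiff (fun g hg => ?_) _ fun g _ hg => res_not_mem h hK' hg _
  obtain ⟨x, hx⟩ := (mem_resT h hK').1 hg
  exact (mem_resT h hK).2 ⟨_, hs hx⟩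

theorem resL_eqv (hmul : ∀ g k, ι (g * k) = ι g * ι k) (g : Γ) (y : Sch N X n) :
    resL h (hK.smul g) ι n y = act ι g n (resL h hK ι n y) := by
  induction y using Finsupp.induction_linear with
  | zero => simp only [map_zero]
  | add f g hf hg => simp only [map_add, hf, hg]
  | single σ a =>
    rw [resL_single, resL_single, map_sum]
    refine (Finset.sum_equiv (Equiv.mulLeft g) (fun k => ?_) fun k _ => ?_).symm
    · simp only [mem_resT, Equiv.coe_mulLeft, mul_smul, smul_mem_smul_set_iff]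
    · rw [act_single, Equiv.coe_mulLeft, mul_smul, mul_assoc, ← hmul, mul_inv_rev]

theorem resL_zero {y : Sch N X n} (hy : y ∈ On N (sat Γ K)ᶜ n) :
    resL h hK ι n y ∈ On N Kᶜ n := by
  refine res_ind _ (fun σ hσ => ?_) hy
  rw [resL_single]
  refine Submodule.sum_mem _ fun g hg => ?_
  obtain ⟨x, hx⟩ := (mem_resT h hK).1 hg
  exact (hσ ⟨x, rfl⟩ ⟨g, hx⟩).elim

theorem resL_loc (h1 : ι 1 = 1) {V : Set X} (hV : ∀ g : Γ, g ≠ 1 → ∀ x ∈ V, g • x ∉ K)
    {y : Sch N X n} (hy : y ∈ On N V n) : resL h hK ι n y - y ∈ On N Kᶜ n := by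
  refine res_ind (resL h hK ι n - LinearMap.id) (fun σ hσ => ?_) hy
  rw [LinearMap.sub_apply, LinearMap.id_apply, resL_single]
  have h2 : ∀ g ∈ resT h hK σ, g = 1 := fun g hg => by
    obtain ⟨x, hx⟩ := (mem_resT h hK).1 hg
    by_contra h3
    exact hV g h3 _ (hσ ⟨x, rfl⟩) hx
  by_cases h3 : (1 : Γ) ∈ resT h hK σ
  · rw [Finset.sum_eq_single_of_mem 1 h3 fun g hg h4 => (h4 (h2 g hg)).elim, one_smul, inv_one,
      h1, mul_one, sub_self]
    exact zero_mem _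
  · rw [Finset.sum_eq_zero fun g hg => (h3 (h2 g hg ▸ hg)).elim, zero_sub]
    have := res_not_mem h hK h3 (1 : N)
    rw [one_smul] at this
    exact neg_mem this

theorem resL_sm {𝒰 : Set (Set X)} (hU : ∀ (g : Γ), ∀ U ∈ 𝒰, g • U ∈ 𝒰) {y : Sch N X n}
    (hy : y ∈ Sm N 𝒰 n) : resL h hK ι n y ∈ Sm N 𝒰 n := by
  refine res_ind _ (fun σ hσ => ?_) hy
  obtain ⟨U, h1, h2⟩ := hσ
  rw [resL_single]
  refine Submodule.sum_mem _ fun g _ => sing_single_Sm ⟨_, hU g U h1, ?_⟩ _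
  rintro _ ⟨x, rfl⟩
  exact smul_mem_smul_set (h2 ⟨x, rfl⟩)

theorem resL_ker (h1 : ι 1 = 1) (hmul : ∀ g k, ι (g * k) = ι g * ι k) {y : Sch N X n}
    (hy : resL h hK ι n y ∈ On N Kᶜ n) : (rel ι X n).mkQ y ∈ OnQ ι (sat Γ K)ᶜ n := by
  classical
  rcases isEmpty_or_nonempty C(Sx n, X) with he | he
  · rw [Subsingleton.elim y 0, map_zero]
    exact zero_mem _
  let ρ : C(Sx n, X) → C(Sx n, X) := fun σ =>
    Classical.epsilon fun τ => (∃ g : Γ, g • σ = τ) ∧ ∃ x, τ x ∈ K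
  have hρ : ∀ (k : Γ) (σ : C(Sx n, X)), ρ (k • σ) = ρ σ := fun k σ => by
    refine congrArg Classical.epsilon (funext fun τ => propext (and_congr_left fun _ => ?_))
    exact ⟨fun ⟨g, hg⟩ => ⟨g * k, by rwa [mul_smul]⟩,
      fun ⟨g, hg⟩ => ⟨g * k⁻¹, by rwa [mul_smul, inv_smul_smul]⟩⟩
  let P : Sch N X n →ₗ[N] Chn ι X n := Finsupp.linearCombination N fun τ =>
    if ρ τ = τ ∧ ∃ x, τ x ∈ K then (rel ι X n).mkQ (Finsupp.single τ 1) else 0
  have hP : ∀ τ a, P (Finsupp.single τ a) =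
      if ρ τ = τ ∧ ∃ x, τ x ∈ K then (rel ι X n).mkQ (Finsupp.single τ a) else 0 := by
    intro τ a
    rw [Finsupp.linearCombination_single]
    split_ifs
    · rw [← map_smul, Finsupp.smul_single, smul_eq_mul, mul_one]
    · exact smul_zero _
  have h2 : P (resL h hK ι n y) ∈ OnQ ι (sat Γ K)ᶜ n := by
    refine res_ind P (fun τ hτ => ?_) hy
    rw [hP, if_neg fun ⟨_, x, hx⟩ => hτ ⟨x, rfl⟩ hx]
    exact zero_mem _
  have h3 : ((rel ι X n).mkQ - P ∘ₗ resL h hK ι n) y ∈ OnQ ι (sat Γ K)ᶜ n := by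
    refine res_ind' _ (fun σ => ?_) y
    rw [LinearMap.sub_apply, LinearMap.comp_apply, resL_single, map_sum]
    by_cases hσ : ∃ τ : C(Sx n, X), (∃ g : Γ, g • σ = τ) ∧ ∃ x, τ x ∈ K
    · obtain ⟨⟨g, hg⟩, hx⟩ : (∃ g : Γ, g • σ = ρ σ) ∧ ∃ x, ρ σ x ∈ K := Classical.epsilon_spec hσ
      rw [← hg] at hx
      rw [Finset.sum_eq_single_of_mem g ((mem_resT h hK).2 hx), hP,
        if_pos ⟨by rw [hρ, hg], hx⟩, res_mk_smul, mul_assoc, ← hmul, inv_mul_cancel, h1, mul_one,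
        sub_self]
      · exact zero_mem _
      · intro k _ hk
        rw [hP, if_neg]
        rintro ⟨h4, -⟩
        rw [hρ, ← hg] at h4
        have h5 : g • σ (Classical.arbitrary _) = k • σ (Classical.arbitrary _) :=
          DFunLike.congr_fun h4 _
        rw [← inv_smul_eq_iff, smul_smul] at h5
        exact hk (inv_mul_eq_one.1 (h.free _ _ h5))
    · rw [Finset.sum_eq_zero fun g hg => (hσ ⟨g • σ, ⟨g, rfl⟩, (mem_resT h hK).1 hg⟩).elim,
        sub_zero]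
      refine ⟨_, sing_single_On ?_ _, rfl⟩
      rintro _ ⟨x, rfl⟩ ⟨g, hg⟩
      exact hσ ⟨g • σ, ⟨g, rfl⟩, x, hg⟩
  have := add_mem h3 h2
  rwa [LinearMap.sub_apply, LinearMap.comp_apply, sub_add_cancel] at this

end res

theorem Geo.exists_res (h : Geo Γ X) (h1 : ι 1 = 1) (hmul : ∀ g k, ι (g * k) = ι g * ι k) :
    ∃ res : Set X → ∀ n, Chn ι X n →ₗ[N] Sch N X n, IsRes ι res := by
  classical
  let res : Set X → ∀ n, Chn ι X n →ₗ[N] Sch N X n := fun K n =>
    if hK : IsCompact K then (rel ι X n).liftQ (resL h hK ι n) (resL_rel h hK hmul) else 0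
  have hr : ∀ K (hK : IsCompact K) n y, res K n ((rel ι X n).mkQ y) = resL h hK ι n y := by
    intro K hK n y
    simp only [res, dif_pos hK]
    rfl
  refine ⟨res, fun K hK n z => ?_, fun K K' hK hs hK' n z => ?_, fun K hK g n z => ?_,
    fun K hK n z => ⟨fun h2 => ?_, ?_⟩, fun K V hK hV n y hy => ?_, ?_⟩
  · obtain ⟨y, rfl⟩ := (rel ι X (n + 1)).mkQ_surjective z
    rw [bdry_mk, hr K hK, hr K hK]
    exact resL_bd h hK y
  · obtain ⟨y, rfl⟩ := (rel ι X n).mkQ_surjective z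
    rw [hr K hK, hr K' hK']
    exact resL_mono h hK hK' hs y
  · obtain ⟨y, rfl⟩ := (rel ι X n).mkQ_surjective z
    rw [hr K hK, hr _ (hK.smul g)]
    exact resL_eqv h hK hmul g y
  · obtain ⟨y, rfl⟩ := (rel ι X n).mkQ_surjective z
    rw [hr K hK] at h2
    exact resL_ker h hK h1 hmul h2
  · rintro ⟨y, hy, rfl⟩
    rw [hr K hK]
    exact resL_zero h hK hy
  · rw [hr K hK]
    exact resL_loc h hK h1 hV hy
  · rintro K hK 𝒰 hU n _ ⟨y, hy, rfl⟩
    rw [hr K hK]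
    exact resL_sm h hK hU hy

end Vale.Agent.P239
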