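import Vale.Agent.P239.TDefs

/-! Basic properties of singular chains. -/

namespace Vale.Agent.P239

open Filter Topology Set

variable {R : Type} [Ring R] {X Y Z : Type} [TopologicalSpace X] [TopologicalSpace Y]
  [TopologicalSpace Z] {n : ℕ}

theorem bd0_single (σ : C(Sx (n + 1), X)) (a : R) : bd0 R X n (Finsupp.single σ a) =
    ∑ i : Fin (n + 2), (-1 : ℤ) ^ (i : ℕ) • Finsupp.single (σ.comp (face i)) a := by
  simp only [bd0, LinearMap.sum_apply, LinearMap.smul_apply, Finsupp.lmapDomain_apply,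
    Finsupp.mapDomain_single]

theorem bd0_single_two (σ : C(Sx (n + 1), X)) (a : F2) : bd0 F2 X n (Finsupp.single σ a) =
    ∑ i : Fin (n + 2), Finsupp.single (σ.comp (face i)) a := by
  rw [bd0_single]
  refine Finset.sum_congr rfl fun i _ => ?_
  rcases Nat.even_or_odd (i : ℕ) with h | h
  · rw [h.neg_one_pow, one_smul]
  · rw [h.neg_one_pow, neg_smul, one_smul]
    ext τ
    exact ZMod.neg_eq_self_mod_two _

theorem face_face {i j : Fin (n + 2)} (h : i ≤ j) :
    (face (n := n + 1) j.succ).comp (face i) = (face (n := n + 1) i.castSucc).comp (face j) := by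
  ext1 x
  simp only [face, ContinuousMap.comp_apply, ContinuousMap.coe_mk, stdSimplex.map_comp_apply]
  congr 1
  funext k
  apply Fin.ext
  have h' : (i : ℕ) ≤ j := h
  simp only [Function.comp_apply, Fin.succAbove, Fin.lt_def, Fin.val_castSucc, Fin.val_succ,
    apply_ite Fin.val]
  split_ifs <;> omega

theorem sing_dd {M : Type} [AddCommGroup M] (F : Fin (n + 2) → Fin (n + 3) → M)
    (hF : ∀ i j : Fin (n + 2), i ≤ j → F i j.succ = F j i.castSucc) :
    ∑ j : Fin (n + 3), (-1 : ℤ) ^ (j : ℕ) • ∑ i : Fin (n + 2), (-1 : ℤ) ^ (i : ℕ) • F i j = 0 := by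
  classical
  simp only [Finset.smul_sum, smul_smul, ← pow_add]
  rw [← Finset.sum_product', Finset.univ_product_univ,
    ← Finset.sum_filter_add_sum_filter_not Finset.univ
      (fun p : Fin (n + 3) × Fin (n + 2) => (p.1 : ℕ) ≤ p.2), add_eq_zero_iff_eq_neg,
    ← Finset.sum_neg_distrib]
  refine Finset.sum_bij
    (fun p hp => (p.2.succ, (⟨p.1, lt_of_le_of_lt (Finset.mem_filter.1 hp).2 p.2.2⟩ : Fin (n + 2))))
    ?_ ?_ ?_ ?_
  · intro p hp
    have := (Finset.mem_filter.1 hp).2
    simp only [Finset.mem_filter, Finset.mem_univ, Fin.val_succ, true_and]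
    omega
  · intro p hp q hq h
    simp only [Prod.mk.injEq, Fin.succ_inj, Fin.mk.injEq] at h
    exact Prod.ext (Fin.ext h.2) h.1
  · intro q hq
    have := (Finset.mem_filter.1 hq).2
    have h0 : q.1 ≠ 0 := by
      intro h
      rw [h] at this
      simp at this
    refine ⟨(q.2.castSucc, q.1.pred h0), ?_, ?_⟩
    · simp only [Finset.mem_filter, Finset.mem_univ, Fin.val_castSucc, Fin.val_pred, true_and]
      omega
    · simp
  · intro p hp
    have h := (Finset.mem_filter.1 hp).2
    rw [hF _ _ (by exact h)]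
    simp only [Fin.val_succ]
    have e : (Fin.castSucc (⟨p.1, lt_of_le_of_lt h p.2.2⟩ : Fin (n + 2))) = p.1 := rfl
    rw [e, show (p.2 : ℕ) + 1 + p.1 = (p.1 + p.2) + 1 by ring, pow_succ]
    simp

theorem bd0_bd0 (z : Sch R X (n + 2)) : bd0 R X n (bd0 R X (n + 1) z) = 0 := by
  induction z using Finsupp.induction_linear with
  | zero => simp
  | add f g hf hg => rw [map_add, map_add, hf, hg, add_zero]
  | single σ a =>
    rw [bd0_single, map_sum]
    simp only [map_zsmul, bd0_single]
    exact sing_dd (fun i j => Finsupp.single ((σ.comp (face j)).comp (face i)) a) fun i j h => by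
      rw [ContinuousMap.comp_assoc, face_face h, ContinuousMap.comp_assoc]

theorem aug_single (σ : C(Sx 0, X)) (a : R) : aug R X (Finsupp.single σ a) = a := by
  simp [aug]

theorem aug_bd0 (z : Sch R X 1) : aug R X (bd0 R X 0 z) = 0 := by
  induction z using Finsupp.induction_linear with
  | zero => simp
  | add f g hf hg => rw [map_add, map_add, hf, hg, add_zero]
  | single σ a =>
    rw [bd0_single, map_sum]
    simp only [map_zsmul, aug_single]
    simp [Fin.sum_univ_two]

theorem push_single (f : C(X, Y)) (σ : C(Sx n, X)) (a : R) :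
    push R f n (Finsupp.single σ a) = Finsupp.single (f.comp σ) a := by
  simp [push, Finsupp.mapDomain_single]

theorem bd0_push (f : C(X, Y)) (z : Sch R X (n + 1)) :
    bd0 R Y n (push R f (n + 1) z) = push R f n (bd0 R X n z) := by
  induction z using Finsupp.induction_linear with
  | zero => simp
  | add f g hf hg => simp only [map_add, hf, hg]
  | single σ a =>
    rw [push_single, bd0_single, bd0_single, map_sum]
    simp only [map_zsmul, push_single, ContinuousMap.comp_assoc]

theorem aug_push (f : C(X, Y)) (z : Sch R X 0) : aug R Y (push R f 0 z) = aug R X z := by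
  induction z using Finsupp.induction_linear with
  | zero => simp
  | add f g hf hg => simp only [map_add, hf, hg]
  | single σ a => rw [push_single, aug_single, aug_single]

theorem push_push (f : C(X, Y)) (g : C(Y, Z)) (z : Sch R X n) :
    push R g n (push R f n z) = push R (g.comp f) n z := by
  induction z using Finsupp.induction_linear with
  | zero => simp
  | add f g hf hg => simp only [map_add, hf, hg]
  | single σ a => simp only [push_single, ContinuousMap.comp_assoc]

theorem push_id (z : Sch R X n) : push R (ContinuousMap.id X) n z = z := by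
  induction z using Finsupp.induction_linear with
  | zero => simp
  | add f g hf hg => simp only [map_add, hf, hg]
  | single σ a => simp only [push_single, ContinuousMap.id_comp]

theorem sing_comp_inj {f : C(X, Y)} (hf : Function.Injective f) :
    Function.Injective fun σ : C(Sx n, X) => f.comp σ := fun _ _ h =>
  ContinuousMap.ext fun x => hf (DFunLike.congr_fun h x)

theorem push_injective {f : C(X, Y)} (hf : Function.Injective f) :
    Function.Injective (push R f n) := by
  exact Finsupp.mapDomain_injective (sing_comp_inj hf)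

theorem mem_On {U : Set X} {z : Sch R X n} : z ∈ On R U n ↔ ∀ σ ∈ z.support, range σ ⊆ U := by
  exact Finsupp.mem_supported R z

theorem mem_Sm {𝒰 : Set (Set X)} {z : Sch R X n} :
    z ∈ Sm R 𝒰 n ↔ ∀ σ ∈ z.support, ∃ U ∈ 𝒰, range σ ⊆ U := by
  exact Finsupp.mem_supported R z

theorem On_mono {U V : Set X} (h : U ⊆ V) : On R U n ≤ On R V n := by
  exact Finsupp.supported_mono fun _ hσ => Subset.trans hσ h

theorem On_univ : On R (univ : Set X) n = ⊤ := by
  rw [On, ← Finsupp.supported_univ]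
  congr 1
  ext σ
  simp

theorem On_empty : On R (∅ : Set X) n = ⊥ := by
  rw [On, ← Finsupp.supported_empty]
  congr 1
  ext σ
  simp

theorem On_inter (U V : Set X) : On R (U ∩ V) n = On R U n ⊓ On R V n := by
  rw [On, On, On, ← Finsupp.supported_inter]
  congr 1
  ext σ
  simp

theorem Sm_mono {𝒰 𝒱 : Set (Set X)} (h : ∀ U ∈ 𝒰, ∃ V ∈ 𝒱, U ⊆ V) : Sm R 𝒰 n ≤ Sm R 𝒱 n := by
  refine Finsupp.supported_mono ?_
  rintro σ ⟨U, hU, hσ⟩
  obtain ⟨V, hV, hUV⟩ := h U hU
  exact ⟨V, hV, hσ.trans hUV⟩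

theorem On_le_Sm {𝒰 : Set (Set X)} {U : Set X} (h : U ∈ 𝒰) : On R U n ≤ Sm R 𝒰 n := by
  exact Finsupp.supported_mono fun _ hσ => ⟨U, h, hσ⟩

theorem Sm_le_On (𝒰 : Set (Set X)) : Sm R 𝒰 n ≤ On R (⋃₀ 𝒰) n := by
  refine Finsupp.supported_mono ?_
  rintro σ ⟨U, hU, hσ⟩
  exact hσ.trans (subset_sUnion_of_mem hU)

theorem Sm_range {ι : Type} (U : ι → Set X) : Sm R (range U) n = ⨆ i, On R (U i) n := by
  simp only [On]
  rw [Sm, ← Finsupp.supported_iUnion]
  congr 1
  ext σ
  simp

theorem Sm_pair (U V : Set X) : Sm R {U, V} n = On R U n ⊔ On R V n := by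
  rw [On, On, Sm, ← Finsupp.supported_union]
  congr 1
  ext σ
  simp

theorem sing_map_supported {α β : Type} {S : Set α} {T : Submodule R (β →₀ R)}
    (L : (α →₀ R) →ₗ[R] (β →₀ R)) (h : ∀ σ ∈ S, L (Finsupp.single σ 1) ∈ T) {z : α →₀ R}
    (hz : z ∈ Finsupp.supported R R S) : L z ∈ T := by
  rw [Finsupp.supported_eq_span_single] at hz
  have : Submodule.span R ((fun i => Finsupp.single i (1 : R)) '' S) ≤ T.comap L := by
    rw [Submodule.span_le]
    rintro _ ⟨σ, hσ, rfl⟩
    exact h σ hσ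
  exact this hz

theorem sing_range_comp {A B : Type} [TopologicalSpace A] [TopologicalSpace B] (σ : C(B, X))
    (g : C(A, B)) : range (σ.comp g) ⊆ range σ := by
  rintro _ ⟨x, rfl⟩
  exact ⟨g x, rfl⟩

theorem sing_single_On {U : Set X} {σ : C(Sx n, X)} (h : range σ ⊆ U) (a : R) :
    Finsupp.single σ a ∈ On R U n := Finsupp.single_mem_supported R a h

theorem sing_single_Sm {𝒰 : Set (Set X)} {σ : C(Sx n, X)} (h : ∃ U ∈ 𝒰, range σ ⊆ U) (a : R) :
    Finsupp.single σ a ∈ Sm R 𝒰 n := Finsupp.single_mem_supported R a h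

theorem bd0_mem_On {U : Set X} {z : Sch R X (n + 1)} (h : z ∈ On R U (n + 1)) :
    bd0 R X n z ∈ On R U n := by
  refine sing_map_supported (bd0 R X n) (fun σ hσ => ?_) h
  rw [bd0_single]
  exact Submodule.sum_mem _ fun i _ =>
    zsmul_mem (sing_single_On ((sing_range_comp _ _).trans hσ) _) _

theorem bd0_mem_Sm {𝒰 : Set (Set X)} {z : Sch R X (n + 1)} (h : z ∈ Sm R 𝒰 (n + 1)) :
    bd0 R X n z ∈ Sm R 𝒰 n := by
  refine sing_map_supported (bd0 R X n) (fun σ hσ => ?_) h
  obtain ⟨U, hU, hσ⟩ := hσ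
  rw [bd0_single]
  exact Submodule.sum_mem _ fun i _ =>
    zsmul_mem (sing_single_Sm ⟨U, hU, (sing_range_comp _ _).trans hσ⟩ _) _

theorem push_mem_On (f : C(X, Y)) {U : Set X} {V : Set Y} (h : MapsTo f U V) {z : Sch R X n}
    (hz : z ∈ On R U n) : push R f n z ∈ On R V n := by
  refine sing_map_supported (push R f n) (fun σ hσ => ?_) hz
  rw [push_single]
  refine sing_single_On ?_ _
  rintro _ ⟨x, rfl⟩
  exact h (hσ ⟨x, rfl⟩)

theorem push_mem_On_iff {f : C(X, Y)} (hf : Function.Injective f) {V : Set Y} {z : Sch R X n} :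
    push R f n z ∈ On R V n ↔ z ∈ On R (f ⁻¹' V) n := by
  refine ⟨fun h => mem_On.2 fun σ hσ => ?_, push_mem_On f (mapsTo_preimage f V)⟩
  have h1 : f.comp σ ∈ (push R f n z).support := by
    rw [Finsupp.mem_support_iff] at hσ ⊢
    have := Finsupp.mapDomain_apply (sing_comp_inj (n := n) hf) z σ
    exact fun h0 => hσ (this.symm.trans h0)
  rintro _ ⟨x, rfl⟩
  exact mem_On.1 h _ h1 ⟨x, rfl⟩

theorem exists_push {f : C(X, Y)} (hf : IsEmbedding f) {z : Sch R Y n}
    (hz : z ∈ On R (range f) n) : ∃ z' : Sch R X n, push R f n z' = z := by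
  refine sing_map_supported (T := LinearMap.range (push R f n)) LinearMap.id (fun σ hσ => ?_) hz
  choose g hg using fun x => hσ (mem_range_self x)
  have hc : Continuous g := hf.continuous_iff.2 (σ.continuous.congr fun x => (hg x).symm)
  refine ⟨Finsupp.single ⟨g, hc⟩ 1, ?_⟩
  rw [push_single]
  congr 1
  exact ContinuousMap.ext hg

theorem mem_On_iff_incl {U : Set X} {z : Sch R X n} :
    z ∈ On R U n ↔ ∃ z' : Sch R U n, push R (incl U) n z' = z := by
  constructor
  · intro h
    refine exists_push (f := incl U) IsEmbedding.subtypeVal ?_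
    have : range (incl U) = U := Subtype.range_coe
    rwa [this]
  · rintro ⟨z', rfl⟩
    refine push_mem_On (U := univ) (incl U) (fun x _ => x.2) ?_
    rw [On_univ]
    trivial

theorem exists_compact {U : Set X} {z : Sch R X n} (hz : z ∈ On R U n) :
    ∃ K ⊆ U, IsCompact K ∧ z ∈ On R K n := by
  refine ⟨⋃ σ ∈ z.support, range σ, iUnion₂_subset fun σ hσ => mem_On.1 hz σ hσ,
    z.support.isCompact_biUnion fun σ _ => isCompact_range σ.continuous,
    mem_On.2 fun σ hσ => ?_⟩
  exact subset_iUnion₂ (s := fun (σ : C(Sx n, X)) (_ : σ ∈ z.support) => range σ) σ hσ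

theorem mem_Sm_zero {𝒰 : Set (Set X)} {z : Sch R X 0} (hz : z ∈ On R (⋃₀ 𝒰) 0) :
    z ∈ Sm R 𝒰 0 := by
  refine mem_Sm.2 fun σ hσ => ?_
  obtain ⟨U, hU, hx⟩ := mem_On.1 hz σ hσ (mem_range_self default)
  refine ⟨U, hU, ?_⟩
  rintro _ ⟨x, rfl⟩
  rwa [Subsingleton.elim x default]

theorem add_self_two (z : Sch F2 X n) : z + z = 0 := by
  ext σ
  exact CharTwo.add_self_eq_zero _

theorem sub_eq_add_two (z z' : Sch F2 X n) : z - z' = z + z' := by
  ext σ
  exact CharTwo.sub_eq_add _ _

theorem Rel.mono {D D' : Set X} {z : Sch F2 X (n + 1)} (h : Rel D z) (hD : D' ⊆ D) :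
    Rel D' z := by
  exact On_mono (compl_subset_compl.2 hD) h

theorem Nul.mono {D D' : Set X} {z : Sch F2 X n} (h : Nul D z) (hD : D' ⊆ D) : Nul D' z := by
  obtain ⟨y, hy⟩ := h
  exact ⟨y, On_mono (compl_subset_compl.2 hD) hy⟩

theorem Rel.add {D : Set X} {z z' : Sch F2 X (n + 1)} (h : Rel D z) (h' : Rel D z') :
    Rel D (z + z') := by
  rw [Rel, map_add]
  exact add_mem h h'

theorem Nul.add {D : Set X} {z z' : Sch F2 X n} (h : Nul D z) (h' : Nul D z') :
    Nul D (z + z') := by
  obtain ⟨y, hy⟩ := h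
  obtain ⟨y', hy'⟩ := h'
  refine ⟨y + y', ?_⟩
  rw [map_add, add_sub_add_comm]
  exact add_mem hy hy'

theorem Nul.rel {D : Set X} {z : Sch F2 X (n + 1)} (h : Nul D z) : Rel D z := by
  obtain ⟨y, hy⟩ := h
  have := bd0_mem_On hy
  rwa [map_sub, bd0_bd0, sub_zero] at this

theorem nul_of_On {D : Set X} {z : Sch F2 X n} (h : z ∈ On F2 Dᶜ n) : Nul D z := by
  exact ⟨0, by simpa using h⟩

theorem nul_bd0 (D : Set X) (y : Sch F2 X (n + 1)) : Nul D (bd0 F2 X n y) := by
  exact ⟨y, by simp⟩

/-- In `Loc D`, being null at one point of `D` is the same as being null on `D`. -/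
theorem Loc.nul_iff {D : Set X} (h : Loc D) {z : Sch F2 X 4} (hz : Rel D z) {x : X} (hx : x ∈ D) :
    Nul {x} z ↔ Nul D z := by
  refine ⟨fun h1 => ?_, fun h1 => h1.mono (singleton_subset_iff.2 hx)⟩
  obtain ⟨μ, -, h2, h3⟩ := h.top
  refine (h3 z hz).resolve_right fun h4 => h2 x hx ?_
  have := h1.add (h4.mono (singleton_subset_iff.2 hx))
  rwa [← add_assoc, add_self_two, zero_add] at this

/-- The local homology group at a point has two elements. -/
theorem Loc.nul_add {D : Set X} (h : Loc D) {z z' : Sch F2 X 4} (hz : Rel D z) (hz' : Rel D z')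
    {x : X} (hx : x ∈ D) : Nul {x} (z + z') ↔ (Nul {x} z ↔ Nul {x} z') := by
  obtain ⟨μ, -, h2, h3⟩ := h.top
  have hs := singleton_subset_iff.2 hx
  have k1 : ∀ a b : Sch F2 X 4, Nul {x} a → Nul {x} (a + b) → Nul {x} b := fun a b ha hab => by
    have := ha.add hab
    rwa [← add_assoc, add_self_two, zero_add] at this
  constructor
  · intro h1
    exact ⟨fun ha => k1 _ _ ha h1, fun hb => k1 _ _ hb (by rwa [add_comm])⟩
  · intro h1
    by_cases ha : Nul {x} z
    · exact ha.add (h1.1 ha)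
    · have hb : ¬ Nul {x} z' := fun hb => ha (h1.2 hb)
      have a1 := ((h3 z hz).resolve_left fun h => ha (h.mono hs)).mono hs
      have a2 := ((h3 z' hz').resolve_left fun h => hb (h.mono hs)).mono hs
      have := a1.add a2
      rwa [add_add_add_comm, add_self_two, add_zero] at this

theorem sing_rel_push (e : X ≃ₜ Y) {D : Set X} {z : Sch F2 X (n + 1)} :
    Rel (e '' D) (push F2 (e : C(X, Y)) (n + 1) z) ↔ Rel D z := by
  rw [Rel, Rel, bd0_push, push_mem_On_iff (f := (e : C(X, Y))) e.injective]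
  have : (e : C(X, Y)) ⁻¹' (e '' D)ᶜ = Dᶜ := by
    rw [preimage_compl]
    exact congrArg _ (e.injective.preimage_image D)
  rw [this]

theorem sing_push_symm (e : X ≃ₜ Y) (z : Sch R Y n) :
    push R (e : C(X, Y)) n (push R (e.symm : C(Y, X)) n z) = z := by
  rw [push_push]
  have : (e : C(X, Y)).comp (e.symm : C(Y, X)) = ContinuousMap.id Y := by
    ext x
    simp
  rw [this, push_id]

theorem sing_nul_push (e : X ≃ₜ Y) {D : Set X} {z : Sch F2 X n} :
    Nul (e '' D) (push F2 (e : C(X, Y)) n z) ↔ Nul D z := by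
  have : (e : C(X, Y)) ⁻¹' (e '' D)ᶜ = Dᶜ := by
    rw [preimage_compl]
    exact congrArg _ (e.injective.preimage_image D)
  constructor
  · rintro ⟨y, hy⟩
    refine ⟨push F2 (e.symm : C(Y, X)) _ y, ?_⟩
    rw [← this, ← push_mem_On_iff (f := (e : C(X, Y))) e.injective, map_sub, ← bd0_push,
      sing_push_symm]
    exact hy
  · rintro ⟨y, hy⟩
    refine ⟨push F2 (e : C(X, Y)) _ y, ?_⟩
    rw [bd0_push, ← map_sub, push_mem_On_iff (f := (e : C(X, Y))) e.injective, this]
    exact hy

theorem Loc.homeo {D : Set X} (h : Loc D) (e : X ≃ₜ Y) : Loc (e '' D) := by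
  refine ⟨fun q hq z hz => ?_, ?_⟩
  · rw [← sing_push_symm e z] at hz ⊢
    exact (sing_nul_push e).2 (h.van q hq _ ((sing_rel_push e).1 hz))
  · obtain ⟨μ, h1, h2, h3⟩ := h.top
    refine ⟨push F2 (e : C(X, Y)) 4 μ, (sing_rel_push e).2 h1, ?_, fun z hz => ?_⟩
    · rintro _ ⟨x, hx, rfl⟩ h4
      rw [← image_singleton] at h4
      exact h2 x hx ((sing_nul_push e).1 h4)
    · rw [← sing_push_symm e z] at hz ⊢
      rw [← map_add, sing_nul_push, sing_nul_push]
      exact h3 _ ((sing_rel_push e).1 hz)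

end Vale.Agent.P239
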