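import Vale.Agent.P239.Htpy
import Vale.Agent.P239.Small

/-! Homology of punctured Euclidean space. -/

namespace Vale.Agent.P239

open Filter Topology Set

section mv

variable {R : Type} [Ring R] {X : Type} [TopologicalSpace X] {k : ℕ} {U V : Set X}

/-- Reduced cycles. -/
noncomputable def sphZ (R : Type) [Ring R] (X : Type) [TopologicalSpace X] :
    ∀ k, Submodule R (Sch R X k)
  | 0 => LinearMap.ker (aug R X)
  | k + 1 => LinearMap.ker (bd0 R X k)

/-- Boundaries inside `U`. -/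
noncomputable def sphB (R : Type) [Ring R] (U : Set X) (k : ℕ) : Submodule R (Sch R X k) :=
  (On R U (k + 1)).map (bd0 R X k)

theorem bd0_mem_sphZ (y : Sch R X (k + 1)) : bd0 R X k y ∈ sphZ R X k := by
  cases k with
  | zero => exact aug_bd0 y
  | succ k => exact bd0_bd0 y

theorem sphB_mono (h : U ⊆ V) : sphB R U k ≤ sphB R V k := Submodule.map_mono (On_mono h)

theorem sph_acyc [ContractibleSpace U] {z : Sch R X k} (h : z ∈ On R U k) (hz : z ∈ sphZ R X k) :
    z ∈ sphB R U k := by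
  cases k with
  | zero => exact acyclic_On_zero h hz
  | succ k => exact acyclic_On h hz

theorem sph_small (hU : IsOpen U) (hV : IsOpen V) {z : Sch R X (k + 1)}
    (hz : z ∈ On R (U ∪ V) (k + 1)) (hb : bd0 R X k z ∈ On R U k ⊔ On R V k) :
    ∃ a ∈ On R U (k + 1), ∃ b ∈ On R V (k + 1), z - (a + b) ∈ sphB R (U ∪ V) (k + 1) := by
  obtain ⟨y, h1, h2⟩ := smallR (𝒰 := {U, V}) (by rintro W (rfl | rfl) <;> assumption)
    (by rwa [sUnion_pair]) (by rwa [Sm_pair])
  rw [sUnion_pair] at h1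
  rw [Sm_pair] at h2
  obtain ⟨a, ha, b, hb, h⟩ := Submodule.mem_sup.1 h2
  exact ⟨a, ha, b, hb, y, h1, by rw [h, sub_sub_cancel]⟩

theorem sph_split_zero {z : Sch R X 0} (hz : z ∈ On R (U ∪ V) 0) :
    ∃ a ∈ On R U 0, ∃ b ∈ On R V 0, a + b = z := by
  have := mem_Sm_zero (𝒰 := {U, V}) (z := z) (by rwa [sUnion_pair])
  rw [Sm_pair] at this
  exact Submodule.mem_sup.1 this

theorem sph_bd_sub {z w : Sch R X (k + 1)} (h : z - w ∈ sphB R U (k + 1)) :
    bd0 R X k z = bd0 R X k w := by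
  obtain ⟨y, -, h⟩ := h
  rw [← sub_eq_zero, ← map_sub, ← h, bd0_bd0]

theorem sph_inter {a b : Sch R X k} (ha : a ∈ On R U k) (hb : b ∈ On R V k) (h : a + b = 0) :
    a ∈ On R (U ∩ V) k := by
  rw [On_inter]
  exact ⟨ha, eq_neg_of_add_eq_zero_left h ▸ neg_mem hb⟩

theorem sph_fill [ContractibleSpace U] [ContractibleSpace V] {a b : Sch R X (k + 1)}
    (ha : a ∈ On R U (k + 1)) (hb : b ∈ On R V (k + 1)) (h : bd0 R X k (a + b) = 0)
    (hc : bd0 R X k a ∈ sphB R (U ∩ V) k) : a + b ∈ sphB R (U ∪ V) (k + 1) := by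
  obtain ⟨c, h1, h2⟩ := hc
  have h3 : a - c ∈ sphB R U (k + 1) := sph_acyc (sub_mem ha (On_mono inter_subset_left h1)) (by
    change bd0 R X k _ = 0
    rw [map_sub, h2, sub_self])
  have h4 : b + c ∈ sphB R V (k + 1) := sph_acyc (add_mem hb (On_mono inter_subset_right h1)) (by
    change bd0 R X k _ = 0
    rw [map_add, h2, ← map_add, add_comm b a, h])
  have := add_mem (sphB_mono subset_union_left h3) (sphB_mono subset_union_right h4)
  rwa [sub_add_add_cancel] at this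

theorem sph_two (hU : IsOpen U) (hV : IsOpen V) {a b : Sch R X k}
    (ha : a ∈ On R U k) (hb : b ∈ On R V k) (h : a + b ∈ sphB R (U ∪ V) k) :
    ∃ y, a - bd0 R X k y ∈ On R (U ∩ V) k := by
  obtain ⟨y, h1, h2⟩ := h
  obtain ⟨y1, h3, y2, h4, h5⟩ := sph_small hU hV h1 (h2 ▸ Submodule.add_mem_sup ha hb)
  have h6 := sph_bd_sub h5
  refine ⟨y1, sph_inter (sub_mem ha (bd0_mem_On h3)) (sub_mem hb (bd0_mem_On h4)) ?_⟩
  rw [← add_sub_add_comm, ← map_add, ← h6, h2, sub_self]

/-- The reduced homology of `U` is that of the `d`-sphere. -/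
structure Sph (U : Set X) (d : ℕ) : Prop where
  van : ∀ (R : Type) [Ring R] (k : ℕ), k ≠ d → ∀ z ∈ On R U k, z ∈ sphZ R X k → z ∈ sphB R U k
  top : ∃ m ∈ On ℤ U d, m ∈ sphZ ℤ X d ∧
    (∀ (R : Type) [Ring R], ∀ z ∈ On R U d, z ∈ sphZ R X d →
      ∃ a : R, z - tens a m ∈ sphB R U d) ∧
    ∀ (R : Type) [Ring R] (a : R), tens a m ∈ sphB R U d → a = 0

theorem sph_pt {p : X} (hp : p ∈ U) (a : R) :
    Finsupp.single (ContinuousMap.const (Sx 0) p) a ∈ On R U 0 :=
  sing_single_On (by rintro _ ⟨x, rfl⟩; exact hp) a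

theorem sph_zero_aux [ContractibleSpace U] [ContractibleSpace V] {p q : X} (hp : p ∈ U)
    (hq : q ∈ V) {z : Sch R X 0} (hz : z ∈ On R (U ∪ V) 0) (h : z ∈ sphZ R X 0) :
    ∃ c : R, z - (Finsupp.single (ContinuousMap.const (Sx 0) p) c -
      Finsupp.single (ContinuousMap.const (Sx 0) q) c) ∈ sphB R (U ∪ V) 0 := by
  obtain ⟨a, ha, b, hb, rfl⟩ := sph_split_zero hz
  have h' : aug R X (a + b) = 0 := h
  have h3 := sph_acyc (sub_mem ha (sph_pt hp (aug R X a))) (by
    change aug R X _ = 0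
    rw [map_sub, aug_single, sub_self])
  have h4 := sph_acyc (add_mem hb (sph_pt hq (aug R X a))) (by
    change aug R X _ = 0
    rw [map_add, aug_single, add_comm, ← map_add, h'])
  refine ⟨aug R X a, ?_⟩
  have := add_mem (sphB_mono subset_union_left h3) (sphB_mono subset_union_right h4)
  rwa [sub_add_eq_add_sub, ← add_assoc, ← sub_sub_eq_add_sub] at this

theorem sph_base (hU : IsOpen U) (hV : IsOpen V) [ContractibleSpace U] [ContractibleSpace V]
    (h : U ∩ V = ∅) : Sph (U ∪ V) 0 := by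
  obtain ⟨⟨p, hp⟩⟩ : Nonempty U := inferInstance
  obtain ⟨⟨q, hq⟩⟩ : Nonempty V := inferInstance
  refine ⟨fun R _ k hk z hz hc => ?_, Finsupp.single (ContinuousMap.const (Sx 0) p) 1 -
    Finsupp.single (ContinuousMap.const (Sx 0) q) 1,
    sub_mem (sph_pt (mem_union_left V hp) _) (sph_pt (mem_union_right U hq) _), ?_, fun R _ z hz hc => ?_,
    fun R _ a ha => ?_⟩
  · obtain ⟨k, rfl⟩ := Nat.exists_eq_succ_of_ne_zero hk
    have hc' : bd0 R X k z = 0 := hc
    obtain ⟨a, ha, b, hb, h1⟩ := sph_small hU hV hz (hc' ▸ zero_mem _)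
    have h2 := (sph_bd_sub h1).symm.trans hc'
    have h3 := sph_inter (bd0_mem_On ha) (bd0_mem_On hb) (by rwa [← map_add])
    rw [h, On_empty, Submodule.mem_bot] at h3
    have := add_mem h1 (sph_fill ha hb h2 (h3 ▸ zero_mem _))
    rwa [sub_add_cancel] at this
  · change aug ℤ X _ = 0
    rw [map_sub, aug_single, aug_single, sub_self]
  · simpa only [map_sub, tens_single, one_smul] using sph_zero_aux hp hq hz hc
  · rw [map_sub, tens_single, tens_single, one_smul, sub_eq_add_neg] at ha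
    obtain ⟨y, hy⟩ := sph_two hU hV (sph_pt hp a) (neg_mem (sph_pt hq a)) ha
    rw [h, On_empty, Submodule.mem_bot] at hy
    have := congrArg (aug R X) hy
    rwa [map_sub, aug_single, aug_bd0, sub_zero, map_zero] at this

theorem sph_step (hU : IsOpen U) (hV : IsOpen V) [ContractibleSpace U] [ContractibleSpace V]
    (hne : (U ∩ V).Nonempty) {d : ℕ} (h : Sph (U ∩ V) d) : Sph (U ∪ V) (d + 1) := by
  have split : ∀ (R : Type) [Ring R] (k : ℕ), ∀ z ∈ On R (U ∪ V) (k + 1), z ∈ sphZ R X (k + 1) →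
      ∃ a ∈ On R U (k + 1), ∃ b ∈ On R V (k + 1), z - (a + b) ∈ sphB R (U ∪ V) (k + 1) ∧
        bd0 R X k (a + b) = 0 ∧ bd0 R X k a ∈ On R (U ∩ V) k := fun R _ k z hz hc => by
    have hc' : bd0 R X k z = 0 := hc
    obtain ⟨a, ha, b, hb, h1⟩ := sph_small hU hV hz (hc' ▸ zero_mem _)
    have h2 := (sph_bd_sub h1).symm.trans hc'
    exact ⟨a, ha, b, hb, h1, h2, sph_inter (bd0_mem_On ha) (bd0_mem_On hb) (by rwa [← map_add])⟩
  obtain ⟨m, m1, m2, m3, m4⟩ := h.top
  obtain ⟨A, A1, A2⟩ := sph_acyc (On_mono inter_subset_left m1) m2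
  obtain ⟨B, B1, B2⟩ := sph_acyc (neg_mem (On_mono inter_subset_right m1)) (neg_mem m2)
  have hAB : bd0 ℤ X d (A + B) = 0 := by rw [map_add, A2, B2, add_neg_cancel]
  refine ⟨fun R _ k hk z hz hc => ?_, A + B,
    add_mem (On_mono subset_union_left A1) (On_mono subset_union_right B1), hAB,
    fun R _ z hz hc => ?_, fun R _ a ha => ?_⟩
  · cases k with
    | zero =>
      obtain ⟨p, hp⟩ := hne
      obtain ⟨c, hc⟩ := sph_zero_aux hp.1 hp.2 hz hc
      rwa [sub_self, sub_zero] at hc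
    | succ k =>
      obtain ⟨a, ha, b, hb, h1, h2, h3⟩ := split R k z hz hc
      have := add_mem h1 (sph_fill ha hb h2
        (h.van R k (fun e => hk (by rw [e])) _ h3 (bd0_mem_sphZ a)))
      rwa [sub_add_cancel] at this
  · obtain ⟨a, ha, b, hb, h1, h2, h3⟩ := split R d z hz hc
    obtain ⟨c, hc⟩ := m3 R _ h3 (bd0_mem_sphZ a)
    refine ⟨c, ?_⟩
    have h4 := sph_fill (sub_mem ha (tens_mem_On c A1)) (sub_mem hb (tens_mem_On c B1))
      (by rw [← add_sub_add_comm, ← map_add, map_sub, h2, bd0_tens, hAB, map_zero, sub_zero])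
      (by rwa [map_sub, bd0_tens, A2])
    have := add_mem h1 h4
    rwa [← add_sub_add_comm, ← map_add, sub_add_sub_cancel] at this
  · rw [map_add] at ha
    obtain ⟨y, hy⟩ := sph_two hU hV (tens_mem_On a A1) (tens_mem_On a B1) ha
    exact m4 R a ⟨_, hy, by rw [map_sub, bd0_bd0, sub_zero, bd0_tens, A2]⟩

theorem sph_nul [ContractibleSpace X] {D : Set X} {z : Sch R X (k + 1)} :
    NulG D z ↔ bd0 R X k z ∈ sphB R Dᶜ k := by
  constructor
  · rintro ⟨y, hy⟩
    exact ⟨_, hy, by rw [map_sub, bd0_bd0, sub_zero]⟩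
  · rintro ⟨c, h1, h2⟩
    obtain ⟨y, hy⟩ := acyclic (z - c) (by rw [map_sub, h2, sub_self])
    exact ⟨y, by rwa [hy, sub_sub_cancel]⟩

theorem sph_loc [ContractibleSpace X] {x : X} (h : Sph ({x}ᶜ : Set X) 3) : LocG ({x} : Set X) := by
  refine ⟨fun R _ q hq z hz => sph_nul.2 (h.van R q hq _ hz (bd0_mem_sphZ z)), ?_⟩
  obtain ⟨m, m1, m2, m3, m4⟩ := h.top
  obtain ⟨μ, hμ⟩ := acyclic m m2
  refine ⟨μ, by rwa [RelG, hμ], fun R _ z hz => ?_, ?_⟩
  · obtain ⟨a, ha⟩ := m3 R _ hz (bd0_mem_sphZ z)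
    exact ⟨a, sph_nul.2 (by rwa [map_sub, bd0_tens, hμ])⟩
  · rintro R _ _ rfl a ha
    have := sph_nul.1 ha
    rw [bd0_tens, hμ] at this
    exact m4 R a this

end mv

def sphW (k : ℕ) : Set E4 := {x | ∃ i : Fin 4, (i : ℕ) < k ∧ x i ≠ 0}

def sphH (j : Fin 4) (s : ℝ) : Set E4 := sphW j ∪ {x | 0 < s * x j}

theorem sphW_open (k : ℕ) : IsOpen (sphW k) := by
  have : sphW k = ⋃ i : Fin 4, ⋃ _ : (i : ℕ) < k, {x : E4 | x i ≠ 0} := by
    ext x
    simp [sphW]
  rw [this]
  exact isOpen_iUnion fun i => isOpen_iUnion fun _ => isOpen_ne_fun (by fun_prop) continuous_const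

theorem sphH_open (j : Fin 4) (s : ℝ) : IsOpen (sphH j s) :=
  (sphW_open j).union (isOpen_lt continuous_const (by fun_prop))

theorem sphH_contr (j : Fin 4) {s : ℝ} (hs : s ≠ 0) : ContractibleSpace (sphH j s) := by
  have hss : 0 < s * s := mul_self_pos.2 hs
  refine StarConvex.contractibleSpace (x := EuclideanSpace.single j s) ?_
    ⟨EuclideanSpace.single j s, Or.inr (by simpa using hs)⟩
  intro y hy a b ha hb hab
  rcases hb.eq_or_lt with rfl | hb'
  · right
    have : a = 1 := by linarith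
    simpa [this] using hs
  · rcases hy with ⟨i, hi, hy⟩ | hy
    · refine Or.inl ⟨i, hi, ?_⟩
      have : i ≠ j := fun e => by simp [e] at hi
      simp [this, hy, hb'.ne']
    · right
      have hy' : 0 < s * y j := hy
      simp only [mem_setOf_eq, PiLp.add_apply, PiLp.smul_apply, smul_eq_mul,
        EuclideanSpace.single_apply, if_true]
      nlinarith [mul_nonneg ha hss.le, mul_pos hb' hy']

theorem sphH_inter (j : Fin 4) : sphH j 1 ∩ sphH j (-1) = sphW j := by
  refine Subset.antisymm ?_ (subset_inter subset_union_left subset_union_left)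
  rintro x ⟨h | h, h' | h'⟩
  · exact h
  · exact h
  · exact h'
  · simp only [mem_setOf_eq] at h h'
    linarith

theorem sphH_union (j : Fin 4) : sphH j 1 ∪ sphH j (-1) = sphW (j + 1) := by
  ext x
  constructor
  · rintro ((⟨i, hi, h⟩ | h) | (⟨i, hi, h⟩ | h))
    · exact ⟨i, by omega, h⟩
    · exact ⟨j, by omega, fun e => by simp [e] at h⟩
    · exact ⟨i, by omega, h⟩
    · exact ⟨j, by omega, fun e => by simp [e] at h⟩
  · rintro ⟨i, hi, h⟩
    rcases Nat.lt_succ_iff_lt_or_eq.1 hi with hi | hi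
    · exact Or.inl (Or.inl ⟨i, hi, h⟩)
    · obtain rfl := Fin.ext hi
      rcases lt_or_gt_of_ne h with h | h
      · exact Or.inr (Or.inr (by simpa using h))
      · exact Or.inl (Or.inr (by simpa using h))

theorem sphW_sph : ∀ d, d < 4 → Sph (sphW (d + 1)) d := by
  intro d
  induction d with
  | zero =>
    intro _
    haveI := sphH_contr 0 one_ne_zero
    haveI := sphH_contr 0 (neg_ne_zero.2 one_ne_zero)
    have := sph_base (sphH_open 0 1) (sphH_open 0 (-1)) (by
      rw [sphH_inter]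
      ext x
      simp [sphW])
    rwa [sphH_union] at this
  | succ d ih =>
    intro hd
    haveI := sphH_contr ⟨d + 1, hd⟩ one_ne_zero
    haveI := sphH_contr ⟨d + 1, hd⟩ (neg_ne_zero.2 one_ne_zero)
    have := sph_step (sphH_open ⟨d + 1, hd⟩ 1) (sphH_open ⟨d + 1, hd⟩ (-1)) (d := d) (by
      rw [sphH_inter]
      exact ⟨EuclideanSpace.single 0 1, 0, by simp, by simp⟩) (by
      rw [sphH_inter]
      exact ih (by omega))
    rwa [sphH_union] at this

theorem locG_zero : LocG ({0} : Set E4) := by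
  refine sph_loc ?_
  have : ({0}ᶜ : Set E4) = sphW 4 := by
    ext x
    simp only [mem_compl_iff, mem_singleton_iff, sphW, mem_setOf_eq, Fin.is_lt, true_and]
    rw [← not_forall]
    exact not_congr ⟨fun h i => by simp [h], fun h => PiLp.ext h⟩
  rw [this]
  exact sphW_sph 3 (by norm_num)

end Vale.Agent.P239
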