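import Mathlib

/-! Statement-level definitions for P239: group von Neumann algebra, extended dimension,
singular chains with coefficients in the von Neumann algebra, L2-Betti numbers. -/

namespace Vale.Agent.P239

open scoped ENNReal

noncomputable section

/-- The Hilbert space of square summable complex functions on `Γ`. -/
abbrev L2 (Γ : Type) : Type := lp (fun _ : Γ => ℂ) 2

/-- Precomposition with a permutation of `Γ`, as a bounded operator on `L2 Γ`. -/
def permOp {Γ : Type} (e : Γ ≃ Γ) : L2 Γ →L[ℂ] L2 Γ :=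
  LinearMap.mkContinuous
    { toFun := fun f => ⟨fun x => f (e x), memℓp_gen
        ((e.summable_iff (f := fun x => ‖f x‖ ^ (2 : ℝ≥0∞).toReal)).2
          (lp.hasSum_norm (by norm_num) f).summable)⟩
      map_add' := fun _ _ => rfl
      map_smul' := fun _ _ => rfl }
    1 fun f => lp.norm_le_of_tsum_le (by norm_num) (by positivity) (by
      rw [one_mul, ← (lp.hasSum_norm (by norm_num) f).tsum_eq]
      exact (e.tsum_eq fun x => ‖f x‖ ^ (2 : ℝ≥0∞).toReal).le)

variable (Γ : Type) [Group Γ]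

/-- The group von Neumann algebra: bounded operators on `L2 Γ` commuting with all right
translations `f ↦ (x ↦ f (x * g))`. -/
def NG : Subalgebra ℂ (L2 Γ →L[ℂ] L2 Γ) :=
  Subalgebra.centralizer ℂ (Set.range fun g : Γ => permOp (Equiv.mulRight g))

variable {Γ}

/-- The left translation `f ↦ (x ↦ f (g⁻¹ * x))` as an element of the von Neumann algebra. -/
def lam (g : Γ) : NG Γ :=
  ⟨permOp (Equiv.mulLeft g⁻¹), by
    rintro _ ⟨h, rfl⟩
    refine ContinuousLinearMap.ext fun f => lp.ext (funext fun x => ?_)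
    exact congrArg f (mul_assoc g⁻¹ x h).symm⟩

open Classical in
/-- The von Neumann trace `T ↦ ⟨δ₁, T δ₁⟩` (real part). -/
def vnTr (T : NG Γ) : ℝ :=
  (inner ℂ (lp.single 2 (1 : Γ) (1 : ℂ) : L2 Γ) (T.1 (lp.single 2 (1 : Γ) (1 : ℂ)))).re

/-- The extended dimension of a left module `M` over a ring `N` with trace `tr`: the supremum of
the traces of idempotent matrices `A` whose finitely generated projective module (the row space
of `A`) embeds in `M`. -/
def extDim {N : Type} [Ring N] (tr : N → ℝ) (M : Type) [AddCommGroup M] [Module N M] : ℝ≥0∞ :=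
  ⨆ (n : ℕ) (A : Matrix (Fin n) (Fin n) N) (_ : A * A = A)
    (_ : ∃ f : LinearMap.range (Matrix.vecMulLinear A) →ₗ[N] M, Function.Injective f),
    ENNReal.ofReal (∑ i, tr (A i i))

/-- The standard `n`-simplex. -/
abbrev Sx (n : ℕ) : Type := stdSimplex ℝ (Fin (n + 1))

/-- The `i`-th face inclusion. -/
def face {n : ℕ} (i : Fin (n + 2)) : C(Sx n, Sx (n + 1)) :=
  ⟨stdSimplex.map i.succAbove, stdSimplex.continuous_map _⟩

/-- The singular boundary `a σ ↦ ∑ (-1)^i a (σ ∘ face i)` on chains with coefficients in `N`. -/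
def bd0 (N : Type) [Ring N] (X : Type) [TopologicalSpace X] (n : ℕ) :
    (C(Sx (n + 1), X) →₀ N) →ₗ[N] (C(Sx n, X) →₀ N) :=
  ∑ i : Fin (n + 2), (-1 : ℤ) ^ (i : ℕ) •
    Finsupp.lmapDomain N N fun σ : C(Sx (n + 1), X) => σ.comp (face i)

section tensor

variable {N : Type} [Ring N] (ι : Γ → N)
  (X : Type) [TopologicalSpace X] [MulAction Γ X] [ContinuousConstSMul Γ X]

/-- The relations `a ⊗ (g σ) = (a g) ⊗ σ` of the tensor product over the integral group ring. -/
def rel (n : ℕ) : Submodule N (C(Sx n, X) →₀ N) :=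
  Submodule.span N {y | ∃ (g : Γ) (σ : C(Sx n, X)) (a : N),
    y = Finsupp.single (g • σ) a - Finsupp.single σ (a * ι g)}

/-- The module `N ⊗_{ℤ Γ} C_n(X)`, with `C_n(X)` the integral singular chains. -/
abbrev Chn (n : ℕ) : Type := (C(Sx n, X) →₀ N) ⧸ rel ι X n

/-- The boundary operator of `N ⊗_{ℤ Γ} C_*(X)`. -/
def bdry (n : ℕ) : Chn ι X (n + 1) →ₗ[N] Chn ι X n :=
  (rel ι X (n + 1)).mapQ (rel ι X n) (bd0 N X n) (by
    refine Submodule.span_le.2 ?_
    rintro _ ⟨g, σ, a, rfl⟩
    simp only [SetLike.mem_coe, Submodule.mem_comap, bd0, LinearMap.sum_apply,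
      LinearMap.smul_apply, Finsupp.lmapDomain_apply]
    refine Submodule.sum_mem _ fun i _ => zsmul_mem ?_ _
    rw [Finsupp.mapDomain_sub, Finsupp.mapDomain_single, Finsupp.mapDomain_single]
    exact Submodule.subset_span ⟨g, σ.comp (face i), a, rfl⟩)

/-- Cycles. -/
def cyc : (n : ℕ) → Submodule N (Chn ι X n)
  | 0 => ⊤
  | n + 1 => LinearMap.ker (bdry ι X n)

/-- Homology of `N ⊗_{ℤ Γ} C_*(X)`: cycles modulo boundaries. -/
abbrev Hml (n : ℕ) : Type :=
  cyc ι X n ⧸ (LinearMap.range (bdry ι X n)).comap (cyc ι X n).subtype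

end tensor

/-- The `n`-th L2-Betti number of the `Γ`-space `X`. -/
def l2Betti (Γ : Type) [Group Γ] (X : Type) [TopologicalSpace X] [MulAction Γ X]
    [ContinuousConstSMul Γ X] (n : ℕ) : ℝ≥0∞ :=
  extDim (vnTr (Γ := Γ)) (Hml (lam (Γ := Γ)) X n)

end

end Vale.Agent.P239
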