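import Vale.Agent.P239.Stmt
import Vale.Agent.P239.Defs

/-! Working definitions for the topological part of P239. -/

namespace Vale.Agent.P239

open Filter Topology Set

noncomputable section

abbrev F2 : Type := ZMod 2

abbrev E4 : Type := EuclideanSpace ℝ (Fin 4)

/-- Singular chains; the boundary is `bd0 R X n`. -/
abbrev Sch (R : Type) [Ring R] (X : Type) [TopologicalSpace X] (n : ℕ) : Type :=
  C(Sx n, X) →₀ R

section

variable (R : Type) [Ring R] {X Y : Type} [TopologicalSpace X] [TopologicalSpace Y]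

/-- Chains inside `U`. -/
def On (U : Set X) (n : ℕ) : Submodule R (Sch R X n) :=
  Finsupp.supported R R {σ | range σ ⊆ U}

/-- Chains all of whose simplices lie in some member of `𝒰`. -/
def Sm (𝒰 : Set (Set X)) (n : ℕ) : Submodule R (Sch R X n) :=
  Finsupp.supported R R {σ | ∃ U ∈ 𝒰, range σ ⊆ U}

def push (f : C(X, Y)) (n : ℕ) : Sch R X n →ₗ[R] Sch R Y n :=
  Finsupp.lmapDomain R R fun σ : C(Sx n, X) => f.comp σ

def aug (X : Type) [TopologicalSpace X] : Sch R X 0 →ₗ[R] R :=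
  Finsupp.linearCombination R fun _ => (1 : R)

/-- The inclusion of a subspace. -/
def incl (U : Set X) : C(U, X) := ⟨Subtype.val, continuous_subtype_val⟩

end

section

variable {X : Type} [TopologicalSpace X]

/-- Cycles relative to the complement of `D`. -/
def Rel (D : Set X) {n : ℕ} (z : Sch F2 X (n + 1)) : Prop := bd0 F2 X n z ∈ On F2 Dᶜ n

/-- Boundaries relative to the complement of `D`. -/
def Nul (D : Set X) {n : ℕ} (z : Sch F2 X n) : Prop :=
  ∃ y : Sch F2 X (n + 1), z - bd0 F2 X n y ∈ On F2 Dᶜ n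

/-- The local homology at `D` is that of a point of a four-manifold. -/
structure Loc (D : Set X) : Prop where
  van : ∀ q, q ≠ 3 → ∀ z : Sch F2 X (q + 1), Rel D z → Nul D z
  top : ∃ μ : Sch F2 X 4, Rel D μ ∧ (∀ x ∈ D, ¬ Nul {x} μ) ∧
    ∀ z : Sch F2 X 4, Rel D z → Nul D z ∨ Nul D (z + μ)

/-- Chains negligible for the tuple `σ`. -/
def NN {ι : Type} (K : ι → Set X) {p : ℕ} (σ : Fin p → ι) (q : ℕ) : Submodule F2 (Sch F2 X q) :=
  ⨆ i, On F2 (K (σ i))ᶜ q

/-- Cech coboundary. -/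
def dC {ι M : Type} [AddCommMonoid M] {p : ℕ} (e : (Fin p → ι) → M) (σ : Fin (p + 1) → ι) : M :=
  ∑ i : Fin (p + 1), e (σ ∘ i.succAbove)

end

/-- Mod 2 chains on ordered tuples. -/
abbrev TC (V : Type) (n : ℕ) : Type := (Fin n → V) →₀ F2

def tb (V : Type) (n : ℕ) : TC V (n + 1) →ₗ[F2] TC V n :=
  ∑ i : Fin (n + 1), Finsupp.lmapDomain F2 F2 fun t : Fin (n + 1) → V => t ∘ i.succAbove

/-- Geometric data on the universal cover. -/
structure Geo (Γ X : Type) [Group Γ] [MetricSpace X] [MulAction Γ X] : Prop where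
  isom : ∀ (g : Γ) (x y : X), dist (g • x) (g • y) = dist x y
  cpt : ∀ x : X, IsCompact (Metric.closedBall x 1)
  coc : ∃ K : Set X, IsCompact K ∧ ∀ x : X, ∃ g : Γ, g • x ∈ K
  prop : ∀ K : Set X, IsCompact K → {g : Γ | ∃ x ∈ K, g • x ∈ K}.Finite
  free : ∀ (g : Γ) (x : X), g • x = x → g = 1
  chart : ∀ x : X, ∃ e : OpenPartialHomeomorph X E4, x ∈ e.source
  contr : ContractibleSpace X

end

end Vale.Agent.P239
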