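import Vale.Agent.P239.Htpy
import Vale.Agent.P239.Small
import Vale.Agent.P239.Word

/-! Equivariant chain map from tuples of group elements to the nerve of a net. -/

namespace Vale.Agent.P239

open Filter Topology Set

theorem theta_dC_dC {V M : Type} [AddCommGroup M] (h2 : ∀ a : M, a + a = 0) {n : ℕ}
    (c : (Fin n → V) → M) (t : Fin (n + 2) → V) : dC (dC c) t = 0 := by
  simp only [dC]
  rw [← Fintype.sum_prod_type']
  refine Finset.sum_ninvolution (fun p => (p.1.succAbove p.2, p.2.predAbove p.1)) (fun p => ?_)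
    (fun p _ h => Fin.succAbove_ne _ _ (congrArg Prod.fst h)) (fun _ => Finset.mem_univ _)
    fun p => Prod.ext (Fin.succAbove_succAbove_predAbove _ _)
      (Fin.predAbove_predAbove_succAbove _ _)
  have : (t ∘ (p.1.succAbove p.2).succAbove) ∘ (p.2.predAbove p.1).succAbove =
      (t ∘ p.1.succAbove) ∘ p.2.succAbove :=
    funext fun k => congrArg t (Fin.succAbove_succAbove_succAbove_predAbove _ _ k)
  rw [this]
  exact h2 _

/-- Equivariant choice over a free action. -/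
theorem theta_choice {G A B : Type} [Group G] [MulAction G A]
    (hf : ∀ (g : G) (a : A), g • a = a → g = 1) (act : G → B → B)
    (hm : ∀ g h b, act (g * h) b = act g (act h b)) (P : A → B → Prop)
    (hP : ∀ g a b, P a b → P (g • a) (act g b)) (he : ∀ a, ∃ b, P a b) :
    ∃ φ : A → B, (∀ a, P a (φ a)) ∧ ∀ (g : G) (a : A), φ (g • a) = act g (φ a) := by
  choose c hc using he
  let rep : A → A := fun a => (Quotient.mk (MulAction.orbitRel G A) a).out
  have h1 : ∀ a, ∃ g : G, g • rep a = a := fun a =>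
    MulAction.orbitRel_apply.1 (Quotient.exact (Quotient.out_eq (Quotient.mk
      (MulAction.orbitRel G A) a)).symm)
  choose v hv using h1
  have h2 : ∀ (g : G) (a : A), rep (g • a) = rep a := fun g a =>
    congrArg Quotient.out (Quotient.sound (MulAction.orbitRel_apply.2 ⟨g, rfl⟩))
  refine ⟨fun a => act (v a) (c (rep a)), fun a => ?_, fun g a => ?_⟩
  · have := hP (v a) _ _ (hc (rep a))
    rwa [hv] at this
  · have h3 := hf ((g * v a)⁻¹ * v (g • a)) (rep a) (by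
      rw [mul_smul, inv_smul_eq_iff, mul_smul, hv a, ← h2 g a, hv])
    rw [inv_mul_eq_one] at h3
    simp only [h2, ← h3, hm]

/-- The vertices of singular simplices, read through a map `ν`. -/
noncomputable def thetaV {X V : Type} [TopologicalSpace X] (ν : X → V) (n : ℕ) :
    Sch F2 X n →ₗ[F2] TC V (n + 1) :=
  Finsupp.lmapDomain F2 F2 fun σ i => ν (σ (stdSimplex.vertex i))

theorem thetaV_single {X V : Type} [TopologicalSpace X] (ν : X → V) (n : ℕ) (σ : C(Sx n, X))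
    (a : F2) : thetaV ν n (Finsupp.single σ a) =
      Finsupp.single (fun i => ν (σ (stdSimplex.vertex i))) a := by
  simp only [thetaV, Finsupp.lmapDomain_apply, Finsupp.mapDomain_single]

theorem theta_tb {V : Type} (n : ℕ) (t : Fin (n + 1) → V) (a : F2) :
    tb V n (Finsupp.single t a) = ∑ i : Fin (n + 1), Finsupp.single (t ∘ i.succAbove) a := by
  simp only [tb, LinearMap.sum_apply, Finsupp.lmapDomain_apply, Finsupp.mapDomain_single]

theorem tb_thetaV {X V : Type} [TopologicalSpace X] (ν : X → V) (n : ℕ) (z : Sch F2 X (n + 1)) :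
    tb V (n + 1) (thetaV ν (n + 1) z) = thetaV ν n (bd0 F2 X n z) := by
  induction z using Finsupp.induction_linear with
  | zero => simp only [map_zero]
  | add f g hf hg => simp only [map_add, hf, hg]
  | single σ a =>
    rw [thetaV_single, theta_tb, bd0_single_two, map_sum]
    refine Finset.sum_congr rfl fun i _ => ?_
    rw [thetaV_single]
    congr 1
    funext k
    simp only [face, Function.comp_apply, ContinuousMap.comp_apply, ContinuousMap.coe_mk,
      stdSimplex.map_vertex]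

variable {Γ X : Type} [Group Γ] [MetricSpace X] [MulAction Γ X]

theorem Geo.exists_net (h : Geo Γ X) {ε : ℝ} (hε : 0 < ε) : ∃ (m : ℕ) (f : Fin m → X),
    (∀ x, ∃ a : Γ × Fin m, dist x (a.1 • f a.2) < ε) ∧
    (∀ x, {a : Γ × Fin m | dist x (a.1 • f a.2) ≤ 1}.Finite) ∧
    {g : Γ | ∃ i j, dist (f i) (g • f j) ≤ 1}.Finite := by
  obtain ⟨K, hK, hc⟩ := h.coc
  obtain ⟨t, -, ht, hcov⟩ := finite_cover_balls_of_compact hK hε
  obtain ⟨m, f, -, rfl⟩ := ht.fin_param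
  have h2 : ∀ x, {a : Γ × Fin m | dist x (a.1 • f a.2) ≤ 1}.Finite := fun x =>
    ((h.prop _ ((h.cpt x).union (finite_range f).isCompact)).prod finite_univ).subset fun a ha =>
      ⟨⟨f a.2, Or.inr (mem_range_self _), Or.inl (Metric.mem_closedBall'.2 ha)⟩, trivial⟩
  refine ⟨m, f, fun x => ?_, h2, (finite_iUnion fun i => (h2 (f i)).image Prod.fst).subset ?_⟩
  · obtain ⟨g, hg⟩ := hc x
    obtain ⟨_, ⟨i, rfl⟩, hi⟩ := mem_iUnion₂.1 (hcov hg)
    refine ⟨(g⁻¹, i), ?_⟩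
    rwa [← h.isom g, smul_inv_smul]
  · rintro g ⟨i, j, hg⟩
    exact mem_iUnion.2 ⟨i, (g, j), hg, rfl⟩

theorem Geo.exists_gen (h : Geo Γ X) : Nonempty (Gen Γ) := by
  have := h.contr
  obtain ⟨m, f, h1, -, h3⟩ := h.exists_net (ε := 1 / 2) (by norm_num)
  obtain ⟨x0⟩ : Nonempty X := inferInstance
  obtain ⟨⟨-, i0⟩, -⟩ := h1 x0
  have hinv : ∀ s ∈ h3.toFinset, s⁻¹ ∈ h3.toFinset := by
    intro s hs
    obtain ⟨i, j, hs⟩ := h3.mem_toFinset.1 hs
    refine h3.mem_toFinset.2 ⟨j, i, ?_⟩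
    rwa [← h.isom s, smul_inv_smul, dist_comm]
  set H := Subgroup.closure (h3.toFinset : Set Γ) with hH
  have op : ∀ T : Set Γ, IsOpen (⋃ g ∈ T, ⋃ i, Metric.ball (g • f i) (1 / 2)) := fun T =>
    isOpen_biUnion fun _ _ => isOpen_iUnion fun _ => Metric.isOpen_ball
  have all : ∀ g, g ∈ H := by
    intro g
    by_contra hg
    obtain ⟨x, -, hx1, hx2⟩ := isPreconnected_univ _ _ (op H) (op (H : Set Γ)ᶜ)
      (fun x _ => by
        obtain ⟨a, ha⟩ := h1 x
        by_cases k : a.1 ∈ H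
        · exact Or.inl (mem_iUnion₂.2 ⟨a.1, k, mem_iUnion.2 ⟨a.2, ha⟩⟩)
        · exact Or.inr (mem_iUnion₂.2 ⟨a.1, k, mem_iUnion.2 ⟨a.2, ha⟩⟩))
      ⟨_, trivial, mem_iUnion₂.2 ⟨1, H.one_mem, mem_iUnion.2
        ⟨i0, Metric.mem_ball_self (by norm_num)⟩⟩⟩
      ⟨_, trivial, mem_iUnion₂.2 ⟨g, hg, mem_iUnion.2 ⟨i0, Metric.mem_ball_self (by norm_num)⟩⟩⟩
    obtain ⟨a, ha, hx1⟩ := mem_iUnion₂.1 hx1
    obtain ⟨b, hb, hx2⟩ := mem_iUnion₂.1 hx2
    obtain ⟨i, hi⟩ := mem_iUnion.1 hx1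
    obtain ⟨j, hj⟩ := mem_iUnion.1 hx2
    have : a⁻¹ * b ∈ H := Subgroup.subset_closure (h3.mem_toFinset.2 ⟨i, j, by
      rw [← h.isom a, ← mul_smul, mul_inv_cancel_left]
      linarith [dist_triangle_left (a • f i) (b • f j) x, Metric.mem_ball.1 hi,
        Metric.mem_ball.1 hj]⟩)
    exact hb (by simpa using H.mul_mem ha this)
  refine ⟨⟨h3.toFinset, h3.mem_toFinset.2 ⟨i0, i0, by simp⟩, hinv, fun g => ?_⟩⟩
  have hg : g ∈ H.toSubmonoid := all g
  rw [hH, Subgroup.closure_toSubmonoid] at hg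
  obtain ⟨l, hl, rfl⟩ := Submonoid.exists_list_of_mem_closure hg
  exact ⟨l, fun s hs => (hl s hs).elim id fun k => by simpa using hinv _ k, rfl⟩

/-- The action as continuous maps. -/
def Geo.thetaM (h : Geo Γ X) (g : Γ) : C(X, X) :=
  ⟨fun x => g • x, (Isometry.of_dist_eq (h.isom g)).continuous⟩

theorem Geo.theta_step (h : Geo Γ X) {r : ℝ} (hr : 0 < r) {n : ℕ}
    (Ψ : (Fin (n + 1) → Γ) → Sch F2 X n) (h1 : ∀ t, Ψ t ∈ Sm F2 (range fun x => Metric.ball x r) n)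
    (h2 : ∀ (g : Γ) t, Ψ (g • t) = push F2 (h.thetaM g) n (Ψ t))
    (h3 : ∀ t, ∃ y, bd0 F2 X n y = dC Ψ t) : ∃ Φ : (Fin (n + 2) → Γ) → Sch F2 X (n + 1),
      ((∀ t, Φ t ∈ Sm F2 (range fun x => Metric.ball x r) (n + 1)) ∧
        (∀ (g : Γ) t, Φ (g • t) = push F2 (h.thetaM g) (n + 1) (Φ t)) ∧
        ∀ t, ∃ y, bd0 F2 X (n + 1) y = dC Φ t) ∧ ∀ t, bd0 F2 X n (Φ t) = dC Ψ t := by
  have := h.contr
  obtain ⟨Φ, a1, a2⟩ := theta_choice (G := Γ) (A := Fin (n + 2) → Γ)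
    (fun g t e => mul_eq_right.1 (congrFun e 0)) (fun g => push F2 (h.thetaM g) (n + 1))
    (fun g g' z => by
      rw [push_push]
      congr 2
      ext x
      exact mul_smul g g' x)
    (fun t y => y ∈ Sm F2 (range fun x => Metric.ball x r) (n + 1) ∧ bd0 F2 X n y = dC Ψ t)
    (fun g t y hy => ⟨sing_map_supported (push F2 (h.thetaM g) (n + 1)) (by
        rintro σ ⟨_, ⟨x, rfl⟩, hσ⟩
        rw [push_single]
        refine sing_single_Sm ⟨_, mem_range_self (g • x), ?_⟩ _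
        rintro _ ⟨p, rfl⟩
        exact (h.isom g _ _).trans_lt (hσ (mem_range_self p))) hy.1, by
      rw [bd0_push, hy.2, dC, dC, map_sum]
      exact Finset.sum_congr rfl fun i _ => (h2 g _).symm⟩)
    (fun t => by
      obtain ⟨y, hy⟩ := h3 t
      have hU : ⋃₀ (range fun x : X => Metric.ball x r) = univ :=
        eq_univ_of_forall fun x => ⟨_, ⟨x, rfl⟩, Metric.mem_ball_self hr⟩
      obtain ⟨y', -, hy'⟩ := small (𝒰 := range fun x : X => Metric.ball x r) (z := y)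
        (by rintro _ ⟨x, rfl⟩; exact Metric.isOpen_ball) (by rw [hU, On_univ]; trivial)
        (by rw [hy]; exact Submodule.sum_mem _ fun i _ => h1 _)
      exact ⟨_, hy', by rw [map_sub, bd0_bd0, sub_zero, hy]⟩)
  refine ⟨Φ, ⟨fun t => (a1 t).1, a2, fun t => acyclic _ ?_⟩, fun t => (a1 t).2⟩
  rw [dC, map_sum, ← theta_dC_dC add_self_two Ψ t]
  exact Finset.sum_congr rfl fun i _ => (a1 _).2

theorem Geo.theta_psi (h : Geo Γ X) {r : ℝ} (hr : 0 < r) :
    ∃ Ψ : ∀ n, (Fin (n + 1) → Γ) → Sch F2 X n,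
      (∀ n t, Ψ n t ∈ Sm F2 (range fun x => Metric.ball x r) n) ∧
      (∀ n (g : Γ) t, Ψ n (g • t) = push F2 (h.thetaM g) n (Ψ n t)) ∧
      (∀ t, ∃ σ, Ψ 0 t = Finsupp.single σ 1) ∧ ∀ n t, bd0 F2 X n (Ψ (n + 1) t) = dC (Ψ n) t := by
  have := h.contr
  obtain ⟨x0⟩ : Nonempty X := inferInstance
  let T : ℕ → Type := fun n => {Ψ : (Fin (n + 1) → Γ) → Sch F2 X n //
    (∀ t, Ψ t ∈ Sm F2 (range fun x => Metric.ball x r) n) ∧
      (∀ (g : Γ) t, Ψ (g • t) = push F2 (h.thetaM g) n (Ψ t)) ∧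
      ∀ t, ∃ y, bd0 F2 X n y = dC Ψ t}
  have st : ∀ n (a : T n), ∃ b : T (n + 1), ∀ t, bd0 F2 X n (b.1 t) = dC a.1 t := fun n a =>
    let ⟨Φ, k1, k2⟩ := h.theta_step hr a.1 a.2.1 a.2.2.1 a.2.2.2
    ⟨⟨Φ, k1⟩, k2⟩
  choose nx hnx using st
  let a0 : T 0 := ⟨fun t => Finsupp.single (ContinuousMap.const _ (t 0 • x0)) 1,
    fun t => sing_single_Sm ⟨_, mem_range_self (t 0 • x0), by
      rintro _ ⟨p, rfl⟩
      exact Metric.mem_ball_self hr⟩ _,
    fun g t => by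
      rw [push_single]
      exact congrArg (Finsupp.single · 1) (ContinuousMap.ext fun _ => mul_smul g (t 0) x0),
    fun t => acyclic_zero _ (by
      rw [dC, Fin.sum_univ_two, map_add, aug_single, aug_single]
      exact CharTwo.add_self_eq_zero _)⟩
  let a : ∀ n, T n := fun n => Nat.rec a0 nx n
  exact ⟨fun n => (a n).1, fun n => (a n).2.1, fun n => (a n).2.2.1, fun t => ⟨_, rfl⟩,
    fun n => hnx n (a n)⟩

theorem Geo.exists_theta (h : Geo Γ X) {ε : ℝ} (hε : 0 < ε) {m : ℕ} (f : Fin m → X)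
    (hf : ∀ x, ∃ a : Γ × Fin m, dist x (a.1 • f a.2) < ε / 2) :
    ∃ Θ : ∀ n, (Fin n → Γ) → TC (Γ × Fin m) n,
      (∀ n (g : Γ) (t : Fin n → Γ), Θ n (fun i => g * t i) =
        Finsupp.mapDomain (fun τ i => (g * (τ i).1, (τ i).2)) (Θ n t)) ∧
      (∀ t, Θ 0 t = Finsupp.single Fin.elim0 1) ∧
      (∀ n t, tb _ n (Θ (n + 1) t) = dC (Θ n) t) ∧
      ∀ n t, ∀ τ ∈ (Θ n t).support, ∃ x, ∀ i, dist x ((τ i).1 • f (τ i).2) ≤ ε := by
  have := h.contr
  obtain ⟨x0⟩ : Nonempty X := inferInstance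
  obtain ⟨ν, n1, n2⟩ := theta_choice h.free (fun (g : Γ) (a : Γ × Fin m) => (g * a.1, a.2))
    (fun g g' a => by simp only [mul_assoc]) (fun x a => dist x (a.1 • f a.2) < ε / 2)
    (fun g x a ha => by rwa [mul_smul, h.isom]) hf
  obtain ⟨Ψ, p1, p2, p3, p4⟩ := h.theta_psi (half_pos hε)
  refine ⟨fun n => Nat.casesOn n (fun _ => Finsupp.single Fin.elim0 1)
    fun n t => thetaV ν n (Ψ n t), ?_, fun _ => rfl, ?_, ?_⟩
  · rintro (_ | n) g t
    · exact (Finsupp.mapDomain_single.trans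
        (congrArg (Finsupp.single · 1) (Subsingleton.elim _ _))).symm
    · change thetaV ν n (Ψ n (g • t)) = Finsupp.mapDomain _ (thetaV ν n (Ψ n t))
      rw [p2]
      simp only [thetaV, push, Finsupp.lmapDomain_apply, ← Finsupp.mapDomain_comp]
      congr 1
      funext σ i
      exact n2 g _
  · rintro (_ | n) t
    · obtain ⟨σ, hσ⟩ := p3 t
      change tb _ 0 (thetaV ν 0 (Ψ 0 t)) = ∑ _i : Fin 1, Finsupp.single Fin.elim0 1
      rw [hσ, thetaV_single, theta_tb]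
      exact Finset.sum_congr rfl fun i _ => congrArg (Finsupp.single · 1) (Subsingleton.elim _ _)
    · change tb _ (n + 1) (thetaV ν (n + 1) (Ψ (n + 1) t)) =
        dC (fun s => thetaV ν n (Ψ n s)) t
      rw [tb_thetaV, p4, dC, dC, map_sum]
  · rintro (_ | n) t τ hτ
    · exact ⟨x0, fun i => i.elim0⟩
    · classical
      obtain ⟨σ, hσ, rfl⟩ := Finset.mem_image.1 (Finsupp.mapDomain_support hτ)
      obtain ⟨_, ⟨x, rfl⟩, hx⟩ := mem_Sm.1 (p1 n t) σ hσ
      refine ⟨x, fun i => ?_⟩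
      have k1 : dist (σ (stdSimplex.vertex i)) x < ε / 2 := hx (mem_range_self _)
      linarith [n1 (σ (stdSimplex.vertex i)), dist_triangle_left x
        ((ν (σ (stdSimplex.vertex i))).1 • f (ν (σ (stdSimplex.vertex i))).2)
        (σ (stdSimplex.vertex i))]

end Vale.Agent.P239
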