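import Vale.Agent.P239.LemN
import Vale.Agent.P239.Match
import Vale.Agent.P239.Desc

/-! Uniform capacity. -/

namespace Vale.Agent.P239

open Filter Topology Set
open scoped Pointwise

namespace Wd

variable {G : Type} [Group G] (w : Wd G)

theorem uc_cfg {η : ℝ} (hη : 0 < η) : ∃ F : ℕ, ∀ (c : w.Cfg), ∀ y ∈ w.Γ.bd c.C,
    c.r + η ≤ w.ph c.i y → w.Γ.d c.i.1 y ≤ F := by
  obtain ⟨α, hα, hα0, hαa⟩ : ∃ α : ℕ → ℝ, (∀ m, 0 < α m) ∧ Tendsto α atTop (𝓝 0) ∧ Antitone α :=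
    ⟨fun m => 1 / ((m : ℝ) + 1), fun m => Nat.one_div_pos_of_nat,
      tendsto_one_div_add_atTop_nhds_zero_nat, fun _ _ h => Nat.one_div_le_one_div h⟩
  obtain ⟨ρ0, hN⟩ := w.lemN
  choose FN hFN using hN
  have hnest : ∀ (ε : {ε : ℝ // 0 < ε}) (k ρ : ℕ), _ := fun ε k ρ => w.nest ε.2 k ρ
  choose g hg1 hg2 using hnest
  have hm1 : ∀ m : ℕ, (0 : ℝ) < m + 1 := fun m => by positivity
  let ep : ℕ → {ε : ℝ // 0 < ε} := fun m => ⟨α m / 2 / (m + 1), div_pos (half_pos (hα m)) (hm1 m)⟩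
  have hep : ∀ m, (ep m).1 * ((m : ℝ) + 1) = α m / 2 := fun m => div_mul_cancel₀ _ (hm1 m).ne'
  obtain ⟨k, hk⟩ := w.matched_of_good (show 0 < η / 4 by linarith) hα hα0
    (fun m => FN (α m / 2) (half_pos (hα m)) ((g (ep m) m)^[m + 1] (m + 1))) ρ0
  let e1 : {ε : ℝ // 0 < ε} := ⟨min (η / 4 / (k + 1)) (α k),
    lt_min (div_pos (by linarith) (hm1 k)) (hα k)⟩
  let e2 : {ε : ℝ // 0 < ε} := ⟨min (η / 8) (α k), lt_min (by linarith) (hα k)⟩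
  have he1 : e1.1 * ((k : ℝ) + 1) ≤ η / 4 := (le_div_iff₀ (hm1 k)).1 (min_le_left _ _)
  refine ⟨FN (η / 2) (half_pos hη) ((g e1 k)^[k + 1] (max k (g e2 k 0))), fun c y hy hy' => ?_⟩
  let lvl : Option ((G × Bool) × ℕ) → ℕ := fun σ => σ.elim k Prod.snd
  let idx : Option ((G × Bool) × ℕ) → G × Bool := fun σ => σ.elim c.i Prod.fst
  let tt : Option ((G × Bool) × ℕ) → ℝ := fun σ =>
    σ.elim (c.r + η / 4) fun a => w.ph a.1 c.i.1 + α a.2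
  let ee : Option ((G × Bool) × ℕ) → {ε : ℝ // 0 < ε} := fun σ => σ.elim e1 fun a => ep a.2
  let ss : Option ((G × Bool) × ℕ) → ℕ := fun σ => σ.elim (max k (g e2 k 0)) fun a => a.2 + 1
  let Ω : Option ((G × Bool) × ℕ) → ℕ → Set G := fun σ l =>
    {x | tt σ + (ee σ).1 * ((lvl σ + 1 - l : ℕ) : ℝ) ≤ w.ph (idx σ) x ∧
      (g (ee σ) (lvl σ))^[lvl σ + 1 - l] (ss σ) ≤ w.Γ.d (idx σ).1 x}
  have hee : ∀ σ, (ee σ).1 ≤ α (lvl σ) := by
    rintro (_ | ⟨j, m⟩)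
    · exact min_le_right _ _
    · have h1 := hep m
      have h2 := (ep m).2
      have h3 : (0 : ℝ) ≤ m := m.cast_nonneg
      show (ep m).1 ≤ α m
      nlinarith [hα m]
  have hdesc := descent lvl Ω (fun σ y => σ.elim False fun a => w.Γ.d a.1.1 y ≤ a.2)
    {y | y ∈ w.Γ.bd c.C ∧ ¬ w.Matched ρ0 c.C y} none
    (fun σ l l' hl x hx => ⟨by
      have h1 : ((lvl σ + 1 - l' : ℕ) : ℝ) ≤ ((lvl σ + 1 - l : ℕ) : ℝ) :=
        Nat.cast_le.2 (by omega)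
      exact le_trans (by nlinarith [(ee σ).2]) hx.1,
      le_trans (Function.monotone_iterate_of_id_le (fun x => hg1 _ _ x) (by omega) _) hx.2⟩)
    ?_ ?_ ?_ ?_
  · refine hFN (η / 2) (half_pos hη) _ c.C c.i (c.r + η / 2) c.sc (c.fin_deep (half_pos hη)).1
      (fun x hx h1 h2 => ?_) y hy (by linarith)
    by_contra hm
    refine (eq_empty_iff_forall_notMem.1 hdesc) x ⟨⟨hx, hm⟩, ?_, h2⟩
    show c.r + η / 4 + e1.1 * ((k + 1 : ℕ) : ℝ) ≤ w.ph c.i x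
    push_cast
    linarith
  · rintro x ⟨⟨hx, hm⟩, h1, h2⟩
    have h1 : c.r + η / 4 ≤ w.ph c.i x := by simpa [tt, lvl, idx] using h1
    have h2 : max k (g e2 k 0) ≤ w.Γ.d c.i.1 x := by simpa only [ss, lvl, idx, Nat.sub_self,
      Function.iterate_zero, id, Option.elim] using h2
    have h3 := mt (hk c x hx h1 (le_of_max_le_left h2)) hm
    push Not at h3
    obtain ⟨m, hmk, j, hj, z, hz, h4, h5⟩ := h3
    refine ⟨some (j, m), hmk, hj, ?_⟩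
    by_contra hne
    refine absurd (hFN (α m / 2) (half_pos (hα m)) _ c.C j (w.ph j c.i.1 + 3 / 2 * α m) c.sc
      ((c.fin_deep (show 0 < η / 8 by linarith)).1.subset fun v hv => ⟨hv.1, ?_⟩)
      (fun v hv h6 h7 => ?_) z hz (by linarith)) (not_le.2 h5)
    · have h6 : w.ph j c.i.1 + 3 / 2 * α m ≤ w.ph j v := hv.2
      exact (hg2 e2 k 0 c.i j (c.r + η / 8) c.i.1 x v (Or.inl rfl)
        (by linarith [min_le_left (η / 8) (α k)]) (le_of_max_le_right h2) (hj.trans hmk)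
        (by linarith [min_le_right (η / 8) (α k), hαa hmk, hα m])).1
    · by_contra hm'
      refine hne ⟨v, ⟨hv, hm'⟩, ?_, h7⟩
      show w.ph j c.i.1 + α m + (ep m).1 * ((m + 1 : ℕ) : ℝ) ≤ w.ph j v
      push_cast
      linarith [hep m]
  · rintro σ (_ | ⟨j, m⟩) x hl hn ⟨h1, h2⟩ v ⟨h3, -⟩
    · exact hn.elim
    have hl : m ≤ lvl σ := hl
    have e3 : lvl σ + 1 - m = (lvl σ - m) + 1 := by omega
    have e4 : lvl σ + 1 - (m + 1) = lvl σ - m := by omega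
    have h3 : w.ph j c.i.1 + α m ≤ w.ph j v := by simpa [tt, lvl, idx] using h3
    change tt σ + (ee σ).1 * ((lvl σ + 1 - m : ℕ) : ℝ) ≤ _ at h1
    change (g (ee σ) (lvl σ))^[lvl σ + 1 - m] (ss σ) ≤ _ at h2
    show tt σ + (ee σ).1 * ((lvl σ + 1 - (m + 1) : ℕ) : ℝ) ≤ _ ∧
      (g (ee σ) (lvl σ))^[lvl σ + 1 - (m + 1)] (ss σ) ≤ _
    rw [e3] at h1 h2
    rw [e4]
    rw [Function.iterate_succ_apply'] at h2
    push_cast at h1
    refine hg2 (ee σ) (lvl σ) _ (idx σ) j _ c.i.1 x v ?_ (by linarith) h2 (le_trans hn hl)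
      (by linarith [hee σ, hαa hl])
    rcases σ with _ | ⟨j', m'⟩
    · exact Or.inl rfl
    · refine Or.inr (le_trans (le_add_of_nonneg_right (hα m').le) (le_add_of_nonneg_right ?_))
      exact mul_nonneg (ee _).2.le (Nat.cast_nonneg _)
  · rintro (_ | ⟨j, m⟩) x hn ⟨-, h2⟩
    · exact hn
    have h2 : m + 1 ≤ w.Γ.d j.1 x := by simpa [ss, lvl, idx] using h2
    exact absurd (h2.trans hn) (by omega)
  · refine (c.fin_deep (show 0 < η / 4 by linarith)).1.subset fun x hx => ⟨hx.1.1, ?_⟩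
    simpa [tt, lvl, idx] using hx.2.1

theorem uc_ultra {X : Set G} (h : X.Infinite) :
    ∃ u : Ultrafilter G, (u : Filter G) ≤ cofinite ∧ X ∈ u := by
  have := h.cofinite_inf_principal_neBot
  obtain ⟨u, hu⟩ := Ultrafilter.exists_le (cofinite ⊓ 𝓟 X)
  exact ⟨u, hu.trans inf_le_left, le_principal_iff.1 (hu.trans inf_le_right)⟩

theorem uc_inf {u : Ultrafilter G} (hu : (u : Filter G) ≤ cofinite) {X : Set G} (h : X ∈ u) :
    X.Infinite := fun hf => Ultrafilter.compl_mem_iff_notMem.1 (hu hf.compl_mem_cofinite) h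

theorem exists_cfg {η : ℝ} (hη : 0 < η) (F : ℕ) : ∃ R : ℕ,
    ∀ (C : Set G) (i : G × Bool) (r : ℝ) (y : G), w.Γ.SC C → (w.Γ.bd C ∩ w.U i r).Finite →
      y ∈ w.Γ.bd C → r + η ≤ w.ph i y → R < w.Γ.d i.1 y →
      ∃ c : w.Cfg, ∃ y' ∈ w.Γ.bd c.C, c.r + η / 2 ≤ w.ph c.i y' ∧ F < w.Γ.d c.i.1 y' := by
  have hδ : 0 < w.Γ.δ0 / 3 := by linarith [w.Γ.δ0_pos]
  obtain ⟨R1, h1⟩ := w.hit_low (show 0 < η / 4 by linarith) hδ
  obtain ⟨R2, h2⟩ := w.cap.hit_ball F hδ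
  refine ⟨F + R1 + R2, fun C i r y hC hf hy hd hR => ?_⟩
  set Om := {x | r + 3 / 4 * η < w.ph i x ∧ F < w.Γ.d i.1 x}
  have hyO : y ∈ Om := ⟨by linarith, by omega⟩
  obtain ⟨i1, i0⟩ := hC.1.two_infinite w.cap (hC.bd_subset hy) hyO (by
    have := (w.Γ.hit_mono (show Omᶜ ⊆ {x | w.ph i x ≤ r + 3 / 4 * η} ∪ w.Γ.ball i.1 F from
      fun x hx => (not_and_or.1 hx).imp not_lt.1 not_lt.1) y).trans (w.Γ.hit_union_le _ _ y)
    linarith [h1 i (r + 3 / 4 * η) y (by linarith) (by omega), h2 i.1 y (by omega)])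
  set Xi := w.Γ.comp 1 Om y
  obtain ⟨u1, hu1, hX1⟩ := uc_ultra i1
  obtain ⟨u0, hu0, hX0⟩ := uc_ultra i0
  obtain ⟨t, ht, hreg⟩ := w.exists_reg_level i (show r < r + η / 8 by linarith)
  have hex : ∃ n, ∃ A : Set G, ((A ∈ u1 ↔ A ∉ u0) ∧ (w.cut (w.U i t) A).Finite) ∧
      (w.cut (w.U i t) A).ncard = n := by
    refine ⟨_, C, ⟨iff_of_true (mem_of_superset hX1 inter_subset_right)
      (Ultrafilter.compl_mem_iff_notMem.1 (mem_of_superset hX0 fun x hx => hx.2)),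
      (hf.prod (w.Γ.nb_finite 1 hf)).subset fun p hp => ?_⟩, rfl⟩
    have : p.1 ∈ w.Γ.bd C ∩ w.U i r := by
      obtain ⟨s, hs, e⟩ := w.Γ.d_le_one.1 hp.2.2.1
      exact ⟨⟨s, hs, e ▸ hp.2.2.2⟩, ht.1.trans hp.1⟩
    exact ⟨this, p.1, this, by rw [w.Γ.d_comm]; exact hp.2.2.1⟩
  classical
  obtain ⟨A, ⟨hA1, hA2⟩, hA3⟩ := Nat.find_spec hex
  let c : w.Cfg := ⟨i, t, A, u0, u1, hreg, hu0, hu1, hA1, hA2, fun A' h h' =>
    hA3 ▸ Nat.find_min' hex ⟨A', ⟨h, h'⟩, rfl⟩⟩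
  have hX1 : Xi ∈ u1 := mem_of_superset hX1 inter_subset_left
  have hX0 : Xi ∈ u0 := mem_of_superset hX0 fun x hx => hx.1
  have hI : (Xi ∩ A).Infinite ∧ (Xi ∩ Aᶜ).Infinite := by
    by_cases h : A ∈ u1
    · exact ⟨uc_inf hu1 (inter_mem hX1 h),
        uc_inf hu0 (inter_mem hX0 (Ultrafilter.compl_mem_iff_notMem.2 (hA1.1 h)))⟩
    · exact ⟨uc_inf hu0 (inter_mem hX0 (not_not.1 (mt hA1.2 h))),
        uc_inf hu1 (inter_mem hX1 (Ultrafilter.compl_mem_iff_notMem.2 h))⟩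
  have hO : ∀ x ∈ Xi, c.r + η / 2 ≤ w.ph c.i x ∧ F < w.Γ.d c.i.1 x := fun x hx =>
    have := w.Γ.comp_subset 1 Om y hx
    ⟨show t + η / 2 ≤ w.ph i x by linarith [this.1, ht.2], this.2⟩
  have hfd := (c.fin_deep (half_pos hη)).2
  by_contra hne
  rcases (w.Γ.conn_comp Om y).subset_or (B := c.C) (disjoint_left.2 fun x hx hx' =>
    hne ⟨c, x, hx', hO x hx⟩) with h | h
  · exact hI.2 (hfd.subset fun x hx => ⟨Or.inr ⟨h hx.1, hx.2⟩, (hO x hx.1).1⟩)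
  · exact hI.1 (hfd.subset fun x hx => ⟨Or.inl ⟨hx.2, h hx.1⟩, (hO x hx.1).1⟩)

theorem uc : w.UC := fun η hη => by
  obtain ⟨F, hF⟩ := w.uc_cfg (half_pos hη)
  obtain ⟨R, hR⟩ := w.exists_cfg hη F
  refine ⟨R, fun C i r hC hf y hy hd => not_lt.1 fun h => ?_⟩
  obtain ⟨c, y', h1, h2, h3⟩ := hR C i r y hC hf hy hd h
  exact absurd (hF c y' h1 h2) (not_le.2 h3)

end Wd

end Vale.Agent.P239
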