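import Vale.Agent.P239.Stmt

/-! Hilbert modules over the group von Neumann algebra. -/

namespace Vale.Agent.P239

open Filter Topology Set

noncomputable section

/-- Finite orthogonal sums of copies of `L2 Γ`. -/
abbrev HM (Γ ι : Type) [Fintype ι] : Type := PiLp 2 fun _ : ι => L2 Γ

variable {Γ : Type} [Group Γ] {ι κ : Type} [Fintype ι] [Fintype κ]

/-- Diagonal right translation. -/
def rho (g : Γ) (v : HM Γ ι) : HM Γ ι :=
  WithLp.toLp 2 fun i => permOp (Equiv.mulRight g) (v i)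

/-- Closed invariant subspaces. -/
structure CI (V : Submodule ℂ (HM Γ ι)) : Prop where
  closed : IsClosed (V : Set (HM Γ ι))
  inv : ∀ g : Γ, ∀ v ∈ V, rho g v ∈ V

def Eqv (T : HM Γ ι →L[ℂ] HM Γ κ) : Prop := ∀ (g : Γ) (v : HM Γ ι), T (rho g v) = rho g (T v)

open Classical in
def delta (Γ : Type) [Group Γ] (i : ι) : HM Γ ι :=
  WithLp.toLp 2 (Pi.single i (lp.single 2 (1 : Γ) (1 : ℂ)))

/-- Von Neumann dimension of (the closure of) a subspace. -/
def hdim (V : Submodule ℂ (HM Γ ι)) : ℝ :=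
  ∑ i : ι, ‖V.topologicalClosure.starProjection (delta Γ i)‖ ^ 2

end

end Vale.Agent.P239
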