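import Vale.Agent.P239.Sing

/-! The Cech double complex of singular chains. -/

namespace Vale.Agent.P239

open Filter Topology Set

section dC

variable {ι M M' : Type} [AddCommMonoid M] [AddCommMonoid M'] {p : ℕ}

theorem zig_dC_cons (e : (Fin (p + 1) → ι) → M) (a : ι) (τ : Fin (p + 1) → ι) :
    dC e (Fin.cons a τ : Fin (p + 2) → ι) =
      e τ + dC (fun ρ : Fin p → ι => e (Fin.cons a ρ : Fin (p + 1) → ι)) τ := by
  rw [dC, Fin.sum_univ_succ]
  exact congrArg₂ _ rfl (Finset.sum_congr rfl fun i _ =>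
    congrArg e (Fin.cons_comp_succ_succAbove a τ i))

theorem zig_dC_zero (e : (Fin 0 → ι) → M) (σ : Fin 1 → ι) : dC e σ = e Fin.elim0 := by
  rw [dC, Fin.sum_univ_one]
  exact congrArg e (Subsingleton.elim _ _)

theorem zig_dC_add (e e' : (Fin p → ι) → M) (σ : Fin (p + 1) → ι) :
    dC (fun ρ => e ρ + e' ρ) σ = dC e σ + dC e' σ := Finset.sum_add_distrib

theorem zig_dC_sub {M : Type} [AddCommGroup M] (e e' : (Fin p → ι) → M) (σ : Fin (p + 1) → ι) :
    dC (fun ρ => e ρ - e' ρ) σ = dC e σ - dC e' σ := Finset.sum_sub_distrib _ _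

theorem zig_map_dC {Φ : Type} [FunLike Φ M M'] [AddMonoidHomClass Φ M M'] (φ : Φ)
    (e : (Fin p → ι) → M) (σ : Fin (p + 1) → ι) : φ (dC e σ) = dC (fun ρ => φ (e ρ)) σ :=
  map_sum φ _ _

theorem zig_dC_dC (h : ∀ x : M, x + x = 0) (e : (Fin p → ι) → M) (σ : Fin (p + 2) → ι) :
    dC (dC e) σ = 0 := by
  induction p with
  | zero =>
    rw [dC, Fin.sum_univ_two, zig_dC_zero, zig_dC_zero, h]
  | succ p ih =>
    rw [← Fin.cons_self_tail σ, zig_dC_cons]
    simp only [zig_dC_cons, zig_dC_add]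
    rw [ih, add_zero, h]

end dC

variable {X ι : Type} [TopologicalSpace X]

section NN

variable {K K' : ι → Set X} {p q : ℕ}

theorem zig_mem_NN {σ : Fin p → ι} {z : Sch F2 X q} :
    z ∈ NN K σ q ↔ ∀ s : C(Sx q, X), (∀ i, (range s ∩ K (σ i)).Nonempty) → z s = 0 := by
  rw [NN, ← Sm_range, mem_Sm]
  refine ⟨fun h s hs => by_contra fun h0 => ?_, fun h s hs => by_contra fun h0 => ?_⟩
  · obtain ⟨_, ⟨i, rfl⟩, hi⟩ := h s (Finsupp.mem_support_iff.2 h0)
    obtain ⟨x, h1, h2⟩ := hs i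
    exact hi h1 h2
  · refine Finsupp.mem_support_iff.1 hs (h s fun i => by_contra fun hi => h0 ⟨_, ⟨i, rfl⟩, ?_⟩)
    exact fun x h1 h2 => hi ⟨x, h1, h2⟩

theorem zig_NN_mono (h : ∀ a, K' a ⊆ K a) (σ : Fin p → ι) : NN K σ q ≤ NN K' σ q :=
  iSup_mono fun _ => On_mono (compl_subset_compl.2 (h _))

theorem zig_bd0 {σ : Fin p → ι} {z : Sch F2 X (q + 1)} (h : z ∈ NN K σ (q + 1)) :
    bd0 F2 X q z ∈ NN K σ q := by
  rw [NN, ← Sm_range] at h ⊢
  exact bd0_mem_Sm h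

theorem zig_dC_mem {e : (Fin p → ι) → Sch F2 X q} (h : ∀ τ, e τ ∈ NN K τ q)
    (σ : Fin (p + 1) → ι) : dC e σ ∈ NN K σ q :=
  Submodule.sum_mem _ fun i _ => (iSup_le fun j => le_iSup
    (fun j => On F2 (K (σ j))ᶜ q) (i.succAbove j) : NN K (σ ∘ i.succAbove) q ≤ NN K σ q) (h _)

theorem zig_NN_zero (σ : Fin 0 → ι) : NN K σ q = ⊥ := iSup_of_empty _

theorem zig_trunc (hfin : ∀ s : C(Sx q, X), {a | (range s ∩ K a).Nonempty}.Finite)
    (y : (Fin p → ι) → Sch F2 X q) (hy : (Function.support y).Finite) :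
    ∃ g : (Fin (p + 1) → ι) → Sch F2 X q, (Function.support g).Finite ∧
      ∀ σ, g σ - dC y σ ∈ NN K σ q := by
  classical
  refine ⟨fun σ => (dC y σ).filter fun s => ∀ i, (range s ∩ K (σ i)).Nonempty, ?_,
    fun σ => zig_mem_NN.2 fun s hs => ?_⟩
  · refine (Finite.pi' fun _ : Fin (p + 1) => hy.biUnion fun τ _ =>
      (y τ).support.finite_toSet.biUnion fun s _ => hfin s).subset fun σ hσ i => ?_
    obtain ⟨s, hs⟩ := Finsupp.ne_iff.1 hσ
    rw [Finsupp.filter_apply] at hs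
    split_ifs at hs with h
    · rw [dC, Finsupp.finsetSum_apply] at hs
      obtain ⟨j, -, hj⟩ := Finset.exists_ne_zero_of_sum_ne_zero hs
      exact mem_biUnion (fun h0 => hj (by rw [h0]; rfl))
        (mem_biUnion (Finsupp.mem_support_iff.2 hj) (h i))
    · exact (hs rfl).elim
  · rw [Finsupp.sub_apply, Finsupp.filter_apply_pos _ _ hs, sub_self]

theorem zig_row (hcov : ∀ x, ∃ a, x ∈ K a) (f : (Fin (p + 1) → ι) → Sch F2 X q)
    (hf : (Function.support f).Finite) (h1 : ∀ σ, dC f σ ∈ NN K σ q) :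
    ∃ e : (Fin p → ι) → Sch F2 X q, (Function.support e).Finite ∧
      ∀ σ, dC e σ - f σ ∈ NN K σ q := by
  classical
  have hc : ∀ s : C(Sx q, X), ∃ a, (range s ∩ K a).Nonempty := fun s =>
    (hcov (s (Classical.arbitrary _))).imp fun a ha => ⟨_, ⟨_, rfl⟩, ha⟩
  choose c hc using hc
  refine ⟨fun σ => Finsupp.ofSupportFinite (fun s => f (Fin.cons (c s) σ) s)
    ((hf.biUnion fun τ _ => (f τ).support.finite_toSet).subset fun s hs =>
      mem_biUnion (fun h0 => hs (DFunLike.congr_fun h0 s)) (Finsupp.mem_support_iff.2 hs)), ?_,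
    fun σ => zig_mem_NN.2 fun s hs => ?_⟩
  · refine (hf.image Fin.tail).subset fun σ hσ => ?_
    obtain ⟨s, hs⟩ := Finsupp.ne_iff.1 hσ
    exact ⟨Fin.cons (c s) σ, fun h0 => hs (DFunLike.congr_fun h0 s), rfl⟩
  · have h := zig_mem_NN.1 (h1 (Fin.cons (c s) σ)) s (Fin.cases (hc s) hs)
    rw [zig_dC_cons, Finsupp.add_apply, dC, Finsupp.finsetSum_apply] at h
    rw [sub_eq_add_two, Finsupp.add_apply, dC, Finsupp.finsetSum_apply]
    exact (add_comm _ _).trans h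

end NN

theorem zig (K : ℕ → ι → Set X) (hK : ∀ j a, K (j + 1) a ⊆ K j a)
    (hfin : ∀ (q : ℕ) (s : C(Sx q, X)), {a | (range s ∩ K 0 a).Nonempty}.Finite)
    (hcov : ∀ x, ∃ a, x ∈ K 0 a)
    (hcol : ∀ j < 3, ∀ (p : ℕ) (σ : Fin p → ι), ∀ q < 3, ∀ z : Sch F2 X (q + 1),
      bd0 F2 X q z ∈ NN (K j) σ q → ∃ y, z - bd0 F2 X (q + 1) y ∈ NN (K (j + 1)) σ (q + 1))
    (p q : ℕ) (hpq : p ≤ q) (hq : q ≤ 3) (f : (Fin (p + 1) → ι) → Sch F2 X (q + 1))
    (hf : (Function.support f).Finite) (h1 : ∀ σ, dC f σ ∈ NN (K 0) σ (q + 1))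
    (h2 : ∀ σ, bd0 F2 X q (f σ) ∈ NN (K 0) σ q) :
    ∃ e : (Fin p → ι) → Sch F2 X (q + 1), (Function.support e).Finite ∧
      (∀ σ, dC e σ - f σ ∈ NN (K p) σ (q + 1)) ∧ ∀ σ, bd0 F2 X q (e σ) ∈ NN (K p) σ q := by
  have hK0 : ∀ j a, K j a ⊆ K 0 a := fun j a => by
    induction j with
    | zero => exact Subset.rfl
    | succ j ih => exact (hK j a).trans ih
  induction p generalizing q with
  | zero =>
    obtain ⟨e, he, e1⟩ := zig_row hcov f hf h1
    refine ⟨e, he, e1, fun σ => zig_mem_NN.2 fun s _ => ?_⟩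
    obtain ⟨a, ha⟩ := hcov (s (Classical.arbitrary _))
    have h := add_mem (zig_bd0 (e1 fun _ => a)) (h2 fun _ => a)
    rw [← map_add, sub_add_cancel, zig_dC_zero, Subsingleton.elim Fin.elim0 σ] at h
    exact zig_mem_NN.1 h s fun _ => ⟨_, ⟨_, rfl⟩, ha⟩
  | succ p ih =>
    obtain ⟨q, rfl⟩ : ∃ q', q = q' + 1 := ⟨q - 1, by omega⟩
    obtain ⟨e0, he0, e1⟩ := zig_row hcov f hf h1
    obtain ⟨e', he', e2, e3⟩ := ih q (by omega) (by omega) (fun σ => bd0 F2 X (q + 1) (e0 σ))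
      (he0.subset fun σ hσ h0 => hσ ((congrArg _ h0).trans (map_zero _)))
      (fun σ => by
        have h := add_mem (zig_bd0 (e1 σ)) (h2 σ)
        rwa [← map_add, sub_add_cancel, zig_map_dC] at h)
      fun σ => by
        rw [bd0_bd0]
        exact zero_mem _
    have hy : ∀ σ, ∃ y, (e' σ = 0 → y = 0) ∧
        e' σ - bd0 F2 X (q + 1) y ∈ NN (K (p + 1)) σ (q + 1) := fun σ => by
      by_cases h0 : e' σ = 0
      · exact ⟨0, fun _ => rfl, by simp [h0]⟩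
      · exact (hcol p (by omega) p σ q (by omega) _ (e3 σ)).imp fun y hy => ⟨fun h => (h0 h).elim, hy⟩
    choose y y0 y1 using hy
    obtain ⟨g, hg, g1⟩ := zig_trunc (hfin (q + 1 + 1)) y (he'.subset fun σ hσ h0 => hσ (y0 σ h0))
    refine ⟨fun σ => e0 σ - g σ, (he0.union hg).subset (Function.support_sub _ _),
      fun σ => zig_NN_mono (hK0 _) σ ?_, fun σ => ?_⟩
    · have h := sub_mem (e1 σ) (zig_dC_mem g1 σ)
      rw [zig_dC_sub, zig_dC_dC add_self_two, sub_zero] at h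
      rwa [zig_dC_sub, sub_right_comm]
    · have h := sub_mem (sub_mem (zig_dC_mem y1 σ) (zig_NN_mono (hK p) σ (e2 σ)))
        (zig_NN_mono (hK0 _) σ (zig_bd0 (g1 σ)))
      have e : ∀ a b c d : Sch F2 X (q + 1), a - b - (a - c) - (d - b) = c - d :=
        fun _ _ _ _ => by abel
      rw [zig_dC_sub, ← zig_map_dC, map_sub, e] at h
      rwa [map_sub]

end Vale.Agent.P239
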